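import Vale.Agent.P205.F.WkbDef
import Vale.Agent.P205.F.StageDef

/-!
P205, scheme T1W, block FORMULA: definitions.

For one index: `X` slow map, `q1, q2` orthonormal normal frame, `ψ` phase, `r` a ray with
`r.Ψ` = radius, `G = met X + ρ² dψ²`.  On `r.K`: `m = u(t) - bt u(w)`, `bt = G_tw / G_ww`,
`u(v) = (X_v, ρ ψ_v)`, `|m| ν = σ (ρ(-ψ_t (E_ww X_t - E_tw X_w) + ψ_w (E_tw X_t - E_tt X_w)), det)`,
`Γ = C m + Sn |m| ν`, and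
`f = X + l (c1 X_t + c2 X_w) + l ρ (cos Φ q1 + sin Φ q2)`, `Φ = ψ / l + Γ_z / ρ`, `l = 1 / μ`.
-/

noncomputable section

namespace Vale.Agent.P205.TW

open Vale.Agent.P205.F

universe u

variable {P : Type u} {κ : Type} [Fintype κ] (S : DAlg P κ)

/-- slow functions: bounded, and derivatives small of order `ε μ` at scale `μ` -/
def SL {ι : Type*} (μ ε : ι → ℝ) (u : ι → P → ℂ) : Prop :=
  S.FO μ (fun _ => 1) u ∧ ∀ j, S.FO μ (fun i => ε i * μ i) (fun i => S.D j (u i))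

/-- cosine of a real valued function -/
def co (u : P → ℂ) : P → ℂ := fun p => ((Real.cos (u p).re : ℝ) : ℂ)

/-- sine of a real valued function -/
def si (u : P → ℂ) : P → ℂ := fun p => ((Real.sin (u p).re : ℝ) : ℂ)

/-- the data of the formula (one index) -/
structure TData (P κ : Type*) where
  /-- slow map -/
  X : Fin 4 → P → ℂ
  /-- normal frame -/
  q1 : Fin 4 → P → ℂ
  /-- normal frame -/
  q2 : Fin 4 → P → ℂ
  /-- phase -/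
  ψ : P → ℂ
  /-- radius, fields `t`, `w` -/
  r : Ray P κ
  /-- `1 / G_ww` on `K` -/
  iG : P → ℂ
  /-- `(det_X G_ww)^(-1/2)` on `K` -/
  σ : P → ℂ
  /-- `cos χ` -/
  c : P → ℂ
  /-- `sin χ` -/
  s : P → ℂ
  /-- `χ'` -/
  h : P → ℂ
  /-- `1 / v` -/
  iv : P → ℂ
  /-- primitive of `cos χ / v - 1` -/
  C : P → ℂ
  /-- primitive of `sin χ / v` -/
  Sn : P → ℂ

namespace TData

variable (d : TData P κ) (ρ μ : ℝ)

/-- `X_t` -/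
def Xt : Fin 4 → P → ℂ := S.dirv d.r.t d.X
/-- `X_w` -/
def Xw : Fin 4 → P → ℂ := S.dirv d.r.w d.X
/-- `ψ_t` -/
def ψt : P → ℂ := S.dir d.r.t d.ψ
/-- `ψ_w` -/
def ψw : P → ℂ := S.dir d.r.w d.ψ
/-- `X_t · X_t` -/
def Ett : P → ℂ := dot (d.Xt S) (d.Xt S)
/-- `X_t · X_w` -/
def Etw : P → ℂ := dot (d.Xt S) (d.Xw S)
/-- `X_w · X_w` -/
def Eww : P → ℂ := dot (d.Xw S) (d.Xw S)
/-- determinant of the induced metric of `X` -/
def dX : P → ℂ := fun p => d.Ett S p * d.Eww S p - d.Etw S p * d.Etw S p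
/-- `G_tt` -/
def Gtt : P → ℂ := fun p => d.Ett S p + ρ ^ 2 * (d.ψt S p * d.ψt S p)
/-- `G_tw` -/
def Gtw : P → ℂ := fun p => d.Etw S p + ρ ^ 2 * (d.ψt S p * d.ψw S p)
/-- `G_ww` -/
def Gww : P → ℂ := fun p => d.Eww S p + ρ ^ 2 * (d.ψw S p * d.ψw S p)
/-- `G_tw / G_ww` -/
def bt : P → ℂ := fun p => d.Gtw S ρ p * d.iG p
/-- `|m|²` -/
def M2 : P → ℂ := fun p => d.Gtt S ρ p - d.Gtw S ρ p * d.Gtw S ρ p * d.iG p
/-- second component of `m` -/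
def a2 : P → ℂ := fun p => - d.bt S ρ p
/-- vertical component of `m` -/
def a3 : P → ℂ := fun p => ρ * (d.ψt S p - d.bt S ρ p * d.ψw S p)
/-- first component of `|m| ν` -/
def b1 : P → ℂ := fun p => d.σ p * (ρ * (d.ψw S p * d.Etw S p - d.ψt S p * d.Eww S p))
/-- second component of `|m| ν` -/
def b2 : P → ℂ := fun p => d.σ p * (ρ * (d.ψt S p * d.Etw S p - d.ψw S p * d.Ett S p))
/-- vertical component of `|m| ν` -/
def b3 : P → ℂ := fun p => d.σ p * d.dX S p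
/-- coefficient of `X_t` in `Γ` -/
def c1 : P → ℂ := fun p => d.C p + d.Sn p * d.b1 S ρ p
/-- coefficient of `X_w` in `Γ` -/
def c2 : P → ℂ := fun p => d.C p * d.a2 S ρ p + d.Sn p * d.b2 S ρ p
/-- vertical component of `Γ` -/
def Γz : P → ℂ := fun p => d.C p * d.a3 S ρ p + d.Sn p * d.b3 S p
/-- the phase -/
def Φ : P → ℂ := fun p => μ * d.ψ p + (1 / ρ : ℂ) * d.Γz S ρ p
/-- `E = cos Φ q1 + sin Φ q2` -/
def E : Fin 4 → P → ℂ := fun a p =>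
  co (d.Φ S ρ μ) p * d.q1 a p + si (d.Φ S ρ μ) p * d.q2 a p
/-- `iE = -sin Φ q1 + cos Φ q2` -/
def iE : Fin 4 → P → ℂ := fun a p =>
  co (d.Φ S ρ μ) p * d.q2 a p - si (d.Φ S ρ μ) p * d.q1 a p
/-- **the map** -/
def f : Fin 4 → P → ℂ := fun a p => d.X a p
  + (1 / μ : ℂ) * (d.c1 S ρ p * d.Xt S a p + d.c2 S ρ p * d.Xw S a p)
  + (ρ / μ : ℂ) * d.E S ρ μ a p
/-- `cos χ / v - 1` -/
def cc : P → ℂ := fun p => d.c p * d.iv p - 1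
/-- `sin χ / v` -/
def ss : P → ℂ := fun p => d.s p * d.iv p
/-- coefficient of `X_t` in `e - m` -/
def e1 : P → ℂ := fun p => d.cc p + d.ss p * d.b1 S ρ p
/-- coefficient of `X_w` in `e - m` -/
def e2 : P → ℂ := fun p => d.cc p * d.a2 S ρ p + d.ss p * d.b2 S ρ p
/-- vertical component of `e - m` -/
def e3 : P → ℂ := fun p => d.cc p * d.a3 S ρ p + d.ss p * d.b3 S p
/-- `ζ_j = ρ ψ_j + r_j (e - m)_z` -/
def ζ (j : κ) : P → ℂ := fun p => ρ * S.D j d.ψ p + S.D j d.r.Ψ p * d.e3 S ρ p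
/-- leading term of `D_j f` -/
def L (j : κ) : Fin 4 → P → ℂ := fun a p => S.D j (d.X a) p
  + S.D j d.r.Ψ p * (d.e1 S ρ p * d.Xt S a p + d.e2 S ρ p * d.Xw S a p)
  + d.ζ S ρ j p * d.iE S ρ μ a p
/-- coefficient of `X_t` in `∂_θ e` -/
def g1 : P → ℂ := fun p => d.h p * d.iv p * (d.c p * d.b1 S ρ p - d.s p)
/-- coefficient of `X_w` in `∂_θ e` -/
def g2 : P → ℂ := fun p => d.h p * d.iv p * (d.c p * d.b2 S ρ p - d.s p * d.a2 S ρ p)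
/-- vertical component of `∂_θ e` -/
def g3 : P → ℂ := fun p => d.h p * d.iv p * (d.c p * d.b3 S p - d.s p * d.a3 S ρ p)
/-- leading term of `D_k D_j f / μ` -/
def B (j k : κ) : Fin 4 → P → ℂ := fun a p =>
  S.D j d.r.Ψ p * S.D k d.r.Ψ p *
    (d.g1 S ρ p * d.Xt S a p + d.g2 S ρ p * d.Xw S a p + d.g3 S ρ p * d.iE S ρ μ a p)
  - (1 / ρ : ℂ) * (d.ζ S ρ j p * d.ζ S ρ k p) * d.E S ρ μ a p
/-- the slow metric -/
def Q (j k : κ) : P → ℂ := fun p => S.met d.X j k p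
  + ρ ^ 2 * (S.D j d.ψ p * S.D k d.ψ p)
  + (d.iv p ^ 2 - 1) * d.M2 S ρ p * (S.D j d.r.Ψ p * S.D k d.r.Ψ p)

end TData

/-- pointwise validity -/
structure TData.Ok (d : TData P κ) (ρ : ℝ) : Prop where
  ray : d.r.Ok S
  smX : ∀ a, S.Sm (d.X a)
  smq1 : ∀ a, S.Sm (d.q1 a)
  smq2 : ∀ a, S.Sm (d.q2 a)
  smψ : S.Sm d.ψ
  smiG : S.Sm d.iG
  smσ : S.Sm d.σ
  smc : S.Sm d.c
  sms : S.Sm d.s
  smh : S.Sm d.h
  smiv : S.Sm d.iv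
  smC : S.Sm d.C
  smSn : S.Sm d.Sn
  rX : ∀ a, Rl (d.X a)
  rq1 : ∀ a, Rl (d.q1 a)
  rq2 : ∀ a, Rl (d.q2 a)
  rψ : Rl d.ψ
  riG : Rl d.iG
  rσ : Rl d.σ
  rc : Rl d.c
  rs : Rl d.s
  rh : Rl d.h
  riv : Rl d.iv
  rC : Rl d.C
  rSn : Rl d.Sn
  q1X : ∀ j p, dot d.q1 (S.Dv j d.X) p = 0
  q2X : ∀ j p, dot d.q2 (S.Dv j d.X) p = 0
  q11 : ∀ p, dot d.q1 d.q1 p = 1
  q12 : ∀ p, dot d.q1 d.q2 p = 0
  q22 : ∀ p, dot d.q2 d.q2 p = 1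
  iGG : ∀ p ∈ d.r.K, d.iG p * d.Gww S ρ p = 1
  σσ : ∀ p ∈ d.r.K, d.σ p ^ 2 * (d.dX S p * d.Gww S ρ p) = 1
  cs : ∀ p, d.c p ^ 2 + d.s p ^ 2 = 1
  zc : ∀ p, p ∉ d.r.K → d.c p = 1
  zs : ∀ p, p ∉ d.r.K → d.s p = 0
  zh : ∀ p, p ∉ d.r.K → d.h p = 0
  ziv : ∀ p, p ∉ d.r.K → d.iv p = 1
  zC : ∀ p, p ∉ d.r.K → d.C p = 0
  zSn : ∀ p, p ∉ d.r.K → d.Sn p = 0

/-- the classes -/
structure TData.Cls {ι : Type*} (d : ι → TData P κ) (μ ε : ι → ℝ) : Prop where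
  DX : ∀ j a, SL S μ ε (fun i => S.D j ((d i).X a))
  q1 : ∀ a, SL S μ ε (fun i => (d i).q1 a)
  q2 : ∀ a, SL S μ ε (fun i => (d i).q2 a)
  Dψ : ∀ j, SL S μ ε (fun i => S.D j (d i).ψ)
  Dr : ∀ j, SL S μ ε (fun i => S.D j (d i).r.Ψ)
  t : ∀ j, SL S μ ε (fun i => (d i).r.t j)
  w : ∀ j, SL S μ ε (fun i => (d i).r.w j)
  iG : SL S μ ε (fun i => (d i).iG)
  σ : SL S μ ε (fun i => (d i).σ)
  iv : SL S μ ε (fun i => (d i).iv)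
  c : S.FO μ (fun _ => 1) (fun i => (d i).c)
  s : S.FO μ (fun _ => 1) (fun i => (d i).s)
  h : S.FO μ (fun _ => 1) (fun i => (d i).h)
  C : S.FO μ (fun _ => 1) (fun i => (d i).C)
  Sn : S.FO μ (fun _ => 1) (fun i => (d i).Sn)
  Dc : ∀ j, S.FO μ (fun i => ε i * μ i)
    (fun i p => S.D j (d i).c p + μ i * ((d i).s p * (d i).h p * S.D j (d i).r.Ψ p))
  Ds : ∀ j, S.FO μ (fun i => ε i * μ i)
    (fun i p => S.D j (d i).s p - μ i * ((d i).c p * (d i).h p * S.D j (d i).r.Ψ p))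
  DC : ∀ j, S.FO μ (fun i => ε i * μ i)
    (fun i p => S.D j (d i).C p - μ i * ((d i).cc p * S.D j (d i).r.Ψ p))
  DSn : ∀ j, S.FO μ (fun i => ε i * μ i)
    (fun i p => S.D j (d i).Sn p - μ i * ((d i).ss p * S.D j (d i).r.Ψ p))

end Vale.Agent.P205.TW
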