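import Vale.Agent.P205.F.InvSqrt
import Vale.Agent.P205.TW.FormDef

/-!
P205, scheme T1W, block C5 (assembly): choice of the frequencies.

`exists_mu`: a finite list of sequences of smooth functions with uniform `C⁰` bounds is slow
(`SL S μ ε`) as soon as the frequencies `μ i` are large enough (`μ i = 2 π n i`).

`iv1`, `is1`: smooth inverse and inverse square root of a function bounded below on a set.
-/

noncomputable section

open scoped ContDiff

namespace Vale.Agent.P205.TW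

open Vale.Agent.P205.F

universe u

variable {P : Type u} {κ : Type} [Fintype κ] (S : DAlg P κ)

/-- all derivatives of order at most `k` of finitely many smooth functions are bounded -/
theorem bdd_words {u : P → ℂ} (hu : S.Sm u) (k : ℕ) :
    ∃ C : ℝ, 0 ≤ C ∧ ∀ w : List κ, w.length ≤ k → ∀ p, ‖S.wd w u p‖ ≤ C := by
  have hfin : {w : List κ | w.length ≤ k}.Finite := List.finite_length_le κ k
  have h1 : ∀ w : List κ, ∃ C : ℝ, 0 ≤ C ∧ ∀ p, ‖S.wd w u p‖ ≤ C := fun w => by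
    obtain ⟨C, hC⟩ := S.bdd (S.sm_wd w hu)
    exact ⟨max C 0, le_max_right _ _, fun p => (hC p).trans (le_max_left _ _)⟩
  choose C hC0 hC using h1
  refine ⟨∑ w ∈ hfin.toFinset, C w, Finset.sum_nonneg fun w _ => hC0 w, fun w hw p => ?_⟩
  refine (hC w p).trans ?_
  exact Finset.single_le_sum (f := C) (fun w _ => hC0 w) (by simpa using hw)

/-- one sequence -/
theorem exists_mu1 {u : ℕ → P → ℂ} (hu : ∀ i, S.Sm (u i)) (hb : ∃ C : ℝ, ∀ i p, ‖u i p‖ ≤ C) :
    ∃ m0 : ℕ → ℝ, ∀ μ ε : ℕ → ℝ, (∀ i, 1 ≤ μ i) → (∀ i, ε i ≤ 1) → (∀ i, 1 ≤ ε i * μ i) →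
      (∀ i, m0 i ≤ ε i * μ i) → SL S μ ε u := by
  obtain ⟨C, hC⟩ := hb
  choose W hW0 hW using fun i k => bdd_words S (hu i) k
  refine ⟨fun i => W i (i + 1), fun μ ε hμ hε h1 hm => ?_⟩
  have hμ0 : ∀ i, 0 ≤ μ i := fun i => le_trans zero_le_one (hμ i)
  have hpow : ∀ i n, 1 ≤ μ i ^ n := fun i n => one_le_pow₀ (hμ i)
  have hle : ∀ i, ε i * μ i ≤ μ i := fun i => by
    have := mul_le_mul_of_nonneg_right (hε i) (hμ0 i)
    linarith
  refine ⟨⟨hu, fun k => ?_⟩, fun j => ⟨fun i => S.sm_D j (hu i), fun k => ?_⟩⟩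
  · -- order `≤ k`
    refine ⟨max C 0 + 1 + ∑ i ∈ Finset.range k, W i k, ?_, fun i w hw p => ?_⟩
    · have : 0 ≤ ∑ i ∈ Finset.range k, W i k := Finset.sum_nonneg fun i _ => hW0 i k
      have := le_max_right C 0
      linarith
    have hs : 0 ≤ ∑ i ∈ Finset.range k, W i k := Finset.sum_nonneg fun i _ => hW0 i k
    have hc0 := le_max_right C 0
    rw [mul_one]
    by_cases hik : i < k
    · have h2 : W i k ≤ ∑ i ∈ Finset.range k, W i k :=
        Finset.single_le_sum (f := fun i => W i k) (fun i _ => hW0 i k) (Finset.mem_range.2 hik)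
      have h3 : W i k ≤ max C 0 + 1 + ∑ i ∈ Finset.range k, W i k := by linarith
      calc _ ≤ W i k := hW i k w hw p
        _ ≤ max C 0 + 1 + ∑ i ∈ Finset.range k, W i k := h3
        _ ≤ _ := le_mul_of_one_le_right (by linarith) (hpow i _)
    · push Not at hik
      rcases w with _ | ⟨j, w⟩
      · simp only [DAlg.wd_nil, List.length_nil, pow_zero, mul_one]
        calc _ ≤ C := hC i p
          _ ≤ max C 0 := le_max_left _ _
          _ ≤ _ := by linarith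
      · have hl : (j :: w).length ≤ i + 1 := by omega
        have h2 : μ i ≤ μ i ^ (j :: w).length := by
          have := pow_le_pow_right₀ (hμ i) (show 1 ≤ (j :: w).length by simp)
          simpa using this
        calc _ ≤ W i (i + 1) := hW i (i + 1) _ hl p
          _ ≤ ε i * μ i := hm i
          _ ≤ μ i := hle i
          _ ≤ 1 * μ i ^ (j :: w).length := by rw [one_mul]; exact h2
          _ ≤ _ := mul_le_mul_of_nonneg_right (by linarith) (by linarith [hpow i (j :: w).length])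
  · refine ⟨1 + ∑ i ∈ Finset.range k, W i (k + 1), ?_, fun i w hw p => ?_⟩
    · have : 0 ≤ ∑ i ∈ Finset.range k, W i (k + 1) := Finset.sum_nonneg fun i _ => hW0 i _
      linarith
    have hs : 0 ≤ ∑ i ∈ Finset.range k, W i (k + 1) := Finset.sum_nonneg fun i _ => hW0 i _
    have hεμ : 0 ≤ ε i * μ i := le_trans zero_le_one (h1 i)
    have e : S.wd w (S.D j (u i)) = S.wd (w ++ [j]) (u i) := by rw [DAlg.wd_snoc]
    have hlen : (w ++ [j]).length = w.length + 1 := by simp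
    rw [e]
    by_cases hik : i < k
    · have h2 : W i (k + 1) ≤ ∑ i ∈ Finset.range k, W i (k + 1) :=
        Finset.single_le_sum (f := fun i => W i (k + 1)) (fun i _ => hW0 i _)
          (Finset.mem_range.2 hik)
      calc _ ≤ W i (k + 1) := hW i (k + 1) _ (by rw [hlen]; omega) p
        _ ≤ 1 + ∑ i ∈ Finset.range k, W i (k + 1) := by linarith
        _ ≤ (1 + ∑ i ∈ Finset.range k, W i (k + 1)) * (ε i * μ i) :=
          le_mul_of_one_le_right (by linarith) (h1 i)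
        _ ≤ _ := le_mul_of_one_le_right (mul_nonneg (by linarith) hεμ) (hpow i _)
    · push Not at hik
      calc _ ≤ W i (i + 1) := hW i (i + 1) _ (by rw [hlen]; omega) p
        _ ≤ ε i * μ i := hm i
        _ ≤ (1 + ∑ i ∈ Finset.range k, W i (k + 1)) * (ε i * μ i) :=
          le_mul_of_one_le_left hεμ (by linarith)
        _ ≤ _ := le_mul_of_one_le_right (mul_nonneg (by linarith) hεμ) (hpow i _)

/-- **choice of the frequencies** for a finite list of sequences -/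
theorem exists_mu {α : Type*} [Finite α] {u : α → ℕ → P → ℂ} (hu : ∀ a i, S.Sm (u a i))
    (hb : ∀ a, ∃ C : ℝ, ∀ i p, ‖u a i p‖ ≤ C) (ε : ℕ → ℝ) (hε : ∀ i, 0 < ε i)
    (hε1 : ∀ i, ε i ≤ 1) :
    ∃ n0 : ℕ → ℕ, ∀ n : ℕ → ℕ, (∀ i, n0 i ≤ n i) →
      (∀ i, 1 ≤ 2 * Real.pi * (n i : ℝ)) ∧ (∀ i, 1 ≤ ε i * (2 * Real.pi * (n i : ℝ))) ∧
      ∀ a, SL S (fun i => 2 * Real.pi * (n i : ℝ)) ε (u a) := by
  have := Fintype.ofFinite α
  choose m0 hm0 using fun a => exists_mu1 S (hu a) (hb a)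
  refine ⟨fun i => ⌈(1 + ∑ a, |m0 a i|) / ε i⌉₊, fun n hn => ?_⟩
  have key : ∀ i, 1 + ∑ a, |m0 a i| ≤ ε i * (2 * Real.pi * (n i : ℝ)) := fun i => by
    have h1 : (1 + ∑ a, |m0 a i|) / ε i ≤ (n i : ℝ) := by
      refine (Nat.le_ceil _).trans ?_
      exact_mod_cast hn i
    rw [div_le_iff₀ (hε i)] at h1
    have hpi : (1 : ℝ) ≤ 2 * Real.pi := by linarith [Real.pi_gt_three]
    have h2 : (n i : ℝ) ≤ 2 * Real.pi * (n i : ℝ) :=
      le_mul_of_one_le_left (Nat.cast_nonneg _) hpi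
    calc _ ≤ (n i : ℝ) * ε i := h1
      _ = ε i * (n i : ℝ) := mul_comm _ _
      _ ≤ _ := mul_le_mul_of_nonneg_left h2 (hε i).le
  have hs : ∀ i, 0 ≤ ∑ a, |m0 a i| := fun i => Finset.sum_nonneg fun a _ => abs_nonneg _
  have h1 : ∀ i, 1 ≤ ε i * (2 * Real.pi * (n i : ℝ)) := fun i => by linarith [key i, hs i]
  have h0 : ∀ i, 0 ≤ 2 * Real.pi * (n i : ℝ) := fun i => by positivity
  have h2 : ∀ i, 1 ≤ 2 * Real.pi * (n i : ℝ) := fun i => by
    have := mul_le_mul_of_nonneg_right (hε1 i) (h0 i)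
    linarith [h1 i]
  refine ⟨h2, h1, fun a => hm0 a _ _ h2 hε1 h1 fun i => ?_⟩
  have h3 : |m0 a i| ≤ ∑ a, |m0 a i| :=
    Finset.single_le_sum (f := fun a => |m0 a i|) (fun a _ => abs_nonneg _) (Finset.mem_univ a)
  linarith [key i, le_abs_self (m0 a i)]

/-- constant sequences -/
theorem const_bdd {u : P → ℂ} (hu : S.Sm u) : ∃ C : ℝ, ∀ (i : ℕ) p, ‖(fun _ : ℕ => u) i p‖ ≤ C := by
  obtain ⟨C, hC⟩ := S.bdd hu
  exact ⟨C, fun _ p => hC p⟩

variable {S}

section inv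

/-- `1 / u` where `c ≤ u` -/
def iv1 (c : ℝ) (u : P → ℂ) : P → ℂ := fun p =>
  ((1 / c : ℝ) : ℂ) * (kH (c⁻¹ * (u p).re) * kH (c⁻¹ * (u p).re))

/-- `1 / √u` where `c ≤ u` -/
def is1 (c : ℝ) (u : P → ℂ) : P → ℂ := fun p =>
  ((1 / Real.sqrt c : ℝ) : ℂ) * kH (c⁻¹ * (u p).re)

variable {c : ℝ} {u : P → ℂ}

theorem sm_kHc (c : ℝ) (hu : S.Sm u) (hr : Rl u) : S.Sm (fun p => kH (c⁻¹ * (u p).re)) :=
  S.sm_comp (F := fun y => kH (c⁻¹ * y)) (kH_smooth.comp (contDiff_const.mul contDiff_id)) hu hr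

theorem sm_iv1 (hu : S.Sm u) (hr : Rl u) : S.Sm (iv1 c u) :=
  S.sm_smul _ (S.sm_mul (sm_kHc c hu hr) (sm_kHc c hu hr))

theorem sm_is1 (hu : S.Sm u) (hr : Rl u) : S.Sm (is1 c u) := S.sm_smul _ (sm_kHc c hu hr)

theorem rl_is1 : Rl (is1 c u) := Rl.smul (Complex.ofReal_im _) fun p => kH_im _

theorem rl_iv1 : Rl (iv1 c u) := Rl.smul (Complex.ofReal_im _) fun p => by
  rw [Complex.mul_im, kH_im]; ring

theorem iv1_bd (hc : 0 < c) (p : P) : ‖iv1 c u p‖ ≤ 4 / c := by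
  unfold iv1
  rw [norm_mul, norm_mul, Complex.norm_real, Real.norm_eq_abs, abs_of_pos (by positivity)]
  have h := kH_norm_le (c⁻¹ * (u p).re)
  have h0 := norm_nonneg (kH (c⁻¹ * (u p).re))
  have h2 : ‖kH (c⁻¹ * (u p).re)‖ * ‖kH (c⁻¹ * (u p).re)‖ ≤ 4 := by nlinarith
  calc _ ≤ 1 / c * 4 := mul_le_mul_of_nonneg_left h2 (by positivity)
    _ = _ := by ring

theorem is1_bd (hc : 0 < c) (p : P) : ‖is1 c u p‖ ≤ 2 / Real.sqrt c := by
  unfold is1
  rw [norm_mul, Complex.norm_real, Real.norm_eq_abs, abs_of_nonneg (by positivity)]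
  have h := kH_norm_le (c⁻¹ * (u p).re)
  calc _ ≤ 1 / Real.sqrt c * 2 := mul_le_mul_of_nonneg_left h (by positivity)
    _ = _ := by ring

theorem kHc_sq (hc : 0 < c) {p : P} (hr : (u p).im = 0) (h : c ≤ (u p).re) :
    kH (c⁻¹ * (u p).re) ^ 2 * (((c⁻¹ : ℝ) : ℂ) * u p) = 1 := by
  have h1 : 1 ≤ c⁻¹ * (u p).re := by
    rw [inv_mul_eq_div, le_div_iff₀ hc]; linarith
  have h2 := kH_sq h1
  have h3 : u p = (((u p).re : ℝ) : ℂ) := Complex.ext (by simp) (by simp [hr])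
  have h4 : ((c⁻¹ : ℝ) : ℂ) * u p = ((c⁻¹ * (u p).re : ℝ) : ℂ) := by
    rw [Complex.ofReal_mul, ← h3]
  rw [h4]; exact h2

theorem iv1_mul (hc : 0 < c) {p : P} (hr : (u p).im = 0) (h : c ≤ (u p).re) :
    iv1 c u p * u p = 1 := by
  have h1 := kHc_sq hc hr h
  unfold iv1
  rw [one_div]
  linear_combination h1

theorem is1_sq (hc : 0 < c) {p : P} (hr : (u p).im = 0) (h : c ≤ (u p).re) :
    is1 c u p ^ 2 * u p = 1 := by
  have h1 := kHc_sq hc hr h
  have h2 : (((1 / Real.sqrt c : ℝ)) : ℂ) ^ 2 = ((c⁻¹ : ℝ) : ℂ) := by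
    rw [← Complex.ofReal_pow, div_pow, Real.sq_sqrt hc.le, one_pow, one_div]
  unfold is1
  rw [mul_pow, h2]
  linear_combination h1

theorem iv1_comp (τ : P → P) (h : ∀ p, u (τ p) = u p) (p : P) : iv1 c u (τ p) = iv1 c u p := by
  simp only [iv1, h]

theorem is1_comp (τ : P → P) (h : ∀ p, u (τ p) = u p) (p : P) : is1 c u (τ p) = is1 c u p := by
  simp only [is1, h]

end inv

end Vale.Agent.P205.TW
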