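import Vale.Agent.P205.TW.Form0

/-!
P205, scheme T1W, block FORMULA: the derivatives of the map `f`.

`DM S μ ε u g`: `u` is bounded at scale `μ` and `D_j u = μ g_j + O(ε μ)`.
-/

noncomputable section

namespace Vale.Agent.P205.TW

open Vale.Agent.P205.F
open scoped ContDiff

universe u

variable {P : Type u} {κ : Type}

/-- `u = O(1)`, `D_j u = μ g_j + O(ε μ)` -/
def DM (S : DAlg P κ) {ι : Type*} (μ ε : ι → ℝ) (u : ι → P → ℂ) (g : κ → ι → P → ℂ) : Prop :=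
  S.FO μ (fun _ => 1) u ∧
    ∀ j, S.FO μ (fun i => ε i * μ i) (fun i p => S.D j (u i) p - μ i * g j i p)

variable {S : DAlg P κ} {ι : Type*} {μ ε s : ι → ℝ} {u v : ι → P → ℂ} {g g' : κ → ι → P → ℂ}

theorem DM.fo (h : DM S μ ε u g) : S.FO μ (fun _ => 1) u := h.1

theorem DM.congr (h : DM S μ ε u g) (e : ∀ i p, u i p = v i p)
    (e' : ∀ j i p, g j i p = g' j i p) : DM S μ ε v g' := by
  have e : u = v := funext fun i => funext fun p => e i p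
  have e' : g = g' := funext fun j => funext fun i => funext fun p => e' j i p
  rwa [e, e'] at h

theorem SL.dm (h : SL S μ ε u) : DM S μ ε u (fun _ _ _ => 0) :=
  ⟨h.1, fun j => (h.2 j).congr fun i p => by rw [mul_zero, sub_zero]⟩

theorem DM.add (hu : DM S μ ε u g) (hv : DM S μ ε v g') :
    DM S μ ε (fun i p => u i p + v i p) (fun j i p => g j i p + g' j i p) := by
  refine ⟨hu.1.add hv.1, fun j => ((hu.2 j).add (hv.2 j)).congr fun i p => ?_⟩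
  have := S.D_add_apply j (hu.1.1 i) (hv.1.1 i) p
  change _ = S.D j (u i + v i) p - _
  rw [this, Pi.add_apply]
  ring

theorem DM.sub (hu : DM S μ ε u g) (hv : DM S μ ε v g') :
    DM S μ ε (fun i p => u i p - v i p) (fun j i p => g j i p - g' j i p) := by
  refine ⟨hu.1.sub hv.1, fun j => ((hu.2 j).sub (hv.2 j)).congr fun i p => ?_⟩
  have := S.D_sub_apply j (hu.1.1 i) (hv.1.1 i) p
  change _ = S.D j (u i - v i) p - _
  rw [this, Pi.sub_apply]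
  ring

theorem DM.mul (hu : DM S μ ε u g) (hv : DM S μ ε v g') :
    DM S μ ε (fun i p => u i p * v i p) (fun j i p => g j i p * v i p + u i p * g' j i p) := by
  refine ⟨fo_mul hu.1 hv.1, fun j =>
    ((fo_mul' (hu.2 j) hv.1).add (fo_mul hu.1 (hv.2 j))).congr fun i p => ?_⟩
  have := S.D_mul_apply j (hu.1.1 i) (hv.1.1 i) p
  change _ = S.D j (u i * v i) p - _
  rw [this, Pi.add_apply]
  ring

theorem DM.cmul (c : ℂ) (hu : DM S μ ε u g) :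
    DM S μ ε (fun i p => c * u i p) (fun j i p => c * g j i p) := by
  refine ⟨hu.1.const_mul c, fun j => ((hu.2 j).const_mul c).congr fun i p => ?_⟩
  rw [S.D_smul_apply j c (hu.1.1 i)]
  ring

/-- `cos` and `sin` of a phase -/
theorem DM.cosi [Fintype κ] (hμ : ∀ i, 0 < μ i) (hε1 : ∀ i, ε i ≤ 1)
    (sm : ∀ i, S.Sm (u i)) (hr : ∀ i, Rl (u i))
    (hg : ∀ j, S.FO μ (fun _ => 1) (g j))
    (hu : ∀ j, S.FO μ (fun i => ε i * μ i) (fun i p => S.D j (u i) p - μ i * g j i p)) :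
    DM S μ ε (fun i => co (u i)) (fun j i p => -(si (u i) p * g j i p)) ∧
    DM S μ ε (fun i => si (u i)) (fun j i p => co (u i) p * g j i p) := by
  have h0 : ∀ j, S.FO μ μ (fun i => S.D j (u i)) := by
    intro j
    have h1 : S.FO μ μ (fun i p => S.D j (u i) p - μ i * g j i p) :=
      (hu j).mono_s' (fun i => by
        have := mul_le_mul_of_nonneg_right (hε1 i) (hμ i).le
        rwa [one_mul] at this) fun i => (hμ i).le
    have h2 : S.FO μ μ (fun i p => (μ i : ℂ) * g j i p) :=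
      (fo_mulmu hμ (hg j)).congr_s fun i => one_mul (μ i)
    exact (h1.add h2).congr fun i p => by
      simp only [Pi.add_apply]
      ring
  obtain ⟨hc, hs⟩ := fo_cosi (fun i => (hμ i).le) sm hr h0
  refine ⟨⟨hc, fun j => (fo_neg (fo_mul hs (hu j))).congr fun i p => ?_⟩,
    ⟨hs, fun j => (fo_mul hc (hu j)).congr fun i p => ?_⟩⟩
  · rw [D_co S j (sm i) (hr i)]
    ring
  · rw [D_si S j (sm i) (hr i)]
    ring

/-- dividing by `μ` -/
theorem DM.div (hμ : ∀ i, 0 < μ i) (hu : DM S μ ε u g) (j : κ) :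
    S.FO μ ε (fun i p => S.D j (fun p => (1 / μ i : ℂ) * u i p) p - g j i p) := by
  refine (fo_div hμ (hu.2 j)).congr fun i p => ?_
  rw [S.D_smul_apply j _ (hu.1.1 i)]
  have : (μ i : ℂ) ≠ 0 := by exact_mod_cast (hμ i).ne'
  field_simp

variable [Fintype κ]

namespace TData

variable {d : ι → TData P κ} {ρ : ℝ}

/-- standing hypotheses -/
structure Hyp (S : DAlg P κ) (d : ι → TData P κ) (ρ : ℝ) (μ ε : ι → ℝ) : Prop where
  ρ0 : 0 < ρ
  μ0 : ∀ i, 0 < μ i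
  ε0 : ∀ i, 0 ≤ ε i
  ε1 : ∀ i, ε i ≤ 1
  ok : ∀ i, (d i).Ok S ρ
  cls : TData.Cls S d μ ε

variable (H : Hyp S d ρ μ ε)
include H

theorem Hyp.sXt (a : Fin 4) : SL S μ ε (fun i => (d i).Xt S a) :=
  SL.dir H.μ0 H.cls.t fun j => H.cls.DX j a

theorem Hyp.sXw (a : Fin 4) : SL S μ ε (fun i => (d i).Xw S a) :=
  SL.dir H.μ0 H.cls.w fun j => H.cls.DX j a

theorem Hyp.sψt : SL S μ ε (fun i => (d i).ψt S) := SL.dir H.μ0 H.cls.t H.cls.Dψ

theorem Hyp.sψw : SL S μ ε (fun i => (d i).ψw S) := SL.dir H.μ0 H.cls.w H.cls.Dψ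

theorem Hyp.sEtt : SL S μ ε (fun i => (d i).Ett S) := SL.dot H.μ0 H.sXt H.sXt

theorem Hyp.sEtw : SL S μ ε (fun i => (d i).Etw S) := SL.dot H.μ0 H.sXt H.sXw

theorem Hyp.sEww : SL S μ ε (fun i => (d i).Eww S) := SL.dot H.μ0 H.sXw H.sXw

theorem Hyp.sdX : SL S μ ε (fun i => (d i).dX S) :=
  (H.sEtt.mul H.sEww).sub (H.sEtw.mul H.sEtw)

theorem Hyp.sGtt : SL S μ ε (fun i => (d i).Gtt S ρ) :=
  H.sEtt.add ((H.sψt.mul H.sψt).cmul _)

theorem Hyp.sGtw : SL S μ ε (fun i => (d i).Gtw S ρ) :=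
  H.sEtw.add ((H.sψt.mul H.sψw).cmul _)

theorem Hyp.sGww : SL S μ ε (fun i => (d i).Gww S ρ) :=
  H.sEww.add ((H.sψw.mul H.sψw).cmul _)

theorem Hyp.sbt : SL S μ ε (fun i => (d i).bt S ρ) := H.sGtw.mul H.cls.iG

theorem Hyp.sM2 : SL S μ ε (fun i => (d i).M2 S ρ) :=
  H.sGtt.sub ((H.sGtw.mul H.sGtw).mul H.cls.iG)

theorem Hyp.sa2 : SL S μ ε (fun i => (d i).a2 S ρ) := H.sbt.neg

theorem Hyp.sa3 : SL S μ ε (fun i => (d i).a3 S ρ) :=
  (H.sψt.sub (H.sbt.mul H.sψw)).cmul _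

theorem Hyp.sb1 : SL S μ ε (fun i => (d i).b1 S ρ) :=
  H.cls.σ.mul (((H.sψw.mul H.sEtw).sub (H.sψt.mul H.sEww)).cmul _)

theorem Hyp.sb2 : SL S μ ε (fun i => (d i).b2 S ρ) :=
  H.cls.σ.mul (((H.sψt.mul H.sEtw).sub (H.sψw.mul H.sEtt)).cmul _)

theorem Hyp.sb3 : SL S μ ε (fun i => (d i).b3 S) := H.cls.σ.mul H.sdX

/-- `C` -/
theorem Hyp.dC : DM S μ ε (fun i => (d i).C)
    (fun j i p => (d i).cc p * S.D j (d i).r.Ψ p) := ⟨H.cls.C, H.cls.DC⟩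

/-- `Sn` -/
theorem Hyp.dSn : DM S μ ε (fun i => (d i).Sn)
    (fun j i p => (d i).ss p * S.D j (d i).r.Ψ p) := ⟨H.cls.Sn, H.cls.DSn⟩

theorem Hyp.dc : DM S μ ε (fun i => (d i).c)
    (fun j i p => -((d i).s p * (d i).h p * S.D j (d i).r.Ψ p)) :=
  ⟨H.cls.c, fun j => (H.cls.Dc j).congr fun i p => by ring⟩

theorem Hyp.ds : DM S μ ε (fun i => (d i).s)
    (fun j i p => (d i).c p * (d i).h p * S.D j (d i).r.Ψ p) := ⟨H.cls.s, H.cls.Ds⟩

theorem Hyp.dcc : DM S μ ε (fun i => (d i).cc)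
    (fun j i p => -((d i).s p * (d i).h p * (d i).iv p * S.D j (d i).r.Ψ p)) :=
  ((H.dc.mul H.cls.iv.dm).sub (SL.const (S := S) (ε := ε) 1 H.μ0).dm).congr
    (fun _ _ => rfl) fun j i p => by ring

theorem Hyp.dss : DM S μ ε (fun i => (d i).ss)
    (fun j i p => (d i).c p * (d i).h p * (d i).iv p * S.D j (d i).r.Ψ p) :=
  (H.ds.mul H.cls.iv.dm).congr (fun _ _ => rfl) fun j i p => by ring

theorem Hyp.dc1 : DM S μ ε (fun i => (d i).c1 S ρ)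
    (fun j i p => S.D j (d i).r.Ψ p * (d i).e1 S ρ p) :=
  (H.dC.add (H.dSn.mul H.sb1.dm)).congr (fun _ _ => rfl) fun j i p => by
    simp only [e1]
    ring

theorem Hyp.dc2 : DM S μ ε (fun i => (d i).c2 S ρ)
    (fun j i p => S.D j (d i).r.Ψ p * (d i).e2 S ρ p) :=
  ((H.dC.mul H.sa2.dm).add (H.dSn.mul H.sb2.dm)).congr (fun _ _ => rfl) fun j i p => by
    simp only [e2]
    ring

theorem Hyp.dΓz : DM S μ ε (fun i => (d i).Γz S ρ)
    (fun j i p => S.D j (d i).r.Ψ p * (d i).e3 S ρ p) :=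
  ((H.dC.mul H.sa3.dm).add (H.dSn.mul H.sb3.dm)).congr (fun _ _ => rfl) fun j i p => by
    simp only [e3]
    ring

theorem Hyp.de1 : DM S μ ε (fun i => (d i).e1 S ρ)
    (fun j i p => S.D j (d i).r.Ψ p * (d i).g1 S ρ p) :=
  (H.dcc.add (H.dss.mul H.sb1.dm)).congr (fun _ _ => rfl) fun j i p => by
    simp only [g1]
    ring

theorem Hyp.de2 : DM S μ ε (fun i => (d i).e2 S ρ)
    (fun j i p => S.D j (d i).r.Ψ p * (d i).g2 S ρ p) :=
  ((H.dcc.mul H.sa2.dm).add (H.dss.mul H.sb2.dm)).congr (fun _ _ => rfl) fun j i p => by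
    simp only [g2]
    ring

theorem Hyp.de3 : DM S μ ε (fun i => (d i).e3 S ρ)
    (fun j i p => S.D j (d i).r.Ψ p * (d i).g3 S ρ p) :=
  ((H.dcc.mul H.sa3.dm).add (H.dss.mul H.sb3.dm)).congr (fun _ _ => rfl) fun j i p => by
    simp only [g3]
    ring

theorem Hyp.dζ (j : κ) : DM S μ ε (fun i => (d i).ζ S ρ j)
    (fun k i p => S.D j (d i).r.Ψ p * S.D k (d i).r.Ψ p * (d i).g3 S ρ p) :=
  ((((H.cls.Dψ j).cmul ρ).dm).add ((H.cls.Dr j).dm.mul H.de3)).congr (fun _ _ => rfl)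
    fun k i p => by ring

/-- smoothness and reality of the slow functions -/
theorem Hyp.smXt (i : ι) (a : Fin 4) : S.Sm ((d i).Xt S a) := (H.sXt a).1.1 i

omit H in
theorem _root_.Vale.Agent.P205.TW.TData.Ok.rXt {d : TData P κ} (h : d.Ok S ρ) (a : Fin 4) :
    Rl (d.Xt S a) := Rl.dir h.ray.rt (h.smX a) (h.rX a)

omit H in
theorem _root_.Vale.Agent.P205.TW.TData.Ok.rXw {d : TData P κ} (h : d.Ok S ρ) (a : Fin 4) :
    Rl (d.Xw S a) := Rl.dir h.ray.rw' (h.smX a) (h.rX a)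

omit H in
theorem _root_.Vale.Agent.P205.TW.TData.Ok.rψt {d : TData P κ} (h : d.Ok S ρ) :
    Rl (d.ψt S) := Rl.dir h.ray.rt h.smψ h.rψ

omit H in
theorem _root_.Vale.Agent.P205.TW.TData.Ok.rψw {d : TData P κ} (h : d.Ok S ρ) :
    Rl (d.ψw S) := Rl.dir h.ray.rw' h.smψ h.rψ

omit H in
theorem _root_.Vale.Agent.P205.TW.TData.Ok.rEtt {d : TData P κ} (h : d.Ok S ρ) :
    Rl (d.Ett S) := Rl.dot h.rXt h.rXt

omit H in
theorem _root_.Vale.Agent.P205.TW.TData.Ok.rEtw {d : TData P κ} (h : d.Ok S ρ) :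
    Rl (d.Etw S) := Rl.dot h.rXt h.rXw

omit H in
theorem _root_.Vale.Agent.P205.TW.TData.Ok.rEww {d : TData P κ} (h : d.Ok S ρ) :
    Rl (d.Eww S) := Rl.dot h.rXw h.rXw

omit H in
theorem _root_.Vale.Agent.P205.TW.TData.Ok.rdX {d : TData P κ} (h : d.Ok S ρ) :
    Rl (d.dX S) := (h.rEtt.mul h.rEww).sub (h.rEtw.mul h.rEtw)

omit H in
theorem rlρ2 (ρ : ℝ) : ((ρ : ℂ) ^ 2).im = 0 := by
  rw [← Complex.ofReal_pow]
  exact Complex.ofReal_im _

omit H in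
theorem _root_.Vale.Agent.P205.TW.TData.Ok.rGtt {d : TData P κ} (h : d.Ok S ρ) :
    Rl (d.Gtt S ρ) := h.rEtt.add (Rl.smul (rlρ2 ρ) (h.rψt.mul h.rψt))

omit H in
theorem _root_.Vale.Agent.P205.TW.TData.Ok.rGtw {d : TData P κ} (h : d.Ok S ρ) :
    Rl (d.Gtw S ρ) := h.rEtw.add (Rl.smul (rlρ2 ρ) (h.rψt.mul h.rψw))

omit H in
theorem _root_.Vale.Agent.P205.TW.TData.Ok.rGww {d : TData P κ} (h : d.Ok S ρ) :
    Rl (d.Gww S ρ) := h.rEww.add (Rl.smul (rlρ2 ρ) (h.rψw.mul h.rψw))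

omit H in
theorem _root_.Vale.Agent.P205.TW.TData.Ok.rbt {d : TData P κ} (h : d.Ok S ρ) :
    Rl (d.bt S ρ) := h.rGtw.mul h.riG

omit H in
theorem _root_.Vale.Agent.P205.TW.TData.Ok.rM2 {d : TData P κ} (h : d.Ok S ρ) :
    Rl (d.M2 S ρ) := h.rGtt.sub ((h.rGtw.mul h.rGtw).mul h.riG)

omit H in
theorem _root_.Vale.Agent.P205.TW.TData.Ok.ra2 {d : TData P κ} (h : d.Ok S ρ) :
    Rl (d.a2 S ρ) := h.rbt.neg

omit H in
theorem _root_.Vale.Agent.P205.TW.TData.Ok.ra3 {d : TData P κ} (h : d.Ok S ρ) :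
    Rl (d.a3 S ρ) := Rl.smul (Complex.ofReal_im ρ) (h.rψt.sub (h.rbt.mul h.rψw))

omit H in
theorem _root_.Vale.Agent.P205.TW.TData.Ok.rb1 {d : TData P κ} (h : d.Ok S ρ) :
    Rl (d.b1 S ρ) := h.rσ.mul (Rl.smul (Complex.ofReal_im ρ)
      ((h.rψw.mul h.rEtw).sub (h.rψt.mul h.rEww)))

omit H in
theorem _root_.Vale.Agent.P205.TW.TData.Ok.rb2 {d : TData P κ} (h : d.Ok S ρ) :
    Rl (d.b2 S ρ) := h.rσ.mul (Rl.smul (Complex.ofReal_im ρ)
      ((h.rψt.mul h.rEtw).sub (h.rψw.mul h.rEtt)))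

omit H in
theorem _root_.Vale.Agent.P205.TW.TData.Ok.rb3 {d : TData P κ} (h : d.Ok S ρ) :
    Rl (d.b3 S) := h.rσ.mul h.rdX

omit H in
theorem _root_.Vale.Agent.P205.TW.TData.Ok.rc1 {d : TData P κ} (h : d.Ok S ρ) :
    Rl (d.c1 S ρ) := h.rC.add (h.rSn.mul h.rb1)

omit H in
theorem _root_.Vale.Agent.P205.TW.TData.Ok.rc2 {d : TData P κ} (h : d.Ok S ρ) :
    Rl (d.c2 S ρ) := (h.rC.mul h.ra2).add (h.rSn.mul h.rb2)

omit H in
theorem _root_.Vale.Agent.P205.TW.TData.Ok.rΓz {d : TData P κ} (h : d.Ok S ρ) :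
    Rl (d.Γz S ρ) := (h.rC.mul h.ra3).add (h.rSn.mul h.rb3)

omit H in
theorem inv_im (ρ : ℝ) : ((1 / ρ : ℂ)).im = 0 := by
  rw [← Complex.ofReal_one, ← Complex.ofReal_div]
  exact Complex.ofReal_im _

omit H in
theorem _root_.Vale.Agent.P205.TW.TData.Ok.rΦ {d : TData P κ} (h : d.Ok S ρ) (μ : ℝ) :
    Rl (d.Φ S ρ μ) :=
  (Rl.smul (Complex.ofReal_im μ) h.rψ).add (Rl.smul (inv_im ρ) h.rΓz)

omit H in
theorem _root_.Vale.Agent.P205.TW.TData.Ok.rE {d : TData P κ} (h : d.Ok S ρ) (μ : ℝ)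
    (a : Fin 4) : Rl (d.E S ρ μ a) :=
  ((rl_co _).mul (h.rq1 a)).add ((rl_si _).mul (h.rq2 a))

omit H in
/-- `f` is real -/
theorem _root_.Vale.Agent.P205.TW.TData.Ok.rf {d : TData P κ} (h : d.Ok S ρ) (μ : ℝ)
    (a : Fin 4) : Rl (d.f S ρ μ a) := by
  refine ((h.rX a).add (Rl.smul (inv_im μ)
    ((h.rc1.mul (h.rXt a)).add (h.rc2.mul (h.rXw a))))).add (Rl.smul ?_ (h.rE μ a))
  rw [← Complex.ofReal_div]
  exact Complex.ofReal_im _

/-- the phase -/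
theorem Hyp.smΦ (i : ι) : S.Sm ((d i).Φ S ρ (μ i)) :=
  S.sm_add (S.sm_smul _ (H.ok i).smψ) (S.sm_smul _ (H.dΓz.1.1 i))

theorem Hyp.foζ (j : κ) : S.FO μ (fun _ => 1) (fun i => (d i).ζ S ρ j) := (H.dζ j).1

theorem Hyp.dΦ (j : κ) : S.FO μ (fun i => ε i * μ i)
    (fun i p => S.D j ((d i).Φ S ρ (μ i)) p - μ i * ((1 / ρ : ℂ) * (d i).ζ S ρ j p)) := by
  refine ((H.dΓz.2 j).const_mul (1 / ρ : ℂ)).congr fun i p => ?_
  have h1 : S.D j ((d i).Φ S ρ (μ i)) p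
      = μ i * S.D j (d i).ψ p + (1 / ρ : ℂ) * S.D j ((d i).Γz S ρ) p := by
    have h2 := S.D_add_apply j (S.sm_smul (μ i : ℂ) (H.ok i).smψ)
      (S.sm_smul (1 / ρ : ℂ) (H.dΓz.1.1 i)) p
    rw [S.D_smul_apply j _ (H.ok i).smψ, S.D_smul_apply j _ (H.dΓz.1.1 i)] at h2
    exact h2
  have hρ : (ρ : ℂ) ≠ 0 := by exact_mod_cast H.ρ0.ne'
  rw [h1]
  simp only [ζ]
  field_simp
  ring

theorem Hyp.dcosi :
    DM S μ ε (fun i => co ((d i).Φ S ρ (μ i)))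
      (fun j i p => -(si ((d i).Φ S ρ (μ i)) p * ((1 / ρ : ℂ) * (d i).ζ S ρ j p))) ∧
    DM S μ ε (fun i => si ((d i).Φ S ρ (μ i)))
      (fun j i p => co ((d i).Φ S ρ (μ i)) p * ((1 / ρ : ℂ) * (d i).ζ S ρ j p)) :=
  DM.cosi H.μ0 H.ε1 H.smΦ (fun i => (H.ok i).rΦ (μ i))
    (fun j => (H.foζ j).const_mul _) H.dΦ

theorem Hyp.dE (a : Fin 4) : DM S μ ε (fun i => (d i).E S ρ (μ i) a)
    (fun j i p => (1 / ρ : ℂ) * (d i).ζ S ρ j p * (d i).iE S ρ (μ i) a p) :=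
  ((H.dcosi.1.mul (H.cls.q1 a).dm).add (H.dcosi.2.mul (H.cls.q2 a).dm)).congr
    (fun _ _ => rfl) fun j i p => by
      simp only [iE]
      ring

theorem Hyp.diE (a : Fin 4) : DM S μ ε (fun i => (d i).iE S ρ (μ i) a)
    (fun j i p => -((1 / ρ : ℂ) * (d i).ζ S ρ j p * (d i).E S ρ (μ i) a p)) :=
  ((H.dcosi.1.mul (H.cls.q2 a).dm).sub (H.dcosi.2.mul (H.cls.q1 a).dm)).congr
    (fun _ _ => rfl) fun j i p => by
      simp only [E]
      ring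

/-- **leading term of `D_j f`** -/
theorem Hyp.Df (j : κ) (a : Fin 4) : S.FO μ ε
    (fun i p => S.D j ((d i).f S ρ (μ i) a) p - (d i).L S ρ (μ i) j a p) := by
  have h1 := DM.div H.μ0 ((H.dc1.mul (H.sXt a).dm).add (H.dc2.mul (H.sXw a).dm)) j
  have h2 := (DM.div H.μ0 (H.dE a) j).const_mul (ρ : ℂ)
  refine (h1.add h2).congr fun i p => ?_
  have s1 : S.Sm (fun p => (d i).c1 S ρ p * (d i).Xt S a p + (d i).c2 S ρ p * (d i).Xw S a p) :=
    ((H.dc1.mul (H.sXt a).dm).add (H.dc2.mul (H.sXw a).dm)).1.1 i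
  have s2 : S.Sm ((d i).E S ρ (μ i) a) := (H.dE a).1.1 i
  have s3 : S.Sm (fun p => (1 / μ i : ℂ) * ((d i).c1 S ρ p * (d i).Xt S a p
      + (d i).c2 S ρ p * (d i).Xw S a p)) := S.sm_smul _ s1
  have s4 : S.Sm (fun p => (ρ / μ i : ℂ) * (d i).E S ρ (μ i) a p) := S.sm_smul _ s2
  have e1 : S.D j ((d i).f S ρ (μ i) a) p = S.D j ((d i).X a) p
      + S.D j (fun p => (1 / μ i : ℂ) * ((d i).c1 S ρ p * (d i).Xt S a p
        + (d i).c2 S ρ p * (d i).Xw S a p)) p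
      + S.D j (fun p => (ρ / μ i : ℂ) * (d i).E S ρ (μ i) a p) p := by
    rw [← S.D_add_apply j ((H.ok i).smX a) s3, ← S.D_add_apply j
      (S.sm_add ((H.ok i).smX a) s3) s4]
    rfl
  have e2 : S.D j (fun p => (ρ / μ i : ℂ) * (d i).E S ρ (μ i) a p) p
      = ρ * S.D j (fun p => (1 / μ i : ℂ) * (d i).E S ρ (μ i) a p) p := by
    rw [S.D_smul_apply j _ s2, S.D_smul_apply j _ s2]
    ring
  have hρ : (ρ : ℂ) ≠ 0 := by exact_mod_cast H.ρ0.ne'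
  rw [e1, e2]
  simp only [Pi.add_apply, L]
  field_simp
  ring

/-- the leading term -/
theorem Hyp.dL (j : κ) (a : Fin 4) : DM S μ ε (fun i => (d i).L S ρ (μ i) j a)
    (fun k i => (d i).B S ρ (μ i) j k a) := by
  have h := (((H.cls.DX j a).dm).add ((H.cls.Dr j).dm.mul
    ((H.de1.mul (H.sXt a).dm).add (H.de2.mul (H.sXw a).dm)))).add ((H.dζ j).mul (H.diE a))
  refine h.congr (fun _ _ => rfl) fun k i p => ?_
  simp only [B]
  ring

theorem Hyp.foL (j : κ) (a : Fin 4) : S.FO μ (fun _ => 1) (fun i => (d i).L S ρ (μ i) j a) :=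
  (H.dL j a).1

theorem Hyp.smf (i : ι) (a : Fin 4) : S.Sm ((d i).f S ρ (μ i) a) :=
  S.sm_add (S.sm_add ((H.ok i).smX a) (S.sm_smul _
    (S.sm_add (S.sm_mul (H.dc1.1.1 i) ((H.sXt a).1.1 i))
      (S.sm_mul (H.dc2.1.1 i) ((H.sXw a).1.1 i))))) (S.sm_smul _ ((H.dE a).1.1 i))

/-- `D_j f = O(1)` -/
theorem Hyp.foDf (j : κ) (a : Fin 4) :
    S.FO μ (fun _ => 1) (fun i => S.D j ((d i).f S ρ (μ i) a)) := by
  have h := ((H.Df j a).mono_s' H.ε1 fun i => (H.μ0 i).le).add (H.foL j a)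
  exact h.congr fun i p => by
    simp only [Pi.add_apply]
    ring

/-- **second derivatives** -/
theorem Hyp.DDf (j k : κ) (a : Fin 4) : S.FO μ (fun i => ε i * μ i)
    (fun i p => S.D k (S.D j ((d i).f S ρ (μ i) a)) p - μ i * (d i).B S ρ (μ i) j k a p) := by
  have h := ((H.Df j a).D k).add ((H.dL j a).2 k)
  refine h.congr fun i p => ?_
  have e := S.D_sub_apply k (S.sm_D j (H.smf i a)) ((H.foL j a).1 i) p
  change S.D k (S.D j ((d i).f S ρ (μ i) a) - (d i).L S ρ (μ i) j a) p + _ = _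
  rw [e]
  ring

omit H [Fintype κ] in
theorem dot_fo {s' : ι → ℝ} {X Y : ι → Fin 4 → P → ℂ} (hX : ∀ a, S.FO μ s (fun i => X i a))
    (hY : ∀ a, S.FO μ s' (fun i => Y i a)) :
    S.FO μ (fun i => s i * s' i) (fun i => dot (X i) (Y i)) := DAlg.FO.dot hX hY

/-- **the induced metric** -/
theorem Hyp.metf (j k : κ) : S.FO μ ε
    (fun i p => S.met ((d i).f S ρ (μ i)) j k p
      - dot ((d i).L S ρ (μ i) j) ((d i).L S ρ (μ i) k) p) := by
  have h1 := dot_fo (S := S) (X := fun i a p => S.D j ((d i).f S ρ (μ i) a) p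
      - (d i).L S ρ (μ i) j a p) (Y := fun i a => S.D k ((d i).f S ρ (μ i) a))
    (fun a => H.Df j a) (fun a => H.foDf k a)
  have h2 := dot_fo (S := S) (X := fun i a => (d i).L S ρ (μ i) j a)
    (Y := fun i a p => S.D k ((d i).f S ρ (μ i) a) p - (d i).L S ρ (μ i) k a p)
    (fun a => H.foL j a) (fun a => H.Df k a)
  refine ((h1.congr_s fun i => mul_one (ε i)).add (h2.congr_s fun i => one_mul (ε i))).congr
    fun i p => ?_
  simp only [Pi.add_apply, DAlg.met, DAlg.Dv, dot, ← Finset.sum_add_distrib,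
    ← Finset.sum_sub_distrib]
  refine Finset.sum_congr rfl fun a _ => ?_
  ring

/-- the slow metric -/
theorem Hyp.sQ (j k : κ) : SL S μ ε (fun i => (d i).Q S ρ j k) := by
  have h1 : SL S μ ε (fun i => S.met (d i).X j k) :=
    SL.dot H.μ0 (fun a => H.cls.DX j a) (fun a => H.cls.DX k a)
  have h2 : SL S μ ε (fun i p => S.D j (d i).ψ p * S.D k (d i).ψ p) :=
    (H.cls.Dψ j).mul (H.cls.Dψ k)
  have h3 : SL S μ ε (fun i p => S.D j (d i).r.Ψ p * S.D k (d i).r.Ψ p) :=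
    (H.cls.Dr j).mul (H.cls.Dr k)
  have h4 : SL S μ ε (fun i p => (d i).iv p * (d i).iv p - 1) :=
    (H.cls.iv.mul H.cls.iv).sub (SL.const 1 H.μ0)
  refine ((h1.add (h2.cmul (ρ ^ 2 : ℂ))).add ((h4.mul H.sM2).mul h3)).congr fun i p => ?_
  simp only [Q]
  ring

end TData

end Vale.Agent.P205.TW
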