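import Vale.Agent.P205.F.StageDef

/-!
P205, scheme T1W, block NASH: definitions and statement.

Real valued calculus in a `DAlg` (`RS`: smooth real function, `RD j`: real derivation), surfaces
(`Dim2`), normal frames (`NFr`), the statement `NashR` (real) and `NashC` (complex notation of
`DAlg`).
-/

noncomputable section

namespace Vale.Agent.P205.TW

open Vale.Agent.P205.F

universe u

variable {P : Type u} {κ : Type} [Fintype κ] (S : DAlg P κ)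

/-- smooth real function -/
def RS (u : P → ℝ) : Prop := S.Sm (fun p => (u p : ℂ))

/-- real derivation -/
def RD (j : κ) (u : P → ℝ) : P → ℝ := fun p => (S.D j (fun p => (u p : ℂ)) p).re

/-- the derivations span at most two dimensions at every point -/
def Dim2 : Prop := ∀ p, ∃ (α β : κ → ℝ) (L1 L2 : (P → ℝ) → ℝ), ∀ j (u : P → ℝ), RS S u →
  RD S j u p = α j * L1 u + β j * L2 u

/-- real metric -/
def rmet (X : Fin 4 → P → ℝ) (j k : κ) (p : P) : ℝ := ∑ i, RD S j (X i) p * RD S k (X i) p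

/-- twice the sum of the `2 × 2` Gram determinants -/
def e2 (X : Fin 4 → P → ℝ) (p : P) : ℝ :=
  ∑ j, ∑ k, (rmet S X j j p * rmet S X k k p - rmet S X j k p ^ 2)

/-- `q1, q2` is a smooth orthonormal frame of the normal bundle of `X` -/
structure NFr (X q1 q2 : Fin 4 → P → ℝ) : Prop where
  s1 : ∀ i, RS S (q1 i)
  s2 : ∀ i, RS S (q2 i)
  n11 : ∀ p, ∑ i, q1 i p * q1 i p = 1
  n22 : ∀ p, ∑ i, q2 i p * q2 i p = 1
  n12 : ∀ p, ∑ i, q1 i p * q2 i p = 0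
  t1 : ∀ j p, ∑ i, q1 i p * RD S j (X i) p = 0
  t2 : ∀ j p, ∑ i, q2 i p * RD S j (X i) p = 0

/-- `σ` commutes with the derivations -/
def Eqv (σ : P → P) : Prop := ∀ j (u : P → ℝ), RS S u → RS S (fun p => u (σ p)) →
  ∀ p, RD S j (fun p => u (σ p)) p = RD S j u (σ p)

/-- **NASH** (real form).  `X` with a global orthonormal normal frame, `e2 X ≥ c > 0`, finitely
many primitive pieces `a i ^ 2 dφ i ^ 2`: there is `Y` with a global orthonormal normal frame,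
uniformly `η`-close to `X`, with metric `η`-close to `met X + ∑ a i ^ 2 dφ i ^ 2`.  Everything is
equivariant under involutions `σ` with `a ∘ σ = a`, `φ ∘ σ = -φ`, `q2 ∘ σ = -q2`. -/
def NashR : Prop := ∀ (N : ℕ) (a φ : Fin N → P → ℝ) (X q1 q2 : Fin 4 → P → ℝ) (c η : ℝ),
  (∀ i, RS S (a i)) → (∀ i, RS S (φ i)) → (∀ i, RS S (X i)) → NFr S X q1 q2 → 0 < c →
  (∀ p, c ≤ e2 S X p) → 0 < η →
  ∃ Y p1 p2 : Fin 4 → P → ℝ, (∀ i, RS S (Y i)) ∧ NFr S Y p1 p2 ∧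
    (∃ c' : ℝ, 0 < c' ∧ ∀ p, c' ≤ e2 S Y p) ∧ (∀ i p, |Y i p - X i p| ≤ η) ∧
    (∀ j k p, |rmet S Y j k p - (rmet S X j k p
      + ∑ i, a i p ^ 2 * (RD S j (φ i) p * RD S k (φ i) p))| ≤ η) ∧
    ∀ σ : P → P, Eqv S σ → (∀ i p, X i (σ p) = X i p) → (∀ i p, q1 i (σ p) = q1 i p) →
      (∀ i p, q2 i (σ p) = -q2 i p) → (∀ i p, a i (σ p) = a i p) →
      (∀ i p, φ i (σ p) = -φ i p) →
      (∀ i p, Y i (σ p) = Y i p) ∧ (∀ i p, p1 i (σ p) = p1 i p) ∧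
        ∀ i p, p2 i (σ p) = -p2 i p

/-- normal frame, complex notation -/
structure CNFr (X q1 q2 : Fin 4 → P → ℂ) : Prop where
  s1 : ∀ i, S.Sm (q1 i)
  s2 : ∀ i, S.Sm (q2 i)
  r1 : ∀ i, Rl (q1 i)
  r2 : ∀ i, Rl (q2 i)
  n11 : ∀ p, dot q1 q1 p = 1
  n22 : ∀ p, dot q2 q2 p = 1
  n12 : ∀ p, dot q1 q2 p = 0
  t1 : ∀ j p, dot q1 (S.Dv j X) p = 0
  t2 : ∀ j p, dot q2 (S.Dv j X) p = 0

/-- **NASH** (complex notation) -/
def NashC : Prop := ∀ (N : ℕ) (a φ : Fin N → P → ℂ) (X q1 q2 : Fin 4 → P → ℂ) (c η : ℝ),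
  (∀ i, S.Sm (a i)) → (∀ i, Rl (a i)) → (∀ i, S.Sm (φ i)) → (∀ i, Rl (φ i)) →
  (∀ i, S.Sm (X i)) → (∀ i, Rl (X i)) → CNFr S X q1 q2 → 0 < c →
  (∀ p, c ≤ (∑ j, ∑ k, (S.met X j j p * S.met X k k p - S.met X j k p ^ 2)).re) → 0 < η →
  ∃ Y p1 p2 : Fin 4 → P → ℂ, (∀ i, S.Sm (Y i)) ∧ (∀ i, Rl (Y i)) ∧ CNFr S Y p1 p2 ∧
    (∀ i p, ‖Y i p - X i p‖ ≤ η) ∧
    (∀ j k p, ‖S.met Y j k p - (S.met X j k p
      + ∑ i, a i p ^ 2 * (S.D j (φ i) p * S.D k (φ i) p))‖ ≤ η) ∧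
    ∀ σ : P → P, (∀ j u, S.Sm u → S.Sm (fun p => u (σ p)) →
        ∀ p, S.D j (fun p => u (σ p)) p = S.D j u (σ p)) →
      (∀ i p, X i (σ p) = X i p) → (∀ i p, q1 i (σ p) = q1 i p) →
      (∀ i p, q2 i (σ p) = -q2 i p) → (∀ i p, a i (σ p) = a i p) →
      (∀ i p, φ i (σ p) = -φ i p) →
      (∀ i p, Y i (σ p) = Y i p) ∧ (∀ i p, p1 i (σ p) = p1 i p) ∧
        ∀ i p, p2 i (σ p) = -p2 i p

end Vale.Agent.P205.TW
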