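import Vale.Agent.P205.F.StageDef
import Vale.Agent.P205.F.Calc1
import Vale.Agent.P205.TW.NashDef

/-!
P205, scheme T1W, block DATA on the cover (C3): statements.

* `DIn S σ g` : qualitative input on an abstract `DAlg` with involution `σ` (to be lifted from `M`).
* `GeoC S σ g` : the final geometric data with one uniform constant `c` and all parities.
* `geoC_of : PosS S → DIn S σ g → GeoC S σ g` is proved in `DataCover.lean`.

Everything is complex valued with vanishing imaginary part (`RSm`). The helix is used with `ρ = 1`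
(the phase is already scaled: `ψ` below satisfies `dψ² ≤ g / 4`).
-/

noncomputable section

namespace Vale.Agent.P205.TW

open Vale.Agent.P205.F

universe u

variable {P : Type u} {κ : Type} [Fintype κ] (S : DAlg P κ)

/-- smooth and real valued (complex notation) -/
def RSm (u : P → ℂ) : Prop := S.Sm u ∧ Rl u

/-- the real quadratic form of a tensor at `p` -/
def qfm (T : κ → κ → P → ℂ) (p : P) (ξ : κ → ℝ) : ℝ := ∑ j, ∑ k, (T j k p).re * ξ j * ξ k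

/-- smooth real symmetric tensors -/
def TSm (T : κ → κ → P → ℂ) : Prop := S.IsT T ∧ ∀ j k, RSm S (T j k)

/-- positive smooth functions have a positive lower bound (compactness) -/
def PosS : Prop := ∀ u, RSm S u → (∀ p, 0 < (u p).re) → ∃ c : ℝ, 0 < c ∧ ∀ p, c ≤ (u p).re

/-- an involution compatible with the derivations -/
structure IsInv (σ : P → P) : Prop where
  inv : ∀ p, σ (σ p) = p
  sm : ∀ u, S.Sm u → S.Sm (fun p => u (σ p))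
  D : ∀ j u, S.Sm u → ∀ p, S.D j (fun q => u (σ q)) p = S.D j u (σ p)

/-- even functions -/
def Evn (σ : P → P) (u : P → ℂ) : Prop := ∀ p, u (σ p) = u p

/-- odd functions -/
def Odd' (σ : P → P) (u : P → ℂ) : Prop := ∀ p, u (σ p) = - u p

/-- the closed region `1/2 ≤ r ≤ 5/2` -/
def KrC (r : P → ℂ) : Set P := {p | 1 / 2 ≤ (r p).re ∧ (r p).re ≤ 5 / 2}

/-- uniform spanning: at every point two of the derivations span, with bounded coefficients -/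
def Pl (g : κ → κ → P → ℂ) (c : ℝ) : Prop := ∀ p, ∃ a b, ∃ α β : κ → ℝ,
  c ≤ (g a a p).re * (g b b p).re - (g a b p).re ^ 2 ∧ (∀ j, |α j| ≤ 1 / c) ∧
  (∀ j, |β j| ≤ 1 / c) ∧ ∀ (j : κ) (u : P → ℂ), S.Sm u →
    S.D j u p = α j * S.D a u p + β j * S.D b u p

/-- primitive decomposition of positive even tensors, `a` even, `φ` odd -/
def PrimC (σ : P → P) (g : κ → κ → P → ℂ) : Prop := ∀ T : κ → κ → P → ℂ, TSm S T →
  (∀ j k, Evn σ (T j k)) → (∃ c : ℝ, 0 < c ∧ ∀ p ξ, c * qfm g p ξ ≤ qfm T p ξ) →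
  ∃ (n : ℕ) (a φ : Fin n → P → ℂ), (∀ i, RSm S (a i)) ∧ (∀ i, RSm S (φ i)) ∧
    (∀ i, Evn σ (a i)) ∧ (∀ i, Odd' σ (φ i)) ∧
    ∀ j k p, T j k p = ∑ i, a i p ^ 2 * (S.D j (φ i) p * S.D k (φ i) p)

/-- **input** (qualitative, no constants) -/
structure DIn (σ : P → P) (g : κ → κ → P → ℂ) where
  /-- an immersion -/
  F : Fin 4 → P → ℂ
  /-- normal frame -/
  q1 : Fin 4 → P → ℂ
  /-- normal frame -/
  q2 : Fin 4 → P → ℂ
  /-- unscaled phase -/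
  ψ : P → ℂ
  /-- ray of the radial function, `K = KrC Ψ` -/
  r : Ray P κ
  /-- odd local sign -/
  e : P → ℂ
  inv : IsInv S σ
  gT : TSm S g
  gev : ∀ j k, Evn σ (g j k)
  gpos : ∀ p ξ, 0 ≤ qfm g p ξ
  grank : ∀ p, ∃ a b, 0 < (g a a p).re * (g b b p).re - (g a b p).re ^ 2
  rF : ∀ a, RSm S (F a)
  nf : CNFr S F q1 q2
  Fev : ∀ a, Evn σ (F a)
  q1ev : ∀ a, Evn σ (q1 a)
  q2od : ∀ a, Odd' σ (q2 a)
  /-- `F` is an immersion: linear relations between the `D j F` hold for all functions -/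
  imm : ∀ p (c : κ → ℂ), (∀ a, ∑ j, c j * S.D j (F a) p = 0) →
    ∀ u, S.Sm u → ∑ j, c j * S.D j u p = 0
  rψ : RSm S ψ
  ψod : Odd' σ ψ
  nd : ∀ p, ((r.Ψ p).re ≤ 11 / 10 ∨ 19 / 10 ≤ (r.Ψ p).re) → ∃ j, S.D j ψ p ≠ 0
  ray : r.Ok S
  rK : r.K = KrC r.Ψ
  Ψev : Evn σ r.Ψ
  tev : ∀ j, Evn σ (r.t j)
  wev : ∀ j, Evn σ (r.w j)
  βev : ∀ j, Evn σ (r.β j)
  /-- the field `w` does not vanish on `K` -/
  wne : ∀ p ∈ r.K, ∃ a, S.dir r.w (F a) p ≠ 0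
  re : RSm S e
  eod : Odd' σ e
  esq : ∀ p, (r.Ψ p).re ≤ 5 / 2 → e p * e p = 1
  eD : ∀ p, (r.Ψ p).re ≤ 5 / 2 → ∀ j, S.D j e p = 0
  prim : PrimC S σ g

/-- **final data** (one uniform constant) -/
structure GeoC (σ : P → P) (g : κ → κ → P → ℂ) where
  /-- short immersion -/
  X0 : Fin 4 → P → ℂ
  /-- normal frame -/
  q1 : Fin 4 → P → ℂ
  /-- normal frame -/
  q2 : Fin 4 → P → ℂ
  /-- phase of the helix (`ρ = 1`) -/
  ψ : P → ℂ
  /-- ray of the radial function, `K = KrC Ψ` -/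
  r : Ray P κ
  /-- odd local sign -/
  e : P → ℂ
  /-- a positive constant for all lower bounds -/
  c : ℝ
  cpos : 0 < c
  inv : IsInv S σ
  gT : TSm S g
  gev : ∀ j k, Evn σ (g j k)
  gpos : ∀ p ξ, 0 ≤ qfm g p ξ
  pl : Pl S g c
  rX : ∀ a, RSm S (X0 a)
  nf : CNFr S X0 q1 q2
  Xev : ∀ a, Evn σ (X0 a)
  q1ev : ∀ a, Evn σ (q1 a)
  q2od : ∀ a, Odd' σ (q2 a)
  imm : ∀ p ξ, c * qfm g p ξ ≤ qfm (S.met X0) p ξ
  short : ∀ p ξ, qfm (S.met X0) p ξ ≤ 1 / 8 * qfm g p ξ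
  rψ : RSm S ψ
  ψod : Odd' σ ψ
  ψsmall : ∀ p ξ, (∑ j, (S.D j ψ p).re * ξ j) ^ 2 ≤ 1 / 4 * qfm g p ξ
  nd : ∀ p, ((r.Ψ p).re ≤ 11 / 10 ∨ 19 / 10 ≤ (r.Ψ p).re) → ∃ j, c ≤ |(S.D j ψ p).re|
  ray : r.Ok S
  rK : r.K = KrC r.Ψ
  Ψev : Evn σ r.Ψ
  tev : ∀ j, Evn σ (r.t j)
  wev : ∀ j, Evn σ (r.w j)
  βev : ∀ j, Evn σ (r.β j)
  gww : ∀ p ∈ r.K, c ≤ qfm g p (fun j => (r.w j p).re)
  re : RSm S e
  eod : Odd' σ e
  esq : ∀ p, (r.Ψ p).re ≤ 5 / 2 → e p * e p = 1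
  eD : ∀ p, (r.Ψ p).re ≤ 5 / 2 → ∀ j, S.D j e p = 0
  prim : PrimC S σ g

end Vale.Agent.P205.TW
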