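import Vale.Agent.P205.TW.FormDef
import Vale.Agent.P205.TW.DataDef
import Vale.Agent.P205.F.Calc1

/-!
P205, scheme T1W, block C5: parity of the explicit map and descent along a covering.
-/

noncomputable section

namespace Vale.Agent.P205.TW

open Vale.Agent.P205.F

universe u

variable {P : Type u} {κ : Type} [Fintype κ] {S : DAlg P κ}

theorem D_even {τ : P → P} (hτ : IsInv S τ) {u : P → ℂ} (hu : S.Sm u) (he : Evn τ u) (j : κ) :
    Evn τ (S.D j u) := fun p => by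
  rw [← hτ.D j u hu p]
  congr 1
  funext q
  exact he q

theorem D_odd {τ : P → P} (hτ : IsInv S τ) {u : P → ℂ} (hu : S.Sm u) (he : Odd' τ u) (j : κ) :
    Odd' τ (S.D j u) := fun p => by
  rw [← hτ.D j u hu p]
  have : (fun q => u (τ q)) = -u := funext fun q => he q
  rw [this, S.D_neg_apply j hu]

/-- parities of the data of the formula -/
structure TData.Par (d : TData P κ) (τ : P → P) : Prop where
  X : ∀ a, Evn τ (d.X a)
  q1 : ∀ a, Evn τ (d.q1 a)
  q2 : ∀ a, Odd' τ (d.q2 a)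
  ψ : Odd' τ d.ψ
  t : ∀ j, Evn τ (d.r.t j)
  w : ∀ j, Evn τ (d.r.w j)
  iG : Evn τ d.iG
  σ : Evn τ d.σ
  C : Evn τ d.C
  Sn : Odd' τ d.Sn

/-- the explicit map is even -/
theorem TData.Par.f_even {d : TData P κ} {τ : P → P} (h : d.Par τ) (hτ : IsInv S τ)
    (smX : ∀ a, S.Sm (d.X a)) (smψ : S.Sm d.ψ) (ρ μ : ℝ) (a : Fin 4) :
    Evn τ (d.f S ρ μ a) := by
  intro p
  have hDX : ∀ j a, S.D j (d.X a) (τ p) = S.D j (d.X a) p := fun j a =>
    D_even hτ (smX a) (h.X a) j p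
  have hDψ : ∀ j, S.D j d.ψ (τ p) = - S.D j d.ψ p := fun j => D_odd hτ smψ h.ψ j p
  have hXt : ∀ a, d.Xt S a (τ p) = d.Xt S a p := fun a => by
    simp only [TData.Xt, DAlg.dirv, DAlg.dir, hDX, h.t _ p]
  have hXw : ∀ a, d.Xw S a (τ p) = d.Xw S a p := fun a => by
    simp only [TData.Xw, DAlg.dirv, DAlg.dir, hDX, h.w _ p]
  have hψt : d.ψt S (τ p) = - d.ψt S p := by
    simp only [TData.ψt, DAlg.dir, hDψ, h.t _ p, mul_neg, Finset.sum_neg_distrib]
  have hψw : d.ψw S (τ p) = - d.ψw S p := by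
    simp only [TData.ψw, DAlg.dir, hDψ, h.w _ p, mul_neg, Finset.sum_neg_distrib]
  have hEtt : d.Ett S (τ p) = d.Ett S p := by simp only [TData.Ett, dot, hXt]
  have hEtw : d.Etw S (τ p) = d.Etw S p := by simp only [TData.Etw, dot, hXt, hXw]
  have hEww : d.Eww S (τ p) = d.Eww S p := by simp only [TData.Eww, dot, hXw]
  have hdX : d.dX S (τ p) = d.dX S p := by simp only [TData.dX, hEtt, hEtw, hEww]
  have hGtw : d.Gtw S ρ (τ p) = d.Gtw S ρ p := by
    simp only [TData.Gtw, hEtw, hψt, hψw, neg_mul_neg]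
  have hbt : d.bt S ρ (τ p) = d.bt S ρ p := by simp only [TData.bt, hGtw, h.iG p]
  have ha2 : d.a2 S ρ (τ p) = d.a2 S ρ p := by simp only [TData.a2, hbt]
  have ha3 : d.a3 S ρ (τ p) = - d.a3 S ρ p := by simp only [TData.a3, hbt, hψt, hψw]; ring
  have hb1 : d.b1 S ρ (τ p) = - d.b1 S ρ p := by
    simp only [TData.b1, hψt, hψw, h.σ p, hEtw, hEww]; ring
  have hb2 : d.b2 S ρ (τ p) = - d.b2 S ρ p := by
    simp only [TData.b2, hψt, hψw, h.σ p, hEtw, hEtt]; ring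
  have hb3 : d.b3 S (τ p) = d.b3 S p := by simp only [TData.b3, h.σ p, hdX]
  have hc1 : d.c1 S ρ (τ p) = d.c1 S ρ p := by
    simp only [TData.c1, h.C p, h.Sn p, hb1, neg_mul_neg]
  have hc2 : d.c2 S ρ (τ p) = d.c2 S ρ p := by
    simp only [TData.c2, h.C p, h.Sn p, hb2, ha2, neg_mul_neg]
  have hΓ : d.Γz S ρ (τ p) = - d.Γz S ρ p := by
    simp only [TData.Γz, h.C p, h.Sn p, ha3, hb3]; ring
  have hΦ : d.Φ S ρ μ (τ p) = - d.Φ S ρ μ p := by
    simp only [TData.Φ, hΓ, h.ψ p]; ring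
  have hco : co (d.Φ S ρ μ) (τ p) = co (d.Φ S ρ μ) p := by
    simp only [co, hΦ, Complex.neg_re, Real.cos_neg]
  have hsi : si (d.Φ S ρ μ) (τ p) = - si (d.Φ S ρ μ) p := by
    simp only [si, hΦ, Complex.neg_re, Real.sin_neg, Complex.ofReal_neg]
  have hE : ∀ a, d.E S ρ μ a (τ p) = d.E S ρ μ a p := fun a => by
    simp only [TData.E, hco, hsi, h.q1 a p, h.q2 a p, neg_mul_neg]
  simp only [TData.f, h.X a p, hc1, hc2, hXt, hXw, hE]

/-- `π : P' → P` is compatible with the two differential function spaces -/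
structure IsCov {P' : Type*} (S' : DAlg P' κ) (S : DAlg P κ) (π : P' → P) : Prop where
  surj : Function.Surjective π
  sm : ∀ u, S'.Sm (fun x => u (π x)) → S.Sm u
  D : ∀ j u, S'.D j (fun x => u (π x)) = fun x => S.D j u (π x)

section cov

variable {P' : Type*} {S' : DAlg P' κ} {π : P' → P} (h : IsCov S' S π)
include h

theorem IsCov.wd (w : List κ) (u : P → ℂ) :
    S'.wd w (fun x => u (π x)) = fun x => S.wd w u (π x) := by
  induction w with
  | nil => rfl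
  | cons j w ih => rw [DAlg.wd_cons, ih, h.D, DAlg.wd_cons]

theorem IsCov.fo {ι : Type*} {μ s : ι → ℝ} {u : ι → P → ℂ}
    (hu : S'.FO μ s (fun i x => u i (π x))) : S.FO μ s u := by
  refine ⟨fun i => h.sm _ (hu.1 i), fun k => ?_⟩
  obtain ⟨C, hC, h1⟩ := hu.2 k
  refine ⟨C, hC, fun i w hw p => ?_⟩
  obtain ⟨x, rfl⟩ := h.surj p
  have h2 := h1 i w hw x
  rw [h.wd] at h2
  exact h2

theorem IsCov.rl {u : P → ℂ} (hu : Rl (fun x => u (π x))) : Rl u := fun p => by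
  obtain ⟨x, rfl⟩ := h.surj p
  exact hu x

theorem IsCov.Dv (j : κ) (f : Fin 4 → P → ℂ) :
    S'.Dv j (fun a x => f a (π x)) = fun a x => S.Dv j f a (π x) := by
  funext a
  exact h.D j (f a)

theorem IsCov.met (f : Fin 4 → P → ℂ) (j k : κ) (x : P') :
    S'.met (fun a x => f a (π x)) j k x = S.met f j k (π x) := by
  simp only [DAlg.met, h.Dv, dot]

theorem IsCov.gram (f : Fin 4 → P → ℂ) (a b j l : κ) (x : P') :
    gram3 (S'.Dv a (fun a x => f a (π x))) (S'.Dv b (fun a x => f a (π x)))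
      (S'.Dv j (S'.Dv l (fun a x => f a (π x)))) x =
    gram3 (S.Dv a f) (S.Dv b f) (S.Dv j (S.Dv l f)) (π x) := by
  have e : S'.Dv j (S'.Dv l (fun a x => f a (π x))) = fun a x => S.Dv j (S.Dv l f) a (π x) := by
    rw [h.Dv, h.Dv]
  rw [e, h.Dv, h.Dv]
  simp only [gram3, dot]

end cov

end Vale.Agent.P205.TW
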