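import Vale.Agent.P205.TW.ChiDef
import Vale.Agent.P205.TW.Diag
import Vale.Agent.P205.TW.Parity
import Vale.Agent.P205.TW.Form1

/-!
P205, scheme T1W, block C5: the data of the formula from the geometric data, a slow map with its
normal frame, and the loop functions: `mkT`, validity (`mkT_ok`), classes (`mkT_cls`), parities.
-/

noncomputable section

namespace Vale.Agent.P205.TW

open Vale.Agent.P205.F

universe u

variable {P : Type u} {κ : Type} [Fintype κ] {S : DAlg P κ}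

/-- slow part of the data -/
def pre (ψ : P → ℂ) (r : Ray P κ) (X : Fin 4 → P → ℂ) : TData P κ where
  X := X
  q1 := X
  q2 := X
  ψ := ψ
  r := r
  iG := 0
  σ := 0
  c := 0
  s := 0
  h := 0
  iv := 0
  C := 0
  Sn := 0

variable (S)

/-- `G_ww` -/
def Gw (ψ : P → ℂ) (r : Ray P κ) (X : Fin 4 → P → ℂ) : P → ℂ := (pre ψ r X).Gww S 1

/-- `det_X G_ww` -/
def Gd (ψ : P → ℂ) (r : Ray P κ) (X : Fin 4 → P → ℂ) : P → ℂ := fun p =>
  (pre ψ r X).dX S p * (pre ψ r X).Gww S 1 p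

/-- the data of the formula -/
def mkT (ψ e v : P → ℂ) (r : Ray P κ) (cG cσ : ℝ) (X q1 q2 : Fin 4 → P → ℂ)
    (c s h A B : P → ℂ) : TData P κ where
  X := X
  q1 := q1
  q2 := q2
  ψ := ψ
  r := r
  iG := iv1 cG (Gw S ψ r X)
  σ := is1 cσ (Gd S ψ r X)
  c := c
  s := fun p => e p * s p
  h := fun p => e p * h p
  iv := iv1 (15 / 16) v
  C := fun p => A p * iv1 (15 / 16) v p
  Sn := fun p => e p * (B p * iv1 (15 / 16) v p)

variable {S}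

section pw

variable {ψ : P → ℂ} {r : Ray P κ} {X : Fin 4 → P → ℂ}

theorem sm_dirv {c : κ → P → ℂ} (hc : ∀ j, S.Sm (c j)) (hX : ∀ a, S.Sm (X a)) (a : Fin 4) :
    S.Sm (S.dirv c X a) := S.sm_dir hc (hX a)

theorem rl_dirv {c : κ → P → ℂ} (hc : ∀ j, Rl (c j)) (hX : ∀ a, S.Sm (X a))
    (hr : ∀ a, Rl (X a)) (a : Fin 4) : Rl (S.dirv c X a) := Rl.dir hc (hX a) (hr a)

theorem sm_Gw (hr : r.Ok S) (hψ : S.Sm ψ) (hX : ∀ a, S.Sm (X a)) : S.Sm (Gw S ψ r X) := by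
  have h1 := sm_dirv (S := S) hr.smw hX
  have h2 := S.sm_dir hr.smw hψ
  exact S.sm_add (S.sm_dot h1 h1) (S.sm_smul _ (S.sm_mul h2 h2))

theorem sm_dX (hr : r.Ok S) (hX : ∀ a, S.Sm (X a)) : S.Sm ((pre ψ r X).dX S) := by
  have h1 := sm_dirv (S := S) hr.smw hX
  have h2 := sm_dirv (S := S) hr.smt hX
  exact S.sm_sub (S.sm_mul (S.sm_dot h2 h2) (S.sm_dot h1 h1))
    (S.sm_mul (S.sm_dot h2 h1) (S.sm_dot h2 h1))

theorem sm_Gd (hr : r.Ok S) (hψ : S.Sm ψ) (hX : ∀ a, S.Sm (X a)) : S.Sm (Gd S ψ r X) :=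
  S.sm_mul (sm_dX hr hX) (sm_Gw hr hψ hX)

theorem rl_Gw (hr : r.Ok S) (hψ : S.Sm ψ) (hrψ : Rl ψ) (hX : ∀ a, S.Sm (X a))
    (hrX : ∀ a, Rl (X a)) : Rl (Gw S ψ r X) := by
  have h1 := rl_dirv (S := S) hr.rw' hX hrX
  have h2 := Rl.dir (S := S) hr.rw' hψ hrψ
  refine (Rl.dot h1 h1).add (Rl.smul ?_ (h2.mul h2))
  simp

theorem rl_dX (hr : r.Ok S) (hX : ∀ a, S.Sm (X a)) (hrX : ∀ a, Rl (X a)) :
    Rl ((pre ψ r X).dX S) := by
  have h1 := rl_dirv (S := S) hr.rw' hX hrX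
  have h2 := rl_dirv (S := S) hr.rt hX hrX
  exact ((Rl.dot h2 h2).mul (Rl.dot h1 h1)).sub ((Rl.dot h2 h1).mul (Rl.dot h2 h1))

theorem rl_Gd (hr : r.Ok S) (hψ : S.Sm ψ) (hrψ : Rl ψ) (hX : ∀ a, S.Sm (X a))
    (hrX : ∀ a, Rl (X a)) : Rl (Gd S ψ r X) :=
  (rl_dX hr hX hrX).mul (rl_Gw hr hψ hrψ hX hrX)

end pw

/-- hypotheses on the fixed data -/
structure Fix (S : DAlg P κ) (ψ e v : P → ℂ) (r : Ray P κ) : Prop where
  ray : r.Ok S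
  rK : r.K = KrC r.Ψ
  smψ : S.Sm ψ
  rψ : Rl ψ
  sme : S.Sm e
  re : Rl e
  esq : ∀ p, (r.Ψ p).re ≤ 5 / 2 → e p * e p = 1
  eD : ∀ p, (r.Ψ p).re ≤ 5 / 2 → ∀ j, S.D j e p = 0
  smv : S.Sm v
  rv : Rl v
  v1 : ∀ p, 15 / 16 ≤ (v p).re ∧ (v p).re ≤ 1
  zv : S.Zs (Kc r.Ψ) (fun p => v p - 1)

/-- hypotheses on the slow map -/
structure Slo (S : DAlg P κ) (ψ : P → ℂ) (r : Ray P κ) (cG cσ : ℝ)
    (X q1 q2 : Fin 4 → P → ℂ) : Prop where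
  smX : ∀ a, S.Sm (X a)
  rX : ∀ a, Rl (X a)
  nf : CNFr S X q1 q2
  hG : ∀ p ∈ r.K, cG ≤ (Gw S ψ r X p).re
  hσ : ∀ p ∈ r.K, cσ ≤ (Gd S ψ r X p).re

section ok

variable {ψ e v : P → ℂ} {r : Ray P κ} {cG cσ : ℝ} {X q1 q2 : Fin 4 → P → ℂ}

theorem Fix.Kc_sub (hF : Fix S ψ e v r) {p : P} (hp : p ∈ Kc r.Ψ) : p ∈ r.K := by
  rw [hF.rK]
  exact ⟨by linarith [hp.1], by linarith [hp.2]⟩

theorem Fix.le_of_Kc (hF : Fix S ψ e v r) {p : P} (hp : p ∈ Kc r.Ψ) : (r.Ψ p).re ≤ 5 / 2 := by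
  linarith [hp.2]

theorem Fix.iv_mul (hF : Fix S ψ e v r) (p : P) : iv1 (15 / 16) v p * v p = 1 :=
  iv1_mul (by norm_num) (hF.rv p) (hF.v1 p).1

theorem Fix.smiv (hF : Fix S ψ e v r) : S.Sm (iv1 (15 / 16) v) := sm_iv1 hF.smv hF.rv

theorem Fix.v_off (hF : Fix S ψ e v r) {p : P} (hp : p ∉ Kc r.Ψ) : v p = 1 := by
  have h := hF.zv.apply hp
  linear_combination h

theorem Fix.iv_off (hF : Fix S ψ e v r) {p : P} (hp : p ∉ Kc r.Ψ) : iv1 (15 / 16) v p = 1 := by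
  have h := hF.iv_mul p
  rw [hF.v_off hp, mul_one] at h
  exact h

/-- `e² = 1` where `s ≠ 0` -/
theorem Fix.e2 (hF : Fix S ψ e v r) {s : P → ℂ} (hs : S.Zs (Kc r.Ψ) s) (p : P) :
    e p * e p * s p = s p := by
  by_cases hp : p ∈ Kc r.Ψ
  · rw [hF.esq p (hF.le_of_Kc hp), one_mul]
  · rw [hs.apply hp, mul_zero]

theorem Fix.eD0 (hF : Fix S ψ e v r) {s : P → ℂ} (hs : S.Zs (Kc r.Ψ) s) (j : κ) (p : P) :
    S.D j e p * s p = 0 := by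
  by_cases hp : p ∈ Kc r.Ψ
  · rw [hF.eD p (hF.le_of_Kc hp), zero_mul]
  · rw [hs.apply hp, mul_zero]

theorem mkT_ok (hF : Fix S ψ e v r) (hcG : 0 < cG) (hcσ : 0 < cσ) (hS : Slo S ψ r cG cσ X q1 q2)
    {ι : Type} {Λ : ι → ℝ} {τ0 c1 : ℝ} (L : LoopC S Λ r.Ψ v τ0 c1) (i : ι) :
    (mkT S ψ e v r cG cσ X q1 q2 (L.c i) (L.s i) (L.h i) (L.A i) (L.B i)).Ok S 1 where
  ray := hF.ray
  smX := hS.smX
  smq1 := hS.nf.s1
  smq2 := hS.nf.s2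
  smψ := hF.smψ
  smiG := sm_iv1 (sm_Gw hF.ray hF.smψ hS.smX) (rl_Gw hF.ray hF.smψ hF.rψ hS.smX hS.rX)
  smσ := sm_is1 (sm_Gd hF.ray hF.smψ hS.smX) (rl_Gd hF.ray hF.smψ hF.rψ hS.smX hS.rX)
  smc := L.fc.1 i
  sms := S.sm_mul hF.sme (L.fs.1 i)
  smh := S.sm_mul hF.sme (L.fh.1 i)
  smiv := hF.smiv
  smC := S.sm_mul (L.fA.1 i) hF.smiv
  smSn := S.sm_mul hF.sme (S.sm_mul (L.fB.1 i) hF.smiv)
  rX := hS.rX
  rq1 := hS.nf.r1
  rq2 := hS.nf.r2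
  rψ := hF.rψ
  riG := rl_iv1
  rσ := rl_is1
  rc := L.rc i
  rs := hF.re.mul (L.rs i)
  rh := hF.re.mul (L.rh i)
  riv := rl_iv1
  rC := (L.rA i).mul rl_iv1
  rSn := hF.re.mul ((L.rB i).mul rl_iv1)
  q1X := hS.nf.t1
  q2X := hS.nf.t2
  q11 := hS.nf.n11
  q12 := hS.nf.n12
  q22 := hS.nf.n22
  iGG := fun p hp => iv1_mul hcG (rl_Gw hF.ray hF.smψ hF.rψ hS.smX hS.rX p) (hS.hG p hp)
  σσ := fun p hp => is1_sq hcσ (rl_Gd hF.ray hF.smψ hF.rψ hS.smX hS.rX p) (hS.hσ p hp)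
  cs := fun p => by
    have h1 := L.circ i p
    have h2 := hF.e2 (L.zs i) p
    show L.c i p ^ 2 + (e p * L.s i p) ^ 2 = 1
    linear_combination h1 + L.s i p * h2
  zc := fun p hp => by
    have h := (L.zc i).apply (p := p) (fun h => hp (hF.Kc_sub h))
    show L.c i p = 1
    linear_combination h
  zs := fun p hp => by
    show e p * L.s i p = 0
    rw [(L.zs i).apply (p := p) (fun h => hp (hF.Kc_sub h)), mul_zero]
  zh := fun p hp => by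
    show e p * L.h i p = 0
    rw [(L.zh i).apply (p := p) (fun h => hp (hF.Kc_sub h)), mul_zero]
  ziv := fun p hp => hF.iv_off (fun h => hp (hF.Kc_sub h))
  zC := fun p hp => by
    show L.A i p * _ = 0
    rw [(L.zA i).apply (p := p) (fun h => hp (hF.Kc_sub h)), zero_mul]
  zSn := fun p hp => by
    show e p * (L.B i p * _) = 0
    rw [(L.zB i).apply (p := p) (fun h => hp (hF.Kc_sub h)), zero_mul, mul_zero]

end ok

section cls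

variable {ψ e v : P → ℂ} {r : Ray P κ} {cG cσ : ℝ} {X q1 q2 : ℕ → Fin 4 → P → ℂ}
  {μ ε : ℕ → ℝ} {τ0 c1 : ℝ}

/-- classes of the slow data -/
structure SloC (S : DAlg P κ) (μ ε : ℕ → ℝ) (ψ e v : P → ℂ) (r : Ray P κ) (cG cσ : ℝ)
    (X q1 q2 : ℕ → Fin 4 → P → ℂ) : Prop where
  DX : ∀ j a, SL S μ ε (fun i => S.D j (X i a))
  q1 : ∀ a, SL S μ ε (fun i => q1 i a)
  q2 : ∀ a, SL S μ ε (fun i => q2 i a)
  Dψ : ∀ j, SL S μ ε (fun _ => S.D j ψ)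
  Dr : ∀ j, SL S μ ε (fun _ => S.D j r.Ψ)
  t : ∀ j, SL S μ ε (fun _ => r.t j)
  w : ∀ j, SL S μ ε (fun _ => r.w j)
  iG : SL S μ ε (fun i => iv1 cG (Gw S ψ r (X i)))
  σ : SL S μ ε (fun i => is1 cσ (Gd S ψ r (X i)))
  iv : SL S μ ε (fun _ => iv1 (15 / 16) v)
  e : SL S μ ε (fun _ => e)

theorem mkT_cls (hF : Fix S ψ e v r) (hμ : ∀ i, 1 ≤ μ i) (hεμ : ∀ i, 1 ≤ ε i * μ i)
    (hC : SloC S μ ε ψ e v r cG cσ X q1 q2) (L : LoopC S μ r.Ψ v τ0 c1) :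
    TData.Cls S (fun i => mkT S ψ e v r cG cσ (X i) (q1 i) (q2 i)
      (L.c i) (L.s i) (L.h i) (L.A i) (L.B i)) μ ε := by
  have hμ0 : ∀ i, 0 ≤ μ i := fun i => le_trans zero_le_one (hμ i)
  have up : ∀ {u : ℕ → P → ℂ}, S.FO μ (fun _ => 1) u → S.FO μ (fun i => ε i * μ i) u :=
    fun hu => hu.mono_s' hεμ hμ0
  refine ⟨hC.DX, hC.q1, hC.q2, hC.Dψ, hC.Dr, hC.t, hC.w, hC.iG, hC.σ, hC.iv, L.fc,
    fo_mul hC.e.1 L.fs, fo_mul hC.e.1 L.fh, fo_mul L.fA hC.iv.1,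
    fo_mul hC.e.1 (fo_mul L.fB hC.iv.1), fun j => ?_, fun j => ?_, fun j => ?_, fun j => ?_⟩
  · refine (up (L.dc j)).congr fun i p => ?_
    have h := hF.e2 (L.zs i) p
    show _ = S.D j (L.c i) p + μ i * ((e p * L.s i p) * (e p * L.h i p) * S.D j r.Ψ p)
    linear_combination (-(μ i : ℂ) * L.h i p * S.D j r.Ψ p) * h
  · refine (fo_mul hC.e.1 (up (L.ds j))).congr fun i p => ?_
    have h := S.D_mul_apply j hF.sme (L.fs.1 i) p
    have h0 := hF.eD0 (L.zs i) j p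
    have h' : S.D j (fun p => e p * L.s i p) p = S.D j e p * L.s i p + e p * S.D j (L.s i) p := h
    show _ = S.D j (fun p => e p * L.s i p) p - μ i * (L.c i p * (e p * L.h i p) * S.D j r.Ψ p)
    rw [h']
    linear_combination -h0
  · refine ((up (fo_mul (L.dA j) hC.iv.1)).add (fo_mul L.fA (hC.iv.2 j))).congr fun i p => ?_
    have h := S.D_mul_apply j (L.fA.1 i) hF.smiv p
    have h' : S.D j (fun p => L.A i p * iv1 (15 / 16) v p) p =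
      S.D j (L.A i) p * iv1 (15 / 16) v p + L.A i p * S.D j (iv1 (15 / 16) v) p := h
    have h1 := hF.iv_mul p
    show (S.D j (L.A i) p - μ i * ((L.c i p - v p) * S.D j r.Ψ p)) * iv1 (15 / 16) v p
      + L.A i p * S.D j (iv1 (15 / 16) v) p = S.D j (fun p => L.A i p * iv1 (15 / 16) v p) p
        - μ i * ((L.c i p * iv1 (15 / 16) v p - 1) * S.D j r.Ψ p)
    rw [h']
    linear_combination ((μ i : ℂ) * S.D j r.Ψ p) * h1
  · refine (fo_mul hC.e.1 ((up (fo_mul (L.dB j) hC.iv.1)).add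
      (fo_mul L.fB (hC.iv.2 j)))).congr fun i p => ?_
    have hB := S.D_mul_apply j (L.fB.1 i) hF.smiv p
    have hB' : S.D j (fun p => L.B i p * iv1 (15 / 16) v p) p =
      S.D j (L.B i) p * iv1 (15 / 16) v p + L.B i p * S.D j (iv1 (15 / 16) v) p := hB
    have h := S.D_mul_apply j hF.sme (S.sm_mul (L.fB.1 i) hF.smiv) p
    have h' : S.D j (fun p => e p * (L.B i p * iv1 (15 / 16) v p)) p =
      S.D j e p * (L.B i p * iv1 (15 / 16) v p)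
        + e p * S.D j (fun p => L.B i p * iv1 (15 / 16) v p) p := h
    have h0 := hF.eD0 (L.zB i) j p
    show e p * ((S.D j (L.B i) p - μ i * (L.s i p * S.D j r.Ψ p)) * iv1 (15 / 16) v p
      + L.B i p * S.D j (iv1 (15 / 16) v) p) =
      S.D j (fun p => e p * (L.B i p * iv1 (15 / 16) v p)) p
        - μ i * (((e p * L.s i p) * iv1 (15 / 16) v p) * S.D j r.Ψ p)
    rw [h', hB']
    linear_combination (-iv1 (15 / 16) v p) * h0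

end cls

end Vale.Agent.P205.TW
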