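import Vale.Agent.P205.TW.Form3

/-!
P205, scheme T1W, block FORMULA: the nondegeneracy hypotheses and the final statement.
-/

noncomputable section

namespace Vale.Agent.P205.TW

open Vale.Agent.P205.F

universe u

variable {P : Type u} {κ : Type} [Fintype κ] (S : DAlg P κ)

namespace TData

/-- bounds, lower bounds and nondegeneracy at the point `p` -/
structure PtOk (d : TData P κ) (C c0 c1 cψ τ0 : ℝ) (p : P) : Prop where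
  t : ∀ j, ‖d.r.t j p‖ ≤ C
  w : ∀ j, ‖d.r.w j p‖ ≤ C
  DX : ∀ j a, ‖S.D j (d.X a) p‖ ≤ C
  Dψ : ∀ j, ‖S.D j d.ψ p‖ ≤ C
  Dr : ∀ j, ‖S.D j d.r.Ψ p‖ ≤ C
  iG : ‖d.iG p‖ ≤ C
  σ : ‖d.σ p‖ ≤ C
  iv : ‖d.iv p‖ ≤ C
  iv1 : 1 ≤ (d.iv p).re
  det : ∃ a b, c0 ≤ (S.met d.X a a p * S.met d.X b b p - S.met d.X a b p ^ 2).re
  alt : (p ∈ d.r.K ∧ c1 ≤ ‖d.h p‖) ∨ (1 / 2 ≤ (d.c p).re ∧ ‖d.s p‖ ≤ τ0 * (d.c p).re ∧
    (p ∈ d.r.K → cψ ≤ ‖d.ψt S p‖ + ‖d.ψw S p‖) ∧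
    (p ∉ d.r.K → ∃ j, cψ ≤ ‖S.D j d.ψ p‖))

/-- **(C)** pointwise lower bound of the Gram determinant of the leading terms (helper175) -/
def LowerC : Prop := ∀ C c0 cψ ρ : ℝ, 0 < C → 0 < c0 → 0 < cψ → 0 < ρ →
  ∃ τ0 : ℝ, 0 < τ0 ∧ τ0 ≤ 1 ∧ ∀ c1 : ℝ, 0 < c1 → ∃ c : ℝ, 0 < c ∧
    ∀ (d : TData P κ) (μ : ℝ) (p : P), d.Ok S ρ → PtOk S d C c0 c1 cψ τ0 p →
    ∃ a b j, c ≤ (gram3 (d.L S ρ μ a) (d.L S ρ μ b) (d.B S ρ μ j j) p).re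

variable {S}

/-- **FORMULA, second half**: lower bound of the second fundamental form -/
theorem formula_gram (h : LowerC S) (C c0 cψ ρ : ℝ) (hC : 0 < C) (h0 : 0 < c0)
    (hψ : 0 < cψ) (hρ : 0 < ρ) :
    ∃ τ0 : ℝ, 0 < τ0 ∧ τ0 ≤ 1 ∧ ∀ c1 : ℝ, 0 < c1 → ∃ c : ℝ, 0 < c ∧
      ∀ {ι : Type*} (d : ι → TData P κ) (μ ε : ι → ℝ),
      Hyp S d ρ μ ε → (∀ i p, PtOk S (d i) C c0 c1 cψ τ0 p) →
      ∃ ε0 : ℝ, 0 < ε0 ∧ ∀ i, ε i ≤ ε0 → ∀ p, ∃ a b j, c * μ i ^ 2 ≤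
        (gram3 (S.Dv a ((d i).f S ρ (μ i))) (S.Dv b ((d i).f S ρ (μ i)))
          (S.Dv j (S.Dv j ((d i).f S ρ (μ i)))) p).re := by
  obtain ⟨τ0, hτ, hτ1, hL'⟩ := h C c0 cψ ρ hC h0 hψ hρ
  refine ⟨τ0, hτ, hτ1, fun c1 h1 => ?_⟩
  obtain ⟨c, hc, hL⟩ := hL' c1 h1
  refine ⟨c / 2, half_pos hc, fun {ι} d μ ε H hp => ?_⟩
  choose K hK hG using fun a b j => H.neGram a b j
  have hK2 : ∃ K' : ℝ, 0 < K' ∧ ∀ a b j, K a b j ≤ K' := by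
    refine ⟨(∑ a, ∑ b, ∑ j, K a b j) + 1, ?_, fun a b j => ?_⟩
    · have : 0 ≤ ∑ a, ∑ b, ∑ j, K a b j :=
        Finset.sum_nonneg fun a _ => Finset.sum_nonneg fun b _ =>
          Finset.sum_nonneg fun j _ => hK a b j
      linarith
    · have e1 : K a b j ≤ ∑ j, K a b j :=
        Finset.single_le_sum (f := fun j => K a b j) (fun j _ => hK a b j) (Finset.mem_univ j)
      have e2 : ∑ j, K a b j ≤ ∑ b, ∑ j, K a b j :=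
        Finset.single_le_sum (f := fun b => ∑ j, K a b j)
          (fun b _ => Finset.sum_nonneg fun j _ => hK a b j) (Finset.mem_univ b)
      have e3 : ∑ b, ∑ j, K a b j ≤ ∑ a, ∑ b, ∑ j, K a b j :=
        Finset.single_le_sum (f := fun a => ∑ b, ∑ j, K a b j)
          (fun a _ => Finset.sum_nonneg fun b _ => Finset.sum_nonneg fun j _ => hK a b j)
          (Finset.mem_univ a)
      linarith
  obtain ⟨K', hK'0, hK'⟩ := hK2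
  refine ⟨c / (2 * K'), by positivity, fun i hi p => ?_⟩
  obtain ⟨a, b, j, hg⟩ := hL (d i) (μ i) p (H.ok i) (hp i p)
  refine ⟨a, b, j, ?_⟩
  have h3 := hG a b j i p
  have h4 : K a b j * ε i ≤ c / 2 := by
    calc K a b j * ε i ≤ K' * (c / (2 * K')) :=
          mul_le_mul (hK' a b j) hi (H.ε0 i) hK'0.le
      _ = c / 2 := by field_simp
  have h5 : c / 2 ≤ (gram3 ((d i).L S ρ (μ i) a) ((d i).L S ρ (μ i) b)
      ((d i).B S ρ (μ i) j j) p).re - K a b j * ε i := by linarith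
  calc c / 2 * μ i ^ 2 = μ i ^ 2 * (c / 2) := mul_comm _ _
    _ ≤ _ := mul_le_mul_of_nonneg_left h5 (by positivity)
    _ ≤ _ := h3

end TData

end Vale.Agent.P205.TW
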