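import Vale.Agent.P205.TW.Build
import Vale.Agent.P205.TW.FormSpec

/-!
P205, scheme T1W, block C5: pointwise hypotheses (`PtOk`), parity, and `FO` for `f`.
-/

noncomputable section

namespace Vale.Agent.P205.TW

open Vale.Agent.P205.F

universe u

variable {P : Type u} {κ : Type} [Fintype κ] {S : DAlg P κ}

section pt

variable {ψ e v : P → ℂ} {r : Ray P κ} {cG cσ : ℝ} {X q1 q2 : Fin 4 → P → ℂ}

theorem Fix.norm_e (hF : Fix S ψ e v r) {s : P → ℂ} (hs : S.Zs (Kc r.Ψ) s) (p : P) :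
    ‖e p * s p‖ = ‖s p‖ := by
  have h := hF.e2 hs p
  by_cases h0 : s p = 0
  · rw [h0, mul_zero]
  · have h1 : e p * e p = 1 := mul_right_cancel₀ h0 (by rw [h, one_mul])
    have h2 : ‖e p‖ * ‖e p‖ = 1 := by rw [← norm_mul, h1, norm_one]
    have h3 : ‖e p‖ = 1 := by nlinarith [norm_nonneg (e p)]
    rw [norm_mul, h3, one_mul]

/-- pointwise hypotheses of FORMULA -/
theorem mkT_pt (hF : Fix S ψ e v r) (hcG : 0 < cG) (hcσ : 0 < cσ)
    {ι : Type} {Λ : ι → ℝ} {τ0 c1 : ℝ} (L : LoopC S Λ r.Ψ v τ0 c1) (h1 : 0 < c1) (i : ι)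
    {C c0 cn : ℝ} (hC : 5 ≤ C) (hCG : 4 / cG ≤ C) (hCσ : 2 / Real.sqrt cσ ≤ C) (hcn : 0 < cn)
    (p : P) (ht : ∀ j, ‖r.t j p‖ ≤ C) (hw : ∀ j, ‖r.w j p‖ ≤ C) (hβ : ∀ j, ‖r.β j p‖ ≤ C)
    (hDψ : ∀ j, ‖S.D j ψ p‖ ≤ C) (hDr : ∀ j, ‖S.D j r.Ψ p‖ ≤ C)
    (hDX : ∀ j a, ‖S.D j (X a) p‖ ≤ C)
    (det : ∃ a b, c0 ≤ (S.met X a a p * S.met X b b p - S.met X a b p ^ 2).re)
    (nd : ((r.Ψ p).re ≤ 11 / 10 ∨ 19 / 10 ≤ (r.Ψ p).re) → ∃ j, cn ≤ |(S.D j ψ p).re|) :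
    TData.PtOk S (mkT S ψ e v r cG cσ X q1 q2 (L.c i) (L.s i) (L.h i) (L.A i) (L.B i))
      C c0 c1 (cn / C) τ0 p := by
  have hC0 : 0 < C := by linarith
  refine ⟨ht, hw, hDX, hDψ, hDr, (iv1_bd hcG p).trans hCG, (is1_bd hcσ p).trans hCσ,
    (iv1_bd (by norm_num) p).trans (by norm_num; linarith), ?_, det, ?_⟩
  · show 1 ≤ (iv1 (15 / 16) v p).re
    have h := hF.iv_mul p
    have hr1 : (iv1 (15 / 16) v p).im = 0 := rl_iv1 p
    have hr2 := hF.rv p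
    have h3 := congrArg Complex.re h
    rw [Complex.mul_re, hr1, hr2, mul_zero, sub_zero, Complex.one_re] at h3
    have h4 := hF.v1 p
    by_contra hlt
    push Not at hlt
    have h5 : 0 < (v p).re := by linarith
    nlinarith
  · by_cases hh : c1 ≤ ‖L.h i p‖
    · left
      refine ⟨?_, ?_⟩
      · by_contra hK
        have : L.h i p = 0 := (L.zh i).apply (fun h => hK (hF.Kc_sub h))
        rw [this, norm_zero] at hh
        linarith
      · show c1 ≤ ‖e p * L.h i p‖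
        rw [hF.norm_e (L.zh i)]
        exact hh
    · right
      have hr : (r.Ψ p).re ≤ 11 / 10 ∨ 19 / 10 ≤ (r.Ψ p).re := by
        by_contra hcon
        push Not at hcon
        exact hh (L.nd2 i p hcon.1.le hcon.2.le)
      obtain ⟨hc, hs⟩ := (L.nd1 i p).resolve_left hh
      obtain ⟨j, hj⟩ := nd hr
      have hj' : cn ≤ ‖S.D j ψ p‖ := hj.trans (Complex.abs_re_le_norm _)
      refine ⟨hc, ?_, fun hK => ?_, fun _ => ⟨j, ?_⟩⟩
      · show ‖e p * L.s i p‖ ≤ _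
        rw [hF.norm_e (L.zs i)]
        exact hs
      · show cn / C ≤ ‖S.dir r.t ψ p‖ + ‖S.dir r.w ψ p‖
        rw [div_le_iff₀ hC0]
        have hd := hF.ray.dec ψ hF.smψ j p hK
        rw [hd] at hj'
        have h1 : ‖S.D j r.Ψ p * S.dir r.t ψ p‖ ≤ C * ‖S.dir r.t ψ p‖ := by
          rw [norm_mul]
          exact mul_le_mul_of_nonneg_right (hDr j) (norm_nonneg _)
        have h2 : ‖r.β j p * S.dir r.w ψ p‖ ≤ C * ‖S.dir r.w ψ p‖ := by
          rw [norm_mul]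
          exact mul_le_mul_of_nonneg_right (hβ j) (norm_nonneg _)
        have h3 := norm_add_le (S.D j r.Ψ p * S.dir r.t ψ p) (r.β j p * S.dir r.w ψ p)
        nlinarith
      · show cn / C ≤ ‖S.D j ψ p‖
        rw [div_le_iff₀ hC0]
        have := norm_nonneg (S.D j ψ p)
        nlinarith

/-- parity of the data -/
theorem mkT_par {τ : P → P} (hτ : IsInv S τ) (hψ : Odd' τ ψ) (smψ : S.Sm ψ) (he : Odd' τ e)
    (hv : Evn τ v) (ht : ∀ j, Evn τ (r.t j)) (hw : ∀ j, Evn τ (r.w j)) (hr : Evn τ r.Ψ)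
    (smX : ∀ a, S.Sm (X a)) (hX : ∀ a, Evn τ (X a)) (h1 : ∀ a, Evn τ (q1 a))
    (h2 : ∀ a, Odd' τ (q2 a)) {ι : Type} {Λ : ι → ℝ} {τ0 c1 : ℝ}
    (L : LoopC S Λ r.Ψ v τ0 c1) (i : ι) :
    (mkT S ψ e v r cG cσ X q1 q2 (L.c i) (L.s i) (L.h i) (L.A i) (L.B i)).Par τ := by
  have hDX : ∀ j a p, S.D j (X a) (τ p) = S.D j (X a) p := fun j a p =>
    D_even hτ (smX a) (hX a) j p
  have hDψ : ∀ j p, S.D j ψ (τ p) = - S.D j ψ p := fun j p => D_odd hτ smψ hψ j p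
  have hXt : ∀ a p, S.dirv r.t X a (τ p) = S.dirv r.t X a p := fun a p => by
    simp only [DAlg.dirv, DAlg.dir, hDX, ht _ p]
  have hXw : ∀ a p, S.dirv r.w X a (τ p) = S.dirv r.w X a p := fun a p => by
    simp only [DAlg.dirv, DAlg.dir, hDX, hw _ p]
  have hψw : ∀ p, S.dir r.w ψ (τ p) = - S.dir r.w ψ p := fun p => by
    simp only [DAlg.dir, hDψ, hw _ p, mul_neg, Finset.sum_neg_distrib]
  have hG : ∀ p, Gw S ψ r X (τ p) = Gw S ψ r X p := fun p => by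
    simp only [Gw, pre, TData.Gww, TData.Eww, TData.Xw, TData.ψw, dot, hXw, hψw, neg_mul_neg]
  have hd : ∀ p, Gd S ψ r X (τ p) = Gd S ψ r X p := fun p => by
    have := hG p
    simp only [Gw] at this
    simp only [Gd, this]
    simp only [pre, TData.dX, TData.Ett, TData.Etw, TData.Eww, TData.Xw, TData.Xt, dot, hXw, hXt]
  have hL := fun p => L.ev i (τ p) p (hr p)
  refine ⟨hX, h1, h2, hψ, ht, hw, fun p => iv1_comp τ hG p, fun p => is1_comp τ hd p,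
    fun p => ?_, fun p => ?_⟩
  · show L.A i (τ p) * iv1 (15 / 16) v (τ p) = L.A i p * iv1 (15 / 16) v p
    rw [(hL p).2.2.2.1, iv1_comp τ hv p]
  · show e (τ p) * (L.B i (τ p) * iv1 (15 / 16) v (τ p)) = -(e p * (L.B i p * iv1 (15 / 16) v p))
    rw [(hL p).2.2.2.2, iv1_comp τ hv p, he p]
    ring

end pt

section fo

variable {ι : Type*} {d : ι → TData P κ} {ρ : ℝ} {μ ε : ι → ℝ}

/-- `f` is bounded at scale `μ` -/
theorem fo_f (H : TData.Hyp S d ρ μ ε) (hμ : ∀ i, 1 ≤ μ i)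
    (hX : ∀ a, S.FO μ (fun _ => 1) (fun i => (d i).X a)) (a : Fin 4) :
    S.FO μ (fun _ => 1) (fun i => (d i).f S ρ (μ i) a) := by
  have hμ0 : ∀ i, 0 ≤ μ i := fun i => le_trans zero_le_one (hμ i)
  have up : ∀ {u : ι → P → ℂ}, S.FO μ (fun _ => 1) u → S.FO μ μ u :=
    fun hu => hu.mono_s' hμ hμ0
  have h1 : S.FO μ (fun _ => 1) (fun i p => (1 / μ i : ℂ) *
      ((d i).c1 S ρ p * (d i).Xt S a p + (d i).c2 S ρ p * (d i).Xw S a p)) :=
    fo_div1 H.μ0 (up (fo_add (fo_mul H.dc1.1 (H.sXt a).1) (fo_mul H.dc2.1 (H.sXw a).1)))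
  have h2 : S.FO μ (fun _ => 1) (fun i p => (1 / μ i : ℂ) * (ρ * (d i).E S ρ (μ i) a p)) :=
    fo_div1 H.μ0 (up ((H.dE a).1.const_mul (ρ : ℂ)))
  exact (((hX a).add h1).add h2).congr fun i p => by
    simp only [Pi.add_apply, TData.f]
    ring

end fo

end Vale.Agent.P205.TW
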