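import Mathlib

/-!
P205, block CHI (1): the zero winding loop `uz κ θ = exp (-2 i arctan (κ cos θ))`, its mean
`vk κ = 2 / √(1 + κ²) - 1` and an explicit periodic primitive `Gz κ θ` of `uz κ θ - vk κ`.
-/

open scoped ContDiff ComplexConjugate
open Complex

namespace Vale.Agent.P205.TW

/-- `√(1 + κ²)` -/
noncomputable def sk (κ : ℝ) : ℝ := Real.sqrt (1 + κ ^ 2)

/-- the mean of the zero winding loop -/
noncomputable def vk (κ : ℝ) : ℝ := 2 / sk κ - 1

/-- the zero winding loop -/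
noncomputable def uz (κ θ : ℝ) : ℂ :=
  (1 - I * ((κ * Real.cos θ : ℝ) : ℂ)) / (1 + I * ((κ * Real.cos θ : ℝ) : ℂ))

/-- the Poisson parameter -/
noncomputable def wk (κ : ℝ) : ℝ := κ / (1 + sk κ)

/-- the periodic primitive of `uz κ θ - vk κ` -/
noncomputable def Gz (κ θ : ℝ) : ℂ :=
  2 / (I * sk κ) * (Complex.log (1 + I * wk κ * Complex.exp (-(I * θ)))
    - Complex.log (1 + I * wk κ * Complex.exp (I * θ)))

theorem sk_pos (κ : ℝ) : 0 < sk κ := Real.sqrt_pos.2 (by positivity)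

theorem sk_sq (κ : ℝ) : sk κ ^ 2 = 1 + κ ^ 2 := Real.sq_sqrt (by positivity)

theorem one_le_sk (κ : ℝ) : 1 ≤ sk κ := by
  have := sk_sq κ
  nlinarith [sk_pos κ, sq_nonneg κ]

theorem wk_eq (κ : ℝ) : wk κ * (1 + sk κ) = κ := by
  have := sk_pos κ
  unfold wk
  field_simp

theorem abs_wk_lt (κ : ℝ) : |wk κ| < 1 := by
  have h1 := sk_pos κ
  have h2 := sk_sq κ
  rw [wk, abs_div, abs_of_pos (by linarith : (0:ℝ) < 1 + sk κ), div_lt_one (by linarith)]
  rw [abs_lt]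
  constructor <;> nlinarith

theorem wk_sq (κ : ℝ) : wk κ ^ 2 * (1 + sk κ) = sk κ - 1 := by
  have h1 := sk_pos κ
  have h2 := sk_sq κ
  unfold wk
  field_simp
  nlinarith

theorem contDiff_sk : ContDiff ℝ ∞ sk := by
  unfold sk
  refine ContDiff.sqrt (by fun_prop) fun x => ?_
  positivity

theorem contDiff_vk : ContDiff ℝ ∞ vk := by
  unfold vk
  exact (contDiff_const.div contDiff_sk fun x => (sk_pos x).ne').sub contDiff_const

theorem contDiff_wk : ContDiff ℝ ∞ wk := by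
  unfold wk
  exact contDiff_id.div (contDiff_const.add contDiff_sk) fun x => by
    have := sk_pos x
    positivity

theorem vk_zero : vk 0 = 1 := by
  simp [vk, sk]
  norm_num

theorem vk_pos {κ : ℝ} (h : κ ^ 2 < 3) : 0 < vk κ := by
  have h1 := sk_pos κ
  have h2 := sk_sq κ
  have h3 : sk κ < 2 := by nlinarith
  unfold vk
  rw [sub_pos, lt_div_iff₀ h1]
  linarith

theorem vk_le_one (κ : ℝ) : vk κ ≤ 1 := by
  have h1 := sk_pos κ
  have h2 := one_le_sk κ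
  unfold vk
  rw [sub_le_iff_le_add, div_le_iff₀ h1]
  linarith

theorem vk_lt_one {κ : ℝ} (h : κ ≠ 0) : vk κ < 1 := by
  have h1 := sk_pos κ
  have h2 := sk_sq κ
  have h3 : 1 < sk κ := by
    have : 0 < κ ^ 2 := by positivity
    nlinarith
  unfold vk
  rw [sub_lt_iff_lt_add, div_lt_iff₀ h1]
  linarith

theorem uz_den_ne (κ θ : ℝ) : (1 + I * ((κ * Real.cos θ : ℝ) : ℂ)) ≠ 0 := by
  intro h
  have := congrArg Complex.re h
  simp at this

theorem uz_num_eq (q : ℝ) : (1 - I * (q : ℂ)) = conj (1 + I * (q : ℂ)) := by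
  apply Complex.ext <;> simp

theorem norm_uz (κ θ : ℝ) : ‖uz κ θ‖ = 1 := by
  unfold uz
  rw [uz_num_eq, norm_div, Complex.norm_conj, div_self]
  exact norm_ne_zero_iff.2 (uz_den_ne κ θ)

theorem contDiff_div' {E : Type*} [NormedAddCommGroup E] [NormedSpace ℝ E] {f g : E → ℂ}
    (hf : ContDiff ℝ ∞ f) (hg : ContDiff ℝ ∞ g) (h0 : ∀ x, g x ≠ 0) :
    ContDiff ℝ ∞ (fun x => f x / g x) := by
  simp only [div_eq_mul_inv]
  exact hf.mul (hg.inv h0)

theorem contDiff_uz : ContDiff ℝ ∞ (fun p : ℝ × ℝ => uz p.1 p.2) := by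
  have h0 : ContDiff ℝ ∞ (fun p : ℝ × ℝ => ((p.1 * Real.cos p.2 : ℝ) : ℂ)) :=
    Complex.ofRealCLM.contDiff.comp (contDiff_fst.mul (Real.contDiff_cos.comp contDiff_snd))
  have h1 : ContDiff ℝ ∞ (fun p : ℝ × ℝ => 1 - I * ((p.1 * Real.cos p.2 : ℝ) : ℂ)) :=
    contDiff_const.sub (contDiff_const.mul h0)
  have h2 : ContDiff ℝ ∞ (fun p : ℝ × ℝ => 1 + I * ((p.1 * Real.cos p.2 : ℝ) : ℂ)) :=
    contDiff_const.add (contDiff_const.mul h0)
  exact contDiff_div' h1 h2 fun p => uz_den_ne p.1 p.2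

theorem uz_periodic (κ θ : ℝ) : uz κ (θ + 2 * Real.pi) = uz κ θ := by
  simp [uz, Real.cos_add_two_pi]

theorem uz_neg (κ θ : ℝ) : uz κ (-θ) = uz κ θ := by
  simp [uz]

theorem slit_aux {w : ℝ} (hw : |w| < 1) {z : ℂ} (hz : ‖z‖ = 1) :
    1 + I * (w : ℂ) * z ∈ Complex.slitPlane := by
  left
  have h1 : ‖I * (w : ℂ) * z‖ < 1 := by
    rw [norm_mul, norm_mul, hz, Complex.norm_I, Complex.norm_real, Real.norm_eq_abs]
    linarith
  have h2 := Complex.abs_re_le_norm (I * (w : ℂ) * z)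
  have h3 : -1 < (I * (w : ℂ) * z).re := by
    have := abs_lt.1 (lt_of_le_of_lt h2 h1)
    exact this.1
  rw [Complex.add_re, Complex.one_re]
  linarith

theorem norm_exp_I (θ : ℝ) : ‖Complex.exp (I * (θ : ℂ))‖ = 1 := by
  rw [mul_comm]
  exact Complex.norm_exp_ofReal_mul_I θ

theorem norm_exp_neg_I (θ : ℝ) : ‖Complex.exp (-(I * (θ : ℂ)))‖ = 1 := by
  have := norm_exp_I (-θ)
  rwa [Complex.ofReal_neg, mul_neg] at this

theorem contDiff_Gz : ContDiff ℝ ∞ (fun p : ℝ × ℝ => Gz p.1 p.2) := by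
  unfold Gz
  have hw : ContDiff ℝ ∞ (fun p : ℝ × ℝ => ((wk p.1 : ℝ) : ℂ)) :=
    Complex.ofRealCLM.contDiff.comp (contDiff_wk.comp contDiff_fst)
  have hs : ContDiff ℝ ∞ (fun p : ℝ × ℝ => ((sk p.1 : ℝ) : ℂ)) :=
    Complex.ofRealCLM.contDiff.comp (contDiff_sk.comp contDiff_fst)
  have ht : ContDiff ℝ ∞ (fun p : ℝ × ℝ => ((p.2 : ℝ) : ℂ)) :=
    Complex.ofRealCLM.contDiff.comp contDiff_snd
  refine ContDiff.mul ?_ ?_
  · have h1 : ContDiff ℝ ∞ (fun p : ℝ × ℝ => I * ((sk p.1 : ℝ) : ℂ)) := contDiff_const.mul hs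
    have h2 : ContDiff ℝ ∞ (fun _ : ℝ × ℝ => (2 : ℂ)) := contDiff_const
    exact contDiff_div' h2 h1 fun p =>
      mul_ne_zero Complex.I_ne_zero (Complex.ofReal_ne_zero.2 (sk_pos p.1).ne')
  · refine ContDiff.sub ?_ ?_
    · rw [contDiff_iff_contDiffAt]
      intro p
      have h1 : ContDiffAt ℝ ∞ (fun p : ℝ × ℝ => 1 + I * (wk p.1 : ℂ) *
          Complex.exp (-(I * (p.2 : ℂ)))) p := by
        refine contDiffAt_const.add (ContDiffAt.mul (contDiffAt_const.mul hw.contDiffAt) ?_)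
        exact ((contDiff_const.mul ht).neg.cexp).contDiffAt
      exact ((Complex.contDiffAt_log (n := ∞)
        (slit_aux (abs_wk_lt p.1) (norm_exp_neg_I p.2))).restrict_scalars ℝ).comp p h1
    · rw [contDiff_iff_contDiffAt]
      intro p
      have h1 : ContDiffAt ℝ ∞ (fun p : ℝ × ℝ => 1 + I * (wk p.1 : ℂ) *
          Complex.exp (I * (p.2 : ℂ))) p := by
        refine contDiffAt_const.add (ContDiffAt.mul (contDiffAt_const.mul hw.contDiffAt) ?_)
        exact ((contDiff_const.mul ht).cexp).contDiffAt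
      exact ((Complex.contDiffAt_log (n := ∞)
        (slit_aux (abs_wk_lt p.1) (norm_exp_I p.2))).restrict_scalars ℝ).comp p h1

theorem Gz_zero (κ : ℝ) : Gz κ 0 = 0 := by
  simp [Gz]

theorem Gz_neg (κ θ : ℝ) : Gz κ (-θ) = - Gz κ θ := by
  unfold Gz
  rw [Complex.ofReal_neg, mul_neg, neg_neg]
  ring

theorem exp_per (θ : ℝ) : Complex.exp (I * ((θ + 2 * Real.pi : ℝ) : ℂ)) =
    Complex.exp (I * (θ : ℂ)) := by
  rw [show I * ((θ + 2 * Real.pi : ℝ) : ℂ) = I * (θ : ℂ) + 2 * Real.pi * I by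
    push_cast; ring, Complex.exp_periodic]

theorem Gz_periodic (κ θ : ℝ) : Gz κ (θ + 2 * Real.pi) = Gz κ θ := by
  unfold Gz
  rw [Complex.exp_neg, exp_per, ← Complex.exp_neg]

theorem uz_sub_vk (κ θ : ℝ) : uz κ θ - vk κ =
    2 / (sk κ : ℂ) * (-(I * wk κ * Complex.exp (-(I * θ))) /
        (1 + I * wk κ * Complex.exp (-(I * θ)))
      + -(I * wk κ * Complex.exp (I * θ)) / (1 + I * wk κ * Complex.exp (I * θ))) := by
  have e1 : Complex.exp (-(I * θ)) = (Complex.exp (I * θ))⁻¹ := Complex.exp_neg _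
  have hne : Complex.exp (I * (θ : ℂ)) ≠ 0 := Complex.exp_ne_zero _
  have hcos : ((Real.cos θ : ℝ) : ℂ) =
      (Complex.exp (I * θ) + (Complex.exp (I * θ))⁻¹) / 2 := by
    rw [Complex.ofReal_cos, Complex.cos, ← e1]
    congr 2
    · rw [mul_comm]
    · rw [neg_mul, mul_comm]
  have h1 : 1 + I * (wk κ : ℂ) * (Complex.exp (I * θ))⁻¹ ≠ 0 := by
    rw [← e1]
    exact Complex.slitPlane_ne_zero (slit_aux (abs_wk_lt κ) (norm_exp_neg_I θ))
  have h2 : 1 + I * (wk κ : ℂ) * (Complex.exp (I * θ)) ≠ 0 :=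
    Complex.slitPlane_ne_zero (slit_aux (abs_wk_lt κ) (norm_exp_I θ))
  have h3 : (1 + I * ((κ * Real.cos θ : ℝ) : ℂ)) ≠ 0 := uz_den_ne κ θ
  have hs : (sk κ : ℂ) ≠ 0 := Complex.ofReal_ne_zero.2 (sk_pos κ).ne'
  have hk : (κ : ℂ) = wk κ * (1 + sk κ) := by
    rw [← Complex.ofReal_one, ← Complex.ofReal_add, ← Complex.ofReal_mul, wk_eq]
  have hw2 : (wk κ : ℂ) ^ 2 * (1 + sk κ) = sk κ - 1 := by
    exact_mod_cast congrArg (fun x : ℝ => (x : ℂ)) (wk_sq κ)
  unfold uz vk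
  rw [e1]
  rw [Complex.ofReal_mul, hcos] at h3 ⊢
  generalize Complex.exp (I * (θ : ℂ)) = E at *
  push_cast
  rw [hk] at h3 ⊢
  generalize (wk κ : ℂ) = w at *
  generalize (sk κ : ℂ) = s at *
  have hE2 : E + I * w ≠ 0 := by
    intro h
    apply h1
    field_simp
    linear_combination h
  have hI : I ^ 2 = -1 := Complex.I_sq
  have h3' : 2 * E + I * (w * (1 + s)) * (E ^ 2 + 1) ≠ 0 := by
    intro h
    apply h3
    field_simp
    linear_combination h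
  have key : 2 * E + I * (w * (1 + s)) * (E ^ 2 + 1) =
      (1 + s) * (E + I * w) * (1 + I * w * E) := by
    linear_combination E * hw2 - E * w ^ 2 * (1 + s) * hI
  rw [key] at h3'
  have hs1 : (1 + s) ≠ 0 := fun h => h3' (by rw [h]; ring)
  have h2' : 1 + I * w * E ≠ 0 := h2
  have hden : 1 + I * (w * (1 + s) * ((E + E⁻¹) / 2)) =
      (1 + s) * (E + I * w) * (1 + I * w * E) / (2 * E) := by
    rw [← key]
    field_simp
  have hnum : 1 - I * (w * (1 + s) * ((E + E⁻¹) / 2)) =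
      (4 * E - (1 + s) * (E + I * w) * (1 + I * w * E)) / (2 * E) := by
    rw [← key]
    field_simp
    ring
  rw [hden, hnum]
  have hd3 : 1 + I * w * E⁻¹ = (E + I * w) / E := by
    field_simp
  rw [hd3]
  have g1 : ∀ Q : ℂ, Q ≠ 0 → (4 * E - Q) / (2 * E) / (Q / (2 * E)) - (2 / s - 1) =
      (4 * E * s - 2 * Q) / (s * Q) := by
    intro Q hQ
    field_simp
    ring
  have g2 : ∀ a b : ℂ, a ≠ 0 → b ≠ 0 →
      2 / s * (-(I * w * E⁻¹) / (a / E) + -(I * w * E) / b) =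
      - (2 * (I * w) * (b + E * a)) / (s * (a * b)) := by
    intro a b ha hb
    field_simp
    ring
  rw [g1 _ h3', g2 _ _ hE2 h2', div_eq_div_iff (mul_ne_zero hs h3')
    (mul_ne_zero hs (mul_ne_zero hE2 h2'))]
  linear_combination (-2 * s * (E + I * w) * (1 + I * w * E) * E) * hw2 +
    (2 * s * (E + I * w) * (1 + I * w * E) * E * (1 + s) * w ^ 2) * hI

theorem hasDerivAt_exp_I (θ : ℝ) : HasDerivAt (fun t : ℝ => Complex.exp (I * (t : ℂ)))
    (I * Complex.exp (I * (θ : ℂ))) θ := by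
  have h1 : HasDerivAt (fun t : ℝ => I * (t : ℂ)) (I * 1) θ :=
    (hasDerivAt_id θ).ofReal_comp.const_mul I
  have h2 := h1.cexp
  rw [mul_one, mul_comm] at h2
  exact h2

theorem hasDerivAt_exp_neg_I (θ : ℝ) : HasDerivAt (fun t : ℝ => Complex.exp (-(I * (t : ℂ))))
    (-I * Complex.exp (-(I * (θ : ℂ)))) θ := by
  have h1 : HasDerivAt (fun t : ℝ => -(I * (t : ℂ))) (-(I * 1)) θ :=
    ((hasDerivAt_id θ).ofReal_comp.const_mul I).neg
  have h2 := h1.cexp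
  rw [mul_one, mul_comm] at h2
  exact h2

/-- `Gz κ` is a primitive of `uz κ - vk κ` -/
theorem hasDerivAt_Gz (κ θ : ℝ) : HasDerivAt (Gz κ) (uz κ θ - vk κ) θ := by
  have a1 : HasDerivAt (fun t : ℝ => 1 + I * wk κ * Complex.exp (-(I * (t : ℂ))))
      (I * wk κ * (-I * Complex.exp (-(I * (θ : ℂ))))) θ :=
    ((hasDerivAt_exp_neg_I θ).const_mul _).const_add 1
  have a2 : HasDerivAt (fun t : ℝ => 1 + I * wk κ * Complex.exp (I * (t : ℂ)))
      (I * wk κ * (I * Complex.exp (I * (θ : ℂ)))) θ :=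
    ((hasDerivAt_exp_I θ).const_mul _).const_add 1
  have b1 := (HasDerivAt.clog_real a1 (slit_aux (abs_wk_lt κ) (norm_exp_neg_I θ)))
  have b2 := (HasDerivAt.clog_real a2 (slit_aux (abs_wk_lt κ) (norm_exp_I θ)))
  have c1 := (b1.sub b2).const_mul (2 / (I * sk κ))
  refine c1.congr_deriv ?_
  rw [uz_sub_vk]
  have h1 : 1 + I * (wk κ : ℂ) * Complex.exp (-(I * θ)) ≠ 0 :=
    Complex.slitPlane_ne_zero (slit_aux (abs_wk_lt κ) (norm_exp_neg_I θ))
  have h2 : 1 + I * (wk κ : ℂ) * (Complex.exp (I * θ)) ≠ 0 :=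
    Complex.slitPlane_ne_zero (slit_aux (abs_wk_lt κ) (norm_exp_I θ))
  have hs : (sk κ : ℂ) ≠ 0 := Complex.ofReal_ne_zero.2 (sk_pos κ).ne'
  have hI := Complex.I_ne_zero
  field_simp
  ring

end Vale.Agent.P205.TW
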