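import Vale.Agent.P205.TW.Chi1

/-!
P205, block CHI (2): the full winding (Moebius) loop
`EM v θ = (exp (i θ) + v) / (1 + v exp (i θ)) = exp (i Mv v θ)` of mean `v`, its angle `Mv v` and
its periodic primitive `GM v`.
-/

open scoped ContDiff ComplexConjugate
open Complex

namespace Vale.Agent.P205.TW

/-- the zero winding loop is `exp (-2 i arctan (κ cos θ))` -/
theorem uz_eq_exp (κ θ : ℝ) :
    uz κ θ = Complex.exp (I * ((-(2 * Real.arctan (κ * Real.cos θ)) : ℝ) : ℂ)) := by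
  set q : ℝ := κ * Real.cos θ with hq
  have h1 : 0 < Real.sqrt (1 + q ^ 2) := Real.sqrt_pos.2 (by positivity)
  have h2 : Real.sqrt (1 + q ^ 2) ^ 2 = 1 + q ^ 2 := Real.sq_sqrt (by positivity)
  have hc := Real.cos_arctan q
  have hs := Real.sin_arctan q
  have e1 : Complex.exp (I * ((-(2 * Real.arctan q) : ℝ) : ℂ)) =
      (((Real.cos (Real.arctan q) : ℝ) : ℂ) - ((Real.sin (Real.arctan q) : ℝ) : ℂ) * I) ^ 2 := by
    rw [show I * ((-(2 * Real.arctan q) : ℝ) : ℂ) =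
      ((2 : ℕ) : ℂ) * (-((Real.arctan q : ℝ) : ℂ) * I) by push_cast; ring, Complex.exp_nat_mul]
    congr 1
    rw [Complex.exp_mul_I, Complex.cos_neg, Complex.sin_neg]
    push_cast
    ring
  have hden := uz_den_ne κ θ
  rw [← hq] at hden
  unfold uz
  rw [← hq, e1, hc, hs, div_eq_iff hden]
  have h3 : ((Real.sqrt (1 + q ^ 2) : ℝ) : ℂ) ≠ 0 := Complex.ofReal_ne_zero.2 h1.ne'
  have h4 : ((Real.sqrt (1 + q ^ 2) : ℝ) : ℂ) ^ 2 = 1 + (q : ℂ) ^ 2 := by
    rw [← Complex.ofReal_pow, h2]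
    push_cast
    ring
  push_cast
  generalize ((Real.sqrt (1 + q ^ 2) : ℝ) : ℂ) = R at *
  field_simp
  linear_combination (1 - I * (q : ℂ)) * h4 + (1 - I * (q : ℂ)) * (q : ℂ) ^ 2 * Complex.I_sq

/-- the angle of the full winding loop -/
noncomputable def Mv (v θ : ℝ) : ℝ :=
  θ - 2 * Real.arctan (v * Real.sin θ / (1 + v * Real.cos θ))

/-- the full winding loop -/
noncomputable def EM (v θ : ℝ) : ℂ :=
  (Complex.exp (I * θ) + v) / (1 + v * Complex.exp (I * θ))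

/-- the periodic primitive of `EM v θ - v` -/
noncomputable def GM (v θ : ℝ) : ℂ :=
  (1 - v ^ 2) / (I * v) * Complex.log (1 + v * Complex.exp (I * θ))

theorem slit_aux' {v : ℝ} (hv : |v| < 1) {z : ℂ} (hz : ‖z‖ = 1) :
    1 + (v : ℂ) * z ∈ Complex.slitPlane := by
  left
  have h1 : ‖(v : ℂ) * z‖ < 1 := by
    rw [norm_mul, hz, Complex.norm_real, Real.norm_eq_abs]
    linarith
  have h2 := Complex.abs_re_le_norm ((v : ℂ) * z)
  have h3 : -1 < ((v : ℂ) * z).re := (abs_lt.1 (lt_of_le_of_lt h2 h1)).1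
  rw [Complex.add_re, Complex.one_re]
  linarith

theorem one_add_pos {v : ℝ} (hv : |v| < 1) (θ : ℝ) : 0 < 1 + v * Real.cos θ := by
  have h1 := Real.abs_cos_le_one θ
  have h2 : |v * Real.cos θ| < 1 := by
    rw [abs_mul]
    have := abs_nonneg v
    nlinarith [abs_nonneg (Real.cos θ)]
  linarith [(abs_lt.1 h2).1]

theorem exp_I_eq (θ : ℝ) : Complex.exp (I * (θ : ℂ)) =
    ((Real.cos θ : ℝ) : ℂ) + ((Real.sin θ : ℝ) : ℂ) * I := by
  rw [mul_comm, Complex.exp_mul_I, Complex.ofReal_cos, Complex.ofReal_sin]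

theorem EM_alg {c s y R v : ℂ} (h4 : R ^ 2 = 1 + y ^ 2) (hyc : y * (1 + v * c) = v * s)
    (hcs : c ^ 2 + s ^ 2 = 1) (h3 : R ≠ 0) :
    c + s * I + v = (c + s * I) * (1 / R - y / R * I) ^ 2 * (1 + v * (c + s * I)) := by
  field_simp
  linear_combination (c + s * I + v) * h4 + ((1 + y ^ 2) * (c + s * I) * I +
    (c + s * I) * (1 - y * I) ^ 2 * I) * hyc + (-(1 + y ^ 2) * v) * hcs +
    ((1 + y ^ 2) * v * s ^ 2 + (c + s * I) * (1 + v * c) * (1 - y * I) * y ^ 2) * Complex.I_sq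

theorem EM_eq_exp {v : ℝ} (hv : |v| < 1) (θ : ℝ) :
    EM v θ = Complex.exp (I * ((Mv v θ : ℝ) : ℂ)) := by
  have hpos := one_add_pos hv θ
  set y : ℝ := v * Real.sin θ / (1 + v * Real.cos θ) with hy
  have h1 : 0 < Real.sqrt (1 + y ^ 2) := Real.sqrt_pos.2 (by positivity)
  have h2 : Real.sqrt (1 + y ^ 2) ^ 2 = 1 + y ^ 2 := Real.sq_sqrt (by positivity)
  have hc := Real.cos_arctan y
  have hs := Real.sin_arctan y
  have e1 : Complex.exp (I * ((Mv v θ : ℝ) : ℂ)) = Complex.exp (I * (θ : ℂ)) *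
      (((Real.cos (Real.arctan y) : ℝ) : ℂ) - ((Real.sin (Real.arctan y) : ℝ) : ℂ) * I) ^ 2 := by
    rw [Mv, ← hy, show I * ((θ - 2 * Real.arctan y : ℝ) : ℂ) = I * (θ : ℂ) +
      ((2 : ℕ) : ℂ) * (-((Real.arctan y : ℝ) : ℂ) * I) by push_cast; ring,
      Complex.exp_add, Complex.exp_nat_mul]
    congr 2
    rw [Complex.exp_mul_I, Complex.cos_neg, Complex.sin_neg]
    push_cast
    ring
  have hden : 1 + (v : ℂ) * Complex.exp (I * θ) ≠ 0 :=
    Complex.slitPlane_ne_zero (slit_aux' hv (norm_exp_I θ))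
  have h3 : ((Real.sqrt (1 + y ^ 2) : ℝ) : ℂ) ≠ 0 := Complex.ofReal_ne_zero.2 h1.ne'
  have h4 : ((Real.sqrt (1 + y ^ 2) : ℝ) : ℂ) ^ 2 = 1 + (y : ℂ) ^ 2 := by
    rw [← Complex.ofReal_pow, h2]
    push_cast
    ring
  have hyc : (y : ℂ) * (1 + v * ((Real.cos θ : ℝ) : ℂ)) = v * ((Real.sin θ : ℝ) : ℂ) := by
    have : y * (1 + v * Real.cos θ) = v * Real.sin θ := by
      rw [hy]
      field_simp
    exact_mod_cast congrArg (fun x : ℝ => (x : ℂ)) this
  have hcs : ((Real.cos θ : ℝ) : ℂ) ^ 2 + ((Real.sin θ : ℝ) : ℂ) ^ 2 = 1 := by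
    exact_mod_cast congrArg (fun x : ℝ => (x : ℂ)) (Real.cos_sq_add_sin_sq θ)
  unfold EM
  rw [div_eq_iff hden, e1, hc, hs, exp_I_eq, Complex.ofReal_div, Complex.ofReal_div,
    Complex.ofReal_one]
  exact EM_alg h4 hyc hcs h3

theorem norm_EM {v : ℝ} (hv : |v| < 1) (θ : ℝ) : ‖EM v θ‖ = 1 := by
  rw [EM_eq_exp hv]
  exact norm_exp_I _

theorem Mv_neg (v θ : ℝ) : Mv v (-θ) = -Mv v θ := by
  unfold Mv
  rw [Real.sin_neg, Real.cos_neg, mul_neg, neg_div, Real.arctan_neg]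
  ring

theorem Mv_zero (v : ℝ) : Mv v 0 = 0 := by
  simp [Mv]

theorem Mv_add (v θ : ℝ) : Mv v (θ + 2 * Real.pi) = Mv v θ + 2 * Real.pi := by
  unfold Mv
  rw [Real.sin_add_two_pi, Real.cos_add_two_pi]
  ring

theorem EM_periodic (v θ : ℝ) : EM v (θ + 2 * Real.pi) = EM v θ := by
  unfold EM
  rw [exp_per]

theorem GM_periodic (v θ : ℝ) : GM v (θ + 2 * Real.pi) = GM v θ := by
  unfold GM
  rw [exp_per]

theorem conj_exp_I (θ : ℝ) : conj (Complex.exp (I * (θ : ℂ))) =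
    Complex.exp (I * ((-θ : ℝ) : ℂ)) := by
  rw [← Complex.exp_conj, map_mul, Complex.conj_I, Complex.conj_ofReal, Complex.ofReal_neg,
    neg_mul, mul_neg]

theorem EM_neg (v θ : ℝ) : EM v (-θ) = conj (EM v θ) := by
  unfold EM
  rw [map_div₀, map_add, map_add, map_mul, Complex.conj_ofReal, map_one, conj_exp_I]

theorem GM_neg {v : ℝ} (hv : |v| < 1) (θ : ℝ) : GM v (-θ) = -conj (GM v θ) := by
  have hsl := slit_aux' hv (norm_exp_I θ)
  unfold GM
  rw [map_mul, ← Complex.log_conj _ (Complex.slitPlane_arg_ne_pi hsl), map_div₀, map_mul,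
    Complex.conj_I, map_add, map_one, map_mul, conj_exp_I, Complex.conj_ofReal, map_sub, map_pow,
    Complex.conj_ofReal, map_one, neg_mul, div_neg, neg_mul, neg_neg]

theorem hasDerivAt_GM {v : ℝ} (hv : |v| < 1) (hv0 : v ≠ 0) (θ : ℝ) :
    HasDerivAt (GM v) (EM v θ - v) θ := by
  have a2 : HasDerivAt (fun t : ℝ => 1 + (v : ℂ) * Complex.exp (I * (t : ℂ)))
      ((v : ℂ) * (I * Complex.exp (I * (θ : ℂ)))) θ :=
    ((hasDerivAt_exp_I θ).const_mul _).const_add 1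
  have b2 := (HasDerivAt.clog_real a2 (slit_aux' hv (norm_exp_I θ)))
  have c1 := b2.const_mul ((1 - (v : ℂ) ^ 2) / (I * v))
  refine c1.congr_deriv ?_
  have h2 : 1 + (v : ℂ) * (Complex.exp (I * θ)) ≠ 0 :=
    Complex.slitPlane_ne_zero (slit_aux' hv (norm_exp_I θ))
  have hI := Complex.I_ne_zero
  have hvc : (v : ℂ) ≠ 0 := Complex.ofReal_ne_zero.2 hv0
  unfold EM
  field_simp
  ring

theorem hasDerivAt_Mv {v : ℝ} (hv : |v| < 1) (θ : ℝ) :
    HasDerivAt (Mv v) ((1 - v ^ 2) / (1 + 2 * v * Real.cos θ + v ^ 2)) θ := by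
  have hpos := one_add_pos hv θ
  have h1 : HasDerivAt (fun t => v * Real.sin t) (v * Real.cos θ) θ :=
    (Real.hasDerivAt_sin θ).const_mul v
  have h2 : HasDerivAt (fun t => 1 + v * Real.cos t) (v * (-Real.sin θ)) θ :=
    ((Real.hasDerivAt_cos θ).const_mul v).const_add 1
  have h3 := ((h1.div h2 hpos.ne').arctan.const_mul 2)
  have h4 := (hasDerivAt_id θ).sub h3
  refine h4.congr_deriv ?_
  have hcs := Real.cos_sq_add_sin_sq θ
  have hd : 0 < 1 + 2 * v * Real.cos θ + v ^ 2 := by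
    have : 1 + 2 * v * Real.cos θ + v ^ 2 = (1 + v * Real.cos θ) ^ 2 +
        (v * Real.sin θ) ^ 2 := by
      linear_combination (-v ^ 2) * hcs
    rw [this]
    positivity
  have hd2 : 1 + (v * Real.sin θ / (1 + v * Real.cos θ)) ^ 2 =
      (1 + 2 * v * Real.cos θ + v ^ 2) / (1 + v * Real.cos θ) ^ 2 := by
    field_simp
    linear_combination v ^ 2 * hcs
  have hp' := hpos.ne'
  have hd' := hd.ne'
  simp only [Pi.div_apply]
  rw [hd2]
  field_simp
  linear_combination (-2 * v ^ 2) * hcs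

theorem Mv_deriv_pos {v : ℝ} (hv : |v| < 1) (θ : ℝ) :
    (1 - v ^ 2) / (1 + |v|) ^ 2 ≤ (1 - v ^ 2) / (1 + 2 * v * Real.cos θ + v ^ 2) := by
  have hcs := Real.cos_sq_add_sin_sq θ
  have hpos := one_add_pos hv θ
  have hd : 0 < 1 + 2 * v * Real.cos θ + v ^ 2 := by
    have : 1 + 2 * v * Real.cos θ + v ^ 2 = (1 + v * Real.cos θ) ^ 2 +
        (v * Real.sin θ) ^ 2 := by
      linear_combination (-v ^ 2) * hcs
    rw [this]
    positivity
  have h1 : 0 ≤ 1 - v ^ 2 := by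
    have := abs_lt.1 hv
    nlinarith
  refine div_le_div_of_nonneg_left h1 hd ?_
  have h2 : v * Real.cos θ ≤ |v| := by
    refine (le_abs_self _).trans ?_
    rw [abs_mul]
    exact mul_le_of_le_one_right (abs_nonneg _) (Real.abs_cos_le_one θ)
  nlinarith [sq_abs v]

theorem contDiff_Mv {v : ℝ} (hv : |v| < 1) : ContDiff ℝ ∞ (Mv v) := by
  unfold Mv
  refine contDiff_id.sub (contDiff_const.mul ?_)
  refine Real.contDiff_arctan.comp ?_
  exact (contDiff_const.mul Real.contDiff_sin).div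
    (contDiff_const.add (contDiff_const.mul Real.contDiff_cos)) fun x => (one_add_pos hv x).ne'

end Vale.Agent.P205.TW
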