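import Mathlib

/-!
P205, block CHI (3): uniform bounds.

`Reg a Φ`: `Φ (x, θ)` is smooth, `2π`-periodic in `θ` for `θ < 0`, `2π`-periodic up to the
constant `a` for `θ > 1`, and constant in `x` for `x < 0` and for `x > 3`.  For such a function
with `a = 0` all derivatives of order `k` of `x ↦ Φ (x, μ (x - 1))` are `≤ C_k μ^k` (`μ ≥ 1`).
-/

open scoped ContDiff Topology

namespace Vale.Agent.P205.TW

section

variable {E : Type*} [NormedAddCommGroup E] [NormedSpace ℝ E]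

/-- regular two-scale functions -/
structure Reg (a : E) (Φ : ℝ × ℝ → E) : Prop where
  smooth : ContDiff ℝ ∞ Φ
  perL : ∀ x θ : ℝ, θ < 0 → Φ (x, θ + -(2 * Real.pi)) = Φ (x, θ)
  perR : ∀ x θ : ℝ, 1 < θ → Φ (x, θ + 2 * Real.pi) = Φ (x, θ) + a
  cstL : ∀ x d θ : ℝ, x < 0 → x + d < 0 → Φ (x + d, θ) = Φ (x, θ)
  cstR : ∀ x d θ : ℝ, 3 < x → 3 < x + d → Φ (x + d, θ) = Φ (x, θ)

/-- derivative in the first variable -/
noncomputable def d1 (Φ : ℝ × ℝ → E) (p : ℝ × ℝ) : E := fderiv ℝ Φ p (1, 0)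

/-- derivative in the second variable -/
noncomputable def d2 (Φ : ℝ × ℝ → E) (p : ℝ × ℝ) : E := fderiv ℝ Φ p (0, 1)

theorem fderiv_shift {Φ : ℝ × ℝ → E} {p d : ℝ × ℝ} {a : E}
    (h : ∀ᶠ q in 𝓝 p, Φ (q + d) = Φ q + a) : fderiv ℝ Φ (p + d) = fderiv ℝ Φ p := by
  rw [← fderiv_comp_add_right]
  have h1 : (fun x => Φ (x + d)) =ᶠ[𝓝 p] fun q => Φ q + a := h
  rw [h1.fderiv_eq]
  exact fderiv_add_const a

theorem contDiff_fderiv_apply' {Φ : ℝ × ℝ → E} (h : ContDiff ℝ ∞ Φ) (v : ℝ × ℝ) :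
    ContDiff ℝ ∞ (fun p => fderiv ℝ Φ p v) :=
  (contDiff_infty_iff_fderiv.1 h).2.clm_apply contDiff_const

theorem Reg.fderiv {a : E} {Φ : ℝ × ℝ → E} (h : Reg a Φ) (v : ℝ × ℝ) :
    Reg (0 : E) (fun p => fderiv ℝ Φ p v) := by
  refine ⟨contDiff_fderiv_apply' h.smooth v, ?_, ?_, ?_, ?_⟩
  · intro x θ hθ
    have e : ∀ᶠ q : ℝ × ℝ in 𝓝 (x, θ), Φ (q + (0, -(2 * Real.pi))) = Φ q + 0 := by
      have h1 : ∀ᶠ q : ℝ × ℝ in 𝓝 (x, θ), q.2 < 0 :=
        continuous_snd.continuousAt.eventually_lt continuousAt_const hθ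
      filter_upwards [h1] with q hq
      rw [add_zero, ← h.perL q.1 q.2 hq]
      congr 1
      ext <;> simp
    have := fderiv_shift e
    simp only [Prod.mk_add_mk, add_zero] at this
    rw [this]
  · intro x θ hθ
    have e : ∀ᶠ q : ℝ × ℝ in 𝓝 (x, θ), Φ (q + (0, 2 * Real.pi)) = Φ q + a := by
      have h1 : ∀ᶠ q : ℝ × ℝ in 𝓝 (x, θ), 1 < q.2 :=
        continuousAt_const.eventually_lt continuous_snd.continuousAt hθ
      filter_upwards [h1] with q hq
      rw [← h.perR q.1 q.2 hq]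
      congr 1
      ext <;> simp
    have := fderiv_shift e
    simp only [Prod.mk_add_mk, add_zero] at this
    rw [this, add_zero]
  · intro x d θ hx hd
    have e : ∀ᶠ q : ℝ × ℝ in 𝓝 (x, θ), Φ (q + (d, 0)) = Φ q + 0 := by
      have h1 : ∀ᶠ q : ℝ × ℝ in 𝓝 (x, θ), q.1 < 0 :=
        continuous_fst.continuousAt.eventually_lt continuousAt_const hx
      have h2 : ∀ᶠ q : ℝ × ℝ in 𝓝 (x, θ), q.1 + d < 0 :=
        (continuous_fst.add continuous_const).continuousAt.eventually_lt continuousAt_const hd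
      filter_upwards [h1, h2] with q hq hq2
      rw [add_zero, ← h.cstL q.1 d q.2 hq hq2]
      congr 1
      ext <;> simp
    have := fderiv_shift e
    simp only [Prod.mk_add_mk, add_zero] at this
    rw [this]
  · intro x d θ hx hd
    have e : ∀ᶠ q : ℝ × ℝ in 𝓝 (x, θ), Φ (q + (d, 0)) = Φ q + 0 := by
      have h1 : ∀ᶠ q : ℝ × ℝ in 𝓝 (x, θ), 3 < q.1 :=
        continuousAt_const.eventually_lt continuous_fst.continuousAt hx
      have h2 : ∀ᶠ q : ℝ × ℝ in 𝓝 (x, θ), 3 < q.1 + d :=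
        continuousAt_const.eventually_lt (continuous_fst.add continuous_const).continuousAt hd
      filter_upwards [h1, h2] with q hq hq2
      rw [add_zero, ← h.cstR q.1 d q.2 hq hq2]
      congr 1
      ext <;> simp
    have := fderiv_shift e
    simp only [Prod.mk_add_mk, add_zero] at this
    rw [this]

theorem Reg.d1 {a : E} {Φ : ℝ × ℝ → E} (h : Reg a Φ) : Reg (0 : E) (d1 Φ) := h.fderiv _

theorem Reg.d2 {a : E} {Φ : ℝ × ℝ → E} (h : Reg a Φ) : Reg (0 : E) (d2 Φ) := h.fderiv _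

/-- a regular function is bounded -/
theorem Reg.bounded {Φ : ℝ × ℝ → E} (h : Reg (0 : E) Φ) : ∃ C : ℝ, ∀ p, ‖Φ p‖ ≤ C := by
  have hpi := Real.pi_pos
  have hcomp : IsCompact (Set.Icc (-1 : ℝ) 4 ×ˢ Set.Icc (-(2 * Real.pi)) (1 + 2 * Real.pi)) :=
    isCompact_Icc.prod isCompact_Icc
  obtain ⟨C, hC⟩ := hcomp.exists_bound_of_continuousOn h.smooth.continuous.continuousOn
  have hnegm : ∀ (m : ℕ) (x θ : ℝ), x ∈ Set.Icc (-1 : ℝ) 4 → -(2 * Real.pi) * (m + 1) ≤ θ →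
      θ ≤ 1 + 2 * Real.pi → ‖Φ (x, θ)‖ ≤ C := by
    intro m
    induction m with
    | zero =>
      intro x θ hx h1 h2
      refine hC _ ⟨hx, ?_, h2⟩
      simpa using h1
    | succ m ih =>
      intro x θ hx h1 h2
      rcases le_or_gt (-(2 * Real.pi) * (m + 1)) θ with h3 | h3
      · exact ih x θ hx h3 h2
      · have h4 : θ + 2 * Real.pi < 0 ∨ 0 ≤ θ + 2 * Real.pi := lt_or_ge _ _
        rcases h4 with h4 | h4
        · have h5 := h.perL x (θ + 2 * Real.pi) h4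
          rw [add_neg_cancel_right] at h5
          rw [h5]
          refine ih x _ hx ?_ (by linarith)
          push_cast at h1
          linarith
        · refine hC _ ⟨hx, ?_, h2⟩
          simp only
          linarith
  have hneg : ∀ (x θ : ℝ), x ∈ Set.Icc (-1 : ℝ) 4 → θ ≤ 1 + 2 * Real.pi → ‖Φ (x, θ)‖ ≤ C := by
    intro x θ hx h2
    obtain ⟨m, hm⟩ := exists_nat_ge (-θ / (2 * Real.pi))
    refine hnegm m x θ hx ?_ h2
    rw [div_le_iff₀ (by positivity)] at hm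
    nlinarith
  have hposm : ∀ (m : ℕ) (x θ : ℝ), x ∈ Set.Icc (-1 : ℝ) 4 → θ ≤ 1 + 2 * Real.pi * (m + 1) →
      ‖Φ (x, θ)‖ ≤ C := by
    intro m
    induction m with
    | zero =>
      intro x θ hx h1
      exact hneg x θ hx (by simpa using h1)
    | succ m ih =>
      intro x θ hx h1
      rcases le_or_gt θ (1 + 2 * Real.pi) with h3 | h3
      · exact hneg x θ hx h3
      · have h5 := h.perR x (θ - 2 * Real.pi) (by linarith)
        rw [sub_add_cancel, add_zero] at h5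
        rw [h5]
        refine ih x _ hx ?_
        push_cast at h1
        linarith
  have hall : ∀ (x θ : ℝ), x ∈ Set.Icc (-1 : ℝ) 4 → ‖Φ (x, θ)‖ ≤ C := by
    intro x θ hx
    obtain ⟨m, hm⟩ := exists_nat_ge (θ / (2 * Real.pi))
    refine hposm m x θ hx ?_
    rw [div_le_iff₀ (by positivity)] at hm
    nlinarith
  refine ⟨C, fun p => ?_⟩
  obtain ⟨x, θ⟩ := p
  rcases lt_or_ge x 0 with hx | hx
  · have h1 := h.cstL x (-1 - x) θ hx (by linarith)
    rw [← h1, show x + (-1 - x) = -1 by ring]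
    exact hall _ _ ⟨le_rfl, by norm_num⟩
  · rcases le_or_gt x 3 with hx3 | hx3
    · exact hall _ _ ⟨by linarith, by linarith⟩
    · have h1 := h.cstR x (4 - x) θ hx3 (by linarith)
      rw [← h1, show x + (4 - x) = 4 by ring]
      exact hall _ _ ⟨by norm_num, le_rfl⟩

/-- the two-scale curve -/
theorem hasDerivAt_twoScale {Φ : ℝ × ℝ → E} (h : ContDiff ℝ ∞ Φ) (μ x : ℝ) :
    HasDerivAt (fun x => Φ (x, μ * (x - 1))) (d1 Φ (x, μ * (x - 1)) + μ • d2 Φ (x, μ * (x - 1)))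
      x := by
  have h1 : HasFDerivAt Φ (fderiv ℝ Φ (x, μ * (x - 1))) (x, μ * (x - 1)) :=
    (h.differentiable (by simp)).differentiableAt.hasFDerivAt
  have h2 : HasDerivAt (fun x : ℝ => (x, μ * (x - 1))) (1, μ * 1) x :=
    (hasDerivAt_id x).prodMk (((hasDerivAt_id x).sub_const 1).const_mul μ)
  have h3 := h1.comp_hasDerivAt x h2
  refine h3.congr_deriv ?_
  rw [mul_one, d1, d2, ← map_smul, ← map_add]
  congr 1
  ext <;> simp

theorem contDiff_twoScale {Φ : ℝ × ℝ → E} (h : ContDiff ℝ ∞ Φ) (μ : ℝ) :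
    ContDiff ℝ ∞ (fun x => Φ (x, μ * (x - 1))) :=
  h.comp (contDiff_id.prodMk (contDiff_const.mul (contDiff_id.sub contDiff_const)))

/-- uniform bounds of the two-scale curve -/
theorem Reg.bound (k : ℕ) : ∀ {Φ : ℝ × ℝ → E}, Reg (0 : E) Φ → ∃ C : ℝ, 0 ≤ C ∧
    ∀ μ : ℝ, 1 ≤ μ → ∀ x : ℝ, ‖iteratedDeriv k (fun x => Φ (x, μ * (x - 1))) x‖ ≤ C * μ ^ k := by
  induction k with
  | zero =>
    intro Φ h
    obtain ⟨C, hC⟩ := h.bounded
    refine ⟨C, (norm_nonneg _).trans (hC (0, 0)), fun μ _ x => ?_⟩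
    simpa using hC _
  | succ k ih =>
    intro Φ h
    obtain ⟨C1, h1, hC1⟩ := ih h.d1
    obtain ⟨C2, h2, hC2⟩ := ih h.d2
    refine ⟨C1 + C2, by positivity, fun μ hμ x => ?_⟩
    have e : deriv (fun x => Φ (x, μ * (x - 1))) =
        (fun x => TW.d1 Φ (x, μ * (x - 1))) + μ • (fun x => TW.d2 Φ (x, μ * (x - 1))) := by
      funext y
      exact (hasDerivAt_twoScale h.smooth μ y).deriv
    have s1 := contDiff_twoScale h.d1.smooth μ
    have s2 := contDiff_twoScale h.d2.smooth μ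
    have s3 : ContDiff ℝ ∞ (μ • fun x => TW.d2 Φ (x, μ * (x - 1))) := s2.const_smul μ
    rw [iteratedDeriv_succ', e, iteratedDeriv_add (s1.contDiffAt.of_le (by exact_mod_cast le_top))
      (s3.contDiffAt.of_le (by exact_mod_cast le_top)),
      iteratedDeriv_const_smul (s2.contDiffAt.of_le (by exact_mod_cast le_top)) μ]
    refine (norm_add_le _ _).trans ?_
    rw [norm_smul, Real.norm_of_nonneg (by linarith : (0:ℝ) ≤ μ)]
    have b1 := hC1 μ hμ x
    have b2 := hC2 μ hμ x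
    have hk : (0:ℝ) ≤ μ ^ k := by positivity
    calc _ ≤ C1 * μ ^ k + μ * (C2 * μ ^ k) :=
          add_le_add b1 (mul_le_mul_of_nonneg_left b2 (by linarith))
      _ ≤ C1 * μ ^ k * μ + μ * (C2 * μ ^ k) := by
          have : C1 * μ ^ k * 1 ≤ C1 * μ ^ k * μ :=
            mul_le_mul_of_nonneg_left hμ (by positivity)
          linarith
      _ = (C1 + C2) * μ ^ (k + 1) := by ring

/-- smooth, with bounds `B k * μ ^ k` for the `k`-th derivative -/
def FBd (B : ℕ → ℝ) (μ : ℝ) (f : ℝ → E) : Prop :=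
  ContDiff ℝ ∞ f ∧ ∀ k x, ‖iteratedDeriv k f x‖ ≤ B k * μ ^ k

theorem Reg.FBd {Φ : ℝ × ℝ → E} (h : Reg (0 : E) Φ) : ∃ B : ℕ → ℝ, ∀ μ : ℝ, 1 ≤ μ →
    FBd B μ (fun x => Φ (x, μ * (x - 1))) := by
  choose B _ hB2 using fun k => Reg.bound k h
  exact ⟨B, fun μ hμ => ⟨contDiff_twoScale h.smooth μ, fun k x => hB2 k μ hμ x⟩⟩

theorem FBd.mono {B B' : ℕ → ℝ} {μ : ℝ} {f : ℝ → E} (h : TW.FBd B μ f) (hμ : 0 ≤ μ)
    (hB : ∀ k, B k ≤ B' k) : TW.FBd B' μ f :=
  ⟨h.1, fun k x => (h.2 k x).trans (mul_le_mul_of_nonneg_right (hB k) (by positivity))⟩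

theorem FBd.reflect {B : ℕ → ℝ} {μ : ℝ} {f : ℝ → E} (h : TW.FBd B μ f) :
    TW.FBd B μ (fun x => f (3 - x)) := by
  refine ⟨h.1.comp (contDiff_const.sub contDiff_id), fun k x => ?_⟩
  rw [iteratedDeriv_comp_const_sub]
  simp only
  rw [norm_smul, norm_pow, norm_neg, norm_one, one_pow, one_mul]
  exact h.2 k _

theorem FBd.neg {B : ℕ → ℝ} {μ : ℝ} {f : ℝ → E} (h : TW.FBd B μ f) :
    TW.FBd B μ (fun x => -f x) := by
  refine ⟨h.1.neg, fun k x => ?_⟩
  rw [iteratedDeriv_fun_neg, norm_neg]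
  exact h.2 k _

theorem FBd.add {B B' : ℕ → ℝ} {μ : ℝ} {f g : ℝ → E} (h : TW.FBd B μ f)
    (h' : TW.FBd B' μ g) : TW.FBd (fun k => B k + B' k) μ (fun x => f x + g x) := by
  refine ⟨h.1.add h'.1, fun k x => ?_⟩
  rw [iteratedDeriv_fun_add (h.1.contDiffAt.of_le (by exact_mod_cast le_top))
    (h'.1.contDiffAt.of_le (by exact_mod_cast le_top)), add_mul]
  exact (norm_add_le _ _).trans (add_le_add (h.2 k x) (h'.2 k x))

/-- glue two functions at `c` -/
noncomputable def glue (c : ℝ) (f g : ℝ → E) (x : ℝ) : E := if x ≤ c then f x else g x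

omit [NormedAddCommGroup E] [NormedSpace ℝ E] in
theorem glue_left {c a b : ℝ} {f g : ℝ → E} (hac : a < c)
    (h : ∀ x, a < x → x < b → f x = g x) {x : ℝ} (hx : x < b) : glue c f g =ᶠ[𝓝 x] f := by
  filter_upwards [isOpen_Iio.mem_nhds hx] with y hy
  unfold glue
  split_ifs with h1
  · rfl
  · exact (h y (by linarith) hy).symm

omit [NormedAddCommGroup E] [NormedSpace ℝ E] in
theorem glue_right {c a b : ℝ} {f g : ℝ → E} (hcb : c < b)
    (h : ∀ x, a < x → x < b → f x = g x) {x : ℝ} (hx : a < x) : glue c f g =ᶠ[𝓝 x] g := by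
  filter_upwards [isOpen_Ioi.mem_nhds hx] with y hy
  unfold glue
  split_ifs with h1
  · exact h y hy (by linarith)
  · rfl

theorem glue_FBd {c a b : ℝ} {f g : ℝ → E} (hac : a < c) (hcb : c < b)
    (h : ∀ x, a < x → x < b → f x = g x) {B : ℕ → ℝ} {μ : ℝ} (hf : TW.FBd B μ f)
    (hg : TW.FBd B μ g) : TW.FBd B μ (glue c f g) := by
  refine ⟨contDiff_iff_contDiffAt.2 fun x => ?_, fun k x => ?_⟩
  · rcases lt_or_ge x b with hx | hx
    · exact hf.1.contDiffAt.congr_of_eventuallyEq (glue_left hac h hx)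
    · exact hg.1.contDiffAt.congr_of_eventuallyEq (glue_right hcb h (by linarith))
  · rcases lt_or_ge x b with hx | hx
    · rw [(glue_left hac h hx).iteratedDeriv_eq]
      exact hf.2 k x
    · rw [(glue_right hcb h (by linarith : a < x)).iteratedDeriv_eq]
      exact hg.2 k x

end

end Vale.Agent.P205.TW
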