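import Vale.Agent.P205.TW.Chi2
import Vale.Agent.P205.TW.Chi3

/-!
P205, block CHI (4): the junction.  On the left half line the angle is
`PP κ₀ (x, θ) = -2 arctan (κ(x) cos θ)` for `θ ≤ 0` and `Mv v₀ θ + 2π` for `θ ≥ 1`,
with `v₀ = vk κ₀`; in between it is increasing.
-/

open scoped ContDiff Topology ComplexConjugate
open Complex

namespace Vale.Agent.P205.TW

/-- the cut off amplitude -/
noncomputable def kf (κ₀ x : ℝ) : ℝ :=
  κ₀ * (Real.smoothTransition (5 * (x - 3 / 5)) * Real.smoothTransition (5 * (12 / 5 - x)))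

theorem contDiff_st : ContDiff ℝ ∞ Real.smoothTransition := by
  have := Real.smoothTransition.contDiff (n := ⊤)
  exact this

theorem contDiff_kf (κ₀ : ℝ) : ContDiff ℝ ∞ (kf κ₀) := by
  unfold kf
  refine contDiff_const.mul (ContDiff.mul ?_ ?_)
  · exact contDiff_st.comp (contDiff_const.mul (contDiff_id.sub contDiff_const))
  · exact contDiff_st.comp (contDiff_const.mul (contDiff_const.sub contDiff_id))

theorem kf_eq {κ₀ x : ℝ} (h1 : 4 / 5 ≤ x) (h2 : x ≤ 11 / 5) : kf κ₀ x = κ₀ := by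
  unfold kf
  rw [Real.smoothTransition.one_of_one_le (by linarith),
    Real.smoothTransition.one_of_one_le (by linarith), mul_one, mul_one]

theorem kf_zero {κ₀ x : ℝ} (h : x ≤ 3 / 5 ∨ 12 / 5 ≤ x) : kf κ₀ x = 0 := by
  unfold kf
  rcases h with h | h
  · rw [Real.smoothTransition.zero_of_nonpos (by linarith : 5 * (x - 3 / 5) ≤ 0), zero_mul,
      mul_zero]
  · rw [Real.smoothTransition.zero_of_nonpos (by linarith : 5 * (12 / 5 - x) ≤ 0), mul_zero,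
      mul_zero]

theorem kf_refl (κ₀ x : ℝ) : kf κ₀ (3 - x) = kf κ₀ x := by
  unfold kf
  rw [show 5 * (3 - x - 3 / 5) = 5 * (12 / 5 - x) by ring,
    show 5 * (12 / 5 - (3 - x)) = 5 * (x - 3 / 5) by ring]
  ring

theorem kf_nonneg {κ₀ : ℝ} (h : 0 ≤ κ₀) (x : ℝ) : 0 ≤ kf κ₀ x :=
  mul_nonneg h (mul_nonneg (Real.smoothTransition.nonneg _) (Real.smoothTransition.nonneg _))

theorem kf_le {κ₀ : ℝ} (h : 0 ≤ κ₀) (x : ℝ) : kf κ₀ x ≤ κ₀ :=
  mul_le_of_le_one_right h (mul_le_one₀ (Real.smoothTransition.le_one _)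
    (Real.smoothTransition.nonneg _) (Real.smoothTransition.le_one _))

/-- the angle, left half -/
noncomputable def PP (κ₀ : ℝ) (p : ℝ × ℝ) : ℝ :=
  (1 - Real.smoothTransition p.2) * (-(2 * Real.arctan (kf κ₀ p.1 * Real.cos p.2))) +
    Real.smoothTransition p.2 * (Mv (vk κ₀) p.2 + 2 * Real.pi)

theorem PP_left {κ₀ x θ : ℝ} (h : θ ≤ 0) :
    PP κ₀ (x, θ) = -(2 * Real.arctan (kf κ₀ x * Real.cos θ)) := by
  unfold PP
  simp only
  rw [Real.smoothTransition.zero_of_nonpos h]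
  ring

theorem PP_right {κ₀ x θ : ℝ} (h : 1 ≤ θ) :
    PP κ₀ (x, θ) = Mv (vk κ₀) θ + 2 * Real.pi := by
  unfold PP
  simp only
  rw [Real.smoothTransition.one_of_one_le h]
  ring

/-- parameters: `0 < κ₀ ≤ 1/4` -/
structure Adm (κ₀ : ℝ) : Prop where
  pos : 0 < κ₀
  le : κ₀ ≤ 1 / 4

theorem Adm.kf_sq {κ₀ : ℝ} (h : Adm κ₀) (x : ℝ) : kf κ₀ x ^ 2 ≤ κ₀ ^ 2 := by
  have h1 := kf_nonneg h.pos.le x
  have h2 := kf_le h.pos.le x
  exact pow_le_pow_left₀ h1 h2 2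

theorem vk_ge {κ : ℝ} : 1 - κ ^ 2 ≤ vk κ := by
  have h1 := sk_pos κ
  have h2 := sk_sq κ
  have h3 := one_le_sk κ
  unfold vk
  rw [le_sub_iff_add_le, le_div_iff₀ h1]
  nlinarith [mul_nonneg (sub_nonneg.2 h3) (sub_nonneg.2 h3), sq_nonneg κ,
    mul_nonneg (sub_nonneg.2 h3) (sq_nonneg κ)]

theorem Adm.vk_pos {κ₀ : ℝ} (h : Adm κ₀) (x : ℝ) : 0 < vk (kf κ₀ x) := by
  have h1 := h.kf_sq x
  have h2 := h.pos
  have h3 := h.le
  have h4 := vk_ge (κ := kf κ₀ x)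
  nlinarith

theorem Adm.vk₀_pos {κ₀ : ℝ} (h : Adm κ₀) : 0 < vk κ₀ := by
  have h2 := h.pos
  have h3 := h.le
  have h4 := vk_ge (κ := κ₀)
  nlinarith

theorem Adm.vk₀_abs {κ₀ : ℝ} (h : Adm κ₀) : |vk κ₀| < 1 := by
  rw [abs_of_pos h.vk₀_pos]
  exact vk_lt_one h.pos.ne'

theorem cos_sub_two_pi' (θ : ℝ) : Real.cos (θ + -(2 * Real.pi)) = Real.cos θ := by
  rw [← sub_eq_add_neg, Real.cos_sub_two_pi]

theorem contDiff_PP {κ₀ : ℝ} (h : Adm κ₀) : ContDiff ℝ ∞ (PP κ₀) := by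
  unfold PP
  have h1 : ContDiff ℝ ∞ (fun p : ℝ × ℝ => Real.smoothTransition p.2) :=
    contDiff_st.comp contDiff_snd
  have h2 : ContDiff ℝ ∞ (fun p : ℝ × ℝ => kf κ₀ p.1 * Real.cos p.2) :=
    ((contDiff_kf κ₀).comp contDiff_fst).mul (Real.contDiff_cos.comp contDiff_snd)
  have h3 : ContDiff ℝ ∞ (fun p : ℝ × ℝ => Mv (vk κ₀) p.2) :=
    (contDiff_Mv h.vk₀_abs).comp contDiff_snd
  exact ((contDiff_const.sub h1).mul (contDiff_const.mul (Real.contDiff_arctan.comp h2)).neg).add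
    (h1.mul (h3.add contDiff_const))

theorem reg_PP {κ₀ : ℝ} (h : Adm κ₀) : Reg (2 * Real.pi) (PP κ₀) := by
  refine ⟨contDiff_PP h, fun x θ hθ => ?_, fun x θ hθ => ?_, fun x d θ hx hd => ?_,
    fun x d θ hx hd => ?_⟩
  · have hpi := Real.pi_pos
    rw [PP_left (by linarith), PP_left hθ.le, cos_sub_two_pi']
  · have hpi := Real.pi_pos
    rw [PP_right (by linarith), PP_right hθ.le, Mv_add]
  · unfold PP
    simp only
    rw [kf_zero (x := x) (Or.inl (by linarith)), kf_zero (x := x + d) (Or.inl (by linarith))]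
  · unfold PP
    simp only
    rw [kf_zero (x := x) (Or.inr (by linarith)), kf_zero (x := x + d) (Or.inr (by linarith))]

/-- a `2π`-periodic function of the angle -/
theorem Reg.comp_per {E F : Type*} [NormedAddCommGroup E] [NormedSpace ℝ E]
    [NormedAddCommGroup F] [NormedSpace ℝ F] {a : E} {Φ : ℝ × ℝ → E}
    (h : Reg a Φ) {g : E → F} (hg : ContDiff ℝ ∞ g) (hp : ∀ t, g (t + a) = g t) :
    Reg (0 : F) (fun p => g (Φ p)) := by
  refine ⟨hg.comp h.smooth, fun x θ hθ => ?_, fun x θ hθ => ?_, fun x d θ hx hd => ?_,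
    fun x d θ hx hd => ?_⟩
  · rw [h.perL x θ hθ]
  · rw [h.perR x θ hθ, hp, add_zero]
  · rw [h.cstL x d θ hx hd]
  · rw [h.cstR x d θ hx hd]

theorem Reg.add' {E : Type*} [NormedAddCommGroup E] [NormedSpace ℝ E] {a b : E}
    {Φ Ψ : ℝ × ℝ → E} (h : Reg a Φ) (h' : Reg b Ψ) : Reg (a + b) (fun p => Φ p + Ψ p) := by
  refine ⟨h.smooth.add h'.smooth, fun x θ hθ => ?_, fun x θ hθ => ?_, fun x d θ hx hd => ?_,
    fun x d θ hx hd => ?_⟩
  · rw [h.perL x θ hθ, h'.perL x θ hθ]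
  · rw [h.perR x θ hθ, h'.perR x θ hθ]
    abel
  · rw [h.cstL x d θ hx hd, h'.cstL x d θ hx hd]
  · rw [h.cstR x d θ hx hd, h'.cstR x d θ hx hd]

theorem reg_cos {κ₀ : ℝ} (h : Adm κ₀) : Reg (0 : ℝ) (fun p => Real.cos (PP κ₀ p)) :=
  (reg_PP h).comp_per Real.contDiff_cos Real.cos_add_two_pi

theorem reg_sin {κ₀ : ℝ} (h : Adm κ₀) : Reg (0 : ℝ) (fun p => Real.sin (PP κ₀ p)) :=
  (reg_PP h).comp_per Real.contDiff_sin Real.sin_add_two_pi

/-- the loop at `κ₀` -/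
noncomputable def EK (κ₀ t : ℝ) : ℂ := Complex.exp (I * ((PP κ₀ (1, t) : ℝ) : ℂ))

theorem kf_one (κ₀ : ℝ) : kf κ₀ 1 = κ₀ := kf_eq (by norm_num) (by norm_num)

theorem EK_left {κ₀ t : ℝ} (ht : t ≤ 0) : EK κ₀ t = uz κ₀ t := by
  rw [EK, PP_left ht, uz_eq_exp, kf_one]

theorem EK_right {κ₀ t : ℝ} (h : Adm κ₀) (ht : 1 ≤ t) : EK κ₀ t = EM (vk κ₀) t := by
  rw [EK, PP_right ht, EM_eq_exp h.vk₀_abs]
  rw [show I * ((Mv (vk κ₀) t + 2 * Real.pi : ℝ) : ℂ) = I * ((Mv (vk κ₀) t : ℝ) : ℂ) +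
    2 * Real.pi * I by push_cast; ring, Complex.exp_periodic]

theorem contDiff_EK {κ₀ : ℝ} (h : Adm κ₀) : ContDiff ℝ ∞ (EK κ₀) := by
  unfold EK
  have h1 : ContDiff ℝ ∞ (fun t : ℝ => PP κ₀ (1, t)) :=
    (contDiff_PP h).comp (contDiff_const.prodMk contDiff_id)
  exact (contDiff_const.mul (Complex.ofRealCLM.contDiff.comp h1)).cexp

theorem contDiff_uz1 (κ : ℝ) : ContDiff ℝ ∞ (uz κ) :=
  contDiff_uz.comp (contDiff_const.prodMk contDiff_id)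

/-- correction of the primitive -/
noncomputable def KK (κ₀ θ : ℝ) : ℂ := ∫ t in (0 : ℝ)..θ, (EK κ₀ t - uz κ₀ t)

theorem hasDerivAt_KK {κ₀ : ℝ} (h : Adm κ₀) (θ : ℝ) :
    HasDerivAt (KK κ₀) (EK κ₀ θ - uz κ₀ θ) θ := by
  have hc : Continuous (fun t => EK κ₀ t - uz κ₀ t) :=
    (contDiff_EK h).continuous.sub (contDiff_uz1 κ₀).continuous
  exact intervalIntegral.integral_hasDerivAt_right (hc.intervalIntegrable _ _)
    (hc.stronglyMeasurableAtFilter _ _) hc.continuousAt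

theorem contDiff_KK {κ₀ : ℝ} (h : Adm κ₀) : ContDiff ℝ ∞ (KK κ₀) := by
  rw [contDiff_infty_iff_deriv]
  refine ⟨fun θ => (hasDerivAt_KK h θ).differentiableAt, ?_⟩
  have e : deriv (KK κ₀) = fun θ => EK κ₀ θ - uz κ₀ θ := by
    funext θ
    exact (hasDerivAt_KK h θ).deriv
  rw [e]
  exact (contDiff_EK h).sub (contDiff_uz1 κ₀)

theorem KK_left {κ₀ θ : ℝ} (hθ : θ ≤ 0) : KK κ₀ θ = 0 := by
  unfold KK
  rw [intervalIntegral.integral_congr (g := fun _ => (0 : ℂ))]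
  · simp
  · intro t ht
    rw [Set.uIcc_of_ge hθ] at ht
    simp only
    rw [EK_left ht.2, sub_self]

/-- the constant in `Gz κ₀ θ + KK κ₀ θ = cK κ₀ + GM v₀ θ`, `θ ≥ 1` -/
noncomputable def cK (κ₀ : ℝ) : ℂ := Gz κ₀ 1 + KK κ₀ 1 - GM (vk κ₀) 1

theorem KK_right {κ₀ θ : ℝ} (h : Adm κ₀) (hθ : 1 ≤ θ) :
    Gz κ₀ θ + KK κ₀ θ = cK κ₀ + GM (vk κ₀) θ := by
  have hd : ∀ x, 1 ≤ x → HasDerivAt (fun t => Gz κ₀ t + KK κ₀ t - GM (vk κ₀) t) 0 x := by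
    intro x hx
    have h1 := ((hasDerivAt_Gz κ₀ x).add (hasDerivAt_KK h x)).sub
      (hasDerivAt_GM h.vk₀_abs h.vk₀_pos.ne' x)
    refine h1.congr_deriv ?_
    rw [EK_right h hx]
    ring
  have h2 := constant_of_has_deriv_right_zero (f := fun t => Gz κ₀ t + KK κ₀ t - GM (vk κ₀) t)
    (a := 1) (b := θ) (fun x hx => (hd x hx.1).continuousAt.continuousWithinAt)
    (fun x hx => (hd x hx.1).hasDerivWithinAt) θ ⟨hθ, le_rfl⟩
  unfold cK
  rw [← h2]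
  ring

theorem KK_per {κ₀ θ : ℝ} (h : Adm κ₀) (hθ : 1 ≤ θ) : KK κ₀ (θ + 2 * Real.pi) = KK κ₀ θ := by
  have h1 := KK_right h hθ
  have h2 := KK_right (θ := θ + 2 * Real.pi) h (by linarith [Real.pi_pos])
  rw [Gz_periodic, GM_periodic] at h2
  linear_combination h2 - h1

/-- the primitive, left half -/
noncomputable def GLf (κ₀ : ℝ) (p : ℝ × ℝ) : ℂ := Gz (kf κ₀ p.1) p.2 + KK κ₀ p.2

theorem reg_GLf {κ₀ : ℝ} (h : Adm κ₀) : Reg (0 : ℂ) (GLf κ₀) := by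
  unfold GLf
  have hpi := Real.pi_pos
  refine ⟨?_, fun x θ hθ => ?_, fun x θ hθ => ?_, fun x d θ hx hd => ?_,
    fun x d θ hx hd => ?_⟩
  · have h1 : ContDiff ℝ ∞ (fun p : ℝ × ℝ => KK κ₀ p.2) := (contDiff_KK h).comp contDiff_snd
    have h2 : ContDiff ℝ ∞ (fun p : ℝ × ℝ => (kf κ₀ p.1, p.2)) :=
      ((contDiff_kf κ₀).comp contDiff_fst).prodMk contDiff_snd
    have h3 : ContDiff ℝ ∞ (fun p : ℝ × ℝ => Gz (kf κ₀ p.1) p.2) :=
      ContDiff.comp (g := fun p : ℝ × ℝ => Gz p.1 p.2) (f := fun p : ℝ × ℝ => (kf κ₀ p.1, p.2))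
        contDiff_Gz h2
    exact h3.add h1
  · simp only
    rw [KK_left (by linarith), KK_left hθ.le, ← Gz_periodic _ (θ + -(2 * Real.pi)),
      neg_add_cancel_right]
  · simp only
    rw [KK_per h hθ.le, Gz_periodic, add_zero]
  · simp only
    rw [kf_zero (x := x) (Or.inl (by linarith)), kf_zero (x := x + d) (Or.inl (by linarith))]
  · simp only
    rw [kf_zero (x := x) (Or.inr (by linarith)), kf_zero (x := x + d) (Or.inr (by linarith))]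

/-- the mean as a function of `x` -/
noncomputable def VV (κ₀ x : ℝ) : ℝ := vk (kf κ₀ x)

theorem contDiff_VV (κ₀ : ℝ) : ContDiff ℝ ∞ (VV κ₀) := contDiff_vk.comp (contDiff_kf κ₀)

theorem VV_pos {κ₀ : ℝ} (h : Adm κ₀) (x : ℝ) : 0 < VV κ₀ x := h.vk_pos x

/-- real primitives, left half: cosine part -/
noncomputable def CL (κ₀ : ℝ) (p : ℝ × ℝ) : ℝ := (GLf κ₀ p).re

/-- real primitives, left half: sine part -/
noncomputable def SLi (κ₀ : ℝ) (p : ℝ × ℝ) : ℝ := (GLf κ₀ p).im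

theorem reg_CL {κ₀ : ℝ} (h : Adm κ₀) : Reg (0 : ℝ) (CL κ₀) :=
  (reg_GLf h).comp_per Complex.reCLM.contDiff fun t => by simp

theorem reg_SLi {κ₀ : ℝ} (h : Adm κ₀) : Reg (0 : ℝ) (SLi κ₀) :=
  (reg_GLf h).comp_per Complex.imCLM.contDiff fun t => by simp

end Vale.Agent.P205.TW
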