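import Vale.Agent.P205.TW.Chi4

/-!
P205, block CHI (5): slices, derivative identities and non-degeneracy on the left half line.
-/

open scoped ContDiff Topology ComplexConjugate
open Complex

namespace Vale.Agent.P205.TW

section slices

variable {E : Type*} [NormedAddCommGroup E] [NormedSpace ℝ E]

theorem hasDerivAt_slice2 {Φ : ℝ × ℝ → E} (h : ContDiff ℝ ∞ Φ) (x θ : ℝ) :
    HasDerivAt (fun t => Φ (x, t)) (d2 Φ (x, θ)) θ := by
  have h1 : HasFDerivAt Φ (fderiv ℝ Φ (x, θ)) (x, θ) :=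
    (h.differentiable (by simp)).differentiableAt.hasFDerivAt
  exact h1.comp_hasDerivAt θ ((hasDerivAt_const θ x).prodMk (hasDerivAt_id θ))

theorem hasDerivAt_slice1 {Φ : ℝ × ℝ → E} (h : ContDiff ℝ ∞ Φ) (x θ : ℝ) :
    HasDerivAt (fun t => Φ (t, θ)) (d1 Φ (x, θ)) x := by
  have h1 : HasFDerivAt Φ (fderiv ℝ Φ (x, θ)) (x, θ) :=
    (h.differentiable (by simp)).differentiableAt.hasFDerivAt
  exact h1.comp_hasDerivAt x ((hasDerivAt_id x).prodMk (hasDerivAt_const x θ))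

theorem d1_eq_zero {Φ : ℝ × ℝ → E} (h : ContDiff ℝ ∞ Φ) {x θ : ℝ} {a : E}
    (hc : ∀ᶠ t in 𝓝 x, Φ (t, θ) = a) : d1 Φ (x, θ) = 0 := by
  have h1 := hasDerivAt_slice1 h x θ
  have h2 : HasDerivAt (fun t => Φ (t, θ)) 0 x :=
    (hasDerivAt_const x a).congr_of_eventuallyEq hc
  exact h1.unique h2

end slices

theorem kf_event {κ₀ x : ℝ} (h1 : 4 / 5 < x) (h2 : x < 11 / 5) : ∀ᶠ t in 𝓝 x, kf κ₀ t = κ₀ := by
  filter_upwards [isOpen_Ioo.mem_nhds ⟨h1, h2⟩] with t ht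
  exact kf_eq ht.1.le ht.2.le

theorem kf_event0 {κ₀ x : ℝ} (h : x < 3 / 5 ∨ 12 / 5 < x) : ∀ᶠ t in 𝓝 x, kf κ₀ t = 0 := by
  rcases h with h | h
  · filter_upwards [isOpen_Iio.mem_nhds h] with t ht
    exact kf_zero (Or.inl (le_of_lt ht))
  · filter_upwards [isOpen_Ioi.mem_nhds h] with t ht
    exact kf_zero (Or.inr (le_of_lt ht))

section left

variable {κ₀ : ℝ}

theorem exp_PP_left {x θ : ℝ} (hθ : θ ≤ 0) :
    Complex.exp (I * ((PP κ₀ (x, θ) : ℝ) : ℂ)) = uz (kf κ₀ x) θ := by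
  rw [PP_left hθ, uz_eq_exp]

theorem exp_PP_mid {x θ : ℝ} (h1 : 4 / 5 ≤ x) (h2 : x ≤ 11 / 5) :
    Complex.exp (I * ((PP κ₀ (x, θ) : ℝ) : ℂ)) = EK κ₀ θ := by
  unfold EK PP
  simp only
  rw [kf_eq h1 h2, kf_one]

theorem exp_I_re (t : ℝ) : (Complex.exp (I * (t : ℂ))).re = Real.cos t := by
  rw [exp_I_eq, Complex.add_re, Complex.re_ofReal_mul, Complex.I_re, mul_zero, add_zero,
    Complex.ofReal_re]

theorem exp_I_im (t : ℝ) : (Complex.exp (I * (t : ℂ))).im = Real.sin t := by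
  rw [exp_I_eq, Complex.add_im, Complex.im_ofReal_mul, Complex.I_im, mul_one, Complex.ofReal_im,
    zero_add]

/-- the fast derivative of the primitive -/
theorem d2_GLf (h : Adm κ₀) {x θ : ℝ} (hx : θ ≤ 0 ∨ (4 / 5 ≤ x ∧ x ≤ 11 / 5)) :
    d2 (GLf κ₀) (x, θ) = Complex.exp (I * ((PP κ₀ (x, θ) : ℝ) : ℂ)) - (VV κ₀ x : ℂ) := by
  have h1 := hasDerivAt_slice2 (reg_GLf h).smooth x θ
  have h2 : HasDerivAt (fun t => GLf κ₀ (x, t))
      (uz (kf κ₀ x) θ - vk (kf κ₀ x) + (EK κ₀ θ - uz κ₀ θ)) θ :=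
    (hasDerivAt_Gz (kf κ₀ x) θ).add (hasDerivAt_KK h θ)
  rw [h1.unique h2]
  rcases hx with hx | ⟨hx1, hx2⟩
  · rw [EK_left hx, exp_PP_left hx, VV]
    ring
  · rw [exp_PP_mid hx1 hx2, VV, kf_eq hx1 hx2]
    ring

theorem d2_CL (h : Adm κ₀) {x θ : ℝ} (hx : θ ≤ 0 ∨ (4 / 5 ≤ x ∧ x ≤ 11 / 5)) :
    d2 (CL κ₀) (x, θ) = Real.cos (PP κ₀ (x, θ)) - VV κ₀ x := by
  have h1 := hasDerivAt_slice2 (reg_CL h).smooth x θ
  have h2 := hasDerivAt_slice2 (reg_GLf h).smooth x θ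
  rw [d2_GLf h hx] at h2
  have h3 : HasDerivAt (fun t => (GLf κ₀ (x, t)).re)
      (Complex.exp (I * ((PP κ₀ (x, θ) : ℝ) : ℂ)) - (VV κ₀ x : ℂ)).re θ :=
    (Complex.reCLM.hasFDerivAt.comp_hasDerivAt θ h2)
  have h5 : d2 (CL κ₀) (x, θ) =
      (Complex.exp (I * ((PP κ₀ (x, θ) : ℝ) : ℂ)) - (VV κ₀ x : ℂ)).re := h1.unique h3
  rw [h5, Complex.sub_re, exp_I_re, Complex.ofReal_re]

theorem d2_SLi (h : Adm κ₀) {x θ : ℝ} (hx : θ ≤ 0 ∨ (4 / 5 ≤ x ∧ x ≤ 11 / 5)) :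
    d2 (SLi κ₀) (x, θ) = Real.sin (PP κ₀ (x, θ)) := by
  have h1 := hasDerivAt_slice2 (reg_SLi h).smooth x θ
  have h2 := hasDerivAt_slice2 (reg_GLf h).smooth x θ
  rw [d2_GLf h hx] at h2
  have h3 : HasDerivAt (fun t => (GLf κ₀ (x, t)).im)
      (Complex.exp (I * ((PP κ₀ (x, θ) : ℝ) : ℂ)) - (VV κ₀ x : ℂ)).im θ :=
    (Complex.imCLM.hasFDerivAt.comp_hasDerivAt θ h2)
  have h5 : d2 (SLi κ₀) (x, θ) =
      (Complex.exp (I * ((PP κ₀ (x, θ) : ℝ) : ℂ)) - (VV κ₀ x : ℂ)).im := h1.unique h3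
  rw [h5, Complex.sub_im, exp_I_im, Complex.ofReal_im, sub_zero]

/-- slow derivatives vanish where the amplitude is locally constant -/
theorem d1_PP (h : Adm κ₀) {x θ a : ℝ} (hx : ∀ᶠ t in 𝓝 x, kf κ₀ t = a) :
    d1 (PP κ₀) (x, θ) = 0 := by
  refine d1_eq_zero (contDiff_PP h) (a := PP κ₀ (x, θ)) ?_
  have h0 := hx.self_of_nhds
  filter_upwards [hx] with t ht
  unfold PP
  simp only
  rw [ht, h0]

theorem d1_CL (h : Adm κ₀) {x θ a : ℝ} (hx : ∀ᶠ t in 𝓝 x, kf κ₀ t = a) :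
    d1 (CL κ₀) (x, θ) = 0 := by
  refine d1_eq_zero (reg_CL h).smooth (a := CL κ₀ (x, θ)) ?_
  have h0 := hx.self_of_nhds
  filter_upwards [hx] with t ht
  unfold CL GLf
  simp only
  rw [ht, h0]

theorem d1_SLi (h : Adm κ₀) {x θ a : ℝ} (hx : ∀ᶠ t in 𝓝 x, kf κ₀ t = a) :
    d1 (SLi κ₀) (x, θ) = 0 := by
  refine d1_eq_zero (reg_SLi h).smooth (a := SLi κ₀ (x, θ)) ?_
  have h0 := hx.self_of_nhds
  filter_upwards [hx] with t ht
  unfold SLi GLf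
  simp only
  rw [ht, h0]

theorem Gz_at_zero (θ : ℝ) : Gz 0 θ = 0 := by
  unfold Gz wk
  simp

theorem PP_off {x θ : ℝ} (hθ : θ ≤ 0) (hx : x ≤ 3 / 5 ∨ 12 / 5 ≤ x) : PP κ₀ (x, θ) = 0 := by
  rw [PP_left hθ, kf_zero hx]
  simp

theorem GLf_off {x θ : ℝ} (hθ : θ ≤ 0) (hx : x ≤ 3 / 5 ∨ 12 / 5 ≤ x) : GLf κ₀ (x, θ) = 0 := by
  unfold GLf
  simp only
  rw [kf_zero hx, Gz_at_zero, KK_left hθ, add_zero]

/-! ### non-degeneracy -/

theorem mono_deriv_nonneg {f : ℝ → ℝ} (hf : Monotone f) {x d : ℝ} (h : HasDerivAt f d x) :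
    0 ≤ d := by
  rw [← h.deriv]
  exact hf.deriv_nonneg

theorem Mv_mono (h : Adm κ₀) : Monotone (Mv (vk κ₀)) := by
  refine monotone_of_deriv_nonneg (fun x => (hasDerivAt_Mv h.vk₀_abs x).differentiableAt) ?_
  intro x
  rw [(hasDerivAt_Mv h.vk₀_abs x).deriv]
  refine le_trans ?_ (Mv_deriv_pos h.vk₀_abs x)
  have h3 := abs_lt.1 h.vk₀_abs
  have h4 : 0 < 1 - vk κ₀ ^ 2 := by nlinarith
  positivity

/-- the angle is increasing for `θ > 0` at full amplitude -/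
theorem d2_PP_pos (h : Adm κ₀) {x θ : ℝ} (hθ : 0 < θ) (h1 : 4 / 5 ≤ x) (h2 : x ≤ 11 / 5) :
    0 < d2 (PP κ₀) (x, θ) := by
  have e1 := hasDerivAt_slice2 (contDiff_PP h) x θ
  have hst : HasDerivAt Real.smoothTransition (deriv Real.smoothTransition θ) θ :=
    (contDiff_st.differentiable (by simp)).differentiableAt.hasDerivAt
  have hst0 : 0 ≤ deriv Real.smoothTransition θ := Real.smoothTransition.monotone.deriv_nonneg
  have hq : HasDerivAt (fun t => κ₀ * Real.cos t) (κ₀ * (-Real.sin θ)) θ :=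
    (Real.hasDerivAt_cos θ).const_mul κ₀
  have hA : HasDerivAt (fun t => -(2 * Real.arctan (κ₀ * Real.cos t)))
      (-(2 * (1 / (1 + (κ₀ * Real.cos θ) ^ 2) * (κ₀ * (-Real.sin θ))))) θ :=
    (hq.arctan.const_mul 2).neg
  have hM := (hasDerivAt_Mv h.vk₀_abs θ).add_const (2 * Real.pi)
  have e2 := ((hst.const_sub 1).mul hA).add (hst.mul hM)
  have e3 : (fun t => PP κ₀ (x, t)) =
      ((fun t => 1 - Real.smoothTransition t) * (fun t => -(2 * Real.arctan (κ₀ * Real.cos t)))) +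
      (Real.smoothTransition * fun t => Mv (vk κ₀) t + 2 * Real.pi) := by
    funext t
    simp only [PP, Pi.add_apply, Pi.mul_apply, kf_eq h1 h2]
  rw [e3] at e1
  rw [e1.unique e2]
  have hMpos : 0 < (1 - vk κ₀ ^ 2) / (1 + 2 * vk κ₀ * Real.cos θ + vk κ₀ ^ 2) := by
    refine lt_of_lt_of_le ?_ (Mv_deriv_pos h.vk₀_abs θ)
    have h3 := abs_lt.1 h.vk₀_abs
    have h4 : 0 < 1 - vk κ₀ ^ 2 := by nlinarith
    positivity
  have hspos := Real.smoothTransition.pos_of_pos hθ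
  have hsle := Real.smoothTransition.le_one θ
  rcases lt_or_ge θ 1 with hθ1 | hθ1
  · have hsin : 0 < Real.sin θ := Real.sin_pos_of_pos_of_lt_pi hθ (by
      have := Real.pi_gt_three
      linarith)
    have hcos : 0 ≤ Real.cos θ := Real.cos_nonneg_of_neg_pi_div_two_le_of_le
      (by linarith [Real.pi_pos]) (by linarith [Real.pi_gt_three])
    have hMmono : 0 ≤ Mv (vk κ₀) θ := by
      rw [← Mv_zero (vk κ₀)]
      exact Mv_mono h hθ.le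
    have harc : 0 ≤ Real.arctan (κ₀ * Real.cos θ) :=
      Real.arctan_nonneg.2 (mul_nonneg h.pos.le hcos)
    have p1 : 0 ≤ -(2 * (1 / (1 + (κ₀ * Real.cos θ) ^ 2) * (κ₀ * (-Real.sin θ)))) := by
      have : 0 ≤ 1 / (1 + (κ₀ * Real.cos θ) ^ 2) * (κ₀ * Real.sin θ) :=
        mul_nonneg (by positivity) (mul_nonneg h.pos.le hsin.le)
      linarith
    have hpi := Real.pi_pos
    have t1 : 0 ≤ (1 - Real.smoothTransition θ) *
        -(2 * (1 / (1 + (κ₀ * Real.cos θ) ^ 2) * (κ₀ * (-Real.sin θ)))) :=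
      mul_nonneg (by linarith) p1
    have t2 : 0 ≤ deriv Real.smoothTransition θ * (2 * Real.arctan (κ₀ * Real.cos θ)) :=
      mul_nonneg hst0 (by linarith)
    have t3 : 0 ≤ deriv Real.smoothTransition θ * (Mv (vk κ₀) θ + 2 * Real.pi) :=
      mul_nonneg hst0 (by linarith)
    have t4 := mul_pos hspos hMpos
    nlinarith
  · have hst1 : deriv Real.smoothTransition θ = 0 := by
      refine IsLocalMax.deriv_eq_zero (Filter.Eventually.of_forall fun y => ?_)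
      rw [Real.smoothTransition.one_of_one_le hθ1]
      exact Real.smoothTransition.le_one y
    have hs1 := Real.smoothTransition.one_of_one_le hθ1
    rw [hst1, hs1]
    simpa using hMpos

theorem d2_PP_right (h : Adm κ₀) {x θ : ℝ} (hθ : 1 < θ) :
    d2 (PP κ₀) (x, θ) = (1 - vk κ₀ ^ 2) / (1 + 2 * vk κ₀ * Real.cos θ + vk κ₀ ^ 2) := by
  have e1 := hasDerivAt_slice2 (contDiff_PP h) x θ
  have e2 := (hasDerivAt_Mv h.vk₀_abs θ).add_const (2 * Real.pi)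
  have e3 : (fun t => PP κ₀ (x, t)) =ᶠ[𝓝 θ] fun t => Mv (vk κ₀) t + 2 * Real.pi := by
    filter_upwards [isOpen_Ioi.mem_nhds hθ] with t ht
    exact PP_right (le_of_lt ht)
  exact e1.unique (e2.congr_of_eventuallyEq e3)

theorem PP_slice {x θ : ℝ} (h1 : 4 / 5 ≤ x) (h2 : x ≤ 11 / 5) : PP κ₀ (x, θ) = PP κ₀ (1, θ) := by
  unfold PP
  simp only
  rw [kf_eq h1 h2, kf_one]

theorem d2_PP_slice (h : Adm κ₀) {x θ : ℝ} (h1 : 4 / 5 ≤ x) (h2 : x ≤ 11 / 5) :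
    d2 (PP κ₀) (x, θ) = d2 (PP κ₀) (1, θ) := by
  have e1 := hasDerivAt_slice2 (contDiff_PP h) x θ
  have e2 := hasDerivAt_slice2 (contDiff_PP h) 1 θ
  have e3 : (fun t => PP κ₀ (x, t)) = fun t => PP κ₀ (1, t) := by
    funext t
    exact PP_slice h1 h2
  rw [e3] at e1
  exact e1.unique e2

/-- uniform positivity away from the start of the winding -/
theorem exists_c1 (h : Adm κ₀) {η : ℝ} (hη : 0 < η) : ∃ c₁ : ℝ, 0 < c₁ ∧
    ∀ x θ : ℝ, 4 / 5 ≤ x → x ≤ 11 / 5 → η ≤ θ → c₁ ≤ d2 (PP κ₀) (x, θ) := by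
  have hcont : Continuous (fun t : ℝ => d2 (PP κ₀) (1, t)) :=
    (reg_PP h).d2.smooth.continuous.comp (continuous_const.prodMk continuous_id)
  have h3 := abs_lt.1 h.vk₀_abs
  have h4 : 0 < 1 - vk κ₀ ^ 2 := by nlinarith
  have hM : 0 < (1 - vk κ₀ ^ 2) / (1 + |vk κ₀|) ^ 2 := by positivity
  obtain ⟨t₀, ht₀, hmin⟩ := (isCompact_Icc (a := min η 1) (b := 1)).exists_isMinOn
    ⟨1, min_le_right _ _, le_rfl⟩ hcont.continuousOn
  have hpos : 0 < d2 (PP κ₀) (1, t₀) :=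
    d2_PP_pos h (lt_of_lt_of_le (lt_min hη one_pos) ht₀.1) (by norm_num) (by norm_num)
  refine ⟨min (d2 (PP κ₀) (1, t₀)) ((1 - vk κ₀ ^ 2) / (1 + |vk κ₀|) ^ 2), lt_min hpos hM,
    fun x θ h1 h2 hθ => ?_⟩
  rw [d2_PP_slice h h1 h2]
  rcases le_or_gt θ 1 with h5 | h5
  · exact (min_le_left _ _).trans (hmin ⟨(min_le_left _ _).trans hθ, h5⟩)
  · rw [d2_PP_right h h5]
    exact (min_le_right _ _).trans (Mv_deriv_pos h.vk₀_abs θ)

theorem cos_two_arctan (q : ℝ) : Real.cos (-(2 * Real.arctan q)) = (1 - q ^ 2) / (1 + q ^ 2) := by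
  rw [Real.cos_neg, Real.cos_two_mul, Real.cos_sq_arctan]
  have : (1 + q ^ 2) ≠ 0 := by positivity
  field_simp
  ring

theorem sin_two_arctan (q : ℝ) : Real.sin (-(2 * Real.arctan q)) = -(2 * q) / (1 + q ^ 2) := by
  have h1 : 0 < Real.sqrt (1 + q ^ 2) := Real.sqrt_pos.2 (by positivity)
  have h2 : Real.sqrt (1 + q ^ 2) ^ 2 = 1 + q ^ 2 := Real.sq_sqrt (by positivity)
  rw [Real.sin_neg, Real.sin_two_mul, Real.cos_arctan, Real.sin_arctan]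
  have e : 2 * (q / Real.sqrt (1 + q ^ 2)) * (1 / Real.sqrt (1 + q ^ 2)) =
      2 * q / Real.sqrt (1 + q ^ 2) ^ 2 := by
    field_simp
  rw [e, h2, neg_div]

/-- the zero winding part stays near the axis -/
theorem near_axis {τ₀ q : ℝ} (h : Adm κ₀) (hτ : 3 * κ₀ ≤ τ₀) (hq : |q| ≤ κ₀) :
    1 / 2 < (1 - q ^ 2) / (1 + q ^ 2) ∧
      |-(2 * q) / (1 + q ^ 2)| < τ₀ * ((1 - q ^ 2) / (1 + q ^ 2)) := by
  have h1 := h.pos
  have h2 := h.le
  have hp : 0 < 1 + q ^ 2 := by positivity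
  have hq2 : q ^ 2 ≤ 1 / 16 := by
    rw [← sq_abs]
    nlinarith [abs_nonneg q]
  constructor
  · rw [lt_div_iff₀ hp]
    linarith
  · rw [abs_div, abs_neg, abs_mul, abs_two, abs_of_pos hp, mul_div_assoc', div_lt_div_iff_of_pos_right hp]
    nlinarith [abs_nonneg q]

theorem near_left {τ₀ : ℝ} (h : Adm κ₀) (hτ : 3 * κ₀ ≤ τ₀) {x θ : ℝ} (hθ : θ ≤ 0) :
    1 / 2 < Real.cos (PP κ₀ (x, θ)) ∧
      |Real.sin (PP κ₀ (x, θ))| < τ₀ * Real.cos (PP κ₀ (x, θ)) := by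
  rw [PP_left hθ, cos_two_arctan, sin_two_arctan]
  refine near_axis h hτ ?_
  rw [abs_mul, abs_of_nonneg (kf_nonneg h.pos.le x)]
  exact (mul_le_of_le_one_right (kf_nonneg h.pos.le x) (Real.abs_cos_le_one θ)).trans
    (kf_le h.pos.le x)

theorem exists_eta {τ₀ : ℝ} (h : Adm κ₀) (hτ : 3 * κ₀ ≤ τ₀) : ∃ η : ℝ, 0 < η ∧ η ≤ 1 / 2 ∧
    ∀ x θ : ℝ, 4 / 5 ≤ x → x ≤ 11 / 5 → θ ≤ η → 1 / 2 < Real.cos (PP κ₀ (x, θ)) ∧
      |Real.sin (PP κ₀ (x, θ))| < τ₀ * Real.cos (PP κ₀ (x, θ)) := by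
  have hc : Continuous (fun t : ℝ => PP κ₀ (1, t)) :=
    (contDiff_PP h).continuous.comp (continuous_const.prodMk continuous_id)
  have h0 := near_left (x := 1) h hτ (le_refl (0 : ℝ))
  have e1 : ∀ᶠ t in 𝓝 (0 : ℝ), 1 / 2 < Real.cos (PP κ₀ (1, t)) :=
    continuousAt_const.eventually_lt (Real.continuous_cos.comp hc).continuousAt h0.1
  have e2 : ∀ᶠ t in 𝓝 (0 : ℝ), |Real.sin (PP κ₀ (1, t))| < τ₀ * Real.cos (PP κ₀ (1, t)) :=
    (Real.continuous_sin.comp hc).abs.continuousAt.eventually_lt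
      (continuous_const.mul (Real.continuous_cos.comp hc)).continuousAt h0.2
  obtain ⟨η, hη, hb⟩ := Metric.eventually_nhds_iff.1 (e1.and e2)
  refine ⟨min (η / 2) (1 / 2), lt_min (by linarith) (by norm_num), min_le_right _ _,
    fun x θ h1 h2 h3 => ?_⟩
  rcases le_or_gt θ 0 with h4 | h4
  · exact near_left h hτ h4
  · rw [PP_slice h1 h2]
    refine hb ?_
    rw [Real.dist_eq, sub_zero, abs_of_pos h4]
    have := h3.trans (min_le_left _ _)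
    linarith

end left

end Vale.Agent.P205.TW
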