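import Vale.Agent.P205.TW.Chi5

/-!
P205, block CHI (6): the profile theorem in one variable.
-/

open scoped ContDiff Topology ComplexConjugate
open Complex

namespace Vale.Agent.P205.TW

/-- The one-dimensional profile of the scheme T1W.  All functions are functions of the phase
`x = r ∈ ℝ`; the collar is `3/5 ≤ x ≤ 12/5`, the full winding zone is `1 ≤ x ≤ 2`; the frequency is
`μ = 2 π n`, `n ≥ 1`.
`V` is the mean of the loop (it does not depend on `n`), `c = cos χ`, `s = sin χ`,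
`h = μ⁻¹ dχ/dx`; `C`, `Sn` are the primitives of `μ (c - V)` and of `μ s` up to the
slow errors `eC`, `eS`. -/
structure Profile (τ₀ : ℝ) where
  /-- mean -/
  V : ℝ → ℝ
  /-- cosine of the angle -/
  c : ℕ → ℝ → ℝ
  /-- sine of the angle -/
  s : ℕ → ℝ → ℝ
  /-- derivative of the angle with respect to the fast phase -/
  h : ℕ → ℝ → ℝ
  /-- first primitive -/
  C : ℕ → ℝ → ℝ
  /-- second primitive -/
  Sn : ℕ → ℝ → ℝ
  /-- error of the first primitive -/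
  eC : ℕ → ℝ → ℝ
  /-- error of the second primitive -/
  eS : ℕ → ℝ → ℝ
  /-- bounds -/
  B : ℕ → ℝ
  /-- lower bound of the winding speed -/
  c₁ : ℝ
  V_smooth : ContDiff ℝ ∞ V
  V_pos : ∀ x, 15 / 16 ≤ V x
  V_ge : ∀ x, 1 - τ₀ ≤ V x
  V_le : ∀ x, V x ≤ 1
  V_off : ∀ x, (x < 3 / 5 ∨ 12 / 5 < x) → V x = 1
  c₁_pos : 0 < c₁
  c_bd : ∀ n : ℕ, 1 ≤ n → FBd B (2 * Real.pi * n) (c n)
  s_bd : ∀ n : ℕ, 1 ≤ n → FBd B (2 * Real.pi * n) (s n)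
  h_bd : ∀ n : ℕ, 1 ≤ n → FBd B (2 * Real.pi * n) (h n)
  C_bd : ∀ n : ℕ, 1 ≤ n → FBd B (2 * Real.pi * n) (C n)
  Sn_bd : ∀ n : ℕ, 1 ≤ n → FBd B (2 * Real.pi * n) (Sn n)
  eC_bd : ∀ n : ℕ, 1 ≤ n → FBd B (2 * Real.pi * n) (eC n)
  eS_bd : ∀ n : ℕ, 1 ≤ n → FBd B (2 * Real.pi * n) (eS n)
  circ : ∀ n x, c n x ^ 2 + s n x ^ 2 = 1
  c_deriv : ∀ n : ℕ, 1 ≤ n → ∀ x, HasDerivAt (c n) (-(2 * Real.pi * n * (s n x * h n x))) x
  s_deriv : ∀ n : ℕ, 1 ≤ n → ∀ x, HasDerivAt (s n) (2 * Real.pi * n * (c n x * h n x)) x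
  C_deriv : ∀ n : ℕ, 1 ≤ n → ∀ x,
    HasDerivAt (C n) (2 * Real.pi * n * (c n x - V x) + eC n x) x
  Sn_deriv : ∀ n : ℕ, 1 ≤ n → ∀ x, HasDerivAt (Sn n) (2 * Real.pi * n * s n x + eS n x) x
  c_off : ∀ n : ℕ, 1 ≤ n → ∀ x, (x < 3 / 5 ∨ 12 / 5 < x) → c n x = 1
  s_off : ∀ n : ℕ, 1 ≤ n → ∀ x, (x < 3 / 5 ∨ 12 / 5 < x) → s n x = 0
  h_off : ∀ n : ℕ, 1 ≤ n → ∀ x, (x < 3 / 5 ∨ 12 / 5 < x) → h n x = 0
  C_off : ∀ n : ℕ, 1 ≤ n → ∀ x, (x < 3 / 5 ∨ 12 / 5 < x) → C n x = 0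
  Sn_off : ∀ n : ℕ, 1 ≤ n → ∀ x, (x < 3 / 5 ∨ 12 / 5 < x) → Sn n x = 0
  nondeg : ∀ n : ℕ, 1 ≤ n → ∀ x, (1 ≤ x ∧ x ≤ 2 ∧ c₁ ≤ h n x) ∨
    ((x < 11 / 10 ∨ 19 / 10 < x) ∧ 1 / 2 ≤ c n x ∧ |s n x| ≤ τ₀ * c n x)

section bd

variable {E : Type*} [NormedAddCommGroup E] [NormedSpace ℝ E]

theorem FBd.nonneg {B : ℕ → ℝ} {μ : ℝ} {f : ℝ → E} (h : TW.FBd B μ f) (hμ : 0 < μ) (k : ℕ) :
    0 ≤ B k := by
  have h1 := (norm_nonneg _).trans (h.2 k 0)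
  exact nonneg_of_mul_nonneg_left h1 (by positivity)

theorem glue_FBd' {c a b : ℝ} {f g : ℝ → E} (hac : a < c) (hcb : c < b)
    (h : ∀ x, a < x → x < b → f x = g x) {B B' : ℕ → ℝ} {μ : ℝ} (hμ : 0 < μ)
    (hf : TW.FBd B μ f) (hg : TW.FBd B' μ g) : TW.FBd (fun k => B k + B' k) μ (glue c f g) :=
  glue_FBd hac hcb h (hf.mono hμ.le fun k => le_add_of_nonneg_right (hg.nonneg hμ k))
    (hg.mono hμ.le fun k => le_add_of_nonneg_left (hf.nonneg hμ k))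

end bd

/-- the offset cut off -/
noncomputable def ct (x : ℝ) : ℝ := Real.smoothTransition (4 * (x - 21 / 10))

theorem contDiff_ct : ContDiff ℝ ∞ ct :=
  contDiff_st.comp (contDiff_const.mul (contDiff_id.sub contDiff_const))

theorem ct_left {x : ℝ} (h : x ≤ 21 / 10) : ct x = 0 :=
  Real.smoothTransition.zero_of_nonpos (by linarith)

theorem ct_right {x : ℝ} (h : 47 / 20 ≤ x) : ct x = 1 :=
  Real.smoothTransition.one_of_one_le (by linarith)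

/-- a slow function, constant off `[0,3]` -/
theorem reg_slow {f : ℝ → ℝ} (hf : ContDiff ℝ ∞ f) (hL : ∀ x y, x < 0 → y < 0 → f y = f x)
    (hR : ∀ x y, 3 < x → 3 < y → f y = f x) : Reg (0 : ℝ) (fun p : ℝ × ℝ => f p.1) :=
  ⟨hf.comp contDiff_fst, fun _ _ _ => rfl, fun _ _ _ => by simp,
    fun x d _ hx hd => hL x (x + d) hx hd, fun x d _ hx hd => hR x (x + d) hx hd⟩

theorem reg_ct (a : ℝ) : Reg (0 : ℝ) (fun p : ℝ × ℝ => a * ct p.1) :=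
  reg_slow (f := fun x => a * ct x) (contDiff_const.mul contDiff_ct)
    (fun x y hx hy => by rw [ct_left (by linarith), ct_left (by linarith)])
    (fun x y hx hy => by rw [ct_right (by linarith), ct_right (by linarith)])

section main

variable {κ₀ : ℝ}

/-- left angle speed -/
noncomputable def hLx (κ₀ μ x : ℝ) : ℝ :=
  d2 (PP κ₀) (x, μ * (x - 1)) + μ⁻¹ * d1 (PP κ₀) (x, μ * (x - 1))

theorem hasDerivAt_aL (h : Adm κ₀) {μ : ℝ} (hμ : μ ≠ 0) (x : ℝ) :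
    HasDerivAt (fun x => PP κ₀ (x, μ * (x - 1))) (μ * hLx κ₀ μ x) x := by
  refine (hasDerivAt_twoScale (contDiff_PP h) μ x).congr_deriv ?_
  unfold hLx
  rw [smul_eq_mul]
  field_simp
  ring

theorem exists_hLx_bd (h : Adm κ₀) : ∃ B : ℕ → ℝ, ∀ μ : ℝ, 1 ≤ μ → FBd B μ (hLx κ₀ μ) := by
  obtain ⟨B1, h1⟩ := (reg_PP h).d1.FBd
  obtain ⟨B2, h2⟩ := (reg_PP h).d2.FBd
  refine ⟨fun k => B2 k + B1 k, fun μ hμ => ?_⟩
  have h3 : FBd B1 μ (fun x => μ⁻¹ * d1 (PP κ₀) (x, μ * (x - 1))) := by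
    refine ⟨contDiff_const.mul (h1 μ hμ).1, fun k x => ?_⟩
    rw [iteratedDeriv_const_mul_field, norm_mul, Real.norm_of_nonneg (by positivity)]
    have h4 := (h1 μ hμ).2 k x
    have h5 : μ⁻¹ ≤ 1 := inv_le_one_of_one_le₀ hμ
    calc _ ≤ 1 * ‖iteratedDeriv k (fun x => d1 (PP κ₀) (x, μ * (x - 1))) x‖ :=
          mul_le_mul_of_nonneg_right h5 (norm_nonneg _)
      _ ≤ _ := by rw [one_mul]; exact h4
  exact (h2 μ hμ).add h3

theorem Mv_nat_sub (v θ : ℝ) (n : ℕ) :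
    Mv v (2 * Real.pi * n - θ) = 2 * Real.pi * n - Mv v θ := by
  induction n with
  | zero => simp [Mv_neg]
  | succ n ih =>
    have e : 2 * Real.pi * ((n + 1 : ℕ) : ℝ) - θ = (2 * Real.pi * n - θ) + 2 * Real.pi := by
      push_cast
      ring
    rw [e, Mv_add, ih]
    push_cast
    ring

theorem GM_nat_sub {v : ℝ} (hv : |v| < 1) (θ : ℝ) (n : ℕ) :
    GM v (2 * Real.pi * n - θ) = -conj (GM v θ) := by
  induction n with
  | zero => simp [GM_neg hv]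
  | succ n ih =>
    have e : 2 * Real.pi * ((n + 1 : ℕ) : ℝ) - θ = (2 * Real.pi * n - θ) + 2 * Real.pi := by
      push_cast
      ring
    rw [e, GM_periodic, ih]

theorem mid_phase {n : ℕ} (hn : 1 ≤ n) {x : ℝ} (h1 : 5 / 4 < x) (h2 : x < 7 / 4) :
    1 < 2 * Real.pi * n * (x - 1) ∧ 1 < 2 * Real.pi * n * (3 - x - 1) ∧
      2 * Real.pi * n * (3 - x - 1) = 2 * Real.pi * n - 2 * Real.pi * n * (x - 1) := by
  have hpi := Real.pi_gt_three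
  have hn' : (1 : ℝ) ≤ n := by exact_mod_cast hn
  have h3 : 6 ≤ 2 * Real.pi * n := by nlinarith
  refine ⟨by nlinarith, by nlinarith, by ring⟩

theorem mid_angle {n : ℕ} (hn : 1 ≤ n) {x : ℝ} (h1 : 5 / 4 < x) (h2 : x < 7 / 4) :
    PP κ₀ (3 - x, 2 * Real.pi * n * (3 - x - 1)) =
      ((n + 2 : ℕ) : ℝ) * (2 * Real.pi) - PP κ₀ (x, 2 * Real.pi * n * (x - 1)) := by
  obtain ⟨p1, p2, p3⟩ := mid_phase hn h1 h2
  rw [PP_right p2.le, PP_right p1.le, p3, Mv_nat_sub]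
  push_cast
  ring

theorem mid_cos {n : ℕ} (hn : 1 ≤ n) {x : ℝ} (h1 : 5 / 4 < x) (h2 : x < 7 / 4) :
    Real.cos (PP κ₀ (x, 2 * Real.pi * n * (x - 1))) =
      Real.cos (PP κ₀ (3 - x, 2 * Real.pi * n * (3 - x - 1))) := by
  rw [mid_angle hn h1 h2, Real.cos_nat_mul_two_pi_sub]

theorem mid_sin {n : ℕ} (hn : 1 ≤ n) {x : ℝ} (h1 : 5 / 4 < x) (h2 : x < 7 / 4) :
    Real.sin (PP κ₀ (x, 2 * Real.pi * n * (x - 1))) =
      -Real.sin (PP κ₀ (3 - x, 2 * Real.pi * n * (3 - x - 1))) := by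
  rw [mid_angle hn h1 h2, Real.sin_nat_mul_two_pi_sub, neg_neg]

theorem hLx_mid (h : Adm κ₀) {μ x : ℝ} (h1 : 4 / 5 < x) (h2 : x < 11 / 5) :
    hLx κ₀ μ x = d2 (PP κ₀) (1, μ * (x - 1)) := by
  unfold hLx
  rw [d1_PP h (kf_event h1 h2), mul_zero, add_zero, d2_PP_slice h h1.le h2.le]

theorem mid_h (h : Adm κ₀) {n : ℕ} (hn : 1 ≤ n) {x : ℝ} (h1 : 5 / 4 < x) (h2 : x < 7 / 4) :
    hLx κ₀ (2 * Real.pi * n) x = hLx κ₀ (2 * Real.pi * n) (3 - x) := by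
  obtain ⟨p1, p2, p3⟩ := mid_phase hn h1 h2
  rw [hLx_mid h (by linarith) (by linarith), hLx_mid h (by linarith) (by linarith),
    d2_PP_right h p1, d2_PP_right h p2, p3]
  have e : 2 * Real.pi * n - 2 * Real.pi * n * (x - 1) =
      (n : ℝ) * (2 * Real.pi) - 2 * Real.pi * n * (x - 1) := by ring
  rw [e, Real.cos_nat_mul_two_pi_sub]

/-- the offset -/
noncomputable def oC (κ₀ : ℝ) : ℝ := 2 * (cK κ₀).re

theorem mid_GLf (h : Adm κ₀) {x θ : ℝ} (hθ : 1 ≤ θ) (h1 : 4 / 5 ≤ x) (h2 : x ≤ 11 / 5) :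
    GLf κ₀ (x, θ) = cK κ₀ + GM (vk κ₀) θ := by
  unfold GLf
  simp only
  rw [kf_eq h1 h2, KK_right h hθ]

theorem mid_C (h : Adm κ₀) {n : ℕ} (hn : 1 ≤ n) {x : ℝ} (h1 : 5 / 4 < x) (h2 : x < 7 / 4) :
    CL κ₀ (x, 2 * Real.pi * n * (x - 1)) =
      oC κ₀ - CL κ₀ (3 - x, 2 * Real.pi * n * (3 - x - 1)) := by
  obtain ⟨p1, p2, p3⟩ := mid_phase hn h1 h2
  unfold CL oC
  rw [mid_GLf h p1.le (by linarith) (by linarith), mid_GLf h p2.le (by linarith) (by linarith),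
    p3, GM_nat_sub h.vk₀_abs]
  simp only [Complex.add_re, Complex.neg_re, Complex.conj_re]
  ring

theorem mid_S (h : Adm κ₀) {n : ℕ} (hn : 1 ≤ n) {x : ℝ} (h1 : 5 / 4 < x) (h2 : x < 7 / 4) :
    SLi κ₀ (x, 2 * Real.pi * n * (x - 1)) =
      SLi κ₀ (3 - x, 2 * Real.pi * n * (3 - x - 1)) := by
  obtain ⟨p1, p2, p3⟩ := mid_phase hn h1 h2
  unfold SLi
  rw [mid_GLf h p1.le (by linarith) (by linarith), mid_GLf h p2.le (by linarith) (by linarith),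
    p3, GM_nat_sub h.vk₀_abs]
  simp only [Complex.add_im, Complex.neg_im, Complex.conj_im]
  ring

/-! ### the glued functions -/

variable (κ₀)

/-- frequency -/
noncomputable def mun (n : ℕ) : ℝ := 2 * Real.pi * n

theorem one_le_mun {n : ℕ} (hn : 1 ≤ n) : 1 ≤ mun n := by
  have hpi := Real.pi_gt_three
  have hn' : (1 : ℝ) ≤ n := by exact_mod_cast hn
  unfold mun
  nlinarith

/-- cosine -/
noncomputable def pc (n : ℕ) : ℝ → ℝ :=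
  glue (3 / 2) (fun x => Real.cos (PP κ₀ (x, mun n * (x - 1))))
    (fun x => Real.cos (PP κ₀ (3 - x, mun n * (3 - x - 1))))

/-- sine -/
noncomputable def ps (n : ℕ) : ℝ → ℝ :=
  glue (3 / 2) (fun x => Real.sin (PP κ₀ (x, mun n * (x - 1))))
    (fun x => -Real.sin (PP κ₀ (3 - x, mun n * (3 - x - 1))))

/-- speed -/
noncomputable def ph (n : ℕ) : ℝ → ℝ :=
  glue (3 / 2) (fun x => hLx κ₀ (mun n) x) (fun x => hLx κ₀ (mun n) (3 - x))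

/-- first primitive before the cut off -/
noncomputable def pC0 (n : ℕ) : ℝ → ℝ :=
  glue (3 / 2) (fun x => CL κ₀ (x, mun n * (x - 1)))
    (fun x => oC κ₀ - CL κ₀ (3 - x, mun n * (3 - x - 1)))

/-- first primitive -/
noncomputable def pC (n : ℕ) (x : ℝ) : ℝ := pC0 κ₀ n x + -(oC κ₀ * ct x)

/-- second primitive -/
noncomputable def pS (n : ℕ) : ℝ → ℝ :=
  glue (3 / 2) (fun x => SLi κ₀ (x, mun n * (x - 1)))
    (fun x => SLi κ₀ (3 - x, mun n * (3 - x - 1)))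

/-- error of the first primitive before the cut off -/
noncomputable def peC0 (n : ℕ) : ℝ → ℝ :=
  glue (3 / 2) (fun x => d1 (CL κ₀) (x, mun n * (x - 1)))
    (fun x => d1 (CL κ₀) (3 - x, mun n * (3 - x - 1)))

/-- error of the first primitive -/
noncomputable def peC (n : ℕ) (x : ℝ) : ℝ :=
  peC0 κ₀ n x + -(d1 (fun p : ℝ × ℝ => oC κ₀ * ct p.1) (x, mun n * (x - 1)))

/-- error of the second primitive -/
noncomputable def peS (n : ℕ) : ℝ → ℝ :=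
  glue (3 / 2) (fun x => d1 (SLi κ₀) (x, mun n * (x - 1)))
    (fun x => -d1 (SLi κ₀) (3 - x, mun n * (3 - x - 1)))

variable {κ₀}

theorem d1_CL_mid (h : Adm κ₀) {x θ : ℝ} (h1 : 4 / 5 < x) (h2 : x < 11 / 5) :
    d1 (CL κ₀) (x, θ) = 0 := d1_CL h (kf_event h1 h2)

theorem d1_SLi_mid (h : Adm κ₀) {x θ : ℝ} (h1 : 4 / 5 < x) (h2 : x < 11 / 5) :
    d1 (SLi κ₀) (x, θ) = 0 := d1_SLi h (kf_event h1 h2)

section gl

theorem glue_hasDerivAt {c a b d x : ℝ} {f g : ℝ → ℝ} (hac : a < c) (hcb : c < b)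
    (h : ∀ x, a < x → x < b → f x = g x) (h1 : x < b → HasDerivAt f d x)
    (h2 : a < x → HasDerivAt g d x) : HasDerivAt (glue c f g) d x := by
  rcases lt_or_ge x b with hx | hx
  · exact (h1 hx).congr_of_eventuallyEq (glue_left hac h hx)
  · exact (h2 (by linarith)).congr_of_eventuallyEq (glue_right hcb h (by linarith))

theorem hac : (5 / 4 : ℝ) < 3 / 2 := by norm_num

theorem hcb : (3 / 2 : ℝ) < 7 / 4 := by norm_num

variable {n : ℕ} {x : ℝ}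

theorem pc_mid (hn : 1 ≤ n) : ∀ x, 5 / 4 < x → x < 7 / 4 →
    Real.cos (PP κ₀ (x, mun n * (x - 1))) =
      Real.cos (PP κ₀ (3 - x, mun n * (3 - x - 1))) := fun _ h1 h2 => mid_cos hn h1 h2

theorem ps_mid (hn : 1 ≤ n) : ∀ x, 5 / 4 < x → x < 7 / 4 →
    Real.sin (PP κ₀ (x, mun n * (x - 1))) =
      -Real.sin (PP κ₀ (3 - x, mun n * (3 - x - 1))) := fun _ h1 h2 => mid_sin hn h1 h2

theorem ph_mid (h : Adm κ₀) (hn : 1 ≤ n) : ∀ x, 5 / 4 < x → x < 7 / 4 →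
    hLx κ₀ (mun n) x = hLx κ₀ (mun n) (3 - x) := fun _ h1 h2 => mid_h h hn h1 h2

theorem pC_mid (h : Adm κ₀) (hn : 1 ≤ n) : ∀ x, 5 / 4 < x → x < 7 / 4 →
    CL κ₀ (x, mun n * (x - 1)) = oC κ₀ - CL κ₀ (3 - x, mun n * (3 - x - 1)) :=
  fun _ h1 h2 => mid_C h hn h1 h2

theorem pS_mid (h : Adm κ₀) (hn : 1 ≤ n) : ∀ x, 5 / 4 < x → x < 7 / 4 →
    SLi κ₀ (x, mun n * (x - 1)) = SLi κ₀ (3 - x, mun n * (3 - x - 1)) :=
  fun _ h1 h2 => mid_S h hn h1 h2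

theorem peC_mid (h : Adm κ₀) : ∀ x, 5 / 4 < x → x < 7 / 4 →
    d1 (CL κ₀) (x, mun n * (x - 1)) = d1 (CL κ₀) (3 - x, mun n * (3 - x - 1)) :=
  fun x h1 h2 => by
    rw [d1_CL_mid h (by linarith) (by linarith), d1_CL_mid h (by linarith) (by linarith)]

theorem peS_mid (h : Adm κ₀) : ∀ x, 5 / 4 < x → x < 7 / 4 →
    d1 (SLi κ₀) (x, mun n * (x - 1)) = -d1 (SLi κ₀) (3 - x, mun n * (3 - x - 1)) :=
  fun x h1 h2 => by
    rw [d1_SLi_mid h (by linarith) (by linarith), d1_SLi_mid h (by linarith) (by linarith),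
      neg_zero]

/-! values -/

theorem pc_L (hn : 1 ≤ n) (hx : x < 7 / 4) :
    pc κ₀ n x = Real.cos (PP κ₀ (x, mun n * (x - 1))) :=
  (glue_left hac (pc_mid hn) hx).eq_of_nhds

theorem pc_R (hn : 1 ≤ n) (hx : 5 / 4 < x) :
    pc κ₀ n x = Real.cos (PP κ₀ (3 - x, mun n * (3 - x - 1))) :=
  (glue_right hcb (pc_mid hn) hx).eq_of_nhds

theorem ps_L (hn : 1 ≤ n) (hx : x < 7 / 4) :
    ps κ₀ n x = Real.sin (PP κ₀ (x, mun n * (x - 1))) :=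
  (glue_left hac (ps_mid hn) hx).eq_of_nhds

theorem ps_R (hn : 1 ≤ n) (hx : 5 / 4 < x) :
    ps κ₀ n x = -Real.sin (PP κ₀ (3 - x, mun n * (3 - x - 1))) :=
  (glue_right hcb (ps_mid hn) hx).eq_of_nhds

theorem ph_L (h : Adm κ₀) (hn : 1 ≤ n) (hx : x < 7 / 4) : ph κ₀ n x = hLx κ₀ (mun n) x :=
  (glue_left hac (ph_mid h hn) hx).eq_of_nhds

theorem ph_R (h : Adm κ₀) (hn : 1 ≤ n) (hx : 5 / 4 < x) :
    ph κ₀ n x = hLx κ₀ (mun n) (3 - x) :=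
  (glue_right hcb (ph_mid h hn) hx).eq_of_nhds

theorem pC0_L (h : Adm κ₀) (hn : 1 ≤ n) (hx : x < 7 / 4) :
    pC0 κ₀ n x = CL κ₀ (x, mun n * (x - 1)) :=
  (glue_left hac (pC_mid h hn) hx).eq_of_nhds

theorem pC0_R (h : Adm κ₀) (hn : 1 ≤ n) (hx : 5 / 4 < x) :
    pC0 κ₀ n x = oC κ₀ - CL κ₀ (3 - x, mun n * (3 - x - 1)) :=
  (glue_right hcb (pC_mid h hn) hx).eq_of_nhds

theorem pS_L (h : Adm κ₀) (hn : 1 ≤ n) (hx : x < 7 / 4) :
    pS κ₀ n x = SLi κ₀ (x, mun n * (x - 1)) :=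
  (glue_left hac (pS_mid h hn) hx).eq_of_nhds

theorem pS_R (h : Adm κ₀) (hn : 1 ≤ n) (hx : 5 / 4 < x) :
    pS κ₀ n x = SLi κ₀ (3 - x, mun n * (3 - x - 1)) :=
  (glue_right hcb (pS_mid h hn) hx).eq_of_nhds

theorem peC0_L (h : Adm κ₀) (hx : x < 7 / 4) :
    peC0 κ₀ n x = d1 (CL κ₀) (x, mun n * (x - 1)) :=
  (glue_left hac (peC_mid h) hx).eq_of_nhds

theorem peC0_R (h : Adm κ₀) (hx : 5 / 4 < x) :
    peC0 κ₀ n x = d1 (CL κ₀) (3 - x, mun n * (3 - x - 1)) :=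
  (glue_right hcb (peC_mid h) hx).eq_of_nhds

theorem peS_L (h : Adm κ₀) (hx : x < 7 / 4) :
    peS κ₀ n x = d1 (SLi κ₀) (x, mun n * (x - 1)) :=
  (glue_left hac (peS_mid h) hx).eq_of_nhds

theorem peS_R (h : Adm κ₀) (hx : 5 / 4 < x) :
    peS κ₀ n x = -d1 (SLi κ₀) (3 - x, mun n * (3 - x - 1)) :=
  (glue_right hcb (peS_mid h) hx).eq_of_nhds

/-! derivatives -/

theorem hasDerivAt_refl {f : ℝ → ℝ} {d x : ℝ} (h : HasDerivAt f d (3 - x)) :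
    HasDerivAt (fun y => f (3 - y)) (-d) x := by
  have h1 : HasDerivAt (fun y : ℝ => 3 - y) (-1) x := (hasDerivAt_id x).const_sub 3
  have h2 := HasDerivAt.comp x h h1
  rw [mul_neg_one] at h2
  exact h2

theorem pc_deriv (h : Adm κ₀) (hn : 1 ≤ n) (x : ℝ) :
    HasDerivAt (pc κ₀ n) (-(mun n * (ps κ₀ n x * ph κ₀ n x))) x := by
  have hμ : mun n ≠ 0 := by linarith [one_le_mun hn]
  refine glue_hasDerivAt hac hcb (pc_mid hn) (fun hx => ?_) (fun hx => ?_)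
  · rw [ps_L hn hx, ph_L h hn hx]
    refine (hasDerivAt_aL h hμ x).cos.congr_deriv ?_
    ring
  · rw [ps_R hn hx, ph_R h hn hx]
    refine (hasDerivAt_refl (hasDerivAt_aL h hμ (3 - x)).cos).congr_deriv ?_
    ring

theorem ps_deriv (h : Adm κ₀) (hn : 1 ≤ n) (x : ℝ) :
    HasDerivAt (ps κ₀ n) (mun n * (pc κ₀ n x * ph κ₀ n x)) x := by
  have hμ : mun n ≠ 0 := by linarith [one_le_mun hn]
  refine glue_hasDerivAt hac hcb (ps_mid hn) (fun hx => ?_) (fun hx => ?_)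
  · rw [pc_L hn hx, ph_L h hn hx]
    refine (hasDerivAt_aL h hμ x).sin.congr_deriv ?_
    ring
  · rw [pc_R hn hx, ph_R h hn hx]
    refine (hasDerivAt_refl (hasDerivAt_aL h hμ (3 - x)).sin).neg.congr_deriv ?_
    ring

theorem left_cond (hn : 1 ≤ n) (hx : x < 7 / 4) :
    mun n * (x - 1) ≤ 0 ∨ (4 / 5 ≤ x ∧ x ≤ 11 / 5) := by
  have h1 := one_le_mun hn
  rcases le_or_gt x 1 with h2 | h2
  · left
    nlinarith
  · right
    constructor <;> linarith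

theorem VV_refl (x : ℝ) : VV κ₀ (3 - x) = VV κ₀ x := by
  unfold VV
  rw [kf_refl]

theorem CLx_deriv (h : Adm κ₀) (hn : 1 ≤ n) (hx : x < 7 / 4) :
    HasDerivAt (fun x => CL κ₀ (x, mun n * (x - 1)))
      (mun n * (Real.cos (PP κ₀ (x, mun n * (x - 1))) - VV κ₀ x) +
        d1 (CL κ₀) (x, mun n * (x - 1))) x := by
  refine (hasDerivAt_twoScale (reg_CL h).smooth (mun n) x).congr_deriv ?_
  rw [d2_CL h (left_cond hn hx), smul_eq_mul]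
  ring

theorem SLx_deriv (h : Adm κ₀) (hn : 1 ≤ n) (hx : x < 7 / 4) :
    HasDerivAt (fun x => SLi κ₀ (x, mun n * (x - 1)))
      (mun n * Real.sin (PP κ₀ (x, mun n * (x - 1))) +
        d1 (SLi κ₀) (x, mun n * (x - 1))) x := by
  refine (hasDerivAt_twoScale (reg_SLi h).smooth (mun n) x).congr_deriv ?_
  rw [d2_SLi h (left_cond hn hx), smul_eq_mul]
  ring

theorem pC0_deriv (h : Adm κ₀) (hn : 1 ≤ n) (x : ℝ) :
    HasDerivAt (pC0 κ₀ n) (mun n * (pc κ₀ n x - VV κ₀ x) + peC0 κ₀ n x) x := by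
  refine glue_hasDerivAt hac hcb (pC_mid h hn) (fun hx => ?_) (fun hx => ?_)
  · rw [pc_L hn hx, peC0_L h hx]
    exact CLx_deriv h hn hx
  · rw [pc_R hn hx, peC0_R h hx, ← VV_refl x]
    refine ((hasDerivAt_refl (CLx_deriv h hn (x := 3 - x) (by linarith))).const_sub
      (oC κ₀)).congr_deriv ?_
    ring

theorem pS_deriv (h : Adm κ₀) (hn : 1 ≤ n) (x : ℝ) :
    HasDerivAt (pS κ₀ n) (mun n * ps κ₀ n x + peS κ₀ n x) x := by
  refine glue_hasDerivAt hac hcb (pS_mid h hn) (fun hx => ?_) (fun hx => ?_)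
  · rw [ps_L hn hx, peS_L h hx]
    exact SLx_deriv h hn hx
  · rw [ps_R hn hx, peS_R h hx]
    refine (hasDerivAt_refl (SLx_deriv h hn (x := 3 - x) (by linarith))).congr_deriv ?_
    ring

theorem pC_deriv (h : Adm κ₀) (hn : 1 ≤ n) (x : ℝ) :
    HasDerivAt (pC κ₀ n) (mun n * (pc κ₀ n x - VV κ₀ x) + peC κ₀ n x) x := by
  have h1 := hasDerivAt_slice1 (reg_ct (oC κ₀)).smooth x (mun n * (x - 1))
  refine ((pC0_deriv h hn x).add h1.neg).congr_deriv ?_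
  unfold peC
  ring

end gl

end main

end Vale.Agent.P205.TW
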