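import Vale.Agent.P205.TW.Chi6

/-!
P205, block CHI (7): existence of the profile.
-/

open scoped ContDiff Topology ComplexConjugate
open Complex

namespace Vale.Agent.P205.TW

variable {κ₀ : ℝ} {n : ℕ} {x : ℝ}

/-! ### off values -/

theorem mun_pos (hn : 1 ≤ n) : 0 < mun n := by linarith [one_le_mun hn]

theorem off_phase (hn : 1 ≤ n) (hx : x < 1) : mun n * (x - 1) ≤ 0 := by
  nlinarith [mun_pos hn]

theorem CL_off {x θ : ℝ} (hθ : θ ≤ 0) (hx : x ≤ 3 / 5 ∨ 12 / 5 ≤ x) : CL κ₀ (x, θ) = 0 := by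
  unfold CL
  rw [GLf_off hθ hx, Complex.zero_re]

theorem SLi_off {x θ : ℝ} (hθ : θ ≤ 0) (hx : x ≤ 3 / 5 ∨ 12 / 5 ≤ x) : SLi κ₀ (x, θ) = 0 := by
  unfold SLi
  rw [GLf_off hθ hx, Complex.zero_im]

theorem pc_off (hn : 1 ≤ n) (hx : x < 3 / 5 ∨ 12 / 5 < x) : pc κ₀ n x = 1 := by
  rcases hx with hx | hx
  · rw [pc_L hn (by linarith), PP_off (off_phase hn (by linarith)) (Or.inl (by linarith)),
      Real.cos_zero]
  · rw [pc_R hn (by linarith), PP_off (off_phase hn (by linarith)) (Or.inl (by linarith)),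
      Real.cos_zero]

theorem ps_off (hn : 1 ≤ n) (hx : x < 3 / 5 ∨ 12 / 5 < x) : ps κ₀ n x = 0 := by
  rcases hx with hx | hx
  · rw [ps_L hn (by linarith), PP_off (off_phase hn (by linarith)) (Or.inl (by linarith)),
      Real.sin_zero]
  · rw [ps_R hn (by linarith), PP_off (off_phase hn (by linarith)) (Or.inl (by linarith)),
      Real.sin_zero, neg_zero]

theorem hLx_off (h : Adm κ₀) (hn : 1 ≤ n) (hx : x < 3 / 5) : hLx κ₀ (mun n) x = 0 := by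
  have h1 := hasDerivAt_aL h (mun_pos hn).ne' x
  have h2 : (fun x => PP κ₀ (x, mun n * (x - 1))) =ᶠ[𝓝 x] fun _ => 0 := by
    filter_upwards [isOpen_Iio.mem_nhds hx] with y hy
    have hy' : y < 3 / 5 := hy
    exact PP_off (off_phase hn (by linarith)) (Or.inl (by linarith))
  have h3 := h1.unique ((hasDerivAt_const x (0 : ℝ)).congr_of_eventuallyEq h2)
  rcases mul_eq_zero.1 h3 with h4 | h4
  · exact absurd h4 (mun_pos hn).ne'
  · exact h4

theorem ph_off (h : Adm κ₀) (hn : 1 ≤ n) (hx : x < 3 / 5 ∨ 12 / 5 < x) : ph κ₀ n x = 0 := by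
  rcases hx with hx | hx
  · rw [ph_L h hn (by linarith), hLx_off h hn hx]
  · rw [ph_R h hn (by linarith), hLx_off h hn (by linarith)]

theorem pC_off (h : Adm κ₀) (hn : 1 ≤ n) (hx : x < 3 / 5 ∨ 12 / 5 < x) : pC κ₀ n x = 0 := by
  unfold pC
  rcases hx with hx | hx
  · rw [pC0_L h hn (by linarith), CL_off (off_phase hn (by linarith)) (Or.inl (by linarith)),
      ct_left (by linarith)]
    ring
  · rw [pC0_R h hn (by linarith), CL_off (off_phase hn (by linarith)) (Or.inl (by linarith)),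
      ct_right (by linarith)]
    ring

theorem pS_off (h : Adm κ₀) (hn : 1 ≤ n) (hx : x < 3 / 5 ∨ 12 / 5 < x) : pS κ₀ n x = 0 := by
  rcases hx with hx | hx
  · rw [pS_L h hn (by linarith), SLi_off (off_phase hn (by linarith)) (Or.inl (by linarith))]
  · rw [pS_R h hn (by linarith), SLi_off (off_phase hn (by linarith)) (Or.inl (by linarith))]

/-! ### bounds -/

theorem pc_bd (h : Adm κ₀) : ∃ B : ℕ → ℝ, ∀ n, 1 ≤ n → FBd B (mun n) (pc κ₀ n) := by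
  obtain ⟨B, hB⟩ := (reg_cos h).FBd
  exact ⟨B, fun n hn => glue_FBd hac hcb (pc_mid hn) (hB _ (one_le_mun hn))
    (hB _ (one_le_mun hn)).reflect⟩

theorem ps_bd (h : Adm κ₀) : ∃ B : ℕ → ℝ, ∀ n, 1 ≤ n → FBd B (mun n) (ps κ₀ n) := by
  obtain ⟨B, hB⟩ := (reg_sin h).FBd
  exact ⟨B, fun n hn => glue_FBd hac hcb (ps_mid hn) (hB _ (one_le_mun hn))
    (hB _ (one_le_mun hn)).reflect.neg⟩

theorem ph_bd (h : Adm κ₀) : ∃ B : ℕ → ℝ, ∀ n, 1 ≤ n → FBd B (mun n) (ph κ₀ n) := by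
  obtain ⟨B, hB⟩ := exists_hLx_bd h
  exact ⟨B, fun n hn => glue_FBd hac hcb (ph_mid h hn) (hB _ (one_le_mun hn))
    (hB _ (one_le_mun hn)).reflect⟩

theorem pS_bd (h : Adm κ₀) : ∃ B : ℕ → ℝ, ∀ n, 1 ≤ n → FBd B (mun n) (pS κ₀ n) := by
  obtain ⟨B, hB⟩ := (reg_SLi h).FBd
  exact ⟨B, fun n hn => glue_FBd hac hcb (pS_mid h hn) (hB _ (one_le_mun hn))
    (hB _ (one_le_mun hn)).reflect⟩

theorem peS_bd (h : Adm κ₀) : ∃ B : ℕ → ℝ, ∀ n, 1 ≤ n → FBd B (mun n) (peS κ₀ n) := by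
  obtain ⟨B, hB⟩ := (reg_SLi h).d1.FBd
  exact ⟨B, fun n hn => glue_FBd hac hcb (peS_mid h) (hB _ (one_le_mun hn))
    (hB _ (one_le_mun hn)).reflect.neg⟩

theorem peC_bd (h : Adm κ₀) : ∃ B : ℕ → ℝ, ∀ n, 1 ≤ n → FBd B (mun n) (peC κ₀ n) := by
  obtain ⟨B, hB⟩ := (reg_CL h).d1.FBd
  obtain ⟨B', hB'⟩ := (reg_ct (oC κ₀)).d1.FBd
  exact ⟨fun k => B k + B' k, fun n hn => (glue_FBd hac hcb (peC_mid h)
    (hB _ (one_le_mun hn)) (hB _ (one_le_mun hn)).reflect).add (hB' _ (one_le_mun hn)).neg⟩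

theorem reg_const (a : ℝ) : Reg (0 : ℝ) (fun _ : ℝ × ℝ => a) :=
  ⟨contDiff_const, fun _ _ _ => rfl, fun _ _ _ => by simp, fun _ _ _ _ _ => rfl,
    fun _ _ _ _ _ => rfl⟩

theorem pC_bd (h : Adm κ₀) : ∃ B : ℕ → ℝ, ∀ n, 1 ≤ n → FBd B (mun n) (pC κ₀ n) := by
  obtain ⟨B, hB⟩ := (reg_CL h).FBd
  obtain ⟨B', hB'⟩ := (reg_ct (oC κ₀)).FBd
  obtain ⟨B1, hB1⟩ := (reg_const (oC κ₀)).FBd
  refine ⟨fun k => (B k + (B1 k + B k)) + B' k, fun n hn => ?_⟩
  have h1 := one_le_mun hn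
  have h2 : FBd (fun k => B1 k + B k) (mun n)
      (fun x => oC κ₀ - CL κ₀ (3 - x, mun n * (3 - x - 1))) := by
    have h3 := (hB1 _ h1).add (hB _ h1).reflect.neg
    simpa only [sub_eq_add_neg] using h3
  exact (glue_FBd' hac hcb (pC_mid h hn) (mun_pos hn) (hB _ h1) h2).add (hB' _ h1).neg

/-! ### non-degeneracy -/

theorem nondeg_left {τ₀ η c₁ : ℝ} (h : Adm κ₀) (hτ : 3 * κ₀ ≤ τ₀) (hη' : η ≤ 1 / 2)
    (hη : ∀ x θ : ℝ, 4 / 5 ≤ x → x ≤ 11 / 5 → θ ≤ η → 1 / 2 < Real.cos (PP κ₀ (x, θ)) ∧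
      |Real.sin (PP κ₀ (x, θ))| < τ₀ * Real.cos (PP κ₀ (x, θ)))
    (hc : ∀ x θ : ℝ, 4 / 5 ≤ x → x ≤ 11 / 5 → η ≤ θ → c₁ ≤ d2 (PP κ₀) (x, θ))
    (hn : 1 ≤ n) (hx : x ≤ 3 / 2) :
    (1 ≤ x ∧ x ≤ 3 / 2 ∧ c₁ ≤ hLx κ₀ (mun n) x) ∨
    (x < 11 / 10 ∧ 1 / 2 ≤ Real.cos (PP κ₀ (x, mun n * (x - 1))) ∧
      |Real.sin (PP κ₀ (x, mun n * (x - 1)))| ≤ τ₀ * Real.cos (PP κ₀ (x, mun n * (x - 1)))) := by
  have hμ := mun_pos hn
  rcases le_or_gt x 1 with h1 | h1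
  · right
    obtain ⟨e1, e2⟩ := near_left (x := x) h hτ (by nlinarith : mun n * (x - 1) ≤ 0)
    exact ⟨by linarith, e1.le, e2.le⟩
  · rcases le_or_gt (mun n * (x - 1)) η with h2 | h2
    · right
      obtain ⟨e1, e2⟩ := hη x _ (by linarith) (by linarith) h2
      refine ⟨?_, e1.le, e2.le⟩
      have hpi := Real.pi_gt_three
      have hn' : (1 : ℝ) ≤ n := by exact_mod_cast hn
      have h6 : 6 ≤ mun n := by
        unfold mun
        nlinarith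
      nlinarith
    · left
      refine ⟨h1.le, hx, ?_⟩
      rw [hLx_mid h (by linarith) (by linarith)]
      exact hc 1 _ (by norm_num) (by norm_num) h2.le

theorem exists_profile {τ₀ : ℝ} (hτ₀ : 0 < τ₀) : Nonempty (Profile τ₀) := by
  set κ₀ : ℝ := min (τ₀ / 4) (1 / 4) with hκ
  have hpos : 0 < κ₀ := lt_min (by linarith) (by norm_num)
  have hle : κ₀ ≤ 1 / 4 := min_le_right _ _
  have hle' : κ₀ ≤ τ₀ / 4 := min_le_left _ _
  have h : Adm κ₀ := ⟨hpos, hle⟩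
  have hτ : 3 * κ₀ ≤ τ₀ := by linarith
  obtain ⟨η, hη0, hη', hη⟩ := exists_eta h hτ
  obtain ⟨c₁, hc₁, hc⟩ := exists_c1 h hη0
  obtain ⟨B1, hB1⟩ := pc_bd h
  obtain ⟨B2, hB2⟩ := ps_bd h
  obtain ⟨B3, hB3⟩ := ph_bd h
  obtain ⟨B4, hB4⟩ := pC_bd h
  obtain ⟨B5, hB5⟩ := pS_bd h
  obtain ⟨B6, hB6⟩ := peC_bd h
  obtain ⟨B7, hB7⟩ := peS_bd h
  have n1 : ∀ k, 0 ≤ B1 k := (hB1 1 le_rfl).nonneg (mun_pos le_rfl)
  have n2 : ∀ k, 0 ≤ B2 k := (hB2 1 le_rfl).nonneg (mun_pos le_rfl)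
  have n3 : ∀ k, 0 ≤ B3 k := (hB3 1 le_rfl).nonneg (mun_pos le_rfl)
  have n4 : ∀ k, 0 ≤ B4 k := (hB4 1 le_rfl).nonneg (mun_pos le_rfl)
  have n5 : ∀ k, 0 ≤ B5 k := (hB5 1 le_rfl).nonneg (mun_pos le_rfl)
  have n6 : ∀ k, 0 ≤ B6 k := (hB6 1 le_rfl).nonneg (mun_pos le_rfl)
  have n7 : ∀ k, 0 ≤ B7 k := (hB7 1 le_rfl).nonneg (mun_pos le_rfl)
  have hV : ∀ x, 1 - κ₀ ^ 2 ≤ VV κ₀ x := fun x => by
    have h1 := h.kf_sq x
    have h2 := vk_ge (κ := kf κ₀ x)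
    unfold VV
    linarith
  refine ⟨{
    V := VV κ₀
    c := pc κ₀
    s := ps κ₀
    h := ph κ₀
    C := pC κ₀
    Sn := pS κ₀
    eC := peC κ₀
    eS := peS κ₀
    B := fun k => B1 k + B2 k + B3 k + B4 k + B5 k + B6 k + B7 k
    c₁ := c₁
    V_smooth := contDiff_VV κ₀
    V_pos := fun x => by
      have := hV x
      nlinarith
    V_ge := fun x => by
      have := hV x
      nlinarith
    V_le := fun x => vk_le_one _
    V_off := fun x hx => by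
      unfold VV
      rw [kf_zero (by rcases hx with hx | hx
                      · left; linarith
                      · right; linarith), vk_zero]
    c₁_pos := hc₁
    c_bd := fun n hn => (hB1 n hn).mono (mun_pos hn).le fun k => by
      linarith [n1 k, n2 k, n3 k, n4 k, n5 k, n6 k, n7 k]
    s_bd := fun n hn => (hB2 n hn).mono (mun_pos hn).le fun k => by
      linarith [n1 k, n2 k, n3 k, n4 k, n5 k, n6 k, n7 k]
    h_bd := fun n hn => (hB3 n hn).mono (mun_pos hn).le fun k => by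
      linarith [n1 k, n2 k, n3 k, n4 k, n5 k, n6 k, n7 k]
    C_bd := fun n hn => (hB4 n hn).mono (mun_pos hn).le fun k => by
      linarith [n1 k, n2 k, n3 k, n4 k, n5 k, n6 k, n7 k]
    Sn_bd := fun n hn => (hB5 n hn).mono (mun_pos hn).le fun k => by
      linarith [n1 k, n2 k, n3 k, n4 k, n5 k, n6 k, n7 k]
    eC_bd := fun n hn => (hB6 n hn).mono (mun_pos hn).le fun k => by
      linarith [n1 k, n2 k, n3 k, n4 k, n5 k, n6 k, n7 k]
    eS_bd := fun n hn => (hB7 n hn).mono (mun_pos hn).le fun k => by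
      linarith [n1 k, n2 k, n3 k, n4 k, n5 k, n6 k, n7 k]
    circ := fun n x => by
      unfold pc ps glue
      split_ifs
      · exact Real.cos_sq_add_sin_sq _
      · rw [neg_sq]
        exact Real.cos_sq_add_sin_sq _
    c_deriv := fun n hn x => pc_deriv h hn x
    s_deriv := fun n hn x => ps_deriv h hn x
    C_deriv := fun n hn x => pC_deriv h hn x
    Sn_deriv := fun n hn x => pS_deriv h hn x
    c_off := fun n hn x hx => pc_off hn hx
    s_off := fun n hn x hx => ps_off hn hx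
    h_off := fun n hn x hx => ph_off h hn hx
    C_off := fun n hn x hx => pC_off h hn hx
    Sn_off := fun n hn x hx => pS_off h hn hx
    nondeg := ?_ }⟩
  intro n hn x
  rcases le_or_gt x (3 / 2) with hx | hx
  · rcases nondeg_left h hτ hη' hη hc hn hx with ⟨e1, e2, e3⟩ | ⟨e1, e2, e3⟩
    · left
      rw [ph_L h hn (by linarith)]
      exact ⟨e1, by linarith, e3⟩
    · right
      rw [pc_L hn (by linarith), ps_L hn (by linarith)]
      exact ⟨Or.inl e1, e2, e3⟩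
  · rcases nondeg_left (x := 3 - x) h hτ hη' hη hc hn (by linarith) with
      ⟨e1, e2, e3⟩ | ⟨e1, e2, e3⟩
    · left
      rw [ph_R h hn (by linarith)]
      exact ⟨by linarith, by linarith, e3⟩
    · right
      rw [pc_R hn (by linarith), ps_R hn (by linarith), abs_neg]
      exact ⟨Or.inr (by linarith), e2, e3⟩

end Vale.Agent.P205.TW
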