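import Vale.Agent.P205.TW.DataDef

/-!
P205, scheme T1W, block CHI: interface used by the assembly (helper609).

`LoopC S Λ r v τ0 c1`: the loop functions at scale `Λ` (phase `θ = Λ r`): `c = cos χ`, `s = sin χ`,
`h = dχ/dθ`, `A`, `B` primitives of `cos χ - v` and `sin χ` with respect to `θ`, where `v` (the mean
of `cos χ`) is a fixed slow function of `r`.
-/

noncomputable section

namespace Vale.Agent.P205.TW

open Vale.Agent.P205.F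

universe u

variable {P : Type u} {κ : Type} [Fintype κ] (S : DAlg P κ)

/-- the region `3/5 ≤ r ≤ 12/5` which contains the support of the loops -/
def Kc (r : P → ℂ) : Set P := {p | 3 / 5 ≤ (r p).re ∧ (r p).re ≤ 12 / 5}

/-- the loop functions at scale `Λ` -/
structure LoopC {ι : Type} (Λ : ι → ℝ) (r v : P → ℂ) (τ0 c1 : ℝ) where
  /-- `cos χ` -/
  c : ι → P → ℂ
  /-- `sin χ` -/
  s : ι → P → ℂ
  /-- `dχ/dθ` -/
  h : ι → P → ℂ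
  /-- primitive of `cos χ - v` -/
  A : ι → P → ℂ
  /-- primitive of `sin χ` -/
  B : ι → P → ℂ
  fc : S.FO Λ (fun _ => 1) c
  fs : S.FO Λ (fun _ => 1) s
  fh : S.FO Λ (fun _ => 1) h
  fA : S.FO Λ (fun _ => 1) A
  fB : S.FO Λ (fun _ => 1) B
  rc : ∀ i, Rl (c i)
  rs : ∀ i, Rl (s i)
  rh : ∀ i, Rl (h i)
  rA : ∀ i, Rl (A i)
  rB : ∀ i, Rl (B i)
  circ : ∀ i p, c i p ^ 2 + s i p ^ 2 = 1
  dc : ∀ j, S.FO Λ (fun _ => 1) (fun i p => S.D j (c i) p + Λ i * (s i p * h i p * S.D j r p))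
  ds : ∀ j, S.FO Λ (fun _ => 1) (fun i p => S.D j (s i) p - Λ i * (c i p * h i p * S.D j r p))
  dA : ∀ j, S.FO Λ (fun _ => 1) (fun i p => S.D j (A i) p - Λ i * ((c i p - v p) * S.D j r p))
  dB : ∀ j, S.FO Λ (fun _ => 1) (fun i p => S.D j (B i) p - Λ i * (s i p * S.D j r p))
  /-- supports, with all derivatives -/
  zc : ∀ i, S.Zs (Kc r) (fun p => c i p - 1)
  zs : ∀ i, S.Zs (Kc r) (s i)
  zh : ∀ i, S.Zs (Kc r) (h i)
  zA : ∀ i, S.Zs (Kc r) (A i)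
  zB : ∀ i, S.Zs (Kc r) (B i)
  /-- nondegeneracy -/
  nd1 : ∀ i p, c1 ≤ ‖h i p‖ ∨ (1 / 2 ≤ (c i p).re ∧ ‖s i p‖ ≤ τ0 * (c i p).re)
  nd2 : ∀ i p, 11 / 10 ≤ (r p).re → (r p).re ≤ 19 / 10 → c1 ≤ ‖h i p‖
  /-- everything is a function of `r` -/
  ev : ∀ i p q, r p = r q →
    c i p = c i q ∧ s i p = s i q ∧ h i p = h i q ∧ A i p = A i q ∧ B i p = B i q

/-- **(CHI)** existence of the loop functions, `Λ = 2 π n` -/
def ChiC : Prop :=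
  ∀ (r : P → ℂ), RSm S r → ∀ τ0 : ℝ, 0 < τ0 → ∃ (v : P → ℂ) (c1 : ℝ), 0 < c1 ∧ RSm S v ∧
    (∀ p, 15 / 16 ≤ (v p).re ∧ (v p).re ≤ 1) ∧ S.Zs (Kc r) (fun p => v p - 1) ∧
    (∀ p q, r p = r q → v p = v q) ∧
    ∃ N : ℕ, ∀ n : ℕ → ℕ, (∀ i, N ≤ n i) →
      Nonempty (LoopC S (fun i => 2 * Real.pi * (n i : ℝ)) r v τ0 c1)

end Vale.Agent.P205.TW
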