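import Vale.Agent.P205.TW.Chi7
import Vale.Agent.P205.TW.ChiDef

/-!
P205, block CHI (8): the profile composed with `r`, in an abstract `DAlg`: `theorem chiC`.
-/

noncomputable section

open scoped ContDiff

namespace Vale.Agent.P205.TW

open Vale.Agent.P205.F

universe u

variable {P : Type u} {κ : Type} [Fintype κ] {S : DAlg P κ}

theorem chi_exists_Nb (k : ℕ) : ∀ {u : P → ℂ}, S.Sm u → ∃ C : ℝ, 0 ≤ C ∧ S.Nb k C u := by
  induction k with
  | zero =>
    intro u hu
    obtain ⟨C, hC⟩ := S.bdd hu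
    refine ⟨max C 0, le_max_right _ _, fun w hw p => ?_⟩
    have h0 : w = [] := List.length_eq_zero_iff.1 (Nat.le_zero.1 hw)
    subst h0
    rw [S.wd_nil]
    exact (hC p).trans (le_max_left _ _)
  | succ k ih =>
    intro u hu
    obtain ⟨C, hC⟩ := S.bdd hu
    choose R hR0 hR using fun j : κ => ih (S.sm_D j hu)
    refine ⟨max C 0 + ∑ j, R j,
      add_nonneg (le_max_right _ _) (Finset.sum_nonneg fun j _ => hR0 j), fun w hw p => ?_⟩
    have hs : 0 ≤ ∑ j, R j := Finset.sum_nonneg fun j _ => hR0 j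
    rcases List.eq_nil_or_concat' w with rfl | ⟨w', j, rfl⟩
    · rw [S.wd_nil]
      exact (hC p).trans ((le_max_left _ _).trans (le_add_of_nonneg_right hs))
    · rw [S.wd_snoc]
      rw [List.length_append, List.length_singleton] at hw
      refine (hR j w' (by omega) p).trans ?_
      have h1 : R j ≤ ∑ j, R j :=
        Finset.single_le_sum (f := fun j => R j) (fun i _ => hR0 i) (Finset.mem_univ j)
      linarith [le_max_right C 0]

/-- a fixed function is slow -/
theorem chi_fo_fixed {ι : Type*} {Λ : ι → ℝ} (hΛ : ∀ i, 1 ≤ Λ i) {u : P → ℂ} (hu : S.Sm u) :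
    S.FO Λ (fun _ => 1) (fun _ => u) := by
  refine ⟨fun _ => hu, fun k => ?_⟩
  obtain ⟨C, hC0, hC⟩ := chi_exists_Nb k hu
  refine ⟨C, hC0, fun i w hw p => ?_⟩
  have h1 : (1 : ℝ) ≤ Λ i ^ w.length := one_le_pow₀ (hΛ i)
  have h2 := hC w hw p
  nlinarith

/-- composition of a fast one-variable function with a fixed function -/
theorem chi_bd_comp {r : P → ℂ} (hr : RSm S r) (k : ℕ) : ∃ c : ℝ, 0 ≤ c ∧
    ∀ (F : ℝ → ℂ) (B μ : ℝ), ContDiff ℝ ∞ F → 1 ≤ μ → 0 ≤ B →
      (∀ j ≤ k, ∀ x, ‖iteratedDeriv j F x‖ ≤ B * μ ^ j) →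
      S.Bd μ k (c * B) (fun p => F (r p).re) := by
  induction k with
  | zero =>
    refine ⟨1, zero_le_one, fun F B μ hF hμ hB h w hw p => ?_⟩
    have h0 : w = [] := List.length_eq_zero_iff.1 (Nat.le_zero.1 hw)
    subst h0
    rw [S.wd_nil]
    have := h 0 le_rfl (r p).re
    simpa using this
  | succ k ih =>
    obtain ⟨c, hc, ih⟩ := ih
    choose R hR0 hR using fun j : κ => chi_exists_Nb (S := S) k (S.sm_D j hr.1)
    have hs : 0 ≤ ∑ j, R j := Finset.sum_nonneg fun j _ => hR0 j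
    refine ⟨max 1 (2 ^ k * c * ∑ j, R j), le_max_of_le_left zero_le_one,
      fun F B μ hF hμ hB h w hw p => ?_⟩
    have hμ0 : 0 ≤ μ := by linarith
    rcases List.eq_nil_or_concat' w with rfl | ⟨w', j, rfl⟩
    · rw [S.wd_nil]
      have h1 := h 0 (Nat.zero_le _) (r p).re
      simp only [iteratedDeriv_zero, pow_zero, mul_one] at h1
      simp only [List.length_nil, pow_zero, mul_one]
      exact h1.trans (le_mul_of_one_le_left hB (le_max_left _ _))
    · rw [S.wd_snoc, S.D_comp j hF hr.1 hr.2]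
      have hF' : ContDiff ℝ ∞ (deriv F) := (contDiff_infty_iff_deriv.1 hF).2
      have e1 := ih (deriv F) (B * μ) μ hF' hμ (by positivity) (fun i hi x => by
        rw [← iteratedDeriv_succ']
        refine (h (i + 1) (by omega) x).trans (le_of_eq ?_)
        ring)
      have hRj : R j ≤ ∑ j, R j :=
        Finset.single_le_sum (f := fun j => R j) (fun i _ => hR0 i) (Finset.mem_univ j)
      have e2 : S.Bd μ k (∑ j, R j) (S.D j r) := fun w hw p => by
        have h1 : (1 : ℝ) ≤ μ ^ w.length := one_le_pow₀ hμ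
        have h2 := hR j w hw p
        nlinarith
      have hw' : w'.length ≤ k := by
        rw [List.length_append, List.length_singleton] at hw
        omega
      have e3 := (e1.mul (S.sm_comp hF' hr.1 hr.2) (S.sm_D j hr.1) e2) w' hw' p
      have e4 : (fun p => deriv F (r p).re * S.D j r p)
          = (fun p => deriv F (r p).re) * S.D j r := rfl
      rw [e4]
      refine e3.trans ?_
      rw [List.length_append, List.length_singleton, pow_succ]
      have e5 : 2 ^ k * (c * (B * μ) * ∑ j, R j) * μ ^ w'.length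
          = (2 ^ k * c * ∑ j, R j) * (B * (μ ^ w'.length * μ)) := by ring
      have e6 : max 1 (2 ^ k * c * ∑ j, R j) * B * (μ ^ w'.length * μ)
          = max 1 (2 ^ k * c * ∑ j, R j) * (B * (μ ^ w'.length * μ)) := by ring
      rw [e5, e6]
      exact mul_le_mul_of_nonneg_right (le_max_right _ _) (by positivity)

theorem contDiff_ofReal' {F : ℝ → ℝ} (hF : ContDiff ℝ ∞ F) :
    ContDiff ℝ ∞ (fun x => ((F x : ℝ) : ℂ)) := Complex.ofRealCLM.contDiff.comp hF

theorem iteratedDeriv_ofReal (k : ℕ) : ∀ {F : ℝ → ℝ}, ContDiff ℝ ∞ F → ∀ x,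
    iteratedDeriv k (fun x => ((F x : ℝ) : ℂ)) x = ((iteratedDeriv k F x : ℝ) : ℂ) := by
  induction k with
  | zero =>
    intro F _ x
    simp
  | succ k ih =>
    intro F hF x
    have h1 : deriv (fun x => ((F x : ℝ) : ℂ)) = fun x => ((deriv F x : ℝ) : ℂ) := by
      funext y
      exact ((hF.differentiable (by simp)).differentiableAt.hasDerivAt (x := y)).ofReal_comp.deriv
    rw [iteratedDeriv_succ', iteratedDeriv_succ', h1, ih (contDiff_infty_iff_deriv.1 hF).2]

/-- the family `F i ∘ r` -/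
theorem chi_fo {ι : Type*} {Λ : ι → ℝ} (hΛ : ∀ i, 1 ≤ Λ i) {r : P → ℂ} (hr : RSm S r)
    {B : ℕ → ℝ} {F : ι → ℝ → ℝ} (hF : ∀ i, FBd B (Λ i) (F i)) :
    S.FO Λ (fun _ => 1) (fun i p => ((F i (r p).re : ℝ) : ℂ)) := by
  refine ⟨fun i => S.sm_comp (contDiff_ofReal' (hF i).1) hr.1 hr.2, fun k => ?_⟩
  obtain ⟨c, hc, h⟩ := chi_bd_comp hr k
  set Bm : ℝ := ∑ j ∈ Finset.range (k + 1), |B j| with hBm
  have hBm0 : 0 ≤ Bm := Finset.sum_nonneg fun j _ => abs_nonneg _
  refine ⟨c * Bm, by positivity, fun i => ?_⟩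
  have hΛ0 : 0 ≤ Λ i := by linarith [hΛ i]
  rw [mul_one]
  refine h _ Bm (Λ i) (contDiff_ofReal' (hF i).1) (hΛ i) hBm0 fun j hj x => ?_
  rw [iteratedDeriv_ofReal j (hF i).1, Complex.norm_real]
  refine ((hF i).2 j x).trans (mul_le_mul_of_nonneg_right ?_ (by positivity))
  exact (le_abs_self _).trans (Finset.single_le_sum (f := fun j => |B j|)
    (fun _ _ => abs_nonneg _) (Finset.mem_range.2 (by omega)))

/-! ### supports -/

/-- functions built from one-variable functions of `r` which vanish off `[3/5, 12/5]` -/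
inductive ZC (S : DAlg P κ) (r : P → ℂ) : (P → ℂ) → Prop
  | mul (G : ℝ → ℂ) (v : P → ℂ) (hG : ContDiff ℝ ∞ G)
      (h0 : ∀ x, (x < 3 / 5 ∨ 12 / 5 < x) → G x = 0) (hv : S.Sm v) :
      ZC S r (fun p => G (r p).re * v p)
  | add (u v : P → ℂ) (hu : ZC S r u) (hv : ZC S r v) : ZC S r (u + v)

omit [Fintype κ] in
theorem ZC.sm {r u : P → ℂ} (hr : RSm S r) (h : ZC S r u) : S.Sm u := by
  induction h with
  | mul G v hG h0 hv => exact S.sm_mul (S.sm_comp hG hr.1 hr.2) hv
  | add u v _ _ h1 h2 => exact S.sm_add h1 h2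

theorem off_cases {r : P → ℂ} {p : P} (hp : p ∉ Kc r) : (r p).re < 3 / 5 ∨ 12 / 5 < (r p).re := by
  by_contra hcon
  push Not at hcon
  exact hp hcon

omit [Fintype κ] in
theorem ZC.off {r u : P → ℂ} (h : ZC S r u) {p : P} (hp : p ∉ Kc r) : u p = 0 := by
  induction h with
  | mul G v hG h0 hv =>
    simp only
    rw [h0 _ (off_cases hp), zero_mul]
  | add u v _ _ h1 h2 => rw [Pi.add_apply, h1, h2, add_zero]

omit [Fintype κ] in
theorem ZC.D {r u : P → ℂ} (hr : RSm S r) (j : κ) (h : ZC S r u) : ZC S r (S.D j u) := by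
  induction h with
  | mul G v hG h0 hv =>
    have hG' : ContDiff ℝ ∞ (deriv G) := (contDiff_infty_iff_deriv.1 hG).2
    have h0' : ∀ x, (x < 3 / 5 ∨ 12 / 5 < x) → deriv G x = 0 := by
      intro x hx
      have hev : G =ᶠ[nhds x] fun _ => (0 : ℂ) := by
        rcases hx with hx | hx
        · filter_upwards [isOpen_Iio.mem_nhds hx] with y hy
          exact h0 y (Or.inl hy)
        · filter_upwards [isOpen_Ioi.mem_nhds hx] with y hy
          exact h0 y (Or.inr hy)
      rw [hev.deriv_eq, deriv_const]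
    have e : S.D j (fun p => G (r p).re * v p) =
        (fun p => deriv G (r p).re * (S.D j r p * v p)) + (fun p => G (r p).re * S.D j v p) := by
      have e1 : (fun p => G (r p).re * v p) = (fun p => G (r p).re) * v := rfl
      rw [e1, S.D_mul j (S.sm_comp hG hr.1 hr.2) hv, S.D_comp j hG hr.1 hr.2]
      funext p
      simp only [Pi.add_apply, Pi.mul_apply]
      ring
    rw [e]
    exact ZC.add _ _ (ZC.mul _ _ hG' h0' (S.sm_mul (S.sm_D j hr.1) hv))
      (ZC.mul _ _ hG h0 (S.sm_D j hv))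
  | add u v hu hv h1 h2 =>
    rw [S.D_add j (hu.sm hr) (hv.sm hr)]
    exact ZC.add _ _ h1 h2

theorem ZC.zs {r u : P → ℂ} (hr : RSm S r) (h : ZC S r u) : S.Zs (Kc r) u := by
  intro w p hp
  have h1 : ZC S r (S.wd w u) := by
    induction w with
    | nil => exact h
    | cons j w ih => exact ih.D hr j
  exact h1.off hp

theorem chi_zs {r : P → ℂ} (hr : RSm S r) {F : ℝ → ℝ} (hF : ContDiff ℝ ∞ F)
    (h0 : ∀ x, (x < 3 / 5 ∨ 12 / 5 < x) → F x = 0) :
    S.Zs (Kc r) (fun p => ((F (r p).re : ℝ) : ℂ)) := by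
  have h1 : ZC S r (fun p => (fun x => ((F x : ℝ) : ℂ)) (r p).re * (fun _ => (1 : ℂ)) p) :=
    ZC.mul _ _ (contDiff_ofReal' hF) (fun x hx => by rw [h0 x hx, Complex.ofReal_zero])
      (S.sm_const 1)
  have e : (fun p => (fun x => ((F x : ℝ) : ℂ)) (r p).re * (fun _ => (1 : ℂ)) p) =
      fun p => ((F (r p).re : ℝ) : ℂ) := by
    funext p
    simp
  rw [← e]
  exact h1.zs hr

omit [Fintype κ] in
theorem chi_D {r : P → ℂ} (hr : RSm S r) {F : ℝ → ℝ} (hF : ContDiff ℝ ∞ F) {d : ℝ} {p : P}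
    (hd : HasDerivAt F d (r p).re) (j : κ) :
    S.D j (fun p => ((F (r p).re : ℝ) : ℂ)) p = (d : ℂ) * S.D j r p := by
  rw [S.D_comp j (contDiff_ofReal' hF) hr.1 hr.2]
  simp only
  rw [hd.ofReal_comp.deriv]

theorem chiC : ChiC S := by
  intro r hr τ0 hτ
  obtain ⟨Q⟩ := exists_profile hτ
  refine ⟨fun p => ((Q.V (r p).re : ℝ) : ℂ), Q.c₁, Q.c₁_pos,
    ⟨S.sm_comp (contDiff_ofReal' Q.V_smooth) hr.1 hr.2, Rl.ofReal _⟩,
    fun p => ⟨by simpa using Q.V_pos _, by simpa using Q.V_le _⟩, ?_, fun p q hpq => by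
      simp only [hpq], 1, fun n hn => ?_⟩
  · have h1 := chi_zs (S := S) hr (F := fun x => Q.V x - 1) (Q.V_smooth.sub contDiff_const)
      (fun x hx => by rw [Q.V_off x hx, sub_self])
    have e : (fun p => ((Q.V (r p).re - 1 : ℝ) : ℂ)) = fun p => ((Q.V (r p).re : ℝ) : ℂ) - 1 := by
      funext p
      push_cast
      ring
    rw [e] at h1
    exact h1
  have hΛ : ∀ i, 1 ≤ 2 * Real.pi * (n i : ℝ) := fun i => one_le_mun (hn i)
  have hDr : ∀ j, S.FO (fun i => 2 * Real.pi * (n i : ℝ)) (fun _ => 1) (fun _ => S.D j r) :=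
    fun j => chi_fo_fixed hΛ (S.sm_D j hr.1)
  refine ⟨{
    c := fun i p => ((Q.c (n i) (r p).re : ℝ) : ℂ)
    s := fun i p => ((Q.s (n i) (r p).re : ℝ) : ℂ)
    h := fun i p => ((Q.h (n i) (r p).re : ℝ) : ℂ)
    A := fun i p => ((Q.C (n i) (r p).re : ℝ) : ℂ)
    B := fun i p => ((Q.Sn (n i) (r p).re : ℝ) : ℂ)
    fc := chi_fo hΛ hr fun i => Q.c_bd (n i) (hn i)
    fs := chi_fo hΛ hr fun i => Q.s_bd (n i) (hn i)
    fh := chi_fo hΛ hr fun i => Q.h_bd (n i) (hn i)
    fA := chi_fo hΛ hr fun i => Q.C_bd (n i) (hn i)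
    fB := chi_fo hΛ hr fun i => Q.Sn_bd (n i) (hn i)
    rc := fun i => Rl.ofReal _
    rs := fun i => Rl.ofReal _
    rh := fun i => Rl.ofReal _
    rA := fun i => Rl.ofReal _
    rB := fun i => Rl.ofReal _
    circ := fun i p => by exact_mod_cast congrArg (fun x : ℝ => (x : ℂ)) (Q.circ (n i) (r p).re)
    dc := fun j => by
      refine DAlg.FO.congr DAlg.FO.zero fun i p => ?_
      rw [chi_D hr (Q.c_bd (n i) (hn i)).1 (Q.c_deriv (n i) (hn i) (r p).re) j]
      push_cast
      simp only [Pi.zero_apply]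
      ring
    ds := fun j => by
      refine DAlg.FO.congr DAlg.FO.zero fun i p => ?_
      rw [chi_D hr (Q.s_bd (n i) (hn i)).1 (Q.s_deriv (n i) (hn i) (r p).re) j]
      push_cast
      simp only [Pi.zero_apply]
      ring
    dA := fun j => by
      have h1 := (chi_fo (S := S) hΛ hr fun i => Q.eC_bd (n i) (hn i)).mul (hDr j)
      refine (h1.congr_s fun i => one_mul 1).congr fun i p => ?_
      rw [chi_D hr (Q.C_bd (n i) (hn i)).1 (Q.C_deriv (n i) (hn i) (r p).re) j]
      push_cast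
      simp only [Pi.mul_apply]
      ring
    dB := fun j => by
      have h1 := (chi_fo (S := S) hΛ hr fun i => Q.eS_bd (n i) (hn i)).mul (hDr j)
      refine (h1.congr_s fun i => one_mul 1).congr fun i p => ?_
      rw [chi_D hr (Q.Sn_bd (n i) (hn i)).1 (Q.Sn_deriv (n i) (hn i) (r p).re) j]
      push_cast
      simp only [Pi.mul_apply]
      ring
    zc := fun i => by
      have h1 := chi_zs (S := S) hr (F := fun x => Q.c (n i) x - 1)
        ((Q.c_bd (n i) (hn i)).1.sub contDiff_const)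
        (fun x hx => by rw [Q.c_off (n i) (hn i) x hx, sub_self])
      have e : (fun p => ((Q.c (n i) (r p).re - 1 : ℝ) : ℂ)) =
          fun p => ((Q.c (n i) (r p).re : ℝ) : ℂ) - 1 := by
        funext p
        push_cast
        ring
      rw [e] at h1
      exact h1
    zs := fun i => chi_zs hr (Q.s_bd (n i) (hn i)).1 (Q.s_off (n i) (hn i))
    zh := fun i => chi_zs hr (Q.h_bd (n i) (hn i)).1 (Q.h_off (n i) (hn i))
    zA := fun i => chi_zs hr (Q.C_bd (n i) (hn i)).1 (Q.C_off (n i) (hn i))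
    zB := fun i => chi_zs hr (Q.Sn_bd (n i) (hn i)).1 (Q.Sn_off (n i) (hn i))
    nd1 := fun i p => by
      rw [Complex.norm_real, Complex.norm_real, Complex.ofReal_re]
      rcases Q.nondeg (n i) (hn i) (r p).re with ⟨_, _, h3⟩ | ⟨_, h2, h3⟩
      · left
        exact h3.trans (le_abs_self _)
      · right
        exact ⟨h2, h3⟩
    nd2 := fun i p h1 h2 => by
      rw [Complex.norm_real]
      rcases Q.nondeg (n i) (hn i) (r p).re with ⟨_, _, h3⟩ | ⟨h3 | h3, _, _⟩
      · exact h3.trans (le_abs_self _)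
      · linarith
      · linarith
    ev := fun i p q hpq => by
      simp only [hpq]
      exact ⟨trivial, trivial, trivial, trivial, trivial⟩ }⟩

end Vale.Agent.P205.TW
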