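import Vale.Agent.P205.F.DAlg

/-!
The differential function space of a two sheeted cover (P205, full question, BP-COVER).

`Line S I`: a smooth line field in `ℝ⁴` over the points of `S`, given by the relation `ok p n`
(`n` is a unit vector of the line at `p`) and local smooth unit sections `m i` on `V i`.
`L.Pt`: the pairs `(p, n)`, `L.sg`: the involution, `L.cover`: the differential function space.
-/

open scoped ContDiff

noncomputable section

namespace Vale.Agent.P205.TW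

open Vale.Agent.P205.F

variable {P κ I : Type*}

/-- a line field in `ℝ⁴` with local smooth unit sections -/
structure Line (S : DAlg P κ) (I : Type*) where
  /-- the regions of the local sections -/
  V : I → Set P
  cov : ∀ p, ∃ i, p ∈ V i
  locD : ∀ (i : I) (j : κ) (u v : P → ℂ), (∀ p ∈ V i, u p = v p) →
    ∀ p ∈ V i, S.D j u p = S.D j v p
  locS : ∀ u : P → ℂ, (∀ i, ∃ v, S.Sm v ∧ ∀ p ∈ V i, u p = v p) → S.Sm u
  /-- the local sections -/
  m : I → Fin 4 → P → ℂ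
  smm : ∀ i k, S.Sm (m i k)
  rm : ∀ i k p, (m i k p).im = 0
  unit : ∀ i, ∀ p ∈ V i, ∑ k, m i k p * m i k p = 1
  /-- `n` is a unit vector of the line at `p` -/
  ok : P → (Fin 4 → ℝ) → Prop
  ok_iff : ∀ i, ∀ p ∈ V i, ∀ n, ok p n ↔
    (∀ k, ((n k : ℝ) : ℂ) = m i k p) ∨ (∀ k, ((n k : ℝ) : ℂ) = - m i k p)
  ex : ∀ p, ∃ n, ok p n

namespace Line

variable {S : DAlg P κ} (L : Line S I)

/-- the points of the cover -/
def Pt : Type _ := {x : P × (Fin 4 → ℝ) // L.ok x.1 x.2}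

/-- the projection -/
def pi (x : L.Pt) : P := x.1.1

/-- the unit vector -/
def n (k : Fin 4) (x : L.Pt) : ℂ := ((x.1.2 k : ℝ) : ℂ)

variable {L}

lemma ok_neg {p : P} {n : Fin 4 → ℝ} (h : L.ok p n) : L.ok p (-n) := by
  obtain ⟨i, hi⟩ := L.cov p
  rw [L.ok_iff i p hi] at h ⊢
  rcases h with h | h
  · right; intro k; rw [Pi.neg_apply, Complex.ofReal_neg, h k]
  · left; intro k; rw [Pi.neg_apply, Complex.ofReal_neg, h k, neg_neg]

variable (L)

/-- the involution -/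
def sg (x : L.Pt) : L.Pt := ⟨(x.1.1, -x.1.2), ok_neg x.2⟩

variable {L}

lemma sg_sg (x : L.Pt) : L.sg (L.sg x) = x := by
  apply Subtype.ext
  simp [sg]

lemma pi_sg (x : L.Pt) : L.pi (L.sg x) = L.pi x := rfl

lemma n_sg (k : Fin 4) (x : L.Pt) : L.n k (L.sg x) = -L.n k x := by
  simp [n, sg]

lemma eq_or {x y : L.Pt} (h : L.pi x = L.pi y) : y = x ∨ y = L.sg x := by
  obtain ⟨i, hi⟩ := L.cov x.1.1
  have hp : x.1.1 = y.1.1 := h
  have hi' : y.1.1 ∈ L.V i := by rw [← hp]; exact hi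
  have hx := (L.ok_iff i _ hi _).1 x.2
  have hy := (L.ok_iff i _ hi' _).1 y.2
  rw [← hp] at hy
  have same : (∀ k, ((y.1.2 k : ℝ) : ℂ) = ((x.1.2 k : ℝ) : ℂ)) → y = x := fun h1 =>
    Subtype.ext (Prod.ext hp.symm (funext fun k => by exact_mod_cast h1 k))
  have opp : (∀ k, ((y.1.2 k : ℝ) : ℂ) = -((x.1.2 k : ℝ) : ℂ)) → y = L.sg x := fun h1 =>
    Subtype.ext (Prod.ext hp.symm (funext fun k => by
      show y.1.2 k = (-x.1.2) k
      rw [Pi.neg_apply]
      exact_mod_cast h1 k))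
  rcases hx with hx | hx <;> rcases hy with hy | hy
  · exact Or.inl (same fun k => by rw [hy k, hx k])
  · exact Or.inr (opp fun k => by rw [hy k, hx k])
  · exact Or.inr (opp fun k => by rw [hy k, hx k, neg_neg])
  · exact Or.inl (same fun k => by rw [hy k, hx k])

lemma n_unit (x : L.Pt) : ∑ k, L.n k x * L.n k x = 1 := by
  obtain ⟨i, hi⟩ := L.cov (L.pi x)
  have hx := (L.ok_iff i _ hi _).1 x.2
  rw [← L.unit i _ hi]
  refine Finset.sum_congr rfl fun k _ => ?_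
  rcases hx with hx | hx
  · rw [n, hx k]
  · rw [n, hx k, neg_mul_neg]

variable (L)

/-- a point over `p` -/
def s0 (p : P) : L.Pt := ⟨(p, Classical.choose (L.ex p)), Classical.choose_spec (L.ex p)⟩

variable {L}

lemma pi_s0 (p : P) : L.pi (L.s0 p) = p := rfl

variable (L)

/-- the even part -/
def ev (u : L.Pt → ℂ) (p : P) : ℂ := (u (L.s0 p) + u (L.sg (L.s0 p))) / 2

/-- the odd part, as a vector -/
def od (u : L.Pt → ℂ) (k : Fin 4) (p : P) : ℂ :=
  (u (L.s0 p) - u (L.sg (L.s0 p))) / 2 * L.n k (L.s0 p)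

variable {L}

lemma ev_pi (u : L.Pt → ℂ) (x : L.Pt) : L.ev u (L.pi x) = (u x + u (L.sg x)) / 2 := by
  rcases eq_or (L := L) (x := L.s0 (L.pi x)) (y := x) (pi_s0 _) with h | h
  · rw [ev, ← h]
  · have h' : L.sg x = L.s0 (L.pi x) := by rw [h, sg_sg]; rfl
    rw [ev, h', ← h, add_comm]

lemma od_pi (u : L.Pt → ℂ) (k : Fin 4) (x : L.Pt) :
    L.od u k (L.pi x) = (u x - u (L.sg x)) / 2 * L.n k x := by
  rcases eq_or (L := L) (x := L.s0 (L.pi x)) (y := x) (pi_s0 _) with h | h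
  · rw [od, ← h]
  · have h' : L.sg x = L.s0 (L.pi x) := by rw [h, sg_sg]; rfl
    have h2 : L.n k (L.s0 (L.pi x)) = - L.n k x := by rw [← h', n_sg]
    rw [od, h2, ← h, h']; ring

/-- decomposition -/
lemma decomp (u : L.Pt → ℂ) (x : L.Pt) :
    u x = L.ev u (L.pi x) + ∑ k, L.od u k (L.pi x) * L.n k x := by
  rw [ev_pi]
  simp_rw [od_pi]
  have h := n_unit x
  rw [Fin.sum_univ_four] at h ⊢
  linear_combination (-(u x - u (L.sg x)) / 2) * h

/-- the even and odd parts of an explicit function -/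
lemma ev_of {u : L.Pt → ℂ} {a : P → ℂ} {b : Fin 4 → P → ℂ}
    (h : ∀ x, u x = a (L.pi x) + ∑ k, b k (L.pi x) * L.n k x) : L.ev u = a := by
  funext p
  rw [ev, h, h, pi_sg, pi_s0]
  simp_rw [n_sg]
  simp only [mul_neg, Finset.sum_neg_distrib]
  ring

lemma od_of {u : L.Pt → ℂ} {a : P → ℂ} {b : Fin 4 → P → ℂ}
    (h : ∀ x, u x = a (L.pi x) + ∑ k, b k (L.pi x) * L.n k x) (k : Fin 4) :
    L.od u k = fun p => ∑ l, b l p * (L.n l (L.s0 p) * L.n k (L.s0 p)) := by
  funext p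
  rw [od, h, h, pi_sg, pi_s0]
  simp_rw [n_sg]
  simp only [mul_neg, Finset.sum_neg_distrib]
  rw [Fin.sum_univ_four, Fin.sum_univ_four]
  ring

variable (L)

/-- the projection matrix of the line -/
def N (l k : Fin 4) (p : P) : ℂ := L.n l (L.s0 p) * L.n k (L.s0 p)

variable {L}

lemma N_pi (l k : Fin 4) (x : L.Pt) : L.N l k (L.pi x) = L.n l x * L.n k x := by
  rcases eq_or (L := L) (x := L.s0 (L.pi x)) (y := x) (pi_s0 _) with h | h
  · rw [N, ← h]
  · have h' : L.sg x = L.s0 (L.pi x) := by rw [h, sg_sg]; rfl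
    rw [N, ← h', n_sg, n_sg]; ring

/-- the lift of a point of `V i` on the sheet of `m i` -/
lemma exists_lift {i : I} {p : P} (hp : p ∈ L.V i) :
    ∃ x : L.Pt, L.pi x = p ∧ ∀ k, L.n k x = L.m i k p := by
  have h := (L.ok_iff i p hp _).1 (L.s0 p).2
  rcases h with h | h
  · exact ⟨L.s0 p, rfl, h⟩
  · refine ⟨L.sg (L.s0 p), rfl, fun k => ?_⟩
    rw [n_sg, n, h k, neg_neg]

lemma sm_N (l k : Fin 4) : S.Sm (L.N l k) := by
  refine L.locS _ fun i => ⟨L.m i l * L.m i k, S.sm_mul (L.smm i l) (L.smm i k), fun p hp => ?_⟩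
  obtain ⟨x, hx, hn⟩ := exists_lift hp
  rw [← hx, N_pi, hn, hn, hx]; rfl

variable (S) in
lemma sm_sum3 {f : Fin 4 → P → ℂ} (h : ∀ k, S.Sm (f k)) : S.Sm (fun p => ∑ k, f k p) := by
  have : (fun p => ∑ k, f k p) = f 0 + f 1 + f 2 + f 3 := by
    funext p; rw [Fin.sum_univ_four]; rfl
  rw [this]; exact S.sm_add (S.sm_add (S.sm_add (h 0) (h 1)) (h 2)) (h 3)

variable (S) in
lemma D_sum3 {f : Fin 4 → P → ℂ} (h : ∀ k, S.Sm (f k)) (j : κ) (p : P) :
    S.D j (fun p => ∑ k, f k p) p = ∑ k, S.D j (f k) p := by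
  have : (fun p => ∑ k, f k p) = f 0 + f 1 + f 2 + f 3 := by
    funext p; rw [Fin.sum_univ_four]; rfl
  rw [this, S.D_add j (S.sm_add (S.sm_add (h 0) (h 1)) (h 2)) (h 3),
    S.D_add j (S.sm_add (h 0) (h 1)) (h 2), S.D_add j (h 0) (h 1), Fin.sum_univ_four]
  rfl

variable (L)

/-- smooth functions on the cover -/
def Smc (u : L.Pt → ℂ) : Prop := S.Sm (L.ev u) ∧ ∀ k, S.Sm (L.od u k)

/-- derivations on the cover -/
def Dc (j : κ) (u : L.Pt → ℂ) (x : L.Pt) : ℂ :=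
  S.D j (L.ev u) (L.pi x) + ∑ k, S.D j (L.od u k) (L.pi x) * L.n k x

variable {L}

/-- smoothness of an explicit function -/
lemma smc_of {u : L.Pt → ℂ} {a : P → ℂ} {b : Fin 4 → P → ℂ} (ha : S.Sm a) (hb : ∀ k, S.Sm (b k))
    (h : ∀ x, u x = a (L.pi x) + ∑ k, b k (L.pi x) * L.n k x) : L.Smc u := by
  refine ⟨?_, fun k => ?_⟩
  · rw [ev_of h]; exact ha
  · rw [od_of h]
    exact sm_sum3 S fun l => S.sm_mul (hb l) (sm_N l k)

lemma sum_congr3 {f g : Fin 4 → ℂ} (h : ∀ k, f k = g k) : ∑ k, f k = ∑ k, g k :=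
  Finset.sum_congr rfl fun k _ => h k

lemma ev_mul (u v : L.Pt → ℂ) : L.ev (u * v) =
    L.ev u * L.ev v + (fun p => ∑ k, L.od u k p * L.od v k p) := by
  funext p
  have h := n_unit (L.s0 p)
  simp only [ev, od, Pi.mul_apply, Pi.add_apply]
  rw [Fin.sum_univ_four] at h ⊢
  linear_combination (-(u (L.s0 p) - u (L.sg (L.s0 p))) * (v (L.s0 p) - v (L.sg (L.s0 p))) / 4) * h

lemma od_mul (u v : L.Pt → ℂ) (k : Fin 4) : L.od (u * v) k =
    L.ev u * L.od v k + L.od u k * L.ev v := by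
  funext p
  simp only [ev, od, Pi.mul_apply, Pi.add_apply]
  ring

lemma ev_add (u v : L.Pt → ℂ) : L.ev (u + v) = L.ev u + L.ev v := by
  funext p; simp only [ev, Pi.add_apply]; ring

lemma od_add (u v : L.Pt → ℂ) (k : Fin 4) : L.od (u + v) k = L.od u k + L.od v k := by
  funext p; simp only [od, Pi.add_apply]; ring

lemma conj_n (k : Fin 4) (x : L.Pt) : (starRingEnd ℂ) (L.n k x) = L.n k x :=
  Complex.conj_ofReal _

lemma ev_conj (u : L.Pt → ℂ) : L.ev (fun x => (starRingEnd ℂ) (u x)) =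
    fun p => (starRingEnd ℂ) (L.ev u p) := by
  funext p
  have h2 : (starRingEnd ℂ) (2 : ℂ) = 2 := map_ofNat _ 2
  simp only [ev, map_div₀, map_add, h2]

lemma od_conj (u : L.Pt → ℂ) (k : Fin 4) : L.od (fun x => (starRingEnd ℂ) (u x)) k =
    fun p => (starRingEnd ℂ) (L.od u k p) := by
  funext p
  have h2 : (starRingEnd ℂ) (2 : ℂ) = 2 := map_ofNat _ 2
  simp only [od, map_div₀, map_sub, map_mul, h2, conj_n]

lemma im_n (k : Fin 4) (x : L.Pt) : (L.n k x).im = 0 := Complex.ofReal_im _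

lemma ev_real {u : L.Pt → ℂ} (hu : ∀ x, (u x).im = 0) (p : P) : (L.ev u p).im = 0 := by
  rw [ev]
  have h : (u (L.s0 p) + u (L.sg (L.s0 p))) / 2 =
      (((u (L.s0 p)).re + (u (L.sg (L.s0 p))).re) / 2 : ℝ) := by
    apply Complex.ext <;> simp [hu]
  rw [h]; exact Complex.ofReal_im _

lemma od_real {u : L.Pt → ℂ} (hu : ∀ x, (u x).im = 0) (k : Fin 4) (p : P) :
    (L.od u k p).im = 0 := by
  rw [od, n]
  have h : (u (L.s0 p) - u (L.sg (L.s0 p))) / 2 =
      (((u (L.s0 p)).re - (u (L.sg (L.s0 p))).re) / 2 : ℝ) := by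
    apply Complex.ext <;> simp [hu]
  rw [h, ← Complex.ofReal_mul]; exact Complex.ofReal_im _

/-- real part of a lift -/
lemma val_lift {u : L.Pt → ℂ} {i : I} {x : L.Pt} (hn : ∀ k, L.n k x = L.m i k (L.pi x)) :
    u x = L.ev u (L.pi x) + ∑ k, L.od u k (L.pi x) * L.m i k (L.pi x) ∧
    u (L.sg x) = L.ev u (L.pi x) - ∑ k, L.od u k (L.pi x) * L.m i k (L.pi x) := by
  refine ⟨?_, ?_⟩
  · rw [decomp u x]
    congr 1
    exact sum_congr3 fun k => by rw [hn]
  · rw [decomp u (L.sg x), pi_sg, sub_eq_add_neg, ← Finset.sum_neg_distrib]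
    congr 1
    exact sum_congr3 fun k => by rw [n_sg, hn, mul_neg]

lemma sg_of {x : L.Pt} {i : I} (hi : L.pi x ∈ L.V i) :
    (∀ k, L.n k x = L.m i k (L.pi x)) ∨ (∀ k, L.n k (L.sg x) = L.m i k (L.pi x)) := by
  rcases (L.ok_iff i _ hi _).1 x.2 with h | h
  · exact Or.inl h
  · right; intro k; rw [n_sg, n, h k, neg_neg]

lemma m_D {i : I} {p : P} (hp : p ∈ L.V i) (j : κ) :
    ∑ k, L.m i k p * S.D j (L.m i k) p = 0 := by
  have h1 := L.locD i j (fun p => ∑ k, (L.m i k * L.m i k) p) (fun _ => 1) (L.unit i) p hp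
  rw [D_sum3 S (fun k => S.sm_mul (L.smm i k) (L.smm i k)), S.D_const] at h1
  simp_rw [S.D_mul j (L.smm i _) (L.smm i _)] at h1
  simp only [Pi.add_apply, Pi.mul_apply, Pi.zero_apply] at h1
  rw [Fin.sum_univ_four] at h1 ⊢
  linear_combination (1 / 2 : ℂ) * h1

variable (S) in
lemma sm_neg' {u : P → ℂ} (hu : S.Sm u) : S.Sm (fun p => -u p) := by
  have h : (fun p => -u p) = (fun _ => (-1 : ℂ)) * u := by funext p; simp
  rw [h]; exact S.sm_mul (S.sm_const _) hu

variable (S) in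
lemma D_cmul (c : ℂ) {u : P → ℂ} (hu : S.Sm u) (j : κ) (p : P) :
    S.D j (fun p => c * u p) p = c * S.D j u p := by
  have h : (fun p => c * u p) = (fun _ => c) * u := by funext p; simp
  rw [h, S.D_mul j (S.sm_const _) hu, S.D_const]
  simp

variable (S) in
lemma sm_cmul (c : ℂ) {u : P → ℂ} (hu : S.Sm u) : S.Sm (fun p => c * u p) := by
  have h : (fun p => c * u p) = (fun _ => c) * u := by funext p; simp
  rw [h]; exact S.sm_mul (S.sm_const _) hu

variable (L)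

/-- the odd part along the section `m i`, a global function, meaningful on `V i` -/
def be (u : L.Pt → ℂ) (i : I) (p : P) : ℂ := ∑ k, L.od u k p * L.m i k p

variable {L}

lemma sm_be {u : L.Pt → ℂ} (hu : L.Smc u) (i : I) : S.Sm (L.be u i) :=
  sm_sum3 S fun k => S.sm_mul (hu.2 k) (L.smm i k)

lemma od_eq_be (u : L.Pt → ℂ) {i : I} {p : P} (hp : p ∈ L.V i) (k : Fin 4) :
    L.od u k p = L.be u i p * L.m i k p := by
  obtain ⟨x, hx, hn⟩ := exists_lift hp
  have h1 : ∀ l, L.od u l p = (u x - u (L.sg x)) / 2 * L.m i l p := by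
    intro l; rw [← hx, od_pi, hn, hx]
  rw [be]
  simp_rw [h1]
  have h2 := L.unit i p hp
  rw [Fin.sum_univ_four] at h2 ⊢
  linear_combination (-(u x - u (L.sg x)) / 2 * L.m i k p) * h2

lemma D_be {u : L.Pt → ℂ} (hu : L.Smc u) {i : I} {p : P} (hp : p ∈ L.V i) (j : κ) :
    S.D j (L.be u i) p = ∑ k, S.D j (L.od u k) p * L.m i k p := by
  have h0 : L.be u i = fun p => ∑ k, (L.od u k * L.m i k) p := rfl
  rw [h0, D_sum3 S (fun k => S.sm_mul (hu.2 k) (L.smm i k))]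
  simp_rw [S.D_mul j (hu.2 _) (L.smm i _)]
  simp only [Pi.add_apply, Pi.mul_apply]
  have h1 := m_D (L := L) hp j
  rw [Fin.sum_univ_four] at h1 ⊢
  rw [Fin.sum_univ_four, od_eq_be u hp 0, od_eq_be u hp 1, od_eq_be u hp 2,
    od_eq_be u hp 3]
  linear_combination (L.be u i p) * h1

/-- value of `u` at a point on the sheet `s = ±1` of `m i` -/
lemma val_be (u : L.Pt → ℂ) {i : I} {x : L.Pt} {s : ℂ} (hs : ∀ k, L.n k x = s * L.m i k (L.pi x)) :
    u x = L.ev u (L.pi x) + s * L.be u i (L.pi x) := by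
  rw [decomp u x, be, Finset.mul_sum]
  congr 1
  exact sum_congr3 fun k => by rw [hs]; ring

/-- derivative of `u` at a point on the sheet `s = ±1` of `m i` -/
lemma Dc_be {u : L.Pt → ℂ} (hu : L.Smc u) {i : I} {x : L.Pt} (hi : L.pi x ∈ L.V i) {s : ℂ}
    (hs : ∀ k, L.n k x = s * L.m i k (L.pi x)) (j : κ) :
    L.Dc j u x = S.D j (L.ev u) (L.pi x) + s * S.D j (L.be u i) (L.pi x) := by
  rw [Dc, D_be hu hi, Finset.mul_sum]
  congr 1
  exact sum_congr3 fun k => by rw [hs]; ring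

lemma sheet {x : L.Pt} {i : I} (hi : L.pi x ∈ L.V i) :
    ∃ s : ℂ, s * s = 1 ∧ ∀ k, L.n k x = s * L.m i k (L.pi x) := by
  rcases (L.ok_iff i _ hi _).1 x.2 with h | h
  · exact ⟨1, by ring, fun k => by rw [one_mul]; exact h k⟩
  · exact ⟨-1, by ring, fun k => by rw [neg_one_mul]; exact h k⟩

lemma be_real {u : L.Pt → ℂ} (hr : ∀ x, (u x).im = 0) (i : I) (p : P) : (L.be u i p).im = 0 := by
  rw [be, Complex.im_sum]
  refine Finset.sum_eq_zero fun k _ => ?_
  rw [Complex.mul_im, od_real hr, L.rm]; ring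

lemma be_eq {u : L.Pt → ℂ} {i : I} {p : P} (hp : p ∈ L.V i) {x : L.Pt} (hx : L.pi x = p)
    (hn : ∀ k, L.n k x = L.m i k p) : L.be u i p = (u x - u (L.sg x)) / 2 := by
  rw [be]
  have h1 : ∀ l, L.od u l p = (u x - u (L.sg x)) / 2 * L.m i l p := by
    intro l; rw [← hx, od_pi, hn, hx]
  simp_rw [h1]
  have h2 := L.unit i p hp
  rw [Fin.sum_univ_four] at h2 ⊢
  linear_combination ((u x - u (L.sg x)) / 2) * h2

lemma ev_eq {u : L.Pt → ℂ} {p : P} {x : L.Pt} (hx : L.pi x = p) :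
    L.ev u p = (u x + u (L.sg x)) / 2 := by rw [← hx, ev_pi]

section comp

variable {G : ℝ → ℂ} (hG : ContDiff ℝ ∞ G) {u : L.Pt → ℂ} (hu : L.Smc u)
  (hr : ∀ x, (u x).im = 0)

variable (L) in
/-- `G (a ± β)` -/
def gg (G : ℝ → ℂ) (u : L.Pt → ℂ) (i : I) (c : ℂ) (p : P) : ℂ :=
  G ((L.ev u p + c * L.be u i p)).re

include hu in
lemma sm_lin (i : I) (c : ℂ) : S.Sm (fun p => L.ev u p + c * L.be u i p) :=
  S.sm_add hu.1 (sm_cmul S c (sm_be hu i))

include hr in
lemma re_lin (i : I) (c : ℝ) (p : P) : (L.ev u p + c * L.be u i p).im = 0 := by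
  rw [Complex.add_im, Complex.mul_im, ev_real hr, be_real hr, Complex.ofReal_im]; ring

include hG hu hr in
lemma sm_gg (i : I) (c : ℝ) : S.Sm (L.gg G u i c) :=
  S.sm_comp hG (sm_lin hu i c) (re_lin hr i c)

include hG hu hr in
lemma D_gg (i : I) (c : ℝ) (j : κ) (p : P) : S.D j (L.gg G u i c) p =
    deriv G ((L.ev u p + c * L.be u i p)).re * (S.D j (L.ev u) p + c * S.D j (L.be u i) p) := by
  have h1 := congrFun (S.D_comp j hG (sm_lin hu i c) (re_lin hr i c)) p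
  have h2 : S.D j (fun p => L.ev u p + c * L.be u i p) p =
      S.D j (L.ev u) p + c * S.D j (L.be u i) p := by
    have h3 : (fun p => L.ev u p + c * L.be u i p) = L.ev u + (fun p => c * L.be u i p) := rfl
    rw [h3, S.D_add j hu.1 (sm_cmul S c (sm_be hu i)), Pi.add_apply, D_cmul S c (sm_be hu i)]
  rw [h2] at h1
  exact h1

lemma gg_lift {i : I} {p : P} (hp : p ∈ L.V i) {x : L.Pt} (hx : L.pi x = p)
    (hn : ∀ k, L.n k x = L.m i k p) : G (u x).re = L.gg G u i (1 : ℝ) p ∧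
      G (u (L.sg x)).re = L.gg G u i (-1 : ℝ) p := by
  have h1 := ev_eq (u := u) hx
  have h2 := be_eq (u := u) hp hx hn
  refine ⟨?_, ?_⟩
  · rw [gg, h1, h2]; congr 2; push_cast; ring
  · rw [gg, h1, h2]; congr 2; push_cast; ring

lemma ev_comp {i : I} {p : P} (hp : p ∈ L.V i) : L.ev (fun x => G (u x).re) p =
    (1 / 2 : ℂ) * (L.gg G u i (1 : ℝ) + L.gg G u i (-1 : ℝ)) p := by
  obtain ⟨x, hx, hn⟩ := exists_lift hp
  have h := gg_lift (G := G) (u := u) hp hx hn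
  rw [ev_eq hx, h.1, h.2, Pi.add_apply]; ring

lemma be_comp {i : I} {p : P} (hp : p ∈ L.V i) : L.be (fun x => G (u x).re) i p =
    (1 / 2 : ℂ) * (L.gg G u i (1 : ℝ) + (fun p => (-1 : ℂ) * L.gg G u i (-1 : ℝ) p)) p := by
  obtain ⟨x, hx, hn⟩ := exists_lift hp
  have h := gg_lift (G := G) (u := u) hp hx hn
  rw [be_eq hp hx hn, h.1, h.2, Pi.add_apply]; ring

include hG hu hr in
lemma smc_comp : L.Smc (fun x => G (u x).re) := by
  refine ⟨L.locS _ fun i => ⟨_, sm_cmul S (1 / 2 : ℂ) (S.sm_add (sm_gg hG hu hr i 1)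
    (sm_gg hG hu hr i (-1))), fun p hp => ev_comp hp⟩, fun k => L.locS _ fun i =>
    ⟨_, S.sm_mul (sm_cmul S (1 / 2 : ℂ) (S.sm_add (sm_gg hG hu hr i 1)
      (sm_cmul S (-1 : ℂ) (sm_gg hG hu hr i (-1))))) (L.smm i k), fun p hp => ?_⟩⟩
  rw [od_eq_be _ hp, be_comp hp]; rfl

include hG hu hr in
lemma Dc_comp (j : κ) : L.Dc j (fun x => G (u x).re) =
    fun x => deriv G (u x).re * L.Dc j u x := by
  funext x
  obtain ⟨i, hi⟩ := L.cov (L.pi x)
  obtain ⟨s, hs1, hs⟩ := sheet hi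
  rw [Dc_be (smc_comp hG hu hr) hi hs, Dc_be hu hi hs, val_be u hs]
  have e1 := L.locD i j _ _ (fun p hp => ev_comp (G := G) (u := u) hp) _ hi
  have e2 := L.locD i j _ _ (fun p hp => be_comp (G := G) (u := u) hp) _ hi
  rw [D_cmul S (1 / 2 : ℂ) (S.sm_add (sm_gg hG hu hr i 1) (sm_gg hG hu hr i (-1))),
    S.D_add j (sm_gg hG hu hr i 1) (sm_gg hG hu hr i (-1)), Pi.add_apply,
    D_gg hG hu hr, D_gg hG hu hr] at e1
  rw [D_cmul S (1 / 2 : ℂ) (S.sm_add (sm_gg hG hu hr i 1)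
      (sm_cmul S (-1 : ℂ) (sm_gg hG hu hr i (-1)))),
    S.D_add j (sm_gg hG hu hr i 1) (sm_cmul S (-1 : ℂ) (sm_gg hG hu hr i (-1))), Pi.add_apply,
    D_cmul S (-1 : ℂ) (sm_gg hG hu hr i (-1)), D_gg hG hu hr, D_gg hG hu hr] at e2
  rw [e1, e2]
  push_cast
  have h3 : (s - 1) * (s + 1) = 0 := by linear_combination hs1
  rcases mul_eq_zero.1 h3 with h | h
  · have h4 : s = 1 := by linear_combination h
    rw [h4]; ring
  · have h4 : s = -1 := by linear_combination h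
    rw [h4]; ring

end comp

/-- the differential function space of the cover -/
def cover : DAlg L.Pt κ where
  Sm := L.Smc
  D := L.Dc
  sm_const c := smc_of (a := fun _ => c) (b := fun _ _ => 0) (S.sm_const c) (fun _ => S.sm_const 0)
    (fun x => by simp)
  sm_add hu hv := ⟨by rw [ev_add]; exact S.sm_add hu.1 hv.1,
    fun k => by rw [od_add]; exact S.sm_add (hu.2 k) (hv.2 k)⟩
  sm_mul hu hv := ⟨by
      rw [ev_mul]
      exact S.sm_add (S.sm_mul hu.1 hv.1) (sm_sum3 S fun k => S.sm_mul (hu.2 k) (hv.2 k)),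
    fun k => by
      rw [od_mul]
      exact S.sm_add (S.sm_mul hu.1 (hv.2 k)) (S.sm_mul (hu.2 k) hv.1)⟩
  sm_conj hu := ⟨by rw [ev_conj]; exact S.sm_conj hu.1,
    fun k => by rw [od_conj]; exact S.sm_conj (hu.2 k)⟩
  sm_D j hu := smc_of (S.sm_D j hu.1) (fun k => S.sm_D j (hu.2 k)) (fun x => rfl)
  D_const j c := by
    funext x
    have h1 : L.ev (fun _ => c) = fun _ => c := by funext p; simp [ev]
    have h2 : ∀ k, L.od (fun _ => c) k = fun _ => 0 := by intro k; funext p; simp [od]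
    simp only [Dc, h1, h2, S.D_const, Pi.zero_apply, zero_mul, Finset.sum_const_zero, add_zero]
  D_add j hu hv := by
    funext x
    simp only [Dc, ev_add, od_add, S.D_add j hu.1 hv.1, S.D_add j (hu.2 _) (hv.2 _),
      Pi.add_apply]
    rw [Fin.sum_univ_four, Fin.sum_univ_four, Fin.sum_univ_four]
    ring
  D_mul := by
    intro u v j hu hv
    funext x
    obtain ⟨i, hi⟩ := L.cov (L.pi x)
    obtain ⟨s, hs1, hs⟩ := sheet hi
    have huv : L.Smc (u * v) := ⟨by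
        rw [ev_mul]
        exact S.sm_add (S.sm_mul hu.1 hv.1) (sm_sum3 S fun k => S.sm_mul (hu.2 k) (hv.2 k)),
      fun k => by
        rw [od_mul]
        exact S.sm_add (S.sm_mul hu.1 (hv.2 k)) (S.sm_mul (hu.2 k) hv.1)⟩
    have e1 := L.locD i j (L.ev (u * v)) (L.ev u * L.ev v + L.be u i * L.be v i) (fun p hp => by
      rw [ev_mul, Pi.add_apply, Pi.add_apply]
      congr 1
      simp_rw [od_eq_be u hp, od_eq_be v hp]
      have h2 := L.unit i p hp
      rw [Pi.mul_apply]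
      rw [Fin.sum_univ_four] at h2 ⊢
      linear_combination (L.be u i p * L.be v i p) * h2) _ hi
    have e2 := L.locD i j (L.be (u * v) i) (L.ev u * L.be v i + L.be u i * L.ev v)
      (fun p hp => by
        obtain ⟨y, hy, hn⟩ := exists_lift hp
        simp only [Pi.add_apply, Pi.mul_apply]
        rw [be_eq hp hy hn, be_eq hp hy hn, be_eq hp hy hn, ev_eq hy, ev_eq hy]
        simp only [Pi.mul_apply]
        ring) _ hi
    rw [S.D_add j (S.sm_mul hu.1 hv.1) (S.sm_mul (sm_be hu i) (sm_be hv i)),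
      S.D_mul j hu.1 hv.1, S.D_mul j (sm_be hu i) (sm_be hv i)] at e1
    rw [S.D_add j (S.sm_mul hu.1 (sm_be hv i)) (S.sm_mul (sm_be hu i) hv.1),
      S.D_mul j hu.1 (sm_be hv i), S.D_mul j (sm_be hu i) hv.1] at e2
    simp only [Pi.add_apply, Pi.mul_apply] at e1 e2 ⊢
    rw [Dc_be huv hi hs, Dc_be hu hi hs, Dc_be hv hi hs, val_be u hs, val_be v hs, e1, e2]
    linear_combination (-(S.D j (L.be u i) (L.pi x) * L.be v i (L.pi x)
      + L.be u i (L.pi x) * S.D j (L.be v i) (L.pi x))) * hs1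
  D_conj := by
    intro u j hu
    funext x
    simp only [Dc, ev_conj, od_conj, S.D_conj j hu.1, S.D_conj j (hu.2 _), map_add, map_sum,
      map_mul, conj_n]
  sm_comp hG hu hr := smc_comp hG hu hr
  D_comp j hG hu hr := Dc_comp hG hu hr j
  bdd := by
    intro u hu
    obtain ⟨C, hC⟩ := S.bdd hu.1
    obtain ⟨C0, hC0⟩ := S.bdd (hu.2 0)
    obtain ⟨C1, hC1⟩ := S.bdd (hu.2 1)
    obtain ⟨C2, hC2⟩ := S.bdd (hu.2 2)
    obtain ⟨C3, hC3⟩ := S.bdd (hu.2 3)
    have hn : ∀ k (x : L.Pt), ‖L.n k x‖ ≤ 1 := by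
      intro k x
      have h := n_unit x
      have h1 : ∑ k, (x.1.2 k) ^ 2 = 1 := by
        have h2 : (((∑ k, (x.1.2 k) ^ 2 : ℝ)) : ℂ) = 1 := by
          rw [← h]; push_cast
          exact sum_congr3 fun k => by rw [n]; ring
        exact_mod_cast h2
      have h2 : (x.1.2 k) ^ 2 ≤ 1 := by
        rw [← h1]
        exact Finset.single_le_sum (f := fun k => (x.1.2 k) ^ 2) (fun _ _ => sq_nonneg _)
          (Finset.mem_univ k)
      rw [n, Complex.norm_real, Real.norm_eq_abs]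
      exact (sq_le_one_iff_abs_le_one _).1 h2
    refine ⟨C + (C0 + C1 + C2 + C3), fun x => ?_⟩
    rw [decomp u x, Fin.sum_univ_four]
    have hb : ∀ k C', (∀ p, ‖L.od u k p‖ ≤ C') → ‖L.od u k (L.pi x) * L.n k x‖ ≤ C' := by
      intro k C' h
      rw [norm_mul]
      have h1 := h (L.pi x)
      have h2 := hn k x
      have h3 := norm_nonneg (L.od u k (L.pi x))
      calc _ ≤ ‖L.od u k (L.pi x)‖ * 1 := mul_le_mul_of_nonneg_left h2 h3
        _ ≤ C' := by rw [mul_one]; exact h1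
    refine (norm_add_le _ _).trans (add_le_add (hC _) ((norm_add_le _ _).trans (add_le_add
      ((norm_add_le _ _).trans (add_le_add ((norm_add_le _ _).trans (add_le_add (hb 0 _ hC0)
        (hb 1 _ hC1))) (hb 2 _ hC2))) (hb 3 _ hC3))))

lemma cover_Sm {u : L.Pt → ℂ} : L.cover.Sm u ↔ S.Sm (L.ev u) ∧ ∀ k, S.Sm (L.od u k) := Iff.rfl

lemma cover_D (j : κ) (u : L.Pt → ℂ) : L.cover.D j u = L.Dc j u := rfl

lemma ev_comp_pi (u : P → ℂ) : L.ev (fun x => u (L.pi x)) = u := by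
  funext p; simp only [ev, pi_sg, pi_s0]; ring

lemma od_comp_pi (u : P → ℂ) (k : Fin 4) : L.od (fun x => u (L.pi x)) k = fun _ => 0 := by
  funext p; simp only [od, pi_sg, pi_s0]; ring

/-- even smooth functions are the smooth functions on `P` -/
lemma sm_pi_iff {u : P → ℂ} : L.cover.Sm (fun x => u (L.pi x)) ↔ S.Sm u := by
  rw [cover_Sm, ev_comp_pi]
  refine ⟨fun h => h.1, fun h => ⟨h, fun k => ?_⟩⟩
  rw [od_comp_pi]; exact S.sm_const 0

lemma D_pi (j : κ) (u : P → ℂ) :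
    L.cover.D j (fun x => u (L.pi x)) = fun x => S.D j u (L.pi x) := by
  funext x
  rw [cover_D, Dc, ev_comp_pi]
  simp only [od_comp_pi, S.D_const, Pi.zero_apply, zero_mul, Finset.sum_const_zero, add_zero]

lemma wd_pi (w : List κ) (u : P → ℂ) :
    L.cover.wd w (fun x => u (L.pi x)) = fun x => S.wd w u (L.pi x) := by
  induction w with
  | nil => rfl
  | cons j w ih =>
    show L.cover.D j (L.cover.wd w _) = _
    rw [ih, D_pi]; rfl

/-- descent of an even function -/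
lemma eq_ev_of_even {u : L.Pt → ℂ} (h : ∀ x, u (L.sg x) = u x) (x : L.Pt) :
    u x = L.ev u (L.pi x) := by
  rw [ev_pi, h]; ring

lemma sm_ev {u : L.Pt → ℂ} (h : L.cover.Sm u) : S.Sm (L.ev u) := h.1

/-- the components of the unit vector are smooth -/
lemma sm_n (k : Fin 4) : L.cover.Sm (L.n k) := by
  refine smc_of (a := fun _ => 0) (b := fun l _ => if l = k then 1 else 0) (S.sm_const 0)
    (fun l => S.sm_const _) (fun x => ?_)
  simp

lemma n_real (k : Fin 4) : Rl (L.n k) := fun x => im_n k x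

lemma ev_sg (u : L.Pt → ℂ) : L.ev (fun x => u (L.sg x)) = L.ev u := by
  funext p; simp only [ev, sg_sg]; ring

lemma od_sg (u : L.Pt → ℂ) (k : Fin 4) :
    L.od (fun x => u (L.sg x)) k = fun p => (-1 : ℂ) * L.od u k p := by
  funext p; simp only [od, sg_sg]; ring

lemma sm_sg {u : L.Pt → ℂ} (h : L.cover.Sm u) : L.cover.Sm (fun x => u (L.sg x)) := by
  refine ⟨by rw [ev_sg]; exact h.1, fun k => ?_⟩
  rw [od_sg]; exact sm_cmul S _ (h.2 k)

lemma D_sg (j : κ) {u : L.Pt → ℂ} (h : L.cover.Sm u) (x : L.Pt) :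
    L.cover.D j (fun x => u (L.sg x)) x = L.cover.D j u (L.sg x) := by
  rw [cover_D, cover_D, Dc, Dc, ev_sg, pi_sg]
  congr 1
  refine sum_congr3 fun k => ?_
  rw [od_sg, D_cmul S _ (h.2 k), n_sg]; ring

lemma wd_sg (w : List κ) {u : L.Pt → ℂ} (h : L.cover.Sm u) :
    L.cover.Sm (L.cover.wd w u) ∧
    L.cover.wd w (fun x => u (L.sg x)) = fun x => L.cover.wd w u (L.sg x) := by
  induction w with
  | nil => exact ⟨h, rfl⟩
  | cons j w ih =>
    refine ⟨L.cover.sm_D j ih.1, ?_⟩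
    show L.cover.D j (L.cover.wd w _) = _
    rw [ih.2]
    funext x
    exact D_sg j ih.1 x

variable (L) in
/-- the sheet sign over `V i`: `1` on the sheet of `m i`, `-1` on the other one; odd -/
def sgn (i : I) (x : L.Pt) : ℂ := ∑ k, L.m i k (L.pi x) * L.n k x

lemma sm_sgn (i : I) : L.cover.Sm (L.sgn i) :=
  smc_of (a := fun _ => 0) (b := fun k => L.m i k) (S.sm_const 0) (fun k => L.smm i k)
    (fun x => by rw [zero_add]; rfl)

lemma sgn_sg (i : I) (x : L.Pt) : L.sgn i (L.sg x) = -L.sgn i x := by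
  simp only [sgn, pi_sg, n_sg, mul_neg, Finset.sum_neg_distrib]

lemma sgn_sq {i : I} {x : L.Pt} (hi : L.pi x ∈ L.V i) : L.sgn i x * L.sgn i x = 1 := by
  obtain ⟨s, hs1, hs⟩ := sheet hi
  have h2 := L.unit i _ hi
  have h3 : L.sgn i x = s := by
    rw [sgn]
    simp_rw [hs]
    rw [Fin.sum_univ_four] at h2 ⊢
    linear_combination s * h2
  rw [h3, hs1]

lemma n_eq_sgn {i : I} {x : L.Pt} (hi : L.pi x ∈ L.V i) (k : Fin 4) :
    L.n k x = L.sgn i x * L.m i k (L.pi x) := by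
  obtain ⟨s, hs1, hs⟩ := sheet hi
  have h2 := L.unit i _ hi
  have h3 : L.sgn i x = s := by
    rw [sgn]
    simp_rw [hs]
    rw [Fin.sum_univ_four] at h2 ⊢
    linear_combination s * h2
  rw [h3, hs]

/-- the sheet sign is locally constant -/
lemma D_sgn {i : I} {x : L.Pt} (hi : L.pi x ∈ L.V i) (j : κ) : L.cover.D j (L.sgn i) x = 0 := by
  obtain ⟨s, hs1, hs⟩ := sheet hi
  rw [cover_D, Dc_be (sm_sgn i) hi hs]
  have h0 : L.ev (L.sgn i) = fun _ => 0 :=
    ev_of (a := fun _ => 0) (b := fun k => L.m i k) (fun x => by rw [zero_add]; rfl)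
  have h1 := L.locD i j (L.be (L.sgn i) i) (fun _ => 1) (fun p hp => by
    obtain ⟨y, hy, hn⟩ := exists_lift hp
    rw [be_eq hp hy hn, sgn_sg]
    have h2 := L.unit i p hp
    have h3 : L.sgn i y = 1 := by
      rw [sgn, ← h2]
      exact sum_congr3 fun k => by rw [hn, hy]
    rw [h3]; ring) _ hi
  rw [h0, S.D_const, h1, S.D_const]
  simp

/-- locality of the derivations of the cover -/
lemma cover_locD {i : I} {j : κ} {u v : L.Pt → ℂ} (hu : L.cover.Sm u) (hv : L.cover.Sm v)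
    (h : ∀ x, L.pi x ∈ L.V i → u x = v x) {x : L.Pt} (hx : L.pi x ∈ L.V i) :
    L.cover.D j u x = L.cover.D j v x := by
  obtain ⟨s, hs1, hs⟩ := sheet hx
  rw [cover_D, cover_D, Dc_be hu hx hs, Dc_be hv hx hs]
  have h1 := L.locD i j (L.ev u) (L.ev v) (fun p hp => by
    obtain ⟨y, hy, hn⟩ := exists_lift hp
    rw [ev_eq hy, ev_eq hy, h y (by rw [hy]; exact hp), h (L.sg y) (by rw [pi_sg, hy]; exact hp)])
    _ hx
  have h2 := L.locD i j (L.be u i) (L.be v i) (fun p hp => by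
    obtain ⟨y, hy, hn⟩ := exists_lift hp
    rw [be_eq hp hy hn, be_eq hp hy hn, h y (by rw [hy]; exact hp),
      h (L.sg y) (by rw [pi_sg, hy]; exact hp)]) _ hx
  rw [h1, h2]

end Line

end Vale.Agent.P205.TW
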