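import Vale.Agent.P205.F.Inst0
import Vale.Agent.P205.TW.Cover

/-!
The line field of an immersion `F₀ : M → ℝ³` of a compact surface (P205, BP-COVER).
-/

noncomputable section

set_option linter.unusedSectionVars false

open scoped Manifold ContDiff Topology
open Set Filter

namespace Vale.Agent.P205.TW

open Vale.Agent.P205.F

/-- Euclidean product -/
def dt4 (a b : Fin 4 → ℝ) : ℝ := ∑ k, a k * b k

/-- triple cross product -/
def cr4 (a b c : Fin 4 → ℝ) : Fin 4 → ℝ :=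
  ![a 1 * (b 2 * c 3 - b 3 * c 2) - a 2 * (b 1 * c 3 - b 3 * c 1) + a 3 * (b 1 * c 2 - b 2 * c 1),
    -(a 0 * (b 2 * c 3 - b 3 * c 2) - a 2 * (b 0 * c 3 - b 3 * c 0)
      + a 3 * (b 0 * c 2 - b 2 * c 0)),
    a 0 * (b 1 * c 3 - b 3 * c 1) - a 1 * (b 0 * c 3 - b 3 * c 0) + a 3 * (b 0 * c 1 - b 1 * c 0),
    -(a 0 * (b 1 * c 2 - b 2 * c 1) - a 1 * (b 0 * c 2 - b 2 * c 0)
      + a 2 * (b 0 * c 1 - b 1 * c 0))]

section cross

variable (a b c : Fin 4 → ℝ)

lemma cr4_0 : cr4 a b c 0 = a 1 * (b 2 * c 3 - b 3 * c 2) - a 2 * (b 1 * c 3 - b 3 * c 1)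
    + a 3 * (b 1 * c 2 - b 2 * c 1) := rfl

lemma cr4_1 : cr4 a b c 1 = -(a 0 * (b 2 * c 3 - b 3 * c 2) - a 2 * (b 0 * c 3 - b 3 * c 0)
    + a 3 * (b 0 * c 2 - b 2 * c 0)) := rfl

lemma cr4_2 : cr4 a b c 2 = a 0 * (b 1 * c 3 - b 3 * c 1) - a 1 * (b 0 * c 3 - b 3 * c 0)
    + a 3 * (b 0 * c 1 - b 1 * c 0) := rfl

lemma cr4_3 : cr4 a b c 3 = -(a 0 * (b 1 * c 2 - b 2 * c 1) - a 1 * (b 0 * c 2 - b 2 * c 0)
    + a 2 * (b 0 * c 1 - b 1 * c 0)) := rfl

lemma dt4_comm : dt4 a b = dt4 b a := Finset.sum_congr rfl fun k _ => mul_comm _ _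

lemma dt4_cr4_1 : dt4 (cr4 a b c) a = 0 := by
  simp only [dt4, Fin.sum_univ_four, cr4_0, cr4_1, cr4_2, cr4_3]; ring

lemma dt4_cr4_2 : dt4 (cr4 a b c) b = 0 := by
  simp only [dt4, Fin.sum_univ_four, cr4_0, cr4_1, cr4_2, cr4_3]; ring

lemma dt4_cr4_3 : dt4 (cr4 a b c) c = 0 := by
  simp only [dt4, Fin.sum_univ_four, cr4_0, cr4_1, cr4_2, cr4_3]; ring

variable {a b c}

lemma wedge {n : Fin 4 → ℝ} (ha : dt4 n a = 0) (hb : dt4 n b = 0) (hc : dt4 n c = 0)
    (k l : Fin 4) : n k * cr4 a b c l = n l * cr4 a b c k := by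
  simp only [dt4, Fin.sum_univ_four] at ha hb hc
  have e01 : n 0 * cr4 a b c 1 = n 1 * cr4 a b c 0 := by
    rw [cr4_0, cr4_1]
    linear_combination -(b 2 * c 3 - b 3 * c 2) * ha + (a 2 * c 3 - a 3 * c 2) * hb
      - (a 2 * b 3 - a 3 * b 2) * hc
  have e02 : n 0 * cr4 a b c 2 = n 2 * cr4 a b c 0 := by
    rw [cr4_0, cr4_2]
    linear_combination -(b 3 * c 1 - b 1 * c 3) * ha + (a 3 * c 1 - a 1 * c 3) * hb
      - (a 3 * b 1 - a 1 * b 3) * hc
  have e03 : n 0 * cr4 a b c 3 = n 3 * cr4 a b c 0 := by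
    rw [cr4_0, cr4_3]
    linear_combination -(b 1 * c 2 - b 2 * c 1) * ha + (a 1 * c 2 - a 2 * c 1) * hb
      - (a 1 * b 2 - a 2 * b 1) * hc
  have e12 : n 1 * cr4 a b c 2 = n 2 * cr4 a b c 1 := by
    rw [cr4_1, cr4_2]
    linear_combination -(b 0 * c 3 - b 3 * c 0) * ha + (a 0 * c 3 - a 3 * c 0) * hb
      - (a 0 * b 3 - a 3 * b 0) * hc
  have e13 : n 1 * cr4 a b c 3 = n 3 * cr4 a b c 1 := by
    rw [cr4_1, cr4_3]
    linear_combination -(b 2 * c 0 - b 0 * c 2) * ha + (a 2 * c 0 - a 0 * c 2) * hb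
      - (a 2 * b 0 - a 0 * b 2) * hc
  have e23 : n 2 * cr4 a b c 3 = n 3 * cr4 a b c 2 := by
    rw [cr4_2, cr4_3]
    linear_combination -(b 0 * c 1 - b 1 * c 0) * ha + (a 0 * c 1 - a 1 * c 0) * hb
      - (a 0 * b 1 - a 1 * b 0) * hc
  fin_cases k <;> fin_cases l
  · rfl
  · exact e01
  · exact e02
  · exact e03
  · exact e01.symm
  · rfl
  · exact e12
  · exact e13
  · exact e02.symm
  · exact e12.symm
  · rfl
  · exact e23
  · exact e03.symm
  · exact e13.symm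
  · exact e23.symm
  · rfl

lemma cr4_unique {n : Fin 4 → ℝ} (ha : dt4 n a = 0) (hb : dt4 n b = 0) (hc : dt4 n c = 0)
    (k : Fin 4) :
    dt4 (cr4 a b c) (cr4 a b c) * n k = dt4 n (cr4 a b c) * cr4 a b c k := by
  unfold dt4
  rw [Finset.sum_mul, Finset.sum_mul]
  exact Finset.sum_congr rfl fun l _ => by
    have := wedge ha hb hc k l
    linear_combination (cr4 a b c l) * this

lemma cr4_sq (h1 : dt4 c c = 1) (ha : dt4 c a = 0) (hb : dt4 c b = 0) :
    dt4 (cr4 a b c) (cr4 a b c) = dt4 a a * dt4 b b - dt4 a b * dt4 a b := by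
  have key : dt4 (cr4 a b c) (cr4 a b c) =
      dt4 a a * (dt4 b b * dt4 c c - dt4 c b * dt4 c b)
      - dt4 a b * (dt4 a b * dt4 c c - dt4 c b * dt4 c a)
      + dt4 c a * (dt4 a b * dt4 c b - dt4 b b * dt4 c a) := by
    simp only [dt4, Fin.sum_univ_four, cr4_0, cr4_1, cr4_2, cr4_3]; ring
  rw [key, h1, ha, hb]; ring

lemma dt4_self_nonneg (v : Fin 4 → ℝ) : 0 ≤ dt4 v v :=
  Finset.sum_nonneg fun k _ => mul_self_nonneg _

lemma eq_zero_of_dt4 {v : Fin 4 → ℝ} (h : dt4 v v = 0) : v = 0 := by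
  funext k
  have h3 := (Finset.sum_eq_zero_iff_of_nonneg (fun k _ => mul_self_nonneg (v k))).1 h k
    (Finset.mem_univ k)
  simpa using h3

lemma gram2_pos (h : LinearIndependent ℝ ![a, b]) : 0 < dt4 a a * dt4 b b - dt4 a b * dt4 a b := by
  rw [LinearIndependent.pair_iff] at h
  have hb : 0 < dt4 b b := by
    rcases (dt4_self_nonneg b).eq_or_lt with h1 | h1
    · exfalso
      have h2 := eq_zero_of_dt4 h1.symm
      have := (h 0 1 (by rw [h2]; simp)).2
      exact one_ne_zero this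
    · exact h1
  set v : Fin 4 → ℝ := fun k => dt4 b b * a k - dt4 a b * b k with hv
  have e : dt4 v v = dt4 b b * (dt4 a a * dt4 b b - dt4 a b * dt4 a b) := by
    simp only [hv, dt4, Fin.sum_univ_four]; ring
  rcases (dt4_self_nonneg v).eq_or_lt with h1 | h1
  · exfalso
    have h2 := eq_zero_of_dt4 h1.symm
    have := (h (dt4 b b) (-(dt4 a b)) (by
      funext k
      have := congrFun h2 k
      simp only [hv, Pi.zero_apply] at this
      simp only [Pi.add_apply, Pi.smul_apply, smul_eq_mul, Pi.zero_apply]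
      linarith)).1
    exact hb.ne' this
  · rw [e] at h1
    exact (pos_iff_pos_of_mul_pos h1).1 hb

lemma unit_or {n : Fin 4 → ℝ} (hp : 0 < dt4 (cr4 a b c) (cr4 a b c)) (hn : dt4 n n = 1)
    (ha : dt4 n a = 0) (hb : dt4 n b = 0) (hc : dt4 n c = 0) :
    (∀ k, n k = cr4 a b c k / Real.sqrt (dt4 (cr4 a b c) (cr4 a b c))) ∨
    (∀ k, n k = -(cr4 a b c k / Real.sqrt (dt4 (cr4 a b c) (cr4 a b c)))) := by
  have h1 : ∀ k, dt4 (cr4 a b c) (cr4 a b c) * n k = dt4 n (cr4 a b c) * cr4 a b c k :=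
    cr4_unique ha hb hc
  generalize hX : cr4 a b c = X at *
  generalize hD : dt4 X X = D at *
  generalize ht : dt4 n X = t at *
  have h2 : D = t * t := by
    have h3 : D * D * dt4 n n = t * t * D := by
      have e1 : D * D * dt4 n n = ∑ k, (D * n k) * (D * n k) := by
        unfold dt4
        rw [Finset.mul_sum]
        exact Finset.sum_congr rfl fun k _ => by ring
      have e2 : t * t * D = ∑ k, (t * X k) * (t * X k) := by
        rw [← hD]
        unfold dt4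
        rw [Finset.mul_sum]
        exact Finset.sum_congr rfl fun k _ => by ring
      rw [e1, e2]
      exact Finset.sum_congr rfl fun k _ => by rw [h1]
    rw [hn, mul_one] at h3
    exact mul_right_cancel₀ hp.ne' h3
  have hs : Real.sqrt D * Real.sqrt D = D := Real.mul_self_sqrt hp.le
  have hs0 : 0 < Real.sqrt D := Real.sqrt_pos.2 hp
  have h4 : (t - Real.sqrt D) * (t + Real.sqrt D) = 0 := by linear_combination -h2 - hs
  rcases mul_eq_zero.1 h4 with h | h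
  · left
    intro k
    rw [eq_div_iff hs0.ne']
    have h5 : t = Real.sqrt D := by linarith
    have h6 := h1 k
    rw [h5] at h6
    have h7 : Real.sqrt D * (n k * Real.sqrt D - X k) = 0 := by
      linear_combination h6 + (n k) * hs
    have h8 := (mul_eq_zero.1 h7).resolve_left hs0.ne'
    linarith
  · right
    intro k
    rw [← neg_div, eq_div_iff hs0.ne']
    have h5 : t = -Real.sqrt D := by linarith
    have h6 := h1 k
    rw [h5] at h6
    have h7 : Real.sqrt D * (n k * Real.sqrt D + X k) = 0 := by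
      linear_combination h6 + (n k) * hs
    have h8 := (mul_eq_zero.1 h7).resolve_left hs0.ne'
    linarith

end cross

section man

variable {E : Type*} [NormedAddCommGroup E] [NormedSpace ℝ E]
  {M : Type*} [TopologicalSpace M] [ChartedSpace E M] (K : Cov E M)
  (b : Module.Basis (Fin 2) ℝ E)

section loc

variable {F : Type*} [NormedAddCommGroup F] [NormedSpace ℝ F]

/-- locality of the derivations -/
lemma Dv_congr (j : Fin K.n × Fin 2) {u v : M → F} {U : Set M} (hU : IsOpen U)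
    (h : ∀ p ∈ U, u p = v p) {p : M} (hp : p ∈ U) : K.Dv b j u p = K.Dv b j v p := by
  by_cases hs : p ∈ (K.ph j.1).source
  · rw [Cov.Dv, Cov.Dv]
    congr 2
    refine Filter.EventuallyEq.fderiv_eq ?_
    have h1 : ContinuousAt (K.ph j.1).symm (K.ph j.1 p) :=
      continuousAt_extChartAt_symm'' ((K.ph j.1).map_source hs)
    have h2 : (K.ph j.1).symm (K.ph j.1 p) = p := (K.ph j.1).left_inv hs
    have h3 : ∀ᶠ y in 𝓝 (K.ph j.1 p), (K.ph j.1).symm y ∈ U :=
      h1.eventually_mem (by rw [h2]; exact hU.mem_nhds hp)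
    filter_upwards [h3] with y hy
    exact h _ hy
  · rw [K.Dv_eq_zero b j _ hs, K.Dv_eq_zero b j _ hs]

end loc

variable [IsManifold 𝓘(ℝ, E) ∞ M]

/-- over `V i` all fields are combinations of the fields of the chart `i` -/
lemma exists_coeff [FiniteDimensional ℝ E] {i : Fin K.n} {p : M} (hp : p ∈ K.V i)
    (j : Fin K.n × Fin 2) :
    ∃ c : Fin 2 → ℝ, K.X b j p = ∑ a, c a • K.X b (i, a) p := by
  have hs : p ∈ (K.ph i).source := K.V_sub i hp
  have h1 := isInvertible_mfderivWithin_extChartAt_symm (I := 𝓘(ℝ, E)) (x := K.c i)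
    ((K.ph i).map_source hs)
  rw [show range (𝓘(ℝ, E) : E → E) = univ from by simp, mfderivWithin_univ] at h1
  obtain ⟨T, hT⟩ := h1
  have h2 : (K.ph i).symm (K.ph i p) = p := (K.ph i).left_inv hs
  have h3 : ∀ v : E, ((mfderiv 𝓘(ℝ, E) 𝓘(ℝ, E) (K.ph i).symm (K.ph i p)) v : E) = (T v : E) := by
    intro v
    rw [← hT]; rfl
  have h4 : ∀ a, K.X b (i, a) p = (T (b a) : E) := by
    intro a
    rw [Cov.X]
    rw [K.one i p hp, one_smul]
    exact h3 (b a)
  set Y : E := K.X b j p with hY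
  let Z : E := T.symm Y
  have h5 : (T Z : E) = Y := T.apply_symm_apply Y
  refine ⟨fun a => b.repr Z a, ?_⟩
  have h6 : Z = ∑ a, b.repr Z a • b a := (b.sum_repr Z).symm
  have h7 : (T Z : E) = ∑ a, b.repr Z a • (T (b a) : E) := by
    conv_lhs => rw [h6]
    exact (map_sum T _ _).trans (Finset.sum_congr rfl fun a _ => map_smul T _ _)
  have h8 : Y = ∑ a, b.repr Z a • (T (b a) : E) := h5.symm.trans h7
  refine h8.trans ?_
  exact Finset.sum_congr rfl fun a _ =>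
    (congrArg (fun z : E => b.repr Z a • z) (h4 a)).symm

/-- an immersion into `ℝ⁴` with a unit normal field -/
structure ImmN (E : Type*) [NormedAddCommGroup E] [NormedSpace ℝ E]
    (M : Type*) [TopologicalSpace M] [ChartedSpace E M] where
  /-- the immersion -/
  F : M → EuclideanSpace ℝ (Fin 4)
  /-- the normal field -/
  ξ : M → EuclideanSpace ℝ (Fin 4)
  smF : ContMDiff 𝓘(ℝ, E) 𝓘(ℝ, EuclideanSpace ℝ (Fin 4)) ∞ F
  smξ : ContMDiff 𝓘(ℝ, E) 𝓘(ℝ, EuclideanSpace ℝ (Fin 4)) ∞ ξ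
  imm : ∀ p, Function.Injective (mfderiv 𝓘(ℝ, E) 𝓘(ℝ, EuclideanSpace ℝ (Fin 4)) F p)
  unit : ∀ p, ‖ξ p‖ = 1
  perp : ∀ (p : M) (v : TangentSpace 𝓘(ℝ, E) p),
    inner ℝ (ξ p) (mfderiv 𝓘(ℝ, E) 𝓘(ℝ, EuclideanSpace ℝ (Fin 4)) F p v :
      EuclideanSpace ℝ (Fin 4)) = 0

variable (H : ImmN E M)

/-- derivative of `F` along the coordinate fields of the chart `i`, without cut-off -/
def raw (i : Fin K.n) (a : Fin 2) (p : M) : Fin 4 → ℝ := fun k =>
  (fderiv ℝ (H.F ∘ (K.ph i).symm) (K.ph i p) (b a)) k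

/-- `F` as a function -/
def ImmN.xi (p : M) : Fin 4 → ℝ := fun k => H.ξ p k

lemma inner_eq_dt4 (x y : EuclideanSpace ℝ (Fin 4)) :
    inner ℝ x y = dt4 (fun k => x k) (fun k => y k) := by
  rw [PiLp.inner_apply, dt4]
  exact Finset.sum_congr rfl fun k _ => by simp [mul_comm]

lemma raw_eq {i : Fin K.n} {p : M} (hs : p ∈ (K.ph i).source) (a : Fin 2) :
    (fderiv ℝ (H.F ∘ (K.ph i).symm) (K.ph i p) (b a)) =
      (mfderiv 𝓘(ℝ, E) 𝓘(ℝ, EuclideanSpace ℝ (Fin 4)) H.F p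
        (mfderiv 𝓘(ℝ, E) 𝓘(ℝ, E) (K.ph i).symm (K.ph i p) (b a) : E) :
          EuclideanSpace ℝ (Fin 4)) := by
  have h1 : MDifferentiableAt 𝓘(ℝ, E) 𝓘(ℝ, E) (K.ph i).symm (K.ph i p) :=
    ((contMDiffOn_extChartAt_symm (n := ∞) (K.c i)).contMDiffAt
      ((K.isOpen_target i).mem_nhds ((K.ph i).map_source hs))).mdifferentiableAt (by simp)
  have h2 : MDifferentiableAt 𝓘(ℝ, E) 𝓘(ℝ, EuclideanSpace ℝ (Fin 4)) H.F
      ((K.ph i).symm (K.ph i p)) := H.smF.contMDiffAt.mdifferentiableAt (by simp)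
  have h3 := mfderiv_comp (K.ph i p) h2 h1
  rw [mfderiv_eq_fderiv] at h3
  have h4 : (K.ph i).symm (K.ph i p) = p := (K.ph i).left_inv hs
  have h5 : fderiv ℝ (H.F ∘ (K.ph i).symm) (K.ph i p) =
      (mfderiv 𝓘(ℝ, E) 𝓘(ℝ, EuclideanSpace ℝ (Fin 4)) H.F ((K.ph i).symm (K.ph i p)) :
        E →L[ℝ] EuclideanSpace ℝ (Fin 4)).comp
        (mfderiv 𝓘(ℝ, E) 𝓘(ℝ, E) (K.ph i).symm (K.ph i p) : E →L[ℝ] E) := h3
  rw [h4] at h5
  rw [h5]
  rfl

lemma raw_indep {i : Fin K.n} {p : M} (hs : p ∈ (K.ph i).source) :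
    LinearIndependent ℝ ![raw K b H i 0 p, raw K b H i 1 p] := by
  have h1 := isInvertible_mfderivWithin_extChartAt_symm (I := 𝓘(ℝ, E)) (x := K.c i)
    ((K.ph i).map_source hs)
  rw [show range (𝓘(ℝ, E) : E → E) = univ from by simp, mfderivWithin_univ] at h1
  obtain ⟨T, hT⟩ := h1
  have h3 : ∀ v : E, ((mfderiv 𝓘(ℝ, E) 𝓘(ℝ, E) (K.ph i).symm (K.ph i p)) v : E) = (T v : E) := by
    intro v
    rw [← hT]; rfl
  rw [LinearIndependent.pair_iff]
  intro s t hst
  let G : E →L[ℝ] EuclideanSpace ℝ (Fin 4) :=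
    mfderiv 𝓘(ℝ, E) 𝓘(ℝ, EuclideanSpace ℝ (Fin 4)) H.F p
  let T' : E →L[ℝ] E := mfderiv 𝓘(ℝ, E) 𝓘(ℝ, E) (K.ph i).symm (K.ph i p)
  have h6 : ∀ a k, raw K b H i a p k = (G (T' (b a))) k := by
    intro a k
    rw [raw, raw_eq K b H hs a]
    rfl
  have h7 : G (T' (s • b 0 + t • b 1)) = 0 := by
    rw [map_add, map_add, map_smul, map_smul, map_smul, map_smul]
    ext k
    have := congrFun hst k
    simp only [Pi.add_apply, Pi.smul_apply, smul_eq_mul, Pi.zero_apply, h6] at this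
    simpa using this
  have hG : Function.Injective G := H.imm p
  have hT' : Function.Injective T' := by
    intro v w hvw
    have h8 : (T v : E) = (T w : E) := by rw [← h3, ← h3]; exact hvw
    exact T.injective h8
  have h9 : s • b 0 + t • b 1 = 0 := by
    apply hT'
    apply hG
    rw [h7, map_zero, map_zero]
  have h10 := b.linearIndependent
  have h11 := Fintype.linearIndependent_iff.1 h10 ![s, t] (by simpa [Fin.sum_univ_two] using h9)
  exact ⟨h11 0, h11 1⟩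

lemma xi_raw {i : Fin K.n} {p : M} (hs : p ∈ (K.ph i).source) (a : Fin 2) :
    dt4 (H.xi p) (raw K b H i a p) = 0 := by
  have h1 := H.perp p (mfderiv 𝓘(ℝ, E) 𝓘(ℝ, E) (K.ph i).symm (K.ph i p) (b a) : E)
  rw [← raw_eq K b H hs a, inner_eq_dt4] at h1
  exact h1

lemma xi_unit (p : M) : dt4 (H.xi p) (H.xi p) = 1 := by
  have h1 := real_inner_self_eq_norm_sq (H.ξ p)
  rw [H.unit, inner_eq_dt4] at h1
  have h2 : dt4 (H.xi p) (H.xi p) = 1 ^ 2 := h1
  rw [h2]; norm_num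

/-- the cross product in the chart -/
def crs (i : Fin K.n) (p : M) : Fin 4 → ℝ := cr4 (raw K b H i 0 p) (raw K b H i 1 p) (H.xi p)

lemma crs_pos {i : Fin K.n} {p : M} (hs : p ∈ (K.ph i).source) :
    0 < dt4 (crs K b H i p) (crs K b H i p) := by
  rw [crs, cr4_sq (xi_unit H p) (xi_raw K b H hs 0) (xi_raw K b H hs 1)]
  exact gram2_pos (raw_indep K b H hs)

/-- the real local unit normal over the chart `i`, cut off -/
def mr (i : Fin K.n) (k : Fin 4) (p : M) : ℝ :=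
  K.χ i p * (crs K b H i p k / Real.sqrt (dt4 (crs K b H i p) (crs K b H i p)))

lemma sm_raw (i : Fin K.n) (a : Fin 2) (k : Fin 4) :
    ContMDiffOn 𝓘(ℝ, E) 𝓘(ℝ, ℝ) ∞ (fun p => raw K b H i a p k) (K.ph i).source :=
  (EuclideanSpace.proj k : EuclideanSpace ℝ (Fin 4) →L[ℝ] ℝ).contDiff.contMDiff.comp_contMDiffOn
    (K.contMDiffOn_fderiv H.smF i (b a))

lemma sm_xi (k : Fin 4) : ContMDiff 𝓘(ℝ, E) 𝓘(ℝ, ℝ) ∞ (fun p => H.xi p k) :=
  ((EuclideanSpace.proj k : EuclideanSpace ℝ (Fin 4) →L[ℝ] ℝ).contDiff).comp_contMDiff H.smξ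

lemma sm_crs (i : Fin K.n) (k : Fin 4) :
    ContMDiffOn 𝓘(ℝ, E) 𝓘(ℝ, ℝ) ∞ (fun p => crs K b H i p k) (K.ph i).source := by
  have h0 := fun k => sm_raw K b H i 0 k
  have h1 := fun k => sm_raw K b H i 1 k
  have h2 := fun k => (sm_xi H k).contMDiffOn (s := (K.ph i).source)
  have t : ∀ i1 i2 i3 i4 i5 : Fin 4, ContMDiffOn 𝓘(ℝ, E) 𝓘(ℝ, ℝ) ∞ (fun p =>
      raw K b H i 0 p i1 * (raw K b H i 1 p i2 * H.xi p i3 - raw K b H i 1 p i4 * H.xi p i5))
      (K.ph i).source := by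
    intro i1 i2 i3 i4 i5
    exact (h0 i1).mul (((h1 i2).mul (h2 i3)).sub ((h1 i4).mul (h2 i5)))
  fin_cases k
  · exact ((t 1 2 3 3 2).sub (t 2 1 3 3 1)).add (t 3 1 2 2 1)
  · exact (((t 0 2 3 3 2).sub (t 2 0 3 3 0)).add (t 3 0 2 2 0)).neg
  · exact ((t 0 1 3 3 1).sub (t 1 0 3 3 0)).add (t 3 0 1 1 0)
  · exact (((t 0 1 2 2 1).sub (t 1 0 2 2 0)).add (t 2 0 1 1 0)).neg

lemma sm_mr (i : Fin K.n) (k : Fin 4) : ContMDiff 𝓘(ℝ, E) 𝓘(ℝ, ℝ) ∞ (mr K b H i k) := by
  refine contMDiff_of_tsupport fun p hp => ?_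
  have h1 : p ∈ (K.ph i).source := K.tsupport_sub i (tsupport_mul_subset_left hp)
  have hn := (K.isOpen_source i).mem_nhds h1
  have hc := fun k => (sm_crs K b H i k).contMDiffAt hn
  have hd : ContMDiffAt 𝓘(ℝ, E) 𝓘(ℝ, ℝ) ∞
      (fun p => dt4 (crs K b H i p) (crs K b H i p)) p := by
    have h2 : (fun p => dt4 (crs K b H i p) (crs K b H i p)) = fun p =>
        crs K b H i p 0 * crs K b H i p 0 + crs K b H i p 1 * crs K b H i p 1
        + crs K b H i p 2 * crs K b H i p 2 + crs K b H i p 3 * crs K b H i p 3 := by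
      funext q; simp only [dt4, Fin.sum_univ_four]
    rw [h2]
    exact ((((hc 0).mul (hc 0)).add ((hc 1).mul (hc 1))).add ((hc 2).mul (hc 2))).add
      ((hc 3).mul (hc 3))
  have hpos := crs_pos K b H h1
  have hs : ContMDiffAt 𝓘(ℝ, E) 𝓘(ℝ, ℝ) ∞
      (fun p => Real.sqrt (dt4 (crs K b H i p) (crs K b H i p))) p :=
    (Real.contDiffAt_sqrt hpos.ne').contMDiffAt.comp p hd
  exact (K.sm i).contMDiffAt.mul ((hc k).div₀ hs (Real.sqrt_pos.2 hpos).ne')

/-- unit normals -/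
def okM (p : M) (n : Fin 4 → ℝ) : Prop :=
  dt4 n n = 1 ∧ dt4 n (H.xi p) = 0 ∧
    ∀ j : Fin K.n × Fin 2, dt4 n (fun k => K.Dv b j H.F p k) = 0

lemma Dv_raw {i : Fin K.n} {p : M} (hp : p ∈ K.V i) (a : Fin 2) :
    (fun k => K.Dv b (i, a) H.F p k) = raw K b H i a p := by
  funext k
  rw [Cov.Dv, K.one i p hp, one_smul]; rfl

lemma Dv_comb {i : Fin K.n} {p : M} (hp : p ∈ K.V i) (j : Fin K.n × Fin 2) :
    ∃ c : Fin 2 → ℝ, ∀ k, K.Dv b j H.F p k =
      c 0 * raw K b H i 0 p k + c 1 * raw K b H i 1 p k := by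
  have : FiniteDimensional ℝ E := Module.Basis.finiteDimensional_of_finite b
  obtain ⟨c, hc⟩ := exists_coeff K b hp j
  refine ⟨c, fun k => ?_⟩
  let G : E →L[ℝ] EuclideanSpace ℝ (Fin 4) :=
    mfderiv 𝓘(ℝ, E) 𝓘(ℝ, EuclideanSpace ℝ (Fin 4)) H.F p
  let x : Fin K.n × Fin 2 → E := fun j => K.X b j p
  have h1 : ∀ j, K.Dv b j H.F p = G (x j) := fun j => K.Dv_eq b H.smF j p
  have h2 : x j = c 0 • x (i, 0) + c 1 • x (i, 1) := hc.trans (Fin.sum_univ_two _)
  have h3 : K.Dv b j H.F p = c 0 • K.Dv b (i, 0) H.F p + c 1 • K.Dv b (i, 1) H.F p := by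
    rw [h1, h1, h1, h2, map_add, map_smul, map_smul]
  rw [h3, ← Dv_raw K b H hp 0, ← Dv_raw K b H hp 1]
  simp

lemma mr_eq {i : Fin K.n} {p : M} (hp : p ∈ K.V i) (k : Fin 4) :
    mr K b H i k p = crs K b H i p k / Real.sqrt (dt4 (crs K b H i p) (crs K b H i p)) := by
  rw [mr, K.one i p hp, one_mul]

lemma mr_unit {i : Fin K.n} {p : M} (hp : p ∈ K.V i) :
    dt4 (fun k => mr K b H i k p) (fun k => mr K b H i k p) = 1 := by
  have hpos := crs_pos K b H (K.V_sub i hp)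
  have hs0 : Real.sqrt (dt4 (crs K b H i p) (crs K b H i p)) ≠ 0 := (Real.sqrt_pos.2 hpos).ne'
  have hs := Real.mul_self_sqrt hpos.le
  simp only [mr_eq K b H hp]
  generalize Real.sqrt (dt4 (crs K b H i p) (crs K b H i p)) = s at *
  generalize crs K b H i p = X at *
  unfold dt4 at hs ⊢
  simp only [Fin.sum_univ_four] at hs ⊢
  field_simp
  linear_combination -hs

lemma mr_ok {i : Fin K.n} {p : M} (hp : p ∈ K.V i) : okM K b H p (fun k => mr K b H i k p) := by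
  have hlin : ∀ v : Fin 4 → ℝ, dt4 (crs K b H i p) v = 0 → dt4 (fun k => mr K b H i k p) v = 0 := by
    intro v hv
    have : dt4 (fun k => mr K b H i k p) v =
        (1 / Real.sqrt (dt4 (crs K b H i p) (crs K b H i p))) * dt4 (crs K b H i p) v := by
      simp only [mr_eq K b H hp]
      unfold dt4
      rw [Finset.mul_sum]
      exact Finset.sum_congr rfl fun k _ => by ring
    rw [this, hv, mul_zero]
  refine ⟨mr_unit K b H hp, hlin _ (dt4_cr4_3 _ _ _), fun j => ?_⟩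
  obtain ⟨c, hc⟩ := Dv_comb K b H hp j
  have h1 : (fun k => K.Dv b j H.F p k) =
      fun k => c 0 * raw K b H i 0 p k + c 1 * raw K b H i 1 p k := funext hc
  rw [h1]
  apply hlin
  have e0 := dt4_cr4_1 (raw K b H i 0 p) (raw K b H i 1 p) (H.xi p)
  have e1 := dt4_cr4_2 (raw K b H i 0 p) (raw K b H i 1 p) (H.xi p)
  rw [crs]
  generalize cr4 (raw K b H i 0 p) (raw K b H i 1 p) (H.xi p) = X at *
  unfold dt4 at *
  rw [Fin.sum_univ_four] at *
  linear_combination c 0 * e0 + c 1 * e1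

lemma ok_neg' {p : M} {n : Fin 4 → ℝ} (h : okM K b H p n) : okM K b H p (fun k => -n k) := by
  obtain ⟨h1, h2, h3⟩ := h
  have hneg : ∀ v, dt4 (fun k => -n k) v = - dt4 n v := by
    intro v; unfold dt4; rw [← Finset.sum_neg_distrib]
    exact Finset.sum_congr rfl fun k _ => by ring
  refine ⟨?_, ?_, fun j => ?_⟩
  · have : dt4 (fun k => -n k) (fun k => -n k) = dt4 n n := by
      unfold dt4; exact Finset.sum_congr rfl fun k _ => by ring
    rw [this, h1]
  · rw [hneg, h2, neg_zero]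
  · rw [hneg, h3, neg_zero]

lemma okM_iff {i : Fin K.n} {p : M} (hp : p ∈ K.V i) (n : Fin 4 → ℝ) : okM K b H p n ↔
    (∀ k, n k = mr K b H i k p) ∨ (∀ k, n k = - mr K b H i k p) := by
  constructor
  · rintro ⟨h1, h2, h3⟩
    have e0 := h3 (i, 0)
    have e1 := h3 (i, 1)
    rw [Dv_raw K b H hp] at e0 e1
    have := unit_or (crs_pos K b H (K.V_sub i hp)) h1 e0 e1 h2
    simp only [mr_eq K b H hp]
    exact this
  · rintro (h | h)
    · have : n = fun k => mr K b H i k p := funext h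
      rw [this]; exact mr_ok K b H hp
    · have : n = fun k => -mr K b H i k p := funext h
      rw [this]; exact ok_neg' K b H (mr_ok K b H hp)

variable [CompactSpace M]

/-- the line field of an immersion with a unit normal field -/
def lineM : Line (K.dalg b) (Fin K.n) where
  V := K.V
  cov := K.cov
  locD i j u v h p hp := Dv_congr K b j (K.opn i) h hp
  locS u h := by
    rw [Cov.dalg_Sm]
    intro p
    obtain ⟨i, hi⟩ := K.cov p
    obtain ⟨v, hv, hv2⟩ := h i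
    have h1 : ContMDiffAt 𝓘(ℝ, E) 𝓘(ℝ, ℂ) ∞ v p := (K.dalg_Sm b).1 hv p
    refine h1.congr_of_eventuallyEq ?_
    filter_upwards [(K.opn i).mem_nhds hi] with q hq
    exact hv2 q hq
  m i k p := ((mr K b H i k p : ℝ) : ℂ)
  smm i k := (K.dalg_Sm b).2 (Complex.ofRealCLM.contDiff.comp_contMDiff (sm_mr K b H i k))
  rm i k p := Complex.ofReal_im _
  unit i p hp := by
    have h1 := mr_unit K b H hp
    have h2 : (((dt4 (fun k => mr K b H i k p) (fun k => mr K b H i k p) : ℝ)) : ℂ) = 1 := by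
      rw [h1]; simp
    rw [← h2, dt4]; push_cast; rfl
  ok := okM K b H
  ok_iff i p hp n := by
    rw [okM_iff K b H hp]
    constructor
    · rintro (h | h)
      · left; intro k; rw [h k]
      · right; intro k; rw [h k]; push_cast; rfl
    · rintro (h | h)
      · left; intro k; exact_mod_cast h k
      · right; intro k
        have := h k
        rw [← Complex.ofReal_neg] at this
        exact_mod_cast this
  ex p := by
    obtain ⟨i, hi⟩ := K.cov p
    exact ⟨_, mr_ok K b H hi⟩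

end man

end Vale.Agent.P205.TW
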