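import Vale.Agent.P205.TW.DataDef
import Vale.Agent.P205.TW.CoverM

/-!
Facts on the cover needed for the data of the scheme T1W (P205).
-/

noncomputable section

set_option linter.unusedSectionVars false

open scoped Manifold ContDiff Topology
open Set Filter

namespace Vale.Agent.P205.TW

open Vale.Agent.P205.F

universe u

section abs

variable {P : Type u} {κ : Type} [Fintype κ] {I : Type} {S : DAlg P κ} {L : Line S I}

/-- the involution of the cover -/
theorem isInv_cover : IsInv L.cover L.sg where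
  inv := Line.sg_sg
  sm _ hu := Line.sm_sg hu
  D j _ hu p := Line.D_sg j hu p

/-- positive functions on the cover are bounded below -/
theorem posS_cover (h : PosS S) : PosS L.cover := by
  intro u hu hpos
  obtain ⟨C, hC⟩ := L.cover.bdd hu.1
  set v : P → ℂ := fun p => L.ev u p * L.ev u p - ∑ k, L.od u k p * L.od u k p with hv
  have hval : ∀ x : L.Pt, v (L.pi x) = u x * u (L.sg x) := by
    intro x
    simp only [hv]
    rw [Line.ev_pi]
    simp_rw [Line.od_pi]
    have h1 := Line.n_unit x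
    rw [Fin.sum_univ_four] at h1 ⊢
    linear_combination (-((u x - u (L.sg x)) / 2) ^ 2) * h1
  have hsm : S.Sm v := by
    have h1 : S.Sm (fun p => ∑ k, L.od u k p * L.od u k p) :=
      Line.sm_sum3 S fun k => S.sm_mul (hu.1.2 k) (hu.1.2 k)
    have h2 : v = L.ev u * L.ev u + fun p => (-1 : ℂ) * ∑ k, L.od u k p * L.od u k p := by
      funext p; simp only [hv, Pi.add_apply, Pi.mul_apply]; ring
    rw [h2]
    exact S.sm_add (S.sm_mul hu.1.1 hu.1.1) (Line.sm_cmul S _ h1)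
  have hre : ∀ x : L.Pt, u x = ((u x).re : ℂ) := fun x => Complex.ext rfl (hu.2 x)
  have hval2 : ∀ x : L.Pt, v (L.pi x) = (((u x).re * (u (L.sg x)).re : ℝ) : ℂ) := by
    intro x
    rw [hval, hre x, hre (L.sg x)]
    push_cast
    simp
  obtain ⟨c, hc, hc2⟩ := h v ⟨hsm, fun p => by
    have := hval2 (L.s0 p)
    rw [Line.pi_s0] at this
    rw [this]; exact Complex.ofReal_im _⟩ (fun p => by
    have := hval2 (L.s0 p)
    rw [Line.pi_s0] at this
    rw [this, Complex.ofReal_re]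
    exact mul_pos (hpos _) (hpos _))
  refine ⟨c / (|C| + 1), by positivity, fun x => ?_⟩
  have h1 := hc2 (L.pi x)
  rw [hval2, Complex.ofReal_re] at h1
  have h2 : (u (L.sg x)).re ≤ |C| + 1 :=
    ((Complex.re_le_norm _).trans (hC _)).trans ((le_abs_self C).trans (by linarith))
  rw [div_le_iff₀ (by positivity)]
  calc c ≤ (u x).re * (u (L.sg x)).re := h1
    _ ≤ (u x).re * (|C| + 1) := mul_le_mul_of_nonneg_left h2 (hpos x).le

/-- lift of a ray -/
def liftRay (L : Line S I) (r : Ray P κ) : Ray L.Pt κ where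
  Ψ x := r.Ψ (L.pi x)
  t j x := r.t j (L.pi x)
  w j x := r.w j (L.pi x)
  β j x := r.β j (L.pi x)
  K := L.pi ⁻¹' r.K

lemma dir_lift {c : κ → P → ℂ} {u : L.Pt → ℂ} (hu : L.cover.Sm u) {i : I} {x : L.Pt}
    (hi : L.pi x ∈ L.V i) {s : ℂ} (hs : ∀ k, L.n k x = s * L.m i k (L.pi x)) :
    L.cover.dir (fun j x => c j (L.pi x)) u x =
      S.dir c (L.ev u) (L.pi x) + s * S.dir c (L.be u i) (L.pi x) := by
  unfold DAlg.dir
  rw [Finset.mul_sum, ← Finset.sum_add_distrib]
  refine Finset.sum_congr rfl fun j _ => ?_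
  rw [Line.cover_D, Line.Dc_be hu hi hs]; ring

lemma dir_pi (c : κ → P → ℂ) (u : P → ℂ) (x : L.Pt) :
    L.cover.dir (fun j x => c j (L.pi x)) (fun x => u (L.pi x)) x = S.dir c u (L.pi x) := by
  unfold DAlg.dir
  refine Finset.sum_congr rfl fun j _ => ?_
  rw [Line.D_pi]

theorem liftRay_ok {r : Ray P κ} (h : r.Ok S) : (liftRay L r).Ok L.cover where
  smΨ := Line.sm_pi_iff.2 h.smΨ
  smt j := Line.sm_pi_iff.2 (h.smt j)
  smw j := Line.sm_pi_iff.2 (h.smw j)
  smβ j := Line.sm_pi_iff.2 (h.smβ j)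
  rΨ x := h.rΨ _
  rt j x := h.rt j _
  rw' j x := h.rw' j _
  rβ j x := h.rβ j _
  tΨ x hx := (dir_pi _ _ _).trans (h.tΨ _ hx)
  wΨ x hx := (dir_pi _ _ _).trans (h.wΨ _ hx)
  dec := by
    intro u hu j x hx
    obtain ⟨i, hi⟩ := L.cov (L.pi x)
    obtain ⟨s, -, hs⟩ := Line.sheet hi
    have h1 := h.dec (L.ev u) hu.1 j (L.pi x) hx
    have h2 := h.dec (L.be u i) (Line.sm_be hu i) j (L.pi x) hx
    have e1 : L.cover.dir (liftRay L r).t u x =
        S.dir r.t (L.ev u) (L.pi x) + s * S.dir r.t (L.be u i) (L.pi x) := dir_lift hu hi hs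
    have e2 : L.cover.dir (liftRay L r).w u x =
        S.dir r.w (L.ev u) (L.pi x) + s * S.dir r.w (L.be u i) (L.pi x) := dir_lift hu hi hs
    have e3 : L.cover.D j (liftRay L r).Ψ x = S.D j r.Ψ (L.pi x) := by
      show L.cover.D j (fun x => r.Ψ (L.pi x)) x = _
      rw [Line.D_pi]
    rw [e1, e2, e3, Line.cover_D, Line.Dc_be hu hi hs, h1, h2]
    show _ = _ + r.β j (L.pi x) * _
    ring

end abs

section man

variable {E : Type} [NormedAddCommGroup E] [NormedSpace ℝ E]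
  {M : Type u} [TopologicalSpace M] [ChartedSpace E M] (K : Cov E M)
  (b : Module.Basis (Fin 2) ℝ E) [IsManifold 𝓘(ℝ, E) ∞ M] (H : ImmN E M)

/-- over `V i` all derivations are combinations of the derivations of the chart `i` -/
lemma exists_comb {i : Fin K.n} {p : M} (hp : p ∈ K.V i) (j : Fin K.n × Fin 2) :
    ∃ c0 c1 : ℝ, (∀ u : M → ℂ, ContMDiff 𝓘(ℝ, E) 𝓘(ℝ, ℂ) ∞ u →
      K.Dv b j u p = c0 * K.Dv b (i, 0) u p + c1 * K.Dv b (i, 1) u p) ∧
      (∀ k, K.Dv b j H.F p k = c0 * raw K b H i 0 p k + c1 * raw K b H i 1 p k) := by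
  have : FiniteDimensional ℝ E := Module.Basis.finiteDimensional_of_finite b
  obtain ⟨c, hc⟩ := exists_coeff K b hp j
  let x : Fin K.n × Fin 2 → E := fun j => K.X b j p
  have h2 : x j = c 0 • x (i, 0) + c 1 • x (i, 1) := hc.trans (Fin.sum_univ_two _)
  refine ⟨c 0, c 1, fun u hu => ?_, fun k => ?_⟩
  · let G : E →L[ℝ] ℂ := mfderiv 𝓘(ℝ, E) 𝓘(ℝ, ℂ) u p
    have h1 : ∀ j, K.Dv b j u p = G (x j) := fun j => K.Dv_eq b hu j p
    rw [h1, h1, h1, h2, map_add, map_smul, map_smul, Complex.real_smul, Complex.real_smul]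
  · let G : E →L[ℝ] EuclideanSpace ℝ (Fin 4) :=
      mfderiv 𝓘(ℝ, E) 𝓘(ℝ, EuclideanSpace ℝ (Fin 4)) H.F p
    have h1 : ∀ j, K.Dv b j H.F p = G (x j) := fun j => K.Dv_eq b H.smF j p
    have h3 : K.Dv b j H.F p = c 0 • K.Dv b (i, 0) H.F p + c 1 • K.Dv b (i, 1) H.F p := by
      rw [h1, h1, h1, h2, map_add, map_smul, map_smul]
    rw [h3, ← Dv_raw K b H hp 0, ← Dv_raw K b H hp 1]
    simp

variable [CompactSpace M]

/-- positive functions on `M` are bounded below -/
theorem posS_dalg : PosS (K.dalg b) := by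
  intro u hu hpos
  have h1 : ContMDiff 𝓘(ℝ, E) 𝓘(ℝ, ℂ) ∞ u := (K.dalg_Sm b).1 hu.1
  have h2 : Continuous fun p => (u p).re := Complex.continuous_re.comp h1.continuous
  rcases isEmpty_or_nonempty M with he | he
  · exact ⟨1, one_pos, fun p => (he.false p).elim⟩
  · obtain ⟨q, -, hq⟩ := isCompact_univ.exists_isMinOn univ_nonempty h2.continuousOn
    exact ⟨(u q).re, hpos q, fun p => hq (mem_univ p)⟩

/-- components of the immersion -/
def ImmN.Fc (k : Fin 4) (p : M) : ℂ := ((H.F p k : ℝ) : ℂ)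

/-- components of the normal field -/
def ImmN.xc (k : Fin 4) (p : M) : ℂ := ((H.ξ p k : ℝ) : ℂ)

lemma sm_Fc (k : Fin 4) : (K.dalg b).Sm (H.Fc k) :=
  (K.dalg_Sm b).2 (Complex.ofRealCLM.contDiff.comp_contMDiff
    ((EuclideanSpace.proj k : EuclideanSpace ℝ (Fin 4) →L[ℝ] ℝ).contDiff.comp_contMDiff H.smF))

lemma sm_xc (k : Fin 4) : (K.dalg b).Sm (H.xc k) :=
  (K.dalg_Sm b).2 (Complex.ofRealCLM.contDiff.comp_contMDiff
    ((EuclideanSpace.proj k : EuclideanSpace ℝ (Fin 4) →L[ℝ] ℝ).contDiff.comp_contMDiff H.smξ))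

lemma D_Fc (j : Fin K.n × Fin 2) (k : Fin 4) (p : M) :
    (K.dalg b).D j (H.Fc k) p = ((K.Dv b j H.F p k : ℝ) : ℂ) := by
  rw [Cov.dalg_D]
  exact congrFun (K.Dv_clm b (Complex.ofRealCLM.comp
    (EuclideanSpace.proj k : EuclideanSpace ℝ (Fin 4) →L[ℝ] ℝ)) H.smF j) p

lemma Dv_cx {i : Fin K.n} {p : M} (hp : p ∈ K.V i) (a : Fin 2) (k : Fin 4) :
    (K.dalg b).D (i, a) (H.Fc k) p = ((raw K b H i a p k : ℝ) : ℂ) := by
  rw [D_Fc, ← Dv_raw K b H hp a]

/-- two complex coefficients annihilating the coordinate derivatives of `F` vanish -/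
lemma coeff_zero {i : Fin K.n} {p : M} (hp : p ∈ K.V i) {A B : ℂ}
    (h : ∀ k, A * ((raw K b H i 0 p k : ℝ) : ℂ) + B * ((raw K b H i 1 p k : ℝ) : ℂ) = 0) :
    A = 0 ∧ B = 0 := by
  have hli := raw_indep K b H (K.V_sub i hp)
  rw [LinearIndependent.pair_iff] at hli
  have h1 := hli A.re B.re (by
    funext k
    have := congrArg Complex.re (h k)
    simpa using this)
  have h2 := hli A.im B.im (by
    funext k
    have := congrArg Complex.im (h k)
    simpa using this)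
  exact ⟨Complex.ext h1.1 h2.1, Complex.ext h1.2 h2.2⟩

/-- linear relations between the derivatives of the immersion hold for all functions -/
theorem imm_dalg (p : M) (c : Fin K.n × Fin 2 → ℂ)
    (h : ∀ a, ∑ j, c j * (K.dalg b).D j (H.Fc a) p = 0) (u : M → ℂ) (hu : (K.dalg b).Sm u) :
    ∑ j, c j * (K.dalg b).D j u p = 0 := by
  obtain ⟨i, hi⟩ := K.cov p
  choose c0 c1 hc hF using fun j => exists_comb K b H hi j
  have hu' : ∀ j, (K.dalg b).D j u p = c0 j * (K.dalg b).D (i, 0) u p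
      + c1 j * (K.dalg b).D (i, 1) u p := fun j => hc j u ((K.dalg_Sm b).1 hu)
  have hz : (∑ j, c j * (c0 j : ℂ)) = 0 ∧ (∑ j, c j * (c1 j : ℂ)) = 0 := by
    apply coeff_zero K b H hi
    intro k
    rw [← h k, Finset.sum_mul, Finset.sum_mul, ← Finset.sum_add_distrib]
    refine Finset.sum_congr rfl fun j _ => ?_
    rw [D_Fc, hF j k]; push_cast; ring
  rw [Finset.sum_congr rfl fun j _ => congrArg (c j * ·) (hu' j)]
  have : ∀ A B : ℂ, ∑ j, c j * (c0 j * A + c1 j * B) =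
      (∑ j, c j * (c0 j : ℂ)) * A + (∑ j, c j * (c1 j : ℂ)) * B := by
    intro A B
    rw [Finset.sum_mul, Finset.sum_mul, ← Finset.sum_add_distrib]
    exact Finset.sum_congr rfl fun j _ => by ring
  refine (this _ _).trans ?_
  rw [hz.1, hz.2]; ring

/-- the same on the cover: two derivations span at every point -/
theorem comb_cover {i : Fin K.n} {x : (lineM K b H).Pt} (hx : (lineM K b H).pi x ∈ K.V i)
    (j : Fin K.n × Fin 2) :
    ∃ c0 c1 : ℝ, ∀ u, (lineM K b H).cover.Sm u → (lineM K b H).cover.D j u x =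
      c0 * (lineM K b H).cover.D (i, 0) u x + c1 * (lineM K b H).cover.D (i, 1) u x := by
  obtain ⟨c0, c1, hc, -⟩ := exists_comb K b H hx j
  refine ⟨c0, c1, fun u hu => ?_⟩
  obtain ⟨s, -, hs⟩ := Line.sheet (L := lineM K b H) (i := i) hx
  have h1 := hc _ ((K.dalg_Sm b).1 hu.1)
  have h2 := hc _ ((K.dalg_Sm b).1 (Line.sm_be hu i))
  rw [Line.cover_D, Line.cover_D, Line.cover_D, Line.Dc_be hu hx hs, Line.Dc_be hu hx hs,
    Line.Dc_be hu hx hs]
  simp only [Cov.dalg_D]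
  rw [h1, h2]; ring

theorem dim2_dalg (hne : Nonempty (ImmN E M)) : Dim2 (K.dalg b) := by
  obtain ⟨H⟩ := hne
  intro p
  obtain ⟨i, hi⟩ := K.cov p
  choose c0 c1 hc _ using fun j => exists_comb K b H hi j
  refine ⟨c0, c1, fun u => RD (K.dalg b) (i, 0) u p, fun u => RD (K.dalg b) (i, 1) u p,
    fun j u hu => ?_⟩
  have h1 := hc j _ ((K.dalg_Sm b).1 hu)
  simp only [RD, Cov.dalg_D]
  rw [h1]
  simp

theorem dim2_cover : Dim2 (lineM K b H).cover := by
  intro x
  obtain ⟨i, hi⟩ := K.cov ((lineM K b H).pi x)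
  choose c0 c1 hc using fun j => comb_cover K b H hi j
  refine ⟨c0, c1, fun u => RD (lineM K b H).cover (i, 0) u x,
    fun u => RD (lineM K b H).cover (i, 1) u x, fun j u hu => ?_⟩
  have h1 := hc j _ hu
  simp only [RD]
  rw [h1]
  simp

/-- the immersion on the cover -/
def XC (a : Fin 4) (x : (lineM K b H).Pt) : ℂ := H.Fc a ((lineM K b H).pi x)

/-- the even normal field on the cover -/
def q1C (a : Fin 4) (x : (lineM K b H).Pt) : ℂ := H.xc a ((lineM K b H).pi x)

/-- the odd normal field on the cover -/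
def q2C (a : Fin 4) (x : (lineM K b H).Pt) : ℂ := (lineM K b H).n a x

theorem rsm_XC (a : Fin 4) : RSm (lineM K b H).cover (XC K b H a) :=
  ⟨Line.sm_pi_iff.2 (sm_Fc K b H a), fun _ => Complex.ofReal_im _⟩

theorem rsm_q1C (a : Fin 4) : RSm (lineM K b H).cover (q1C K b H a) :=
  ⟨Line.sm_pi_iff.2 (sm_xc K b H a), fun _ => Complex.ofReal_im _⟩

theorem rsm_q2C (a : Fin 4) : RSm (lineM K b H).cover (q2C K b H a) :=
  ⟨Line.sm_n a, Line.n_real a⟩

theorem ev_XC (a : Fin 4) : Evn (lineM K b H).sg (XC K b H a) := fun _ => rfl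

theorem ev_q1C (a : Fin 4) : Evn (lineM K b H).sg (q1C K b H a) := fun _ => rfl

theorem od_q2C (a : Fin 4) : Odd' (lineM K b H).sg (q2C K b H a) := fun x => Line.n_sg a x

lemma D_XC (j : Fin K.n × Fin 2) (a : Fin 4) (x : (lineM K b H).Pt) :
    (lineM K b H).cover.D j (XC K b H a) x =
      ((K.Dv b j H.F ((lineM K b H).pi x) a : ℝ) : ℂ) := by
  show (lineM K b H).cover.D j (fun x => H.Fc a ((lineM K b H).pi x)) x = _
  rw [Line.D_pi]
  exact D_Fc K b H j a _

lemma dot_ofReal {P : Type*} (f g : Fin 4 → P → ℂ) (x : P) (a c : Fin 4 → ℝ)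
    (hf : ∀ k, f k x = ((a k : ℝ) : ℂ)) (hg : ∀ k, g k x = ((c k : ℝ) : ℂ)) :
    dot f g x = ((dt4 a c : ℝ) : ℂ) := by
  unfold dot dt4
  push_cast
  exact Finset.sum_congr rfl fun k _ => by rw [hf, hg]

/-- the normal frame on the cover -/
theorem frame_cover : CNFr (lineM K b H).cover (XC K b H) (q1C K b H) (q2C K b H) where
  s1 a := (rsm_q1C K b H a).1
  s2 a := (rsm_q2C K b H a).1
  r1 a := (rsm_q1C K b H a).2
  r2 a := (rsm_q2C K b H a).2
  n11 x := by
    rw [dot_ofReal _ _ x (H.xi ((lineM K b H).pi x)) (H.xi ((lineM K b H).pi x))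
      (fun _ => rfl) (fun _ => rfl), xi_unit]; simp
  n22 x := by
    rw [dot_ofReal _ _ x x.1.2 x.1.2 (fun _ => rfl) (fun _ => rfl)]
    have h : okM K b H x.1.1 x.1.2 := x.2
    rw [h.1]; simp
  n12 x := by
    rw [dot_ofReal _ _ x (H.xi ((lineM K b H).pi x)) x.1.2 (fun _ => rfl) (fun _ => rfl),
      dt4_comm]
    have h : okM K b H x.1.1 x.1.2 := x.2
    have h2 : dt4 x.1.2 (H.xi ((lineM K b H).pi x)) = 0 := h.2.1
    rw [h2]; simp
  t1 j x := by
    show dot (q1C K b H) (fun k => (lineM K b H).cover.D j (XC K b H k)) x = 0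
    rw [dot_ofReal _ _ x (H.xi ((lineM K b H).pi x))
      (fun k => K.Dv b j H.F ((lineM K b H).pi x) k) (fun _ => rfl) (fun k => D_XC K b H j k x)]
    obtain ⟨i, hi⟩ := K.cov ((lineM K b H).pi x)
    obtain ⟨c, hc⟩ := Dv_comb K b H hi j
    have h1 : (fun k => K.Dv b j H.F ((lineM K b H).pi x) k) =
        fun k => c 0 * raw K b H i 0 ((lineM K b H).pi x) k
          + c 1 * raw K b H i 1 ((lineM K b H).pi x) k := funext hc
    rw [h1]
    have e0 := xi_raw K b H (K.V_sub i hi) 0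
    have e1 := xi_raw K b H (K.V_sub i hi) 1
    have h2 : dt4 (H.xi ((lineM K b H).pi x))
        (fun k => c 0 * raw K b H i 0 ((lineM K b H).pi x) k
          + c 1 * raw K b H i 1 ((lineM K b H).pi x) k) =
        c 0 * dt4 (H.xi ((lineM K b H).pi x)) (raw K b H i 0 ((lineM K b H).pi x)) +
        c 1 * dt4 (H.xi ((lineM K b H).pi x)) (raw K b H i 1 ((lineM K b H).pi x)) := by
      unfold dt4
      rw [Finset.mul_sum, Finset.mul_sum, ← Finset.sum_add_distrib]
      exact Finset.sum_congr rfl fun k _ => by ring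
    rw [h2, e0, e1]; simp
  t2 j x := by
    show dot (q2C K b H) (fun k => (lineM K b H).cover.D j (XC K b H k)) x = 0
    rw [dot_ofReal _ _ x x.1.2
      (fun k => K.Dv b j H.F ((lineM K b H).pi x) k) (fun _ => rfl) (fun k => D_XC K b H j k x)]
    have h : okM K b H x.1.1 x.1.2 := x.2
    have h2 : dt4 x.1.2 (fun k => K.Dv b j H.F ((lineM K b H).pi x) k) = 0 := h.2.2 j
    rw [h2]; simp

/-- linear relations between the derivatives of the immersion hold for all functions (cover) -/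
theorem imm_cover (x : (lineM K b H).Pt) (c : Fin K.n × Fin 2 → ℂ)
    (h : ∀ a, ∑ j, c j * (lineM K b H).cover.D j (XC K b H a) x = 0) (u : (lineM K b H).Pt → ℂ)
    (hu : (lineM K b H).cover.Sm u) :
    ∑ j, c j * (lineM K b H).cover.D j u x = 0 := by
  obtain ⟨i, hi⟩ := (lineM K b H).cov ((lineM K b H).pi x)
  obtain ⟨s, -, hs⟩ := Line.sheet (L := lineM K b H) (i := i) hi
  have h0 : ∀ a, ∑ j, c j * (K.dalg b).D j (H.Fc a) ((lineM K b H).pi x) = 0 := by
    intro a
    rw [← h a]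
    refine Finset.sum_congr rfl fun j _ => ?_
    rw [D_XC, D_Fc]
  have h1 := imm_dalg K b H _ c h0 _ hu.1
  have h2 := imm_dalg K b H _ c h0 _ (Line.sm_be hu i)
  have h3 : ∀ j, (lineM K b H).cover.D j u x = (K.dalg b).D j ((lineM K b H).ev u)
      ((lineM K b H).pi x) + s * (K.dalg b).D j ((lineM K b H).be u i) ((lineM K b H).pi x) := by
    intro j
    rw [Line.cover_D, Line.Dc_be hu hi hs]
  simp_rw [h3, mul_add]
  rw [Finset.sum_add_distrib, h1]
  have h4 : ∑ j, c j * (s * (K.dalg b).D j ((lineM K b H).be u i) ((lineM K b H).pi x)) =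
      s * ∑ j, c j * (K.dalg b).D j ((lineM K b H).be u i) ((lineM K b H).pi x) := by
    rw [Finset.mul_sum]
    exact Finset.sum_congr rfl fun j _ => by ring
  rw [h4, h2]; ring

end man

end Vale.Agent.P205.TW
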