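import Vale.Agent.P205.TW.DataDef

/-!
P205, T1W, block DATA: uniform constants (`geoC_of`).
-/

noncomputable section

set_option linter.unusedSectionVars false

open scoped ContDiff

namespace Vale.Agent.P205.TW

open Vale.Agent.P205.F

universe u

variable {P : Type u} {κ : Type} [Fintype κ] {S : DAlg P κ}

namespace RSm

variable {u v : P → ℂ}

theorem eq_re (h : RSm S u) (p : P) : u p = ((u p).re : ℂ) := (h.2.ofReal_re p).symm

theorem add (h : RSm S u) (h' : RSm S v) : RSm S (fun p => u p + v p) :=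
  ⟨S.sm_add h.1 h'.1, h.2.add h'.2⟩

theorem mul (h : RSm S u) (h' : RSm S v) : RSm S (fun p => u p * v p) :=
  ⟨S.sm_mul h.1 h'.1, h.2.mul h'.2⟩

theorem sub (h : RSm S u) (h' : RSm S v) : RSm S (fun p => u p - v p) :=
  ⟨S.sm_sub h.1 h'.1, h.2.sub h'.2⟩

theorem cst (c : ℝ) : RSm S (fun _ => (c : ℂ)) := ⟨S.sm_const _, fun _ => Complex.ofReal_im c⟩

theorem smul (c : ℝ) (h : RSm S u) : RSm S (fun p => (c : ℂ) * u p) := (cst c).mul h

theorem sum {ι : Type*} {A : Finset ι} {u : ι → P → ℂ} (h : ∀ a ∈ A, RSm S (u a)) :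
    RSm S (fun p => ∑ a ∈ A, u a p) := by
  have h1 := S.sm_sum' (A := A) (u := u) (fun a ha => (h a ha).1)
  have h2 := Rl.sum (A := A) (u := u) (fun a ha => (h a ha).2)
  exact ⟨h1, h2⟩

theorem D (j : κ) (h : RSm S u) : RSm S (S.D j u) := ⟨S.sm_D j h.1, S.rl_D j h.1 h.2⟩

theorem pow2 (h : RSm S u) : RSm S (fun p => u p ^ 2) := by
  have := h.mul h
  simpa only [← pow_two] using this

theorem comp {f : ℝ → ℝ} (hf : ContDiff ℝ ∞ f) (h : RSm S u) :
    RSm S (fun p => ((f (u p).re : ℝ) : ℂ)) :=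
  ⟨S.sm_comp (F := fun x => ((f x : ℝ) : ℂ)) (Complex.ofRealCLM.contDiff.comp hf) h.1 h.2,
    fun _ => Complex.ofReal_im _⟩

end RSm

/-- one derivation is a combination of two others -/
def Cmb (S : DAlg P κ) (p : P) (a b j : κ) (α β : ℝ) : Prop := ∀ u : P → ℂ, S.Sm u →
  S.D j u p = α * S.D a u p + β * S.D b u p

theorem Cmb.tens {T : κ → κ → P → ℂ} (hT : S.IsT T) {p : P} {a b j : κ} {α β : ℝ}
    (h : Cmb S p a b j α β) (k : κ) : T j k p = α * T a k p + β * T b k p := by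
  classical
  have h1 := hT.2 p (fun l => (if l = j then (1 : ℂ) else 0) - (if l = a then (α : ℂ) else 0)
    - (if l = b then (β : ℂ) else 0)) (fun u hu => by
      simp only [sub_mul, ite_mul, zero_mul, one_mul, Finset.sum_sub_distrib, Finset.sum_ite_eq',
        Finset.mem_univ, if_true]
      rw [h u hu]
      ring) k
  simp only [sub_mul, ite_mul, zero_mul, one_mul, Finset.sum_sub_distrib, Finset.sum_ite_eq',
    Finset.mem_univ, if_true] at h1
  linear_combination h1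

/-- quadratic form in terms of the two spanning derivations -/
theorem qfm_pl {T : κ → κ → P → ℂ} (hT : TSm S T) {p : P} {a b : κ} {α β : κ → ℝ}
    (h : ∀ j, Cmb S p a b j (α j) (β j)) (ξ : κ → ℝ) :
    qfm T p ξ = (T a a p).re * (∑ j, α j * ξ j) ^ 2
      + 2 * (T a b p).re * (∑ j, α j * ξ j) * (∑ j, β j * ξ j)
      + (T b b p).re * (∑ j, β j * ξ j) ^ 2 := by
  have h1 : ∀ j k, (T j k p).re = α j * (α k * (T a a p).re + β k * (T a b p).re)
      + β j * (α k * (T a b p).re + β k * (T b b p).re) := by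
    intro j k
    have e1 := (h j).tens hT.1 k
    have e2 := (h k).tens hT.1 a
    have e3 := (h k).tens hT.1 b
    rw [hT.1.1 k a] at e2
    rw [hT.1.1 k b] at e3
    rw [hT.1.1 b a] at e2
    rw [e1, e2, e3]
    simp only [Complex.add_re, Complex.mul_re, Complex.ofReal_re, Complex.ofReal_im, zero_mul,
      sub_zero, Complex.add_im, Complex.mul_im, (hT.2 _ _).2 p, mul_zero, add_zero]
  have inner : ∀ j, ∑ k, (T j k p).re * ξ j * ξ k =
      (α j * ξ j) * ((T a a p).re * (∑ k, α k * ξ k) + (T a b p).re * ∑ k, β k * ξ k)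
      + (β j * ξ j) * ((T a b p).re * (∑ k, α k * ξ k) + (T b b p).re * ∑ k, β k * ξ k) := by
    intro j
    have e1 : ∀ k, (T j k p).re * ξ j * ξ k =
        (α j * ξ j * (T a a p).re + β j * ξ j * (T a b p).re) * (α k * ξ k)
        + (α j * ξ j * (T a b p).re + β j * ξ j * (T b b p).re) * (β k * ξ k) := by
      intro k
      rw [h1]
      ring
    simp_rw [e1]
    rw [Finset.sum_add_distrib, ← Finset.mul_sum, ← Finset.mul_sum]
    ring
  unfold qfm
  simp_rw [inner]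
  rw [Finset.sum_add_distrib, ← Finset.sum_mul, ← Finset.sum_mul]
  ring

theorem RSm.bound {u : P → ℂ} (h : RSm S u) : ∃ C : ℝ, 0 < C ∧ ∀ p, |(u p).re| ≤ C := by
  obtain ⟨C, hC⟩ := S.bdd h.1
  refine ⟨|C| + 1, by positivity, fun p => ?_⟩
  exact (Complex.abs_re_le_norm _).trans ((hC p).trans ((le_abs_self C).trans (by linarith)))

theorem tens_bound {T : κ → κ → P → ℂ} (h : TSm S T) :
    ∃ C : ℝ, 1 ≤ C ∧ ∀ j k p, |(T j k p).re| ≤ C := by
  choose C hC h1 using fun j k => (h.2 j k).bound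
  refine ⟨1 + ∑ j, ∑ k, C j k, ?_, fun j k p => ?_⟩
  · have : 0 ≤ ∑ j, ∑ k, C j k := Finset.sum_nonneg fun j _ => Finset.sum_nonneg fun k _ =>
      (hC j k).le
    linarith
  · have e1 : C j k ≤ ∑ k, C j k := Finset.single_le_sum (f := fun k => C j k)
      (fun k _ => (hC j k).le) (Finset.mem_univ k)
    have e2 : ∑ k, C j k ≤ ∑ j, ∑ k, C j k := Finset.single_le_sum (f := fun j => ∑ k, C j k)
      (fun j _ => Finset.sum_nonneg fun k _ => (hC j k).le) (Finset.mem_univ j)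
    linarith [h1 j k p]

/-- the two form is non negative -/
theorem det_nonneg {T : κ → κ → P → ℂ} (hT : TSm S T) (hp : ∀ p ξ, 0 ≤ qfm T p ξ) (p : P)
    (a b : κ) : 0 ≤ (T a a p).re * (T b b p).re - (T a b p).re ^ 2 ∧ 0 ≤ (T a a p).re := by
  classical
  have key : ∀ x y : ℝ, 0 ≤ (T a a p).re * x ^ 2 + 2 * (T a b p).re * x * y
      + (T b b p).re * y ^ 2 := by
    intro x y
    have h := hp p (fun j => (if j = a then x else 0) + (if j = b then y else 0))
    have e : qfm T p (fun j => (if j = a then x else 0) + (if j = b then y else 0)) =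
        (T a a p).re * x ^ 2 + 2 * (T a b p).re * x * y + (T b b p).re * y ^ 2 := by
      unfold qfm
      simp only [mul_add, add_mul, mul_ite, ite_mul, mul_zero, zero_mul, Finset.sum_add_distrib,
        Finset.sum_ite_eq', Finset.mem_univ, if_true]
      rw [hT.1.1 b a]
      ring_nf
    rwa [e] at h
  have h1 := key 1 0
  have h2 := key 0 1
  have h3 := key (-(T a b p).re) (T a a p).re
  have h4 := key (T b b p).re (-(T a b p).re)
  have h5 := key 1 1
  have h6 := key 1 (-1)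
  simp only [one_pow, mul_one, mul_zero, add_zero, zero_pow, ne_eq, OfNat.ofNat_ne_zero,
    not_false_eq_true, zero_add] at h1 h2
  refine ⟨?_, h1⟩
  rcases eq_or_lt_of_le h1 with h0 | h0
  · rcases eq_or_lt_of_le h2 with h0' | h0'
    · have : (T a b p).re = 0 := by nlinarith
      rw [this, ← h0]; simp
    · have h7 : 0 ≤ (T b b p).re * ((T a a p).re * (T b b p).re - (T a b p).re ^ 2) := by
        nlinarith
      exact nonneg_of_mul_nonneg_right h7 h0'
  · have h7 : 0 ≤ (T a a p).re * ((T a a p).re * (T b b p).re - (T a b p).re ^ 2) := by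
      nlinarith
    exact nonneg_of_mul_nonneg_right h7 h0

/-- pairs with a nonzero two form span -/
def SpanH (S : DAlg P κ) : Prop := ∀ (T : κ → κ → P → ℂ), TSm S T → ∀ p a b,
  (T a a p).re * (T b b p).re - (T a b p).re ^ 2 ≠ 0 → ∀ j, ∃ α β : ℝ, Cmb S p a b j α β

/-- Cramer bounds -/
theorem cramer_bound {T : κ → κ → P → ℂ} (hT : TSm S T) {p : P} {a b j : κ} {α β C d : ℝ}
    (h : Cmb S p a b j α β) (hC : ∀ j k p, |(T j k p).re| ≤ C) (hd : 0 < d)
    (hdet : d ≤ (T a a p).re * (T b b p).re - (T a b p).re ^ 2) :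
    |α| ≤ 2 * C ^ 2 / d ∧ |β| ≤ 2 * C ^ 2 / d := by
  have e1 := congrArg Complex.re (h.tens hT.1 a)
  have e2 := congrArg Complex.re (h.tens hT.1 b)
  rw [hT.1.1 b a] at e1
  simp only [Complex.add_re, Complex.mul_re, Complex.ofReal_re, Complex.ofReal_im, zero_mul,
    sub_zero] at e1 e2
  set A := (T a a p).re
  set B := (T b b p).re
  set M := (T a b p).re
  have hA := abs_le.1 (hC a a p)
  have hB := abs_le.1 (hC b b p)
  have hM := abs_le.1 (hC a b p)
  have hja := hC j a p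
  have hjb := hC j b p
  have hC0 : 0 ≤ C := (abs_nonneg _).trans hja
  have k1 : α * (A * B - M ^ 2) = (T j a p).re * B - (T j b p).re * M := by
    rw [e1, e2]; ring
  have k2 : β * (A * B - M ^ 2) = (T j b p).re * A - (T j a p).re * M := by
    rw [e1, e2]; ring
  have b1 : ∀ x y : ℝ, |x| ≤ C → |y| ≤ C → |x * y| ≤ C ^ 2 := by
    intro x y hx hy
    rw [abs_mul, pow_two]
    exact mul_le_mul hx hy (abs_nonneg _) hC0
  have hD : 0 < A * B - M ^ 2 := lt_of_lt_of_le hd hdet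
  have fin : ∀ x y : ℝ, x * (A * B - M ^ 2) = y → |y| ≤ 2 * C ^ 2 → |x| ≤ 2 * C ^ 2 / d := by
    intro x y hxy hy
    rw [le_div_iff₀ hd]
    calc |x| * d ≤ |x| * (A * B - M ^ 2) := mul_le_mul_of_nonneg_left hdet (abs_nonneg _)
      _ = |x * (A * B - M ^ 2)| := by rw [abs_mul, abs_of_pos hD]
      _ ≤ 2 * C ^ 2 := by rw [hxy]; exact hy
  refine ⟨fin _ _ k1 ?_, fin _ _ k2 ?_⟩
  · calc _ ≤ |(T j a p).re * B| + |(T j b p).re * M| := abs_sub _ _
      _ ≤ C ^ 2 + C ^ 2 := add_le_add (b1 _ _ hja (hC b b p)) (b1 _ _ hjb (hC a b p))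
      _ = 2 * C ^ 2 := by ring
  · calc _ ≤ |(T j b p).re * A| + |(T j a p).re * M| := abs_sub _ _
      _ ≤ C ^ 2 + C ^ 2 := add_le_add (b1 _ _ hjb (hC a a p)) (b1 _ _ hja (hC a b p))
      _ = 2 * C ^ 2 := by ring

theorem exists_pl (hpos : PosS S) (hsp : SpanH S) {T : κ → κ → P → ℂ} (hT : TSm S T)
    (hp : ∀ p ξ, 0 ≤ qfm T p ξ)
    (hr : ∀ p, ∃ a b, 0 < (T a a p).re * (T b b p).re - (T a b p).re ^ 2) :
    ∃ c : ℝ, 0 < c ∧ Pl S T c := by
  have hu : RSm S (fun p => ∑ a, ∑ b, (T a a p * T b b p - T a b p ^ 2)) :=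
    RSm.sum fun a _ => RSm.sum fun b _ => ((hT.2 a a).mul (hT.2 b b)).sub (hT.2 a b).pow2
  have hre : ∀ p, (∑ a, ∑ b, (T a a p * T b b p - T a b p ^ 2)).re =
      ∑ a, ∑ b, ((T a a p).re * (T b b p).re - (T a b p).re ^ 2) := by
    intro p
    rw [Complex.re_sum]
    refine Finset.sum_congr rfl fun a _ => ?_
    rw [Complex.re_sum]
    refine Finset.sum_congr rfl fun b _ => ?_
    simp only [Complex.sub_re, Complex.mul_re, (hT.2 _ _).2 p, mul_zero, sub_zero, pow_two]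
  obtain ⟨c0, hc0, h0⟩ := hpos _ hu (fun p => by
    show 0 < (∑ a, ∑ b, (T a a p * T b b p - T a b p ^ 2)).re
    rw [hre]
    obtain ⟨a, b, hab⟩ := hr p
    have n1 : ∀ a ∈ Finset.univ, 0 ≤ ∑ b, ((T a a p).re * (T b b p).re - (T a b p).re ^ 2) :=
      fun a _ => Finset.sum_nonneg fun b _ => (det_nonneg hT hp p a b).1
    refine lt_of_lt_of_le hab (le_trans ?_ (Finset.single_le_sum n1 (Finset.mem_univ a)))
    exact Finset.single_le_sum (f := fun b => (T a a p).re * (T b b p).re - (T a b p).re ^ 2)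
      (fun b _ => (det_nonneg hT hp p a b).1) (Finset.mem_univ b))
  obtain ⟨C, hC1, hC⟩ := tens_bound hT
  set N : ℝ := (Fintype.card κ : ℝ) ^ 2 + 1 with hN
  have hN0 : 0 < N := by positivity
  set d : ℝ := c0 / N with hd
  have hd0 : 0 < d := div_pos hc0 hN0
  have hex : ∀ p, ∃ a b, d ≤ (T a a p).re * (T b b p).re - (T a b p).re ^ 2 := by
    intro p
    by_contra hcon
    push Not at hcon
    have h1 := h0 p
    rw [hre] at h1
    have h2 : ∑ a, ∑ b, ((T a a p).re * (T b b p).re - (T a b p).re ^ 2) ≤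
        ∑ _a : κ, ∑ _b : κ, d := Finset.sum_le_sum fun a _ => Finset.sum_le_sum fun b _ =>
          (hcon a b).le
    simp only [Finset.sum_const, Finset.card_univ, nsmul_eq_mul] at h2
    have h3 : (Fintype.card κ : ℝ) * ((Fintype.card κ : ℝ) * d) < c0 := by
      rw [hd]
      rw [← mul_assoc, ← pow_two, ← mul_div_assoc, div_lt_iff₀ hN0, hN]
      nlinarith [sq_nonneg (Fintype.card κ : ℝ)]
    linarith
  set c := min d (d / (2 * C ^ 2)) with hc
  have hc' : 0 < c := lt_min hd0 (by positivity)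
  refine ⟨c, hc', fun p => ?_⟩
  obtain ⟨a, b, hab⟩ := hex p
  choose α β hα using fun j => hsp T hT p a b (ne_of_gt (lt_of_lt_of_le hd0 hab)) j
  have hle : 2 * C ^ 2 / d ≤ 1 / c := by
    rw [div_le_div_iff₀ hd0 hc', one_mul]
    have h1 : c ≤ d / (2 * C ^ 2) := min_le_right _ _
    have h2 : (0 : ℝ) < 2 * C ^ 2 := by positivity
    calc 2 * C ^ 2 * c ≤ 2 * C ^ 2 * (d / (2 * C ^ 2)) := mul_le_mul_of_nonneg_left h1 h2.le
      _ = d := by field_simp
  refine ⟨a, b, α, β, (min_le_left _ _).trans hab, fun j => ?_, fun j => ?_, fun j u hu =>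
    hα j u hu⟩
  · exact ((cramer_bound hT (hα j) hC hd0 hab).1).trans hle
  · exact ((cramer_bound hT (hα j) hC hd0 hab).2).trans hle

theorem Pl.mono {g : κ → κ → P → ℂ} {c c' : ℝ} (h : Pl S g c) (hc' : 0 < c') (hcc : c' ≤ c) :
    Pl S g c' := by
  intro p
  obtain ⟨a, b, α, β, h1, h2, h3, h4⟩ := h p
  have : 1 / c ≤ 1 / c' := one_div_le_one_div_of_le hc' hcc
  exact ⟨a, b, α, β, hcc.trans h1, fun j => (h2 j).trans this, fun j => (h3 j).trans this, h4⟩

/-- comparison of tensors -/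
theorem exists_cmp {g T : κ → κ → P → ℂ} {c : ℝ} (hc : 0 < c) (hpl : Pl S g c) (hg : TSm S g)
    (hp : ∀ p ξ, 0 ≤ qfm g p ξ) (hT : TSm S T) :
    ∃ C : ℝ, 0 < C ∧ ∀ p ξ, |qfm T p ξ| ≤ C * qfm g p ξ := by
  obtain ⟨B, hB1, hB⟩ := tens_bound hT
  obtain ⟨G, hG1, hG⟩ := tens_bound hg
  refine ⟨2 * B * (2 * G / c), by positivity, fun p ξ => ?_⟩
  obtain ⟨a, b, α, β, h1, -, -, h4⟩ := hpl p
  have hcm : ∀ j, Cmb S p a b j (α j) (β j) := fun j u hu => h4 j u hu
  rw [qfm_pl hT hcm, qfm_pl hg hcm]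
  set x := ∑ j, α j * ξ j
  set y := ∑ j, β j * ξ j
  have hnn := (det_nonneg hg hp p a b).2
  have hnn' := (det_nonneg hg hp p b a).2
  set A := (g a a p).re
  set D := (g b b p).re
  set M := (g a b p).re
  have e1 : |(T a a p).re * x ^ 2 + 2 * (T a b p).re * x * y + (T b b p).re * y ^ 2| ≤
      2 * B * (x ^ 2 + y ^ 2) := by
    have t1 := abs_le.1 (hB a a p)
    have t2 := abs_le.1 (hB a b p)
    have t3 := abs_le.1 (hB b b p)
    rw [abs_le]
    constructor <;> nlinarith [sq_nonneg (x + y), sq_nonneg (x - y), sq_nonneg x, sq_nonneg y,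
      mul_nonneg (sub_nonneg.2 t1.2) (sq_nonneg x), mul_nonneg (sub_nonneg.2 t3.2) (sq_nonneg y),
      mul_nonneg (neg_le_iff_add_nonneg.1 t1.1) (sq_nonneg x),
      mul_nonneg (neg_le_iff_add_nonneg.1 t3.1) (sq_nonneg y),
      mul_nonneg (sub_nonneg.2 t2.2) (sq_nonneg (x + y)),
      mul_nonneg (sub_nonneg.2 t2.2) (sq_nonneg (x - y)),
      mul_nonneg (neg_le_iff_add_nonneg.1 t2.1) (sq_nonneg (x + y)),
      mul_nonneg (neg_le_iff_add_nonneg.1 t2.1) (sq_nonneg (x - y))]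
  have e2 : c * (x ^ 2 + y ^ 2) ≤ (2 * G) * (A * x ^ 2 + 2 * M * x * y + D * y ^ 2) := by
    have hA := (abs_le.1 (hG a a p)).2
    have hD := (abs_le.1 (hG b b p)).2
    have q0 : 0 ≤ A * x ^ 2 + 2 * M * x * y + D * y ^ 2 := by
      have := hp p ξ
      rwa [qfm_pl hg hcm] at this
    have q1 : (A * D - M ^ 2) * (x ^ 2 + y ^ 2) ≤
        (A + D) * (A * x ^ 2 + 2 * M * x * y + D * y ^ 2) := by
      nlinarith [sq_nonneg (A * x + M * y), sq_nonneg (M * x + D * y)]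
    calc c * (x ^ 2 + y ^ 2) ≤ (A * D - M ^ 2) * (x ^ 2 + y ^ 2) :=
          mul_le_mul_of_nonneg_right h1 (by positivity)
      _ ≤ (A + D) * (A * x ^ 2 + 2 * M * x * y + D * y ^ 2) := q1
      _ ≤ (2 * G) * (A * x ^ 2 + 2 * M * x * y + D * y ^ 2) :=
          mul_le_mul_of_nonneg_right (by linarith) q0
  refine e1.trans ?_
  have e3 : x ^ 2 + y ^ 2 ≤ (2 * G) / c * (A * x ^ 2 + 2 * M * x * y + D * y ^ 2) := by
    rw [div_mul_eq_mul_div, le_div_iff₀ hc]
    linarith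
  calc 2 * B * (x ^ 2 + y ^ 2) ≤ 2 * B * ((2 * G) / c * (A * x ^ 2 + 2 * M * x * y + D * y ^ 2)) :=
        mul_le_mul_of_nonneg_left e3 (by positivity)
    _ = _ := by ring

open Matrix in
/-- vectors orthogonal to a basis of `ℝ⁴` vanish -/
theorem perp4 {q1 q2 x y v : Fin 4 → ℝ} (h11 : q1 ⬝ᵥ q1 = 1) (h22 : q2 ⬝ᵥ q2 = 1)
    (h12 : q1 ⬝ᵥ q2 = 0) (h1x : q1 ⬝ᵥ x = 0) (h1y : q1 ⬝ᵥ y = 0) (h2x : q2 ⬝ᵥ x = 0)
    (h2y : q2 ⬝ᵥ y = 0) (hd : (x ⬝ᵥ x) * (y ⬝ᵥ y) - (x ⬝ᵥ y) ^ 2 ≠ 0)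
    (h1v : q1 ⬝ᵥ v = 0) (h2v : q2 ⬝ᵥ v = 0) (hxv : x ⬝ᵥ v = 0) (hyv : y ⬝ᵥ v = 0) : v = 0 := by
  set M : Matrix (Fin 4) (Fin 4) ℝ := Matrix.of ![q1, q2, x, y] with hM
  have hMM : M * Mᵀ = !![1, 0, 0, 0; 0, 1, 0, 0; 0, 0, x ⬝ᵥ x, x ⬝ᵥ y; 0, 0, x ⬝ᵥ y, y ⬝ᵥ y] := by
    ext i j
    have e : (M * Mᵀ) i j = (![q1, q2, x, y] i) ⬝ᵥ (![q1, q2, x, y] j) := rfl
    rw [e]
    fin_cases i <;> fin_cases j <;>
      simp [h11, h22, h12, h1x, h1y, h2x, h2y, dotProduct_comm q2 q1, dotProduct_comm x q1,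
        dotProduct_comm x q2, dotProduct_comm y q1, dotProduct_comm y q2, dotProduct_comm y x]
  have hdet : M.det * M.det = (x ⬝ᵥ x) * (y ⬝ᵥ y) - (x ⬝ᵥ y) ^ 2 := by
    have h1 : (M * Mᵀ).det = M.det * M.det := by rw [Matrix.det_mul, Matrix.det_transpose]
    rw [← h1, hMM]
    simp [Matrix.det_succ_row_zero, Fin.sum_univ_succ, Fin.succAbove]
    ring
  have hM0 : M.det ≠ 0 := by
    intro h
    rw [h, mul_zero] at hdet
    exact hd hdet.symm
  apply Matrix.eq_zero_of_mulVec_eq_zero hM0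
  ext i
  have e : (M *ᵥ v) i = (![q1, q2, x, y] i) ⬝ᵥ v := rfl
  rw [e]
  fin_cases i <;> simp [h1v, h2v, hxv, hyv]

namespace DIn

variable {σ : P → P} {g : κ → κ → P → ℂ} (D : DIn S σ g)

/-- the real components of `D j F` -/
def Ev (j : κ) (p : P) : Fin 4 → ℝ := fun a => (S.D j (D.F a) p).re

open Matrix

theorem Ev_eq (j : κ) (p : P) (a : Fin 4) : ((D.Ev j p a : ℝ) : ℂ) = S.D j (D.F a) p :=
  ((D.rF a).D j).2.ofReal_re p

theorem met_re (j k : κ) (p : P) : (S.met D.F j k p).re = D.Ev j p ⬝ᵥ D.Ev k p := by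
  show (∑ a, S.D j (D.F a) p * S.D k (D.F a) p).re = _
  simp_rw [← D.Ev_eq]
  rw [← Complex.ofReal_re (D.Ev j p ⬝ᵥ D.Ev k p)]
  congr 1
  unfold dotProduct
  push_cast
  rfl

theorem metT : TSm S (S.met D.F) := by
  refine ⟨⟨fun j k => ?_, fun p c hc k => ?_⟩, fun j k => ?_⟩
  · funext p
    exact Finset.sum_congr (rfl : (Finset.univ : Finset (Fin 4)) = Finset.univ)
      fun a _ => mul_comm (S.D j (D.F a) p) (S.D k (D.F a) p)
  · show ∑ j, c j * ∑ a, S.D j (D.F a) p * S.D k (D.F a) p = 0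
    simp_rw [Finset.mul_sum, ← mul_assoc]
    rw [Finset.sum_comm]
    refine Finset.sum_eq_zero fun a _ => ?_
    rw [← Finset.sum_mul, hc _ (D.rF a).1, zero_mul]
  · exact RSm.sum (A := Finset.univ) (u := fun a p => S.D j (D.F a) p * S.D k (D.F a) p)
      fun a _ => ((D.rF a).D j).mul ((D.rF a).D k)

theorem qf_met (p : P) (ξ : κ → ℝ) :
    qfm (S.met D.F) p ξ = ∑ a, (∑ j, D.Ev j p a * ξ j) ^ 2 := by
  have h1 : ∀ a, (∑ j, D.Ev j p a * ξ j) ^ 2 =
      ∑ j, ∑ k, (D.Ev j p a * ξ j) * (D.Ev k p a * ξ k) := by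
    intro a
    rw [pow_two, Finset.sum_mul_sum]
  simp_rw [h1]
  rw [Finset.sum_comm]
  unfold qfm
  refine Finset.sum_congr rfl fun j _ => ?_
  rw [Finset.sum_comm]
  refine Finset.sum_congr rfl fun k _ => ?_
  rw [D.met_re, dotProduct, Finset.sum_mul, Finset.sum_mul]
  refine Finset.sum_congr rfl fun a _ => ?_
  ring

theorem qf_met_nonneg (p : P) (ξ : κ → ℝ) : 0 ≤ qfm (S.met D.F) p ξ := by
  rw [D.qf_met]
  exact Finset.sum_nonneg fun a _ => sq_nonneg _

/-- a vanishing combination of two `Ev` is a relation -/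
theorem rel_two {p : P} {a b : κ} {x y : ℝ} (h : ∀ i, x * D.Ev a p i + y * D.Ev b p i = 0)
    (u : P → ℂ) (hu : S.Sm u) : (x : ℂ) * S.D a u p + y * S.D b u p = 0 := by
  classical
  have h1 := D.imm p (fun l => (if l = a then (x : ℂ) else 0) + (if l = b then (y : ℂ) else 0))
    (fun i => by
      simp only [add_mul, ite_mul, zero_mul, Finset.sum_add_distrib, Finset.sum_ite_eq',
        Finset.mem_univ, if_true]
      rw [← D.Ev_eq, ← D.Ev_eq]
      exact_mod_cast h i) u hu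
  simpa only [add_mul, ite_mul, zero_mul, Finset.sum_add_distrib, Finset.sum_ite_eq',
        Finset.mem_univ, if_true] using h1

theorem gram_ne {T : κ → κ → P → ℂ} (hT : TSm S T) {p : P} {a b : κ}
    (hdet : (T a a p).re * (T b b p).re - (T a b p).re ^ 2 ≠ 0) :
    (D.Ev a p ⬝ᵥ D.Ev a p) * (D.Ev b p ⬝ᵥ D.Ev b p) - (D.Ev a p ⬝ᵥ D.Ev b p) ^ 2 ≠ 0 := by
  classical
  intro h0
  have rel : ∀ x y : ℝ, (∀ i, x * D.Ev a p i + y * D.Ev b p i = 0) →
      ∀ k, x * (T a k p).re + y * (T b k p).re = 0 := by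
    intro x y h k
    have h1 := hT.1.2 p (fun l => (if l = a then (x : ℂ) else 0) + (if l = b then (y : ℂ) else 0))
      (fun u hu => by
        have := D.rel_two h u hu
        simpa only [add_mul, ite_mul, zero_mul, Finset.sum_add_distrib, Finset.sum_ite_eq',
          Finset.mem_univ, if_true] using this) k
    simp only [add_mul, ite_mul, zero_mul, Finset.sum_add_distrib, Finset.sum_ite_eq',
        Finset.mem_univ, if_true] at h1
    have h2 := congrArg Complex.re h1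
    simpa only [Complex.add_re, Complex.mul_re, Complex.ofReal_re, Complex.ofReal_im, zero_mul,
      sub_zero, Complex.zero_re] using h2
  have hba : (T b a p).re = (T a b p).re := by rw [hT.1.1 b a]
  by_cases hA : D.Ev a p ⬝ᵥ D.Ev a p = 0
  · have h1 : D.Ev a p = 0 := dotProduct_self_eq_zero.1 hA
    have h2 := rel 1 0 (fun i => by simp [h1])
    have h3 := h2 a
    have h4 := h2 b
    simp only [one_mul, zero_mul, add_zero] at h3 h4
    apply hdet
    rw [h3, h4]; ring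
  · set A := D.Ev a p ⬝ᵥ D.Ev a p with hAd
    set M := D.Ev a p ⬝ᵥ D.Ev b p with hMd
    set B := D.Ev b p ⬝ᵥ D.Ev b p with hBd
    have h1 : (-M) • D.Ev a p + A • D.Ev b p = 0 := by
      rw [← dotProduct_self_eq_zero]
      simp only [add_dotProduct, dotProduct_add, smul_dotProduct, dotProduct_smul, smul_eq_mul,
        dotProduct_comm (D.Ev b p) (D.Ev a p)]
      rw [← hAd, ← hMd, ← hBd]
      linear_combination A * h0
    have h2 := rel (-M) A (fun i => by
      have := congrFun h1 i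
      simpa using this)
    have h3 := h2 a
    have h4 := h2 b
    rw [hba] at h3
    apply hdet
    have h5 : A ^ 2 * ((T a a p).re * (T b b p).re - (T a b p).re ^ 2) = 0 := by
      linear_combination A * (T a a p).re * h4 - (A * (T a b p).re + 0) * h3
        - 0 * h0
    rcases mul_eq_zero.1 h5 with h6 | h6
    · exact absurd (pow_eq_zero_iff (two_ne_zero)|>.1 h6) hA
    · exact h6

theorem q_perp (j : κ) (p : P) : (fun a => (D.q1 a p).re) ⬝ᵥ D.Ev j p = 0 ∧
    (fun a => (D.q2 a p).re) ⬝ᵥ D.Ev j p = 0 := by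
  constructor
  · have h := congrArg Complex.re (D.nf.t1 j p)
    rw [dot, Complex.re_sum] at h
    rw [dotProduct, ← Complex.zero_re, ← h]
    refine Finset.sum_congr rfl fun a _ => ?_
    rw [Complex.mul_re, D.nf.r1 a p, zero_mul, sub_zero]
    rfl
  · have h := congrArg Complex.re (D.nf.t2 j p)
    rw [dot, Complex.re_sum] at h
    rw [dotProduct, ← Complex.zero_re, ← h]
    refine Finset.sum_congr rfl fun a _ => ?_
    rw [Complex.mul_re, D.nf.r2 a p, zero_mul, sub_zero]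
    rfl

theorem q_orth (p : P) : (fun a => (D.q1 a p).re) ⬝ᵥ (fun a => (D.q1 a p).re) = 1 ∧
    (fun a => (D.q2 a p).re) ⬝ᵥ (fun a => (D.q2 a p).re) = 1 ∧
    (fun a => (D.q1 a p).re) ⬝ᵥ (fun a => (D.q2 a p).re) = 0 := by
  have key : ∀ (u v : Fin 4 → P → ℂ) (c : ℝ), (∀ a, Rl (u a)) → dot u v p = (c : ℂ) →
      (fun a => (u a p).re) ⬝ᵥ (fun a => (v a p).re) = c := by
    intro u v c hu h
    have h1 := congrArg Complex.re h
    rw [dot, Complex.re_sum, Complex.ofReal_re] at h1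
    rw [dotProduct, ← h1]
    refine Finset.sum_congr rfl fun a _ => ?_
    rw [Complex.mul_re, hu a p, zero_mul, sub_zero]
  refine ⟨key _ _ 1 D.nf.r1 (by rw [D.nf.n11]; simp), key _ _ 1 D.nf.r2 (by rw [D.nf.n22]; simp),
    key _ _ 0 D.nf.r1 (by rw [D.nf.n12]; simp)⟩

include D in
theorem spanH : SpanH S := by
  intro T hT p a b hdet j
  classical
  have hG := D.gram_ne hT hdet
  set x := D.Ev a p with hx
  set y := D.Ev b p with hy
  set z := D.Ev j p with hz
  set Δ := (x ⬝ᵥ x) * (y ⬝ᵥ y) - (x ⬝ᵥ y) ^ 2 with hΔ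
  set α := ((z ⬝ᵥ x) * (y ⬝ᵥ y) - (z ⬝ᵥ y) * (x ⬝ᵥ y)) / Δ with hα
  set β := ((z ⬝ᵥ y) * (x ⬝ᵥ x) - (z ⬝ᵥ x) * (x ⬝ᵥ y)) / Δ with hβ
  have hv : z - α • x - β • y = 0 := by
    refine perp4 (q1 := fun a => (D.q1 a p).re) (q2 := fun a => (D.q2 a p).re) (x := x) (y := y)
      (D.q_orth p).1 (D.q_orth p).2.1 (D.q_orth p).2.2 (D.q_perp a p).1 (D.q_perp b p).1
      (D.q_perp a p).2 (D.q_perp b p).2 hG ?_ ?_ ?_ ?_
    · simp only [dotProduct_sub, dotProduct_smul, smul_eq_mul, hz, hx, hy, (D.q_perp _ p).1]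
      ring
    · simp only [dotProduct_sub, dotProduct_smul, smul_eq_mul, hz, hx, hy, (D.q_perp _ p).2]
      ring
    · simp only [dotProduct_sub, dotProduct_smul, smul_eq_mul, dotProduct_comm x z]
      rw [hα, hβ]
      field_simp
      rw [hΔ]
      ring
    · simp only [dotProduct_sub, dotProduct_smul, smul_eq_mul, dotProduct_comm y z,
        dotProduct_comm y x]
      rw [hα, hβ]
      field_simp
      rw [hΔ]
      ring
  refine ⟨α, β, fun u hu => ?_⟩
  have h1 := D.imm p (fun l => (if l = j then (1 : ℂ) else 0) - (if l = a then (α : ℂ) else 0)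
    - (if l = b then (β : ℂ) else 0)) (fun i => by
      simp only [sub_mul, ite_mul, zero_mul, one_mul, Finset.sum_sub_distrib, Finset.sum_ite_eq',
        Finset.mem_univ, if_true]
      rw [← D.Ev_eq, ← D.Ev_eq, ← D.Ev_eq]
      have := congrFun hv i
      simp only [Pi.sub_apply, Pi.smul_apply, smul_eq_mul, Pi.zero_apply] at this
      exact_mod_cast this) u hu
  simp only [sub_mul, ite_mul, zero_mul, one_mul, Finset.sum_sub_distrib, Finset.sum_ite_eq',
        Finset.mem_univ, if_true] at h1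
  linear_combination h1

/-- directional derivatives of `F` along a real field -/
theorem qf_dir {w : κ → P → ℂ} (hw : ∀ j, Rl (w j)) (p : P) :
    qfm (S.met D.F) p (fun j => (w j p).re) = ∑ a, ((S.dir w (D.F a) p).re) ^ 2 := by
  rw [D.qf_met]
  refine Finset.sum_congr rfl fun a _ => ?_
  congr 1
  rw [DAlg.dir, Complex.re_sum]
  refine Finset.sum_congr rfl fun j _ => ?_
  rw [Complex.mul_re, hw j p, zero_mul, sub_zero, mul_comm]
  rfl

end DIn

/-- positive lower bound on a closed set of values of a function -/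
theorem low_on (hpos : PosS S) {u r : P → ℂ} (hu : RSm S u) (hr : RSm S r) {h : ℝ → ℝ}
    (hh : ContDiff ℝ ∞ h) (h0 : ∀ x, 0 ≤ h x) (hu0 : ∀ p, 0 ≤ (u p).re)
    (hpu : ∀ p, h (r p).re = 0 → 0 < (u p).re) :
    ∃ c : ℝ, 0 < c ∧ ∀ p, h (r p).re = 0 → c ≤ (u p).re := by
  obtain ⟨c, hc, hc'⟩ := hpos (fun p => u p + ((h (r p).re : ℝ) : ℂ)) (hu.add (hr.comp hh))
    (fun p => by
      rw [Complex.add_re, Complex.ofReal_re]
      rcases eq_or_lt_of_le (h0 (r p).re) with e | e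
      · rw [← e, add_zero]; exact hpu p e.symm
      · exact add_pos_of_nonneg_of_pos (hu0 p) e)
  refine ⟨c, hc, fun p hp => ?_⟩
  have := hc' p
  rwa [Complex.add_re, Complex.ofReal_re, hp, add_zero] at this

/-- the bump `> 0` exactly on the open interval -/
def hin (a b : ℝ) (x : ℝ) : ℝ := expNegInvGlue ((x - a) * (b - x))

theorem hin_smooth (a b : ℝ) : ContDiff ℝ ∞ (hin a b) :=
  expNegInvGlue.contDiff.comp ((contDiff_id.sub contDiff_const).mul (contDiff_const.sub contDiff_id))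

theorem hin_zero {a b x : ℝ} : hin a b x = 0 ↔ (x - a) * (b - x) ≤ 0 := by
  unfold hin
  constructor
  · intro h
    by_contra h1
    exact absurd h (ne_of_gt (expNegInvGlue.pos_of_pos (not_le.1 h1)))
  · exact expNegInvGlue.zero_of_nonpos

/-- the function `> 0` exactly outside the closed interval -/
def hout (a b : ℝ) (x : ℝ) : ℝ := expNegInvGlue ((x - a) * (x - b))

theorem hout_smooth (a b : ℝ) : ContDiff ℝ ∞ (hout a b) :=
  expNegInvGlue.contDiff.comp ((contDiff_id.sub contDiff_const).mul (contDiff_id.sub contDiff_const))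

theorem hout_zero {a b x : ℝ} : hout a b x = 0 ↔ (x - a) * (x - b) ≤ 0 := by
  unfold hout
  constructor
  · intro h
    by_contra h1
    exact absurd h (ne_of_gt (expNegInvGlue.pos_of_pos (not_le.1 h1)))
  · exact expNegInvGlue.zero_of_nonpos

theorem qfm_smul {T T' : κ → κ → P → ℂ} {c : ℝ} (h : ∀ j k p, T' j k p = (c : ℂ) * T j k p)
    (p : P) (ξ : κ → ℝ) : qfm T' p ξ = c * qfm T p ξ := by
  unfold qfm
  rw [Finset.mul_sum]
  refine Finset.sum_congr rfl fun j _ => ?_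
  rw [Finset.mul_sum]
  refine Finset.sum_congr rfl fun k _ => ?_
  rw [h, Complex.re_ofReal_mul]
  ring

theorem D_smul_real {u : P → ℂ} (hu : S.Sm u) (c : ℝ) (j : κ) (p : P) :
    S.D j (fun q => (c : ℂ) * u q) p = c * S.D j u p := S.D_smul_apply j _ hu p

/-- **(C3)** -/
theorem geoC_of (hpos : PosS S) {σ : P → P} {g : κ → κ → P → ℂ} (D : DIn S σ g) :
    Nonempty (GeoC S σ g) := by
  obtain ⟨c1, hc1, hpl⟩ := exists_pl hpos D.spanH D.gT D.gpos D.grank
  have hmr : ∀ p, ∃ a b, 0 < (S.met D.F a a p).re * (S.met D.F b b p).re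
      - (S.met D.F a b p).re ^ 2 := by
    intro p
    obtain ⟨a, b, hab⟩ := D.grank p
    refine ⟨a, b, ?_⟩
    have h1 := D.gram_ne D.gT (ne_of_gt hab)
    rw [D.met_re, D.met_re, D.met_re]
    have h2 := (det_nonneg D.metT D.qf_met_nonneg p a b).1
    rw [D.met_re, D.met_re, D.met_re] at h2
    exact lt_of_le_of_ne h2 (Ne.symm h1)
  obtain ⟨c2, hc2, hplm⟩ := exists_pl hpos D.spanH D.metT D.qf_met_nonneg hmr
  -- `met F ≤ C3 g`, `g ≤ C4 met F`
  obtain ⟨C3, hC3, h3⟩ := exists_cmp hc1 hpl D.gT D.gpos D.metT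
  obtain ⟨C4, hC4, h4⟩ := exists_cmp hc2 hplm D.metT D.qf_met_nonneg D.gT
  -- the tensor `dψ ⊗ dψ`
  have hψT : TSm S (fun j k p => S.D j D.ψ p * S.D k D.ψ p) := by
    refine ⟨⟨fun j k => ?_, fun p c hc k => ?_⟩, fun j k => (D.rψ.D j).mul (D.rψ.D k)⟩
    · funext p; exact mul_comm _ _
    · show ∑ j, c j * (S.D j D.ψ p * S.D k D.ψ p) = 0
      simp_rw [← mul_assoc]
      rw [← Finset.sum_mul, hc _ D.rψ.1, zero_mul]
  have hψq : ∀ p ξ, qfm (fun j k p => S.D j D.ψ p * S.D k D.ψ p) p ξ =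
      (∑ j, (S.D j D.ψ p).re * ξ j) ^ 2 := by
    intro p ξ
    unfold qfm
    rw [pow_two, Finset.sum_mul_sum]
    refine Finset.sum_congr rfl fun j _ => Finset.sum_congr rfl fun k _ => ?_
    rw [Complex.mul_re, (D.rψ.D j).2 p, zero_mul, sub_zero]
    ring
  obtain ⟨C5, hC5, h5⟩ := exists_cmp hc1 hpl D.gT D.gpos hψT
  set ε : ℝ := min 1 (1 / (8 * C3)) with hε
  have hε0 : 0 < ε := lt_min one_pos (by positivity)
  have hε1 : ε ≤ 1 := min_le_left _ _
  set ρ : ℝ := min 1 (1 / (4 * C5)) with hρ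
  have hρ0 : 0 < ρ := lt_min one_pos (by positivity)
  have hρ1 : ρ ≤ 1 := min_le_left _ _
  -- lower bound for `dψ`
  have hru : RSm S (fun p => ∑ j, S.D j D.ψ p ^ 2) := RSm.sum fun j _ => (D.rψ.D j).pow2
  have hre : ∀ p, (∑ j, S.D j D.ψ p ^ 2).re = ∑ j, (S.D j D.ψ p).re ^ 2 := by
    intro p
    rw [Complex.re_sum]
    refine Finset.sum_congr rfl fun j _ => ?_
    rw [pow_two, Complex.mul_re, (D.rψ.D j).2 p, zero_mul, sub_zero, pow_two]
  have hrr : RSm S D.r.Ψ := ⟨D.ray.smΨ, D.ray.rΨ⟩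
  obtain ⟨c6, hc6, h6⟩ := low_on hpos hru hrr (hin_smooth (11 / 10) (19 / 10))
    (fun x => expNegInvGlue.nonneg _) (fun p => by
      show 0 ≤ (∑ j, S.D j D.ψ p ^ 2).re
      rw [hre]; exact Finset.sum_nonneg fun j _ => sq_nonneg _) (fun p hp => by
      show 0 < (∑ j, S.D j D.ψ p ^ 2).re
      rw [hin_zero] at hp
      have h7 : (D.r.Ψ p).re ≤ 11 / 10 ∨ 19 / 10 ≤ (D.r.Ψ p).re := by
        by_contra hcon
        push Not at hcon
        nlinarith [mul_pos (sub_pos.2 hcon.1) (sub_pos.2 hcon.2)]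
      obtain ⟨j, hj⟩ := D.nd p h7
      rw [hre]
      have h8 : (S.D j D.ψ p).re ≠ 0 := by
        intro h9
        apply hj
        rw [(D.rψ.D j).eq_re, h9]; simp
      refine lt_of_lt_of_le (pow_pos (abs_pos.2 h8) 2) ?_
      rw [sq_abs]
      exact Finset.single_le_sum (f := fun j => (S.D j D.ψ p).re ^ 2) (fun j _ => sq_nonneg _)
        (Finset.mem_univ j))
  -- lower bound for `w`
  have hdir : ∀ a, RSm S (S.dir D.r.w (D.F a)) := fun a =>
    ⟨S.sm_dir D.ray.smw (D.rF a).1, Rl.dir D.ray.rw' (D.rF a).1 (D.rF a).2⟩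
  have hwu : RSm S (fun p => ∑ a, S.dir D.r.w (D.F a) p ^ 2) :=
    RSm.sum fun a _ => (hdir a).pow2
  have hwre : ∀ p, (∑ a, S.dir D.r.w (D.F a) p ^ 2).re =
      ∑ a, (S.dir D.r.w (D.F a) p).re ^ 2 := by
    intro p
    rw [Complex.re_sum]
    refine Finset.sum_congr rfl fun j _ => ?_
    rw [pow_two, Complex.mul_re, (hdir j).2 p, zero_mul, sub_zero, pow_two]
  obtain ⟨c7, hc7, h7⟩ := low_on hpos hwu hrr (hout_smooth (1 / 2) (5 / 2))
    (fun x => expNegInvGlue.nonneg _) (fun p => by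
      show 0 ≤ (∑ a, S.dir D.r.w (D.F a) p ^ 2).re
      rw [hwre]; exact Finset.sum_nonneg fun j _ => sq_nonneg _) (fun p hp => by
      show 0 < (∑ a, S.dir D.r.w (D.F a) p ^ 2).re
      rw [hout_zero] at hp
      have h7 : p ∈ D.r.K := by
        rw [D.rK]
        constructor
        · by_contra hcon
          push Not at hcon
          nlinarith [mul_pos (sub_pos.2 hcon) (show (0 : ℝ) < 5 / 2 - (D.r.Ψ p).re by linarith)]
        · by_contra hcon
          push Not at hcon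
          nlinarith [mul_pos (sub_pos.2 hcon) (show (0 : ℝ) < (D.r.Ψ p).re - 1 / 2 by linarith)]
      obtain ⟨a, ha⟩ := D.wne p h7
      rw [hwre]
      have h8 : (S.dir D.r.w (D.F a) p).re ≠ 0 := by
        intro h9
        apply ha
        rw [(hdir a).eq_re, h9]; simp
      refine lt_of_lt_of_le (pow_pos (abs_pos.2 h8) 2) ?_
      rw [sq_abs]
      exact Finset.single_le_sum (f := fun a => (S.dir D.r.w (D.F a) p).re ^ 2)
        (fun j _ => sq_nonneg _) (Finset.mem_univ a))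
  set N : ℝ := (Fintype.card κ : ℝ) + 1 with hN
  have hN0 : 0 < N := by positivity
  set c : ℝ := min (min c1 (ε ^ 2 / C4)) (min (ρ * Real.sqrt (c6 / N)) (c7 / C3)) with hc
  have hc0 : 0 < c := lt_min (lt_min hc1 (by positivity))
    (lt_min (mul_pos hρ0 (Real.sqrt_pos.2 (by positivity))) (by positivity))
  have hmet : ∀ j k p, S.met (fun a q => (ε : ℂ) * D.F a q) j k p =
      ((ε ^ 2 : ℝ) : ℂ) * S.met D.F j k p := by
    intro j k p
    show ∑ a, S.D j (fun q => (ε : ℂ) * D.F a q) p * S.D k (fun q => (ε : ℂ) * D.F a q) p =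
      ((ε ^ 2 : ℝ) : ℂ) * ∑ a, S.D j (D.F a) p * S.D k (D.F a) p
    rw [Finset.mul_sum]
    refine Finset.sum_congr rfl fun a _ => ?_
    rw [D_smul_real (D.rF a).1, D_smul_real (D.rF a).1]
    push_cast
    ring
  refine ⟨{ X0 := fun a q => (ε : ℂ) * D.F a q, q1 := D.q1, q2 := D.q2,
            ψ := fun q => (ρ : ℂ) * D.ψ q, r := D.r, e := D.e, c := c, cpos := hc0,
            inv := D.inv, gT := D.gT, gev := D.gev, gpos := D.gpos,
            pl := hpl.mono hc0 ((min_le_left _ _).trans (min_le_left _ _)),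
            rX := fun a => (D.rF a).smul ε, nf := ?_, Xev := fun a p => ?_, q1ev := D.q1ev,
            q2od := D.q2od, imm := fun p ξ => ?_, short := fun p ξ => ?_,
            rψ := D.rψ.smul ρ, ψod := fun p => ?_, ψsmall := fun p ξ => ?_,
            nd := fun p hp => ?_, ray := D.ray, rK := D.rK, Ψev := D.Ψev, tev := D.tev,
            wev := D.wev, βev := D.βev, gww := fun p hp => ?_, re := D.re, eod := D.eod,
            esq := D.esq, eD := D.eD, prim := D.prim }⟩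
  · refine ⟨D.nf.s1, D.nf.s2, D.nf.r1, D.nf.r2, D.nf.n11, D.nf.n22, D.nf.n12, fun j p => ?_,
      fun j p => ?_⟩
    · have h := D.nf.t1 j p
      show ∑ a, D.q1 a p * S.D j (fun q => (ε : ℂ) * D.F a q) p = 0
      have h' : ∑ a, D.q1 a p * S.D j (D.F a) p = 0 := h
      simp_rw [D_smul_real (D.rF _).1]
      calc ∑ a, D.q1 a p * (ε * S.D j (D.F a) p) = ε * ∑ a, D.q1 a p * S.D j (D.F a) p := by
            rw [Finset.mul_sum]
            exact Finset.sum_congr rfl fun a _ => by ring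
        _ = 0 := by rw [h', mul_zero]
    · have h := D.nf.t2 j p
      show ∑ a, D.q2 a p * S.D j (fun q => (ε : ℂ) * D.F a q) p = 0
      have h' : ∑ a, D.q2 a p * S.D j (D.F a) p = 0 := h
      simp_rw [D_smul_real (D.rF _).1]
      calc ∑ a, D.q2 a p * (ε * S.D j (D.F a) p) = ε * ∑ a, D.q2 a p * S.D j (D.F a) p := by
            rw [Finset.mul_sum]
            exact Finset.sum_congr rfl fun a _ => by ring
        _ = 0 := by rw [h', mul_zero]
  · show (ε : ℂ) * D.F a (σ p) = ε * D.F a p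
    rw [D.Fev a p]
  · rw [qfm_smul hmet]
    have k1 := (le_abs_self _).trans (h4 p ξ)
    have k2 : c ≤ ε ^ 2 / C4 := (min_le_left _ _).trans (min_le_right _ _)
    have k3 := D.qf_met_nonneg p ξ
    calc c * qfm g p ξ ≤ (ε ^ 2 / C4) * qfm g p ξ := mul_le_mul_of_nonneg_right k2 (D.gpos p ξ)
      _ ≤ (ε ^ 2 / C4) * (C4 * qfm (S.met D.F) p ξ) :=
          mul_le_mul_of_nonneg_left k1 (by positivity)
      _ = ε ^ 2 * qfm (S.met D.F) p ξ := by field_simp
  · rw [qfm_smul hmet]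
    have k1 := (le_abs_self _).trans (h3 p ξ)
    have k2 : ε ^ 2 ≤ 1 / (8 * C3) := by
      calc ε ^ 2 = ε * ε := pow_two _
        _ ≤ 1 * (1 / (8 * C3)) := mul_le_mul hε1 (min_le_right _ _) hε0.le zero_le_one
        _ = _ := one_mul _
    calc ε ^ 2 * qfm (S.met D.F) p ξ ≤ ε ^ 2 * (C3 * qfm g p ξ) :=
          mul_le_mul_of_nonneg_left k1 (by positivity)
      _ ≤ (1 / (8 * C3)) * (C3 * qfm g p ξ) :=
          mul_le_mul_of_nonneg_right k2 (mul_nonneg hC3.le (D.gpos p ξ))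
      _ = 1 / 8 * qfm g p ξ := by field_simp
  · show (ρ : ℂ) * D.ψ (σ p) = -(ρ * D.ψ p)
    rw [D.ψod p]; ring
  · have k0 : (∑ j, (S.D j (fun q => (ρ : ℂ) * D.ψ q) p).re * ξ j) ^ 2 =
        ρ ^ 2 * qfm (fun j k p => S.D j D.ψ p * S.D k D.ψ p) p ξ := by
      rw [hψq, ← mul_pow]
      congr 1
      rw [Finset.mul_sum]
      refine Finset.sum_congr rfl fun j _ => ?_
      rw [D_smul_real D.rψ.1, Complex.re_ofReal_mul]
      ring
    rw [k0]
    have k1 := (le_abs_self _).trans (h5 p ξ)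
    have k2 : ρ ^ 2 ≤ 1 / (4 * C5) := by
      calc ρ ^ 2 = ρ * ρ := pow_two _
        _ ≤ 1 * (1 / (4 * C5)) := mul_le_mul hρ1 (min_le_right _ _) hρ0.le zero_le_one
        _ = _ := one_mul _
    calc ρ ^ 2 * qfm (fun j k p => S.D j D.ψ p * S.D k D.ψ p) p ξ ≤ ρ ^ 2 * (C5 * qfm g p ξ) :=
          mul_le_mul_of_nonneg_left k1 (by positivity)
      _ ≤ (1 / (4 * C5)) * (C5 * qfm g p ξ) :=
          mul_le_mul_of_nonneg_right k2 (mul_nonneg hC5.le (D.gpos p ξ))
      _ = 1 / 4 * qfm g p ξ := by field_simp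
  · have k1 : c6 ≤ ∑ j, (S.D j D.ψ p).re ^ 2 := by
      rw [← hre]
      refine h6 p (hin_zero.2 ?_)
      rcases hp with hp | hp
      · exact mul_nonpos_of_nonpos_of_nonneg (by linarith) (by linarith)
      · exact mul_nonpos_of_nonneg_of_nonpos (by linarith) (by linarith)
    obtain ⟨j, hj⟩ : ∃ j, c6 / N ≤ (S.D j D.ψ p).re ^ 2 := by
      by_contra hcon
      push Not at hcon
      have k2 : ∑ j, (S.D j D.ψ p).re ^ 2 ≤ ∑ _j : κ, c6 / N :=
        Finset.sum_le_sum fun j _ => (hcon j).le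
      rw [Finset.sum_const, Finset.card_univ, nsmul_eq_mul] at k2
      have k3 : (Fintype.card κ : ℝ) * (c6 / N) < c6 := by
        rw [← mul_div_assoc, div_lt_iff₀ hN0, hN]
        nlinarith
      linarith
    refine ⟨j, ?_⟩
    rw [D_smul_real D.rψ.1, Complex.re_ofReal_mul, abs_mul, abs_of_pos hρ0]
    have k4 : Real.sqrt (c6 / N) ≤ |(S.D j D.ψ p).re| := by
      rw [← Real.sqrt_sq_eq_abs]
      exact Real.sqrt_le_sqrt hj
    calc c ≤ ρ * Real.sqrt (c6 / N) := (min_le_right _ _).trans (min_le_left _ _)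
      _ ≤ _ := mul_le_mul_of_nonneg_left k4 hρ0.le
  · have k1 : c7 ≤ ∑ a, (S.dir D.r.w (D.F a) p).re ^ 2 := by
      rw [← hwre]
      refine h7 p (hout_zero.2 ?_)
      rw [D.rK] at hp
      exact mul_nonpos_of_nonneg_of_nonpos (sub_nonneg.2 hp.1) (sub_nonpos.2 hp.2)
    rw [← D.qf_dir D.ray.rw'] at k1
    have k2 := k1.trans ((le_abs_self _).trans (h3 p _))
    have k3 : c ≤ c7 / C3 := (min_le_right _ _).trans (min_le_right _ _)
    refine k3.trans ?_
    rw [div_le_iff₀ hC3, mul_comm]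
    exact k2

end Vale.Agent.P205.TW
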