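import Vale.Agent.P205.TW.DataDisc

/-!
P205, scheme T1W, data block on `M`: the global data `MData`.

`N p n` : `n` is a unit vector of the line at `p` (a line field of a real inner product space `W`
with local smooth unit sections, `LineM`).  `Ψ` is a smooth section (the twisted phase
`ψ (p, n) = ⟪Ψ p, n⟫`), `r` the radial function with polar fields `v, w`, `ν` a section which is
unit for `r < 3` (the odd local sign `e (p, n) = ⟪ν p, n⟫`).
-/

noncomputable section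

set_option linter.unusedSectionVars false

open scoped Manifold ContDiff Topology RealInnerProductSpace
open Set Filter

namespace Vale.Agent.P205.TW.Data

open Vale.Agent.P205.F

section dvcalc

variable {E : Type*} [NormedAddCommGroup E] [NormedSpace ℝ E]
  {M : Type*} [TopologicalSpace M] [ChartedSpace E M] [IsManifold 𝓘(ℝ, E) ∞ M]
  (K : Cov E M) {A : Type*} (b : A → E)
  {F : Type*} [NormedAddCommGroup F] [NormedSpace ℝ F]
  {W : Type*} [NormedAddCommGroup W] [InnerProductSpace ℝ W]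

lemma Dv_congr {u v : M → F} {p : M} (h : u =ᶠ[𝓝 p] v) (j : Fin K.n × A) :
    K.Dv b j u p = K.Dv b j v p := by
  by_cases hp : p ∈ (K.ph j.1).source
  · unfold Cov.Dv
    have hcs : ContinuousAt (K.ph j.1).symm (K.ph j.1 p) := continuousAt_extChartAt_symm' hp
    have hleft : (K.ph j.1).symm (K.ph j.1 p) = p := (K.ph j.1).left_inv hp
    have h2 : u ∘ (K.ph j.1).symm =ᶠ[𝓝 (K.ph j.1 p)] v ∘ (K.ph j.1).symm :=
      hcs.eventually (p := fun q => u q = v q) (by rw [hleft]; exact h)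
    rw [h2.fderiv_eq]
  · rw [K.Dv_eq_zero b j _ hp, K.Dv_eq_zero b j _ hp]

lemma Dv_smul {f : M → ℝ} {u : M → F} (hf : ContMDiff 𝓘(ℝ, E) 𝓘(ℝ, ℝ) ∞ f)
    (hu : ContMDiff 𝓘(ℝ, E) 𝓘(ℝ, F) ∞ u) (j : Fin K.n × A) (p : M) :
    K.Dv b j (fun p => f p • u p) p = K.Dv b j f p • u p + f p • K.Dv b j u p := by
  by_cases hp : p ∈ (K.ph j.1).source
  · have h1 : (fun p => f p • u p) ∘ (K.ph j.1).symm =
        fun y => (f ∘ (K.ph j.1).symm) y • (u ∘ (K.ph j.1).symm) y := rfl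
    have hleft : (K.ph j.1).symm (K.ph j.1 p) = p := (K.ph j.1).left_inv hp
    unfold Cov.Dv
    rw [h1, fderiv_fun_smul (K.differentiableAt_symm hf hp) (K.differentiableAt_symm hu hp)]
    simp only [Function.comp_apply, hleft, add_apply,
      ContinuousLinearMap.smulRight_apply, smul_eq_mul]
    rw [show ((f p • fderiv ℝ (u ∘ (K.ph j.1).symm) (K.ph j.1 p)) (b j.2) : F) =
      f p • (fderiv ℝ (u ∘ (K.ph j.1).symm) (K.ph j.1 p) (b j.2)) from rfl]
    module
  · rw [K.Dv_eq_zero b j _ hp, K.Dv_eq_zero b j _ hp, K.Dv_eq_zero b j _ hp]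
    simp

lemma Dv_inner {u v : M → W} (hu : ContMDiff 𝓘(ℝ, E) 𝓘(ℝ, W) ∞ u)
    (hv : ContMDiff 𝓘(ℝ, E) 𝓘(ℝ, W) ∞ v) (j : Fin K.n × A) (p : M) :
    K.Dv b j (fun p => ⟪u p, v p⟫) p = ⟪K.Dv b j u p, v p⟫ + ⟪u p, K.Dv b j v p⟫ := by
  by_cases hp : p ∈ (K.ph j.1).source
  · have h1 : (fun p => ⟪u p, v p⟫) ∘ (K.ph j.1).symm =
        fun y => ⟪(u ∘ (K.ph j.1).symm) y, (v ∘ (K.ph j.1).symm) y⟫ := rfl
    have hleft : (K.ph j.1).symm (K.ph j.1 p) = p := (K.ph j.1).left_inv hp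
    unfold Cov.Dv
    rw [h1, fderiv_inner_apply ℝ (K.differentiableAt_symm hu hp) (K.differentiableAt_symm hv hp)]
    simp only [Function.comp_apply, hleft, inner_smul_left, inner_smul_right, smul_eq_mul,
      conj_trivial]
    ring
  · rw [K.Dv_eq_zero b j _ hp, K.Dv_eq_zero b j _ hp, K.Dv_eq_zero b j _ hp]
    simp

lemma Dv_unit {u : M → W} (hu : ContMDiff 𝓘(ℝ, E) 𝓘(ℝ, W) ∞ u) {p : M}
    (h : ∀ᶠ q in 𝓝 p, ⟪u q, u q⟫ = 1) (j : Fin K.n × A) : ⟪K.Dv b j u p, u p⟫ = 0 := by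
  have h1 := Dv_inner K b hu hu j p
  have h2 : K.Dv b j (fun p => ⟪u p, u p⟫) p = K.Dv b j (fun _ : M => (1 : ℝ)) p :=
    Dv_congr K b h j
  rw [h2, K.Dv_const b j (1 : ℝ), real_inner_comm (K.Dv b j u p) (u p)] at h1
  simp only [Pi.zero_apply] at h1
  linarith

end dvcalc

section data

variable {E : Type*} [NormedAddCommGroup E] [NormedSpace ℝ E]
  {M : Type*} [TopologicalSpace M] [ChartedSpace E M] [IsManifold 𝓘(ℝ, E) ∞ M]
  {W : Type*} [NormedAddCommGroup W] [InnerProductSpace ℝ W]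

/-- a line field with local smooth unit sections; `N p n`: `n` is a unit vector of the line -/
structure LineM (E : Type*) [NormedAddCommGroup E] [NormedSpace ℝ E] {M : Type*}
    [TopologicalSpace M] [ChartedSpace E M] {W : Type*} [NormedAddCommGroup W]
    [InnerProductSpace ℝ W] (N : M → W → Prop) : Prop where
  unit : ∀ p n, N p n → ⟪n, n⟫ = 1
  loc : ∀ p0, ∃ (ν : M → W) (O : Set M), IsOpen O ∧ p0 ∈ O ∧
    ContMDiff 𝓘(ℝ, E) 𝓘(ℝ, W) ∞ ν ∧ ∀ p ∈ O, ∀ n, N p n ↔ (n = ν p ∨ n = - ν p)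

/-- sections of the line field -/
def Sec (N : M → W → Prop) (Ψ : M → W) : Prop := ∀ p n, N p n → Ψ p = ⟪Ψ p, n⟫ • n

/-- the data on `M` -/
structure MData (K : Cov E M) (b : Module.Basis (Fin 2) ℝ E) (N : M → W → Prop) where
  /-- the twisted phase -/
  Ψ : M → W
  /-- unit section for `r < 3` -/
  ν : M → W
  /-- radial function -/
  r : M → ℝ
  /-- radial field -/
  v : Fin K.n × Fin 2 → M → ℝ
  /-- angular field -/
  w : Fin K.n × Fin 2 → M → ℝ
  /-- coefficients -/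
  β : Fin K.n × Fin 2 → M → ℝ
  smΨ : ContMDiff 𝓘(ℝ, E) 𝓘(ℝ, W) ∞ Ψ
  smν : ContMDiff 𝓘(ℝ, E) 𝓘(ℝ, W) ∞ ν
  smr : ContMDiff 𝓘(ℝ, E) 𝓘(ℝ, ℝ) ∞ r
  smv : ∀ j, ContMDiff 𝓘(ℝ, E) 𝓘(ℝ, ℝ) ∞ (v j)
  smw : ∀ j, ContMDiff 𝓘(ℝ, E) 𝓘(ℝ, ℝ) ∞ (w j)
  smβ : ∀ j, ContMDiff 𝓘(ℝ, E) 𝓘(ℝ, ℝ) ∞ (β j)
  secΨ : Sec N Ψ
  secν : Sec N ν
  ν1 : ∀ p, r p < 3 → ⟪ν p, ν p⟫ = 1
  vr : ∀ p, 1 / 2 ≤ r p → r p ≤ 5 / 2 → ∑ j, v j p * K.Dv b j r p = 1
  wr : ∀ p, 1 / 2 ≤ r p → r p ≤ 5 / 2 → ∑ j, w j p * K.Dv b j r p = 0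
  dec : ∀ p, 1 / 2 ≤ r p → r p ≤ 5 / 2 → ∀ j, K.X b j p =
    K.Dv b j r p • (∑ k, v k p • K.X b k p) + β j p • (∑ k, w k p • K.X b k p)
  wne : ∀ p, 1 / 2 ≤ r p → r p ≤ 5 / 2 → ∑ k, w k p • K.X b k p ≠ 0
  nd : ∀ p, (r p ≤ 11 / 10 ∨ 19 / 10 ≤ r p) → ∀ n, N p n → ∃ j, ⟪K.Dv b j Ψ p, n⟫ ≠ 0

theorem exists_mdata [T2Space M] (K : Cov E M) (b : Module.Basis (Fin 2) ℝ E)
    {N : M → W → Prop} (hN : LineM E N) {Ψ0 : M → W} (hΨ : ContMDiff 𝓘(ℝ, E) 𝓘(ℝ, W) ∞ Ψ0)
    (hsec : Sec N Ψ0)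
    (hfin : {p : M | ∀ n, N p n → ∀ v, ⟪n, mfderiv 𝓘(ℝ, E) 𝓘(ℝ, W) Ψ0 p v⟫ = 0}.Finite) :
    Nonempty (MData K b N) := by
  classical
  set C := {p : M | ∀ n, N p n → ∀ v, ⟪n, mfderiv 𝓘(ℝ, E) 𝓘(ℝ, W) Ψ0 p v⟫ = 0} with hC
  obtain ⟨U, hU, hdisj⟩ := hfin.t2_separation
  choose ν O hO hcO smν hν using hN.loc
  have hD : ∀ c : M, Nonempty (Disc K b c (U c ∩ O c)) := fun c =>
    exists_disc K b ((hU c).2.inter (hO c)) ⟨(hU c).1, hcO c⟩
  let D : ∀ c : M, Disc K b c (U c ∩ O c) := fun c => (hD c).some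
  let t : Finset M := hfin.toFinset
  have ht : ∀ c, c ∈ t ↔ c ∈ C := fun c => hfin.mem_toFinset
  -- disjointness
  have hoff : ∀ c ∈ t, ∀ c' ∈ t, c' ≠ c → ∀ q ∈ U c, q ∉ (D c').Q := by
    intro c hc c' hc' hne q hq hq'
    have h1 := hdisj ((ht c').1 hc') ((ht c).1 hc) hne
    exact Set.disjoint_left.1 h1 ((D c').QU hq').1 hq
  -- the functions
  let r : M → ℝ := fun p => 4 + ∑ c ∈ t, ((D c).T p - 4)
  let v : Fin K.n × Fin 2 → M → ℝ := fun j p => ∑ c ∈ t, (D c).v j p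
  let w : Fin K.n × Fin 2 → M → ℝ := fun j p => ∑ c ∈ t, (D c).w j p
  let β : Fin K.n × Fin 2 → M → ℝ := fun j p => ∑ c ∈ t, (D c).β j p
  let Ψ : M → W := fun p => Ψ0 p + ∑ c ∈ t, (D c).χ p • ((D c).X p • ν c p - Ψ0 p)
  let ν' : M → W := fun p => ∑ c ∈ t, (cut 3 (7 / 2) ((D c).T p)) • ν c p
  have hr : ∀ c ∈ t, ∀ q ∈ U c, r q = (D c).T q := by
    intro c hc q hq
    show 4 + ∑ c ∈ t, ((D c).T q - 4) = _
    rw [Finset.sum_eq_single c]
    · ring
    · intro c' hc' hne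
      rw [(D c').T_off q (hoff c hc c' hc' hne q hq), sub_self]
    · intro h
      exact absurd hc h
  have hv : ∀ c ∈ t, ∀ q ∈ U c, ∀ j, v j q = (D c).v j q := by
    intro c hc q hq j
    apply Finset.sum_eq_single c
    · intro c' hc' hne
      exact (D c').v_off j q (hoff c hc c' hc' hne q hq)
    · intro h
      exact absurd hc h
  have hw : ∀ c ∈ t, ∀ q ∈ U c, ∀ j, w j q = (D c).w j q := by
    intro c hc q hq j
    apply Finset.sum_eq_single c
    · intro c' hc' hne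
      exact (D c').w_off j q (hoff c hc c' hc' hne q hq)
    · intro h
      exact absurd hc h
  have hβ : ∀ c ∈ t, ∀ q ∈ U c, ∀ j, β j q = (D c).β j q := by
    intro c hc q hq j
    apply Finset.sum_eq_single c
    · intro c' hc' hne
      exact (D c').β_off j q (hoff c hc c' hc' hne q hq)
    · intro h
      exact absurd hc h
  have hΨU : ∀ c ∈ t, ∀ q ∈ U c, Ψ q = Ψ0 q + (D c).χ q • ((D c).X q • ν c q - Ψ0 q) := by
    intro c hc q hq
    show Ψ0 q + _ = _
    congr 1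
    apply Finset.sum_eq_single c
    · intro c' hc' hne
      rw [(D c').χ_off q (hoff c hc c' hc' hne q hq), zero_smul]
    · intro h
      exact absurd hc h
  have hνU : ∀ c ∈ t, ∀ q ∈ U c, ν' q = (cut 3 (7 / 2) ((D c).T q)) • ν c q := by
    intro c hc q hq
    apply Finset.sum_eq_single c
    · intro c' hc' hne
      rw [(D c').T_off q (hoff c hc c' hc' hne q hq), cut_eq_zero (by norm_num) (by norm_num),
        zero_smul]
    · intro h
      exact absurd hc h
  have hr4 : ∀ q, (∀ c ∈ t, q ∉ (D c).Q) → r q = 4 := by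
    intro q hq
    show 4 + ∑ c ∈ t, ((D c).T q - 4) = 4
    rw [Finset.sum_eq_zero, add_zero]
    intro c hc
    rw [(D c).T_off q (hq c hc), sub_self]
  have hmem : ∀ p, r p < 4 → ∃ c ∈ t, p ∈ (D c).Q := by
    intro p hp
    by_contra hcon
    push Not at hcon
    have := hr4 p hcon
    linarith
  have hDr : ∀ c ∈ t, ∀ p ∈ U c, ∀ j, K.Dv b j r p = K.Dv b j (D c).T p := by
    intro c hc p hp j
    apply Dv_congr
    filter_upwards [(hU c).2.mem_nhds hp] with q hq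
    exact hr c hc q hq
  refine ⟨⟨Ψ, ν', r, v, w, β, ?_, ?_, ?_, ?_, ?_, ?_, ?_, ?_, ?_, ?_, ?_, ?_, ?_, ?_⟩⟩
  · refine hΨ.add (contMDiff_finsetSum fun c _ => ?_)
    exact (D c).smχ.smul (((D c).smX.smul (smν c)).sub hΨ)
  · refine contMDiff_finsetSum fun c _ => ?_
    exact ((contDiff_cut _ _).comp_contMDiff (D c).smT).smul (smν c)
  · refine contMDiff_const.add (contMDiff_finsetSum fun c _ => ?_)
    exact (D c).smT.sub contMDiff_const
  · intro j
    exact contMDiff_finsetSum fun c _ => (D c).smv j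
  · intro j
    exact contMDiff_finsetSum fun c _ => (D c).smw j
  · intro j
    exact contMDiff_finsetSum fun c _ => (D c).smβ j
  · -- Ψ is a section
    intro p n hn
    have h0 := hsec p n hn
    show Ψ0 p + ∑ c ∈ t, (D c).χ p • ((D c).X p • ν c p - Ψ0 p) =
      ⟪Ψ0 p + ∑ c ∈ t, (D c).χ p • ((D c).X p • ν c p - Ψ0 p), n⟫ • n
    rw [inner_add_left, add_smul, ← h0, sum_inner, Finset.sum_smul]
    congr 1
    apply Finset.sum_congr rfl
    intro c hc
    by_cases hp : p ∈ (D c).Q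
    · have h1 := (hν c p ((D c).QU hp).2 n).1 hn
      have h2 := hN.unit p n hn
      have h3 : ν c p = ⟪ν c p, n⟫ • n := by
        rcases h1 with h1 | h1
        · rw [← h1, h2, one_smul]
        · have : ν c p = - n := by rw [h1, neg_neg]
          rw [this, inner_neg_left, h2]
          simp
      rw [inner_smul_left, inner_sub_left, inner_smul_left]
      simp only [conj_trivial]
      rw [mul_smul, sub_smul, mul_smul, ← h3, ← h0]
    · rw [(D c).χ_off p hp, zero_smul, inner_zero_left, zero_smul]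
  · intro p n hn
    show ∑ c ∈ t, (cut 3 (7 / 2) ((D c).T p)) • ν c p =
      ⟪∑ c ∈ t, (cut 3 (7 / 2) ((D c).T p)) • ν c p, n⟫ • n
    rw [sum_inner, Finset.sum_smul]
    apply Finset.sum_congr rfl
    intro c hc
    by_cases hp : p ∈ (D c).Q
    · have h1 := (hν c p ((D c).QU hp).2 n).1 hn
      have h2 := hN.unit p n hn
      have h3 : ν c p = ⟪ν c p, n⟫ • n := by
        rcases h1 with h1 | h1
        · rw [← h1, h2, one_smul]
        · have : ν c p = - n := by rw [h1, neg_neg]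
          rw [this, inner_neg_left, h2]
          simp
      rw [inner_smul_left]
      simp only [conj_trivial]
      rw [mul_smul, ← h3]
    · rw [(D c).T_off p hp, cut_eq_zero (by norm_num) (by norm_num), zero_smul, inner_zero_left,
        zero_smul]
  · intro p hp
    obtain ⟨c, hc, hpQ⟩ := hmem p (by linarith)
    have hpU := (D c).QU hpQ
    rw [hr c hc p hpU.1] at hp
    rw [hνU c hc p hpU.1, cut_eq_one (by norm_num) hp.le, one_smul]
    exact hN.unit p _ ((hν c p hpU.2 _).2 (Or.inl rfl))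
  · intro p h1 h2
    obtain ⟨c, hc, hpQ⟩ := hmem p (by linarith)
    have hpU := (D c).QU hpQ
    rw [hr c hc p hpU.1] at h1 h2
    have h3 := (D c).vT p h1 h2
    rw [← h3]
    apply Finset.sum_congr rfl
    intro j _
    rw [hv c hc p hpU.1, hDr c hc p hpU.1]
  · intro p h1 h2
    obtain ⟨c, hc, hpQ⟩ := hmem p (by linarith)
    have hpU := (D c).QU hpQ
    rw [hr c hc p hpU.1] at h1 h2
    have h3 := (D c).wT p h1 h2
    rw [← h3]
    apply Finset.sum_congr rfl
    intro j _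
    rw [hw c hc p hpU.1, hDr c hc p hpU.1]
  · intro p h1 h2 j
    obtain ⟨c, hc, hpQ⟩ := hmem p (by linarith)
    have hpU := (D c).QU hpQ
    rw [hr c hc p hpU.1] at h1 h2
    have h3 := (D c).dec p h1 h2 j
    rw [hDr c hc p hpU.1, hβ c hc p hpU.1]
    simp only [hv c hc p hpU.1, hw c hc p hpU.1]
    exact h3
  · intro p h1 h2
    obtain ⟨c, hc, hpQ⟩ := hmem p (by linarith)
    have hpU := (D c).QU hpQ
    rw [hr c hc p hpU.1] at h1 h2
    have h3 := (D c).wne p h1 h2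
    simp only [hw c hc p hpU.1]
    exact h3
  · intro p hp n hn
    rcases hp with hp | hp
    · obtain ⟨c, hc, hpQ⟩ := hmem p (by linarith)
      have hpU := (D c).QU hpQ
      rw [hr c hc p hpU.1] at hp
      obtain ⟨hχ, j, hj⟩ := (D c).inner p hp
      have hΨp : Ψ =ᶠ[𝓝 p] fun q => (D c).X q • ν c q := by
        filter_upwards [hχ, (hU c).2.mem_nhds hpU.1] with q hq hqU
        rw [hΨU c hc q hqU, hq, one_smul]
        abel
      have hunit : ∀ᶠ q in 𝓝 p, ⟪ν c q, ν c q⟫ = 1 := by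
        filter_upwards [(hO c).mem_nhds hpU.2] with q hq
        exact hN.unit q _ ((hν c q hq _).2 (Or.inl rfl))
      have hDν := Dv_unit K b (smν c) hunit
      refine ⟨j, ?_⟩
      rw [Dv_congr K b hΨp j, Dv_smul K b (D c).smX (smν c)]
      have h1 := (hν c p hpU.2 n).1 hn
      rcases h1 with h1 | h1
      · rw [h1, inner_add_left, inner_smul_left, inner_smul_left, hDν, hunit.self_of_nhds]
        simpa using hj
      · rw [h1, inner_neg_right, inner_add_left, inner_smul_left, inner_smul_left, hDν,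
          hunit.self_of_nhds]
        simpa using hj
    · have hΨp : Ψ =ᶠ[𝓝 p] Ψ0 := by
        have h1 : ∀ c ∈ t, ∀ᶠ q in 𝓝 p, (D c).χ q = 0 := by
          intro c hc
          by_cases hpQ : p ∈ (D c).Q
          · have hpU := (D c).QU hpQ
            rw [hr c hc p hpU.1] at hp
            exact (D c).outer p hp
          · filter_upwards [(D c).clQ.isOpen_compl.mem_nhds hpQ] with q hq
            exact (D c).χ_off q hq
        have h2 : ∀ᶠ q in 𝓝 p, ∀ c ∈ t, (D c).χ q = 0 :=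
          (Filter.eventually_all_finset t).2 h1
        filter_upwards [h2] with q hq
        show Ψ0 q + ∑ c ∈ t, (D c).χ q • ((D c).X q • ν c q - Ψ0 q) = Ψ0 q
        rw [Finset.sum_eq_zero, add_zero]
        intro c hc
        rw [hq c hc, zero_smul]
      have hpC : p ∉ C := by
        intro h
        have hpt := (ht p).2 h
        have := hr p hpt p (hU p).1
        rw [(D p).Tc] at this
        linarith
      rw [hC] at hpC
      simp only [Set.mem_ofPred_eq] at hpC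
      push Not at hpC
      obtain ⟨n0, hn0, ξ, hξ⟩ := hpC
      -- `n = ± n0`
      have hpm : n0 = n ∨ n0 = -n := by
        have a1 := (hν p p (hcO p) n).1 hn
        have a2 := (hν p p (hcO p) n0).1 hn0
        rcases a1 with a1 | a1 <;> rcases a2 with a2 | a2
        · left; rw [a1, a2]
        · right; rw [a1, a2]
        · right; rw [a1, a2, neg_neg]
        · left; rw [a1, a2]
      by_contra hcon
      push Not at hcon
      apply hξ
      obtain ⟨i, hi⟩ := K.cov p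
      obtain ⟨cc, hcc⟩ := K.Dv_span b (F := W) hi ξ
      rw [hcc hΨ, inner_sum]
      apply Finset.sum_eq_zero
      intro a _
      rw [inner_smul_right]
      have h3 := hcon (i, a)
      rw [Dv_congr K b hΨp, real_inner_comm] at h3
      rcases hpm with h4 | h4
      · rw [h4, h3, mul_zero]
      · rw [h4, inner_neg_left, h3, neg_zero, mul_zero]

end data

end Vale.Agent.P205.TW.Data
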