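import Vale.Agent.P205.TW.PsiExists
import Vale.Agent.P205.TW.DataM
import Vale.Agent.P205.TW.CoverM

/-!
P205, scheme T1W: the data `MData` on `M` for a pair `(F, ξ)` (`ImmN E M`), glue between
`exists_Psi4` (generic twisted phase), `okM` (the line field of the pair) and `exists_mdata`.
-/

noncomputable section

open scoped Manifold ContDiff Topology RealInnerProductSpace
open Set Filter

namespace Vale.Agent.P205.TW

open Vale.Agent.P205.F

section glue

variable {E : Type*} [NormedAddCommGroup E] [NormedSpace ℝ E]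
  {M : Type*} [TopologicalSpace M] [ChartedSpace E M] (K : Cov E M)
  (b : Module.Basis (Fin 2) ℝ E) [IsManifold 𝓘(ℝ, E) ∞ M] (H : ImmN E M)

/-- the line field of the pair, for vectors of `EuclideanSpace ℝ (Fin 4)` -/
def NM (p : M) (n : EuclideanSpace ℝ (Fin 4)) : Prop := okM K b H p (fun k => n k)

/-- unit vectors orthogonal to `dF` and to `ξ` belong to the line -/
lemma NM_of {p : M} {n : EuclideanSpace ℝ (Fin 4)} (h1 : ‖n‖ = 1)
    (h2 : ∀ v : TangentSpace 𝓘(ℝ, E) p,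
      inner ℝ n (mfderiv 𝓘(ℝ, E) 𝓘(ℝ, EuclideanSpace ℝ (Fin 4)) H.F p v :
        EuclideanSpace ℝ (Fin 4)) = 0)
    (h3 : inner ℝ n (H.ξ p) = 0) : NM K b H p n := by
  refine ⟨?_, ?_, fun j => ?_⟩
  · rw [← inner_eq_dt4, real_inner_self_eq_norm_sq, h1, one_pow]
  · rw [inner_eq_dt4] at h3
    exact h3
  · have h4 := h2 (K.X b j p)
    have h5 : inner ℝ n (K.Dv b j H.F p) = 0 := by
      rw [K.Dv_eq b H.smF j p]
      exact h4
    rw [inner_eq_dt4] at h5
    exact h5

/-- the local unit normal of the chart `i`, as a vector -/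
def mv (i : Fin K.n) (p : M) : EuclideanSpace ℝ (Fin 4) := WithLp.toLp 2 fun k => mr K b H i k p

lemma mv_apply (i : Fin K.n) (p : M) (k : Fin 4) : mv K b H i p k = mr K b H i k p := rfl

lemma sm_mv (i : Fin K.n) :
    ContMDiff 𝓘(ℝ, E) 𝓘(ℝ, EuclideanSpace ℝ (Fin 4)) ∞ (mv K b H i) := by
  have h1 : ContMDiff 𝓘(ℝ, E) 𝓘(ℝ, Fin 4 → ℝ) ∞ (fun p => fun k => mr K b H i k p) :=
    contMDiff_pi_space.2 fun k => sm_mr K b H i k
  exact (PiLp.continuousLinearEquiv 2 ℝ (fun _ : Fin 4 => ℝ)).symm.contDiff.comp_contMDiff h1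

lemma NM_iff {i : Fin K.n} {p : M} (hp : p ∈ K.V i) (n : EuclideanSpace ℝ (Fin 4)) :
    NM K b H p n ↔ (n = mv K b H i p ∨ n = -mv K b H i p) := by
  rw [NM, okM_iff K b H hp]
  constructor
  · rintro (h | h)
    · left; ext k; exact h k
    · right; ext k; exact h k
  · rintro (h | h)
    · left; intro k; rw [h]; rfl
    · right; intro k; rw [h]; rfl

lemma lineM_NM : Data.LineM E (NM K b H) where
  unit p n h := by
    rw [inner_eq_dt4]
    exact h.1
  loc p0 := by
    obtain ⟨i, hi⟩ := K.cov p0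
    exact ⟨mv K b H i, K.V i, K.opn i, hi, sm_mv K b H i, fun p hp n => NM_iff K b H hp n⟩

/-- a normal vector field is a section of the line -/
lemma sec_NM {Ψ : M → EuclideanSpace ℝ (Fin 4)}
    (h2 : ∀ (p : M) (v : TangentSpace 𝓘(ℝ, E) p),
      inner ℝ (Ψ p) (mfderiv 𝓘(ℝ, E) 𝓘(ℝ, EuclideanSpace ℝ (Fin 4)) H.F p v :
        EuclideanSpace ℝ (Fin 4)) = 0)
    (h3 : ∀ p, inner ℝ (Ψ p) (H.ξ p) = 0) : Data.Sec (NM K b H) Ψ := by
  intro p n hn
  by_cases h0 : Ψ p = 0
  · rw [h0]; simp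
  have hpos : ‖Ψ p‖ ≠ 0 := norm_ne_zero_iff.2 h0
  set m : EuclideanSpace ℝ (Fin 4) := ‖Ψ p‖⁻¹ • Ψ p with hm
  have hmN : NM K b H p m := by
    refine NM_of K b H ?_ (fun v => ?_) ?_
    · rw [hm, norm_smul, norm_inv, norm_norm, inv_mul_cancel₀ hpos]
    · have h4 := h2 p v
      exact (real_inner_smul_left _ _ _).trans (by rw [h4, mul_zero])
    · rw [hm, real_inner_smul_left, h3 p, mul_zero]
  obtain ⟨i, hi⟩ := K.cov p
  have hn1 : inner ℝ n n = 1 := (lineM_NM K b H).unit p n hn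
  have hmn : m = n ∨ m = -n := by
    rw [NM_iff K b H hi] at hn hmN
    rcases hn with h | h <;> rcases hmN with h' | h' <;> rw [h, h'] <;> simp
  have hΨ : Ψ p = ‖Ψ p‖ • m := by
    rw [hm, smul_smul, mul_inv_cancel₀ hpos, one_smul]
  rcases hmn with h | h
  · rw [h] at hΨ
    have h5 : inner ℝ (Ψ p) n = ‖Ψ p‖ := by
      conv_lhs => rw [hΨ]
      rw [real_inner_smul_left, hn1, mul_one]
    rw [h5]
    exact hΨ
  · rw [h] at hΨ
    have h5 : inner ℝ (Ψ p) n = -‖Ψ p‖ := by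
      conv_lhs => rw [hΨ]
      rw [real_inner_smul_left, inner_neg_left, hn1]
      ring
    rw [h5, neg_smul, ← smul_neg]
    exact hΨ

/-- **the data on `M` for a pair** -/
theorem exists_mdataN [T2Space M] [CompactSpace M] : Nonempty (Data.MData K b (NM K b H)) := by
  have : FiniteDimensional ℝ E := Module.Basis.finiteDimensional_of_finite b
  have hE : Module.finrank ℝ E = 2 := by
    rw [Module.finrank_eq_card_basis b]; simp
  have hW : Module.finrank ℝ (EuclideanSpace ℝ (Fin 4)) = 4 := finrank_euclideanSpace_fin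
  have hξ0 : ∀ p, H.ξ p ≠ 0 := fun p h => by
    have := H.unit p
    rw [h, norm_zero] at this
    exact zero_ne_one this
  obtain ⟨Ψ, h1, h2, h3, h4⟩ := exists_Psi4 hE hW H.smF H.smξ H.imm hξ0 H.perp
  refine Data.exists_mdata K b (lineM_NM K b H) h1 (sec_NM K b H h2 h3) (h4.subset ?_)
  intro p hp n hn1 hn2 hn3 v
  exact hp n (NM_of K b H hn1 hn2 hn3) v

end glue

end Vale.Agent.P205.TW
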