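import Vale.Agent.P205.TW.DataOdd
import Vale.Agent.P205.TW.DataLow
import Vale.Agent.P205.TW.CoverIn
import Vale.Agent.P205.TW.LineOf
import Vale.Agent.P205.F.BoxesInst

/-!
P205, scheme T1W, DATA on the cover (C3): `DIn` for the cover of a pair `(F, ξ)` (`ImmN E M`) and
the lift of a Riemannian metric of `M`.
-/

noncomputable section

set_option linter.unusedSectionVars false

open scoped Manifold ContDiff Topology RealInnerProductSpace
open Set Filter

namespace Vale.Agent.P205.TW.DC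

open Vale.Agent.P205.F Vale.Agent.P205.TW Vale.Agent.P205.TW.Data

universe u

section man

variable {E : Type} [NormedAddCommGroup E] [NormedSpace ℝ E]
  {M : Type u} [TopologicalSpace M] [ChartedSpace E M] [IsManifold 𝓘(ℝ, E) ∞ M] [CompactSpace M]
  (K : Cov E M) (b : Module.Basis (Fin 2) ℝ E)

/-! ### real functions on `M` as elements of the differential function space -/

/-- complexification -/
def cx (u : M → ℝ) : M → ℂ := fun p => ((u p : ℝ) : ℂ)

lemma sm_cx {u : M → ℝ} (hu : ContMDiff 𝓘(ℝ, E) 𝓘(ℝ, ℝ) ∞ u) : (K.dalg b).Sm (cx u) :=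
  (K.dalg_Sm b).2 (Complex.ofRealCLM.contDiff.comp_contMDiff hu)

lemma rl_cx (u : M → ℝ) : Rl (cx u) := fun _ => Complex.ofReal_im _

lemma D_cx {u : M → ℝ} (hu : ContMDiff 𝓘(ℝ, E) 𝓘(ℝ, ℝ) ∞ u) (j : Fin K.n × Fin 2) (p : M) :
    (K.dalg b).D j (cx u) p = ((K.Dv b j u p : ℝ) : ℂ) := by
  rw [Cov.dalg_D]
  exact congrFun (K.Dv_clm b Complex.ofRealCLM hu j) p

/-- components of a vector valued function -/
def cv (Ψ : M → EuclideanSpace ℝ (Fin 4)) (k : Fin 4) : M → ℂ := fun p => ((Ψ p k : ℝ) : ℂ)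

lemma sm_cv {Ψ : M → EuclideanSpace ℝ (Fin 4)}
    (h : ContMDiff 𝓘(ℝ, E) 𝓘(ℝ, EuclideanSpace ℝ (Fin 4)) ∞ Ψ) (k : Fin 4) :
    (K.dalg b).Sm (cv Ψ k) :=
  (K.dalg_Sm b).2 (Complex.ofRealCLM.contDiff.comp_contMDiff
    ((EuclideanSpace.proj k : EuclideanSpace ℝ (Fin 4) →L[ℝ] ℝ).contDiff.comp_contMDiff h))

lemma rl_cv (Ψ : M → EuclideanSpace ℝ (Fin 4)) (k : Fin 4) : Rl (cv Ψ k) :=
  fun _ => Complex.ofReal_im _

lemma D_cv {Ψ : M → EuclideanSpace ℝ (Fin 4)}
    (h : ContMDiff 𝓘(ℝ, E) 𝓘(ℝ, EuclideanSpace ℝ (Fin 4)) ∞ Ψ) (j : Fin K.n × Fin 2) (k : Fin 4)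
    (p : M) : (K.dalg b).D j (cv Ψ k) p = ((K.Dv b j Ψ p k : ℝ) : ℂ) := by
  rw [Cov.dalg_D]
  exact congrFun (K.Dv_clm b (Complex.ofRealCLM.comp
    (EuclideanSpace.proj k : EuclideanSpace ℝ (Fin 4) →L[ℝ] ℝ)) h j) p

variable (H : ImmN E M)

/-- the unit vector of a point of the cover -/
def nv (x : (lineM K b H).Pt) : EuclideanSpace ℝ (Fin 4) := WithLp.toLp 2 x.1.2

lemma nv_NM (x : (lineM K b H).Pt) : NM K b H ((lineM K b H).pi x) (nv K b H x) := x.2

lemma n_nv (k : Fin 4) (x : (lineM K b H).Pt) :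
    (lineM K b H).n k x = ((nv K b H x k : ℝ) : ℂ) := rfl

lemma sum_nv (v : EuclideanSpace ℝ (Fin 4)) (x : (lineM K b H).Pt) :
    ∑ k, ((v k : ℝ) : ℂ) * (lineM K b H).n k x = ((⟪v, nv K b H x⟫ : ℝ) : ℂ) := by
  rw [inner_eq_dt4, dt4]
  push_cast
  rfl

/-- the odd function of a section -/
def oc (Ψ : M → EuclideanSpace ℝ (Fin 4)) : (lineM K b H).Pt → ℂ := odl (lineM K b H) (cv Ψ)

lemma oc_eq (Ψ : M → EuclideanSpace ℝ (Fin 4)) (x : (lineM K b H).Pt) :
    oc K b H Ψ x = ((⟪Ψ ((lineM K b H).pi x), nv K b H x⟫ : ℝ) : ℂ) := sum_nv K b H _ x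

lemma oc_od (Ψ : M → EuclideanSpace ℝ (Fin 4)) : Odd' (lineM K b H).sg (oc K b H Ψ) :=
  fun x => odl_sg x

variable {Ψ : M → EuclideanSpace ℝ (Fin 4)}
  (hΨ : ContMDiff 𝓘(ℝ, E) 𝓘(ℝ, EuclideanSpace ℝ (Fin 4)) ∞ Ψ)

include hΨ in
lemma rsm_oc : RSm (lineM K b H).cover (oc K b H Ψ) :=
  ⟨sm_odl (fun k => sm_cv K b hΨ k), rl_odl (fun k => rl_cv Ψ k)⟩

lemma sec_oc (hs : Sec (NM K b H) Ψ) (k : Fin 4) (x : (lineM K b H).Pt) :
    cv Ψ k ((lineM K b H).pi x) = odl (lineM K b H) (cv Ψ) x * (lineM K b H).n k x := by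
  have h1 := hs _ _ (nv_NM K b H x)
  have h2 : odl (lineM K b H) (cv Ψ) x = ((⟪Ψ ((lineM K b H).pi x), nv K b H x⟫ : ℝ) : ℂ) :=
    oc_eq K b H Ψ x
  rw [h2, n_nv, ← Complex.ofReal_mul, cv]
  congr 1
  have h3 := congrArg (fun v : EuclideanSpace ℝ (Fin 4) => v k) h1
  exact h3

include hΨ in
lemma D_oc (hs : Sec (NM K b H) Ψ) (j : Fin K.n × Fin 2) (x : (lineM K b H).Pt) :
    (lineM K b H).cover.D j (oc K b H Ψ) x =
      ((⟪K.Dv b j Ψ ((lineM K b H).pi x), nv K b H x⟫ : ℝ) : ℂ) := by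
  rw [oc, D_odl (fun k x => sec_oc K b H hs k x), ← sum_nv]
  refine Finset.sum_congr rfl fun k _ => ?_
  rw [D_cv K b hΨ]

lemma sec_sq (hs : Sec (NM K b H) Ψ) {p : M} {n : EuclideanSpace ℝ (Fin 4)}
    (hn : NM K b H p n) : ⟪Ψ p, Ψ p⟫ = ⟪Ψ p, n⟫ * ⟪Ψ p, n⟫ := by
  have h1 := hs p n hn
  conv_lhs => rw [h1]
  rw [real_inner_smul_left, real_inner_smul_right, (lineM_NM K b H).unit p n hn, mul_one]

/-! ### the ray -/

variable {N : M → EuclideanSpace ℝ (Fin 4) → Prop} (D : MData K b N)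

/-- the ray of the radial function -/
def rayM : Ray M (Fin K.n × Fin 2) where
  Ψ := cx D.r
  t j := cx (D.v j)
  w j := cx (D.w j)
  β j := cx (D.β j)
  K := KrC (cx D.r)

lemma mem_rayM {p : M} : p ∈ (rayM K b D).K ↔ 1 / 2 ≤ D.r p ∧ D.r p ≤ 5 / 2 := Iff.rfl

lemma dir_cx (c : Fin K.n × Fin 2 → M → ℝ) {u : M → ℂ}
    (hu : ContMDiff 𝓘(ℝ, E) 𝓘(ℝ, ℂ) ∞ u) (p : M) :
    (K.dalg b).dir (fun j => cx (c j)) u p = Cov.dfE u p (∑ j, c j p • K.XE b j p) := by
  have : FiniteDimensional ℝ E := Module.Basis.finiteDimensional_of_finite b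
  rw [Cov.clm_exp (Cov.dfE u p) (c := fun j => c j p) (w := fun j => K.XE b j p) rfl, DAlg.dir]
  refine Finset.sum_congr rfl fun j _ => ?_
  rw [Cov.dalg_D, K.Dv_eqE b hu, Complex.real_smul]
  rfl

theorem rayM_ok : (rayM K b D).Ok (K.dalg b) where
  smΨ := sm_cx K b D.smr
  smt j := sm_cx K b (D.smv j)
  smw j := sm_cx K b (D.smw j)
  smβ j := sm_cx K b (D.smβ j)
  rΨ := rl_cx _
  rt j := rl_cx _
  rw' j := rl_cx _
  rβ j := rl_cx _
  tΨ p hp := by
    rw [mem_rayM] at hp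
    have h1 := D.vr p hp.1 hp.2
    show ∑ j, cx (D.v j) p * (K.dalg b).D j (cx D.r) p = 1
    simp only [D_cx K b D.smr, cx]
    rw [← Complex.ofReal_one, ← h1]
    push_cast
    rfl
  wΨ p hp := by
    rw [mem_rayM] at hp
    have h1 := D.wr p hp.1 hp.2
    show ∑ j, cx (D.w j) p * (K.dalg b).D j (cx D.r) p = 0
    simp only [D_cx K b D.smr, cx]
    rw [← Complex.ofReal_zero, ← h1]
    push_cast
    rfl
  dec u hu j p hp := by
    have : FiniteDimensional ℝ E := Module.Basis.finiteDimensional_of_finite b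
    rw [mem_rayM] at hp
    have h1 : K.XE b j p = K.Dv b j D.r p • (∑ k, D.v k p • K.XE b k p)
      + D.β j p • (∑ k, D.w k p • K.XE b k p) := D.dec p hp.1 hp.2 j
    have e1 : (K.dalg b).dir (rayM K b D).t u p =
        Cov.dfE u p (∑ k, D.v k p • K.XE b k p) := dir_cx K b D.v hu p
    have e2 : (K.dalg b).dir (rayM K b D).w u p =
        Cov.dfE u p (∑ k, D.w k p • K.XE b k p) := dir_cx K b D.w hu p
    have e3 : (K.dalg b).D j (rayM K b D).Ψ p = ((K.Dv b j D.r p : ℝ) : ℂ) :=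
      D_cx K b D.smr j p
    rw [e1, e2, e3, Cov.dalg_D, K.Dv_eqE b hu, h1, map_add, map_smul, map_smul,
      Complex.real_smul, Complex.real_smul]
    rfl

/-! ### the metric -/

section met

variable (g : Bundle.ContMDiffRiemannianMetric 𝓘(ℝ, E) ∞ E
    (fun x : M => TangentSpace 𝓘(ℝ, E) x))

/-- lift of the metric -/
def gC (j k : Fin K.n × Fin 2) (x : (lineM K b H).Pt) : ℂ := K.G b g j k ((lineM K b H).pi x)

lemma qfm_gC (x : (lineM K b H).Pt) (ξ : Fin K.n × Fin 2 → ℝ) :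
    qfm (gC K b H g) x ξ = Cov.gE g ((lineM K b H).pi x)
      (∑ j, ξ j • K.XE b j ((lineM K b H).pi x)) (∑ j, ξ j • K.XE b j ((lineM K b H).pi x)) := by
  have : FiniteDimensional ℝ E := Module.Basis.finiteDimensional_of_finite b
  have h1 := congrArg Complex.re (K.G_quad b g ((lineM K b H).pi x) ξ)
  rw [Complex.ofReal_re] at h1
  rw [← h1, Complex.re_sum, qfm]
  refine Finset.sum_congr rfl fun j _ => ?_
  rw [Complex.re_sum]
  refine Finset.sum_congr rfl fun k _ => ?_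
  have h3 : gC K b H g j k x = K.G b g j k ((lineM K b H).pi x) := rfl
  rw [← h3, ← Complex.ofReal_mul, Complex.re_ofReal_mul]
  ring

theorem tsm_gC : TSm (lineM K b H).cover (gC K b H g) := by
  have : FiniteDimensional ℝ E := Module.Basis.finiteDimensional_of_finite b
  exact ⟨isT_lift (K.G_isT b g), fun j k => ⟨Line.sm_pi_iff.2 (K.G_contMDiff b g j k),
    fun x => K.G_rl b g j k _⟩⟩

theorem gC_nonneg (x : (lineM K b H).Pt) (ξ : Fin K.n × Fin 2 → ℝ) :
    0 ≤ qfm (gC K b H g) x ξ := by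
  rw [qfm_gC]
  generalize (∑ j, ξ j • K.XE b j ((lineM K b H).pi x) : E) = v
  by_cases hv : v = 0
  · rw [hv, map_zero]
  · exact (g.pos ((lineM K b H).pi x) v hv).le

theorem gC_rank (x : (lineM K b H).Pt) : ∃ a c, 0 < (gC K b H g a a x).re * (gC K b H g c c x).re
    - (gC K b H g a c x).re ^ 2 := by
  have : FiniteDimensional ℝ E := Module.Basis.finiteDimensional_of_finite b
  obtain ⟨i, hi⟩ := K.cov ((lineM K b H).pi x)
  refine ⟨(i, 0), (i, 1), ?_⟩
  set G : Fin 2 → Fin 2 → ℝ := fun a c => (K.G b g (i, a) (i, c) ((lineM K b H).pi x)).re with hG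
  have hpos : ∀ s t : ℝ, (s ≠ 0 ∨ t ≠ 0) → 0 < s * s * G 0 0 + 2 * (s * t) * G 0 1
      + t * t * G 1 1 := by
    intro s t hst
    let c : Fin K.n × Fin 2 → ℝ := fun j => if j.1 = i then (if j.2 = 0 then s else t) else 0
    have hc0 : c (i, 0) = s := by simp [c]
    have hc1 : c (i, 1) = t := by simp [c]
    have hsum : ∀ f : Fin K.n × Fin 2 → ℂ, ∑ j, (c j : ℂ) * f j = s * f (i, 0) + t * f (i, 1) := by
      intro f
      rw [Fintype.sum_prod_type, Finset.sum_eq_single i]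
      · rw [Fin.sum_univ_two, hc0, hc1]
      · intro j _ hj
        refine Finset.sum_eq_zero fun a _ => ?_
        simp [c, hj]
      · intro h
        exact (h (Finset.mem_univ _)).elim
    have h1 := K.G_posT b g ((lineM K b H).pi x) c (by
      rcases hst with h | h
      · refine ⟨K.co b i 0, K.co_contMDiff b i 0, ?_⟩
        rw [hsum (fun j => (K.dalg b).D j (K.co b i 0) ((lineM K b H).pi x)), Cov.dalg_D,
          Cov.dalg_D, K.Dv_co b hi, K.Dv_co b hi]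
        simpa using h
      · refine ⟨K.co b i 1, K.co_contMDiff b i 1, ?_⟩
        rw [hsum (fun j => (K.dalg b).D j (K.co b i 1) ((lineM K b H).pi x)), Cov.dalg_D,
          Cov.dalg_D, K.Dv_co b hi, K.Dv_co b hi]
        simpa using h)
    have h2 : ∑ j, ∑ k, (c j : ℂ) * (c k : ℂ) * K.G b g j k ((lineM K b H).pi x) =
        s * (s * K.G b g (i, 0) (i, 0) ((lineM K b H).pi x)
          + t * K.G b g (i, 0) (i, 1) ((lineM K b H).pi x))
        + t * (s * K.G b g (i, 1) (i, 0) ((lineM K b H).pi x)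
          + t * K.G b g (i, 1) (i, 1) ((lineM K b H).pi x)) := by
      have h3 : ∀ j, ∑ k, (c j : ℂ) * (c k : ℂ) * K.G b g j k ((lineM K b H).pi x) =
          (c j : ℂ) * ∑ k, (c k : ℂ) * K.G b g j k ((lineM K b H).pi x) := by
        intro j
        rw [Finset.mul_sum]
        exact Finset.sum_congr rfl fun k _ => by ring
      rw [Finset.sum_congr rfl fun j _ => h3 j, hsum, hsum, hsum]
    rw [h2] at h1
    have h4 : K.G b g (i, 1) (i, 0) ((lineM K b H).pi x) =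
        K.G b g (i, 0) (i, 1) ((lineM K b H).pi x) := congrFun ((K.G_isT b g).1 (i, 1) (i, 0)) _
    rw [h4] at h1
    simp only [Complex.add_re, Complex.re_ofReal_mul] at h1
    simp only [hG]
    linarith
  have h0 := hpos 1 0 (Or.inl one_ne_zero)
  have h1 := hpos 0 1 (Or.inr one_ne_zero)
  have h2 := hpos (G 1 1) (-G 0 1) (Or.inl (by linarith))
  have h3 : 0 < G 1 1 := by linarith
  have h4 : 0 < G 1 1 * (G 0 0 * G 1 1 - G 0 1 ^ 2) := by
    calc 0 < _ := h2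
      _ = _ := by ring
  exact (pos_iff_pos_of_mul_pos h4).1 h3

end met

/-! ### the odd sign, nondegeneracy -/

section fin

variable (D : MData K b (NM K b H))

/-- the odd function of the phase -/
def psiC : (lineM K b H).Pt → ℂ := oc K b H D.Ψ

/-- the odd sign -/
def eC : (lineM K b H).Pt → ℂ := oc K b H D.ν

lemma nu_sq (x : (lineM K b H).Pt) (hr : D.r ((lineM K b H).pi x) < 3) :
    ⟪D.ν ((lineM K b H).pi x), nv K b H x⟫ * ⟪D.ν ((lineM K b H).pi x), nv K b H x⟫ = 1 := by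
  rw [← sec_sq K b H D.secν (nv_NM K b H x), D.ν1 _ hr]

lemma eC_sq (x : (lineM K b H).Pt) (hr : D.r ((lineM K b H).pi x) < 3) :
    eC K b H D x * eC K b H D x = 1 := by
  rw [eC, oc_eq, ← Complex.ofReal_mul, nu_sq K b H D x hr, Complex.ofReal_one]

lemma D_eC (x : (lineM K b H).Pt) (hr : D.r ((lineM K b H).pi x) < 3)
    (j : Fin K.n × Fin 2) : (lineM K b H).cover.D j (eC K b H D) x = 0 := by
  rw [eC, D_oc K b H D.smν D.secν]
  have h1 : ∀ᶠ q in 𝓝 ((lineM K b H).pi x), ⟪D.ν q, D.ν q⟫ = 1 := by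
    have h2 : {q | D.r q < 3} ∈ 𝓝 ((lineM K b H).pi x) :=
      (isOpen_lt D.smr.continuous continuous_const).mem_nhds hr
    filter_upwards [h2] with q hq
    exact D.ν1 q hq
  have h3 := Dv_unit K b D.smν h1 j
  have h4 := D.secν _ _ (nv_NM K b H x)
  have h5 := nu_sq K b H D x hr
  rw [h4, real_inner_smul_right] at h3
  have h6 : ⟪D.ν ((lineM K b H).pi x), nv K b H x⟫ ≠ 0 := by
    intro h0
    rw [h0, zero_mul] at h5
    exact zero_ne_one h5
  rcases mul_eq_zero.1 h3 with h | h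
  · exact (h6 h).elim
  · rw [h, Complex.ofReal_zero]

lemma nd_psiC (x : (lineM K b H).Pt) (hr : D.r ((lineM K b H).pi x) ≤ 11 / 10 ∨
    19 / 10 ≤ D.r ((lineM K b H).pi x)) :
    ∃ j, (lineM K b H).cover.D j (psiC K b H D) x ≠ 0 := by
  obtain ⟨j, hj⟩ := D.nd _ hr _ (nv_NM K b H x)
  refine ⟨j, ?_⟩
  rw [psiC, D_oc K b H D.smΨ D.secΨ]
  exact Complex.ofReal_ne_zero.2 hj

lemma wne_rayM (x : (lineM K b H).Pt) (hx : (lineM K b H).pi x ∈ (rayM K b D).K) :
    ∃ a, (lineM K b H).cover.dir (liftRay (lineM K b H) (rayM K b D)).w (XC K b H a) x ≠ 0 := by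
  have hx' := (mem_rayM K b D).1 hx
  have h1 := D.wne _ hx'.1 hx'.2
  by_contra hne
  push Not at hne
  apply h1
  have h2 : mfderiv 𝓘(ℝ, E) 𝓘(ℝ, EuclideanSpace ℝ (Fin 4)) H.F ((lineM K b H).pi x)
      (∑ k, D.w k ((lineM K b H).pi x) • K.X b k ((lineM K b H).pi x)) =
      mfderiv 𝓘(ℝ, E) 𝓘(ℝ, EuclideanSpace ℝ (Fin 4)) H.F ((lineM K b H).pi x) 0 := by
    rw [map_zero]
    let T : E →L[ℝ] EuclideanSpace ℝ (Fin 4) :=
      mfderiv 𝓘(ℝ, E) 𝓘(ℝ, EuclideanSpace ℝ (Fin 4)) H.F ((lineM K b H).pi x)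
    let v : Fin K.n × Fin 2 → E := fun k => K.X b k ((lineM K b H).pi x)
    have e1 : ∀ j, T (v j) = K.Dv b j H.F ((lineM K b H).pi x) :=
      fun j => (K.Dv_eq b H.smF j _).symm
    show T (∑ k, D.w k ((lineM K b H).pi x) • v k) = 0
    rw [map_sum]
    ext a
    have h3 := hne a
    have h4 : (lineM K b H).cover.dir (liftRay (lineM K b H) (rayM K b D)).w (XC K b H a) x =
        ∑ k, ((D.w k ((lineM K b H).pi x) : ℝ) : ℂ) *
          ((K.Dv b k H.F ((lineM K b H).pi x) a : ℝ) : ℂ) := by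
      unfold DAlg.dir
      refine Finset.sum_congr rfl fun k _ => ?_
      rw [D_XC]
      rfl
    rw [h4] at h3
    have h5 : ∑ k, D.w k ((lineM K b H).pi x) * K.Dv b k H.F ((lineM K b H).pi x) a = 0 := by
      exact_mod_cast h3
    have h6 : (∑ k, T (D.w k ((lineM K b H).pi x) • v k)) a =
        ∑ k, D.w k ((lineM K b H).pi x) * K.Dv b k H.F ((lineM K b H).pi x) a := by
      refine (map_sum (EuclideanSpace.proj a : EuclideanSpace ℝ (Fin 4) →L[ℝ] ℝ) _ _).trans ?_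
      refine Finset.sum_congr rfl fun k _ => ?_
      rw [map_smul, e1]
      rfl
    rw [h6, h5]
    rfl
  exact H.imm _ h2

variable (g : Bundle.ContMDiffRiemannianMetric 𝓘(ℝ, E) ∞ E
    (fun x : M => TangentSpace 𝓘(ℝ, E) x))

/-- the qualitative input of the data block on the cover -/
def dIn (hp : PrimC (lineM K b H).cover (lineM K b H).sg (gC K b H g)) :
    DIn (lineM K b H).cover (lineM K b H).sg (gC K b H g) where
  F := XC K b H
  q1 := q1C K b H
  q2 := q2C K b H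
  ψ := psiC K b H D
  r := liftRay (lineM K b H) (rayM K b D)
  e := eC K b H D
  inv := isInv_cover
  gT := tsm_gC K b H g
  gev _ _ _ := rfl
  gpos := gC_nonneg K b H g
  grank := gC_rank K b H g
  rF := rsm_XC K b H
  nf := frame_cover K b H
  Fev := ev_XC K b H
  q1ev := ev_q1C K b H
  q2od := od_q2C K b H
  imm := imm_cover K b H
  rψ := rsm_oc K b H D.smΨ
  ψod := oc_od K b H _
  nd x hx := nd_psiC K b H D x hx
  ray := liftRay_ok (rayM_ok K b D)
  rK := rfl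
  Ψev _ := rfl
  tev _ _ := rfl
  wev _ _ := rfl
  βev _ _ := rfl
  wne x hx := wne_rayM K b H D x hx
  re := rsm_oc K b H D.smν
  eod := oc_od K b H _
  esq x hx := eC_sq K b H D x (by
    have h1 : D.r ((lineM K b H).pi x) ≤ 5 / 2 := hx
    linarith)
  eD x hx j := D_eC K b H D x (by
    have h1 : D.r ((lineM K b H).pi x) ≤ 5 / 2 := hx
    linarith) j
  prim := hp

/-- **(C3)**, up to the primitive decomposition -/
theorem geoC_of_prim [T2Space M]
    (hp : PrimC (lineM K b H).cover (lineM K b H).sg (gC K b H g)) :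
    Nonempty (GeoC (lineM K b H).cover (lineM K b H).sg (gC K b H g)) := by
  obtain ⟨D⟩ := exists_mdataN K b H
  exact geoC_of (posS_cover (posS_dalg K b)) (dIn K b H D g hp)

end fin

end man

end Vale.Agent.P205.TW.DC
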