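import Vale.Agent.P205.F.Inst1

/-!
P205, scheme T1W, data block on `M`: one small disc.

Around a point `c` we construct a truncated radial function `T` (`T = 4` outside the disc), a
cut-off coordinate `X`, a cut-off `β`, and the polar fields of `T`.
-/

noncomputable section

set_option linter.unusedSectionVars false

open scoped Manifold ContDiff Topology
open Set Filter

namespace Vale.Agent.P205.TW.Data

open Vale.Agent.P205.F

section onedim

/-- a smooth cut-off: `1` for `t ≤ a`, `0` for `t ≥ b` -/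
def cut (a b t : ℝ) : ℝ := 1 - Real.smoothTransition ((t - a) / (b - a))

lemma contDiff_cut (a b : ℝ) : ContDiff ℝ ∞ (cut a b) := by
  unfold cut
  exact contDiff_const.sub (Real.smoothTransition.contDiff.comp
    ((contDiff_id.sub contDiff_const).div_const _))

lemma cut_eq_one {a b t : ℝ} (hab : a < b) (h : t ≤ a) : cut a b t = 1 := by
  unfold cut
  rw [Real.smoothTransition.zero_of_nonpos, sub_zero]
  exact div_nonpos_of_nonpos_of_nonneg (by linarith) (by linarith)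

lemma cut_eq_zero {a b t : ℝ} (hab : a < b) (h : b ≤ t) : cut a b t = 0 := by
  unfold cut
  rw [Real.smoothTransition.one_of_one_le, sub_self]
  rw [one_le_div (by linarith)]
  linarith

/-- truncated identity: `t` for `t ≤ 3`, `4` for `t ≥ 5`, at least `3` for `t ≥ 3` -/
def kap (t : ℝ) : ℝ := t + (4 - t) * Real.smoothTransition ((t - 3) / 2)

lemma contDiff_kap : ContDiff ℝ ∞ kap := by
  unfold kap
  exact contDiff_id.add ((contDiff_const.sub contDiff_id).mul (Real.smoothTransition.contDiff.comp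
    ((contDiff_id.sub contDiff_const).div_const _)))

lemma kap_of_le {t : ℝ} (h : t ≤ 3) : kap t = t := by
  unfold kap
  rw [Real.smoothTransition.zero_of_nonpos (by linarith)]
  ring

lemma kap_of_ge {t : ℝ} (h : 5 ≤ t) : kap t = 4 := by
  unfold kap
  rw [Real.smoothTransition.one_of_one_le (by linarith)]
  ring

lemma kap_ge {t : ℝ} (h : 3 ≤ t) : 3 ≤ kap t := by
  unfold kap
  have h1 := Real.smoothTransition.nonneg ((t - 3) / 2)
  have h2 := Real.smoothTransition.le_one ((t - 3) / 2)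
  rcases le_total t 4 with h4 | h4
  · nlinarith
  · rcases le_total 5 t with h5 | h5
    · have := Real.smoothTransition.one_of_one_le (x := (t - 3) / 2) (by linarith)
      rw [this]; linarith
    · nlinarith

lemma le_of_kap_lt {t a : ℝ} (ha : a ≤ 3) (h : kap t < a) : t < a := by
  rcases le_total t 3 with h3 | h3
  · rwa [kap_of_le h3] at h
  · have := kap_ge h3
    linarith

lemma kap_eq_of_lt {t : ℝ} (h : kap t < 3) : kap t = t :=
  kap_of_le (le_of_kap_lt le_rfl h).le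

/-- `1 / t` for `t ≥ 1/4`, smooth everywhere -/
def inv' (t : ℝ) : ℝ := Real.smoothTransition (8 * t - 1) * t⁻¹

lemma contDiff_inv' : ContDiff ℝ ∞ inv' := by
  rw [contDiff_iff_contDiffAt]
  intro t
  rcases lt_or_ge t (1 / 8) with h | h
  · have : inv' =ᶠ[𝓝 t] fun _ => 0 := by
      filter_upwards [gt_mem_nhds h] with s hs
      unfold inv'
      rw [Real.smoothTransition.zero_of_nonpos (by linarith), zero_mul]
    exact contDiffAt_const.congr_of_eventuallyEq this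
  · unfold inv'
    exact (Real.smoothTransition.contDiffAt.comp t
      ((contDiffAt_const.mul contDiffAt_id).sub contDiffAt_const)).mul
      (contDiffAt_inv ℝ (by linarith))

lemma inv'_eq {t : ℝ} (h : 1 / 4 ≤ t) : inv' t = t⁻¹ := by
  unfold inv'
  rw [Real.smoothTransition.one_of_one_le (by linarith), one_mul]

end onedim

section glue

variable {E : Type*} [NormedAddCommGroup E] [NormedSpace ℝ E]
  {M : Type*} [TopologicalSpace M] [ChartedSpace E M]
  {F : Type*} [NormedAddCommGroup F] [NormedSpace ℝ F]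

lemma contMDiff_glue {S Q : Set M} (hS : IsOpen S) (hQ : IsClosed Q) (hQS : Q ⊆ S) {u : M → F}
    {c : F} (hu : ContMDiffOn 𝓘(ℝ, E) 𝓘(ℝ, F) ∞ u S) (h0 : ∀ p, p ∉ Q → u p = c) :
    ContMDiff 𝓘(ℝ, E) 𝓘(ℝ, F) ∞ u := by
  intro p
  by_cases hp : p ∈ S
  · exact hu.contMDiffAt (hS.mem_nhds hp)
  · have h1 : p ∉ Q := fun h => hp (hQS h)
    have h2 : u =ᶠ[𝓝 p] fun _ => c := by
      filter_upwards [hQ.isOpen_compl.mem_nhds h1] with q hq
      exact h0 q hq
    exact contMDiffAt_const.congr_of_eventuallyEq h2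

end glue

section disc

variable {E : Type*} [NormedAddCommGroup E] [NormedSpace ℝ E]
  {M : Type*} [TopologicalSpace M] [ChartedSpace E M] [IsManifold 𝓘(ℝ, E) ∞ M]
  (K : Cov E M)
  {F : Type*} [NormedAddCommGroup F] [NormedSpace ℝ F]

/-- derivative of a function which is locally given in the chart -/
lemma Dv_loc {A : Type*} (b : A → E) {i : Fin K.n} {p : M} (hp : p ∈ K.V i) {u : M → F}
    {g : E → F} (h : ∀ᶠ q in 𝓝 p, u q = g (K.ph i q)) (a : A) :
    K.Dv b (i, a) u p = fderiv ℝ g (K.ph i p) (b a) := by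
  have hs := K.V_sub i hp
  unfold Cov.Dv
  rw [K.one i p hp, one_smul]
  have h1 : u ∘ (K.ph i).symm =ᶠ[𝓝 (K.ph i p)] g := by
    have hcs : ContinuousAt (K.ph i).symm (K.ph i p) :=
      continuousAt_extChartAt_symm' hs
    have hleft : (K.ph i).symm (K.ph i p) = p := (K.ph i).left_inv hs
    have h2 : ∀ᶠ y in 𝓝 (K.ph i p), u ((K.ph i).symm y) = g (K.ph i ((K.ph i).symm y)) :=
      hcs.eventually (p := fun q => u q = g (K.ph i q)) (by rw [hleft]; exact h)
    filter_upwards [h2, (K.isOpen_target i).mem_nhds ((K.ph i).map_source hs)] with y hy hyt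
    show u ((K.ph i).symm y) = g y
    rw [hy, (K.ph i).right_inv hyt]
  rw [h1.fderiv_eq]

/-- scaled coordinates in `E` -/
def crdE (b : Module.Basis (Fin 2) ℝ E) (yc : E) (ρ : ℝ) (a : Fin 2) (y : E) : ℝ :=
  b.repr (y - yc) a / ρ

/-- radius in `E` -/
def radE (b : Module.Basis (Fin 2) ℝ E) (yc : E) (ρ : ℝ) (y : E) : ℝ :=
  crdE b yc ρ 0 y ^ 2 + crdE b yc ρ 1 y ^ 2

lemma hasFDerivAt_crdE (b : Module.Basis (Fin 2) ℝ E) (yc : E) (ρ : ℝ) (a : Fin 2) (y : E) :
    ∃ L : E →L[ℝ] ℝ, HasFDerivAt (crdE b yc ρ a) L y ∧ ∀ v, L v = b.repr v a / ρ := by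
  have : FiniteDimensional ℝ E := b.finiteDimensional_of_finite
  let ℓ : E →L[ℝ] ℝ := LinearMap.toContinuousLinearMap (b.coord a)
  refine ⟨ρ⁻¹ • ℓ, ?_, ?_⟩
  · have h1 : HasFDerivAt (fun y : E => y - yc) (ContinuousLinearMap.id ℝ E) y :=
      (hasFDerivAt_id y).sub_const yc
    have h2 : HasFDerivAt (fun y : E => ℓ (y - yc)) (ℓ.comp (ContinuousLinearMap.id ℝ E)) y :=
      ℓ.hasFDerivAt.comp y h1
    have h3 := h2.const_smul ρ⁻¹
    rw [ContinuousLinearMap.comp_id] at h3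
    have h4 : crdE b yc ρ a = fun y => ρ⁻¹ • ℓ (y - yc) := by
      funext y
      simp only [crdE, ℓ, LinearMap.coe_toContinuousLinearMap', Module.Basis.coord_apply,
        smul_eq_mul]
      rw [div_eq_mul_inv, mul_comm]
    rw [h4]
    exact h3
  · intro v
    simp only [ℓ, FunLike.coe_smul, Pi.smul_apply, LinearMap.coe_toContinuousLinearMap',
      Module.Basis.coord_apply, smul_eq_mul]
    rw [div_eq_mul_inv, mul_comm]

lemma contDiff_crdE (b : Module.Basis (Fin 2) ℝ E) (yc : E) (ρ : ℝ) (a : Fin 2) :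
    ContDiff ℝ ∞ (crdE b yc ρ a) := by
  have : FiniteDimensional ℝ E := b.finiteDimensional_of_finite
  let ℓ : E →L[ℝ] ℝ := LinearMap.toContinuousLinearMap (b.coord a)
  have h4 : crdE b yc ρ a = fun y => ℓ (y - yc) / ρ := by
    funext y
    simp only [crdE, ℓ, LinearMap.coe_toContinuousLinearMap', Module.Basis.coord_apply]
  rw [h4]
  exact (ℓ.contDiff.comp (contDiff_id.sub contDiff_const)).div_const _

lemma contDiff_radE (b : Module.Basis (Fin 2) ℝ E) (yc : E) (ρ : ℝ) :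
    ContDiff ℝ ∞ (radE b yc ρ) :=
  ((contDiff_crdE b yc ρ 0).pow 2).add ((contDiff_crdE b yc ρ 1).pow 2)

lemma fderiv_crdE (b : Module.Basis (Fin 2) ℝ E) (yc : E) (ρ : ℝ) (a a' : Fin 2) (y : E) :
    fderiv ℝ (crdE b yc ρ a) y (b a') = (if a = a' then 1 else 0) / ρ := by
  obtain ⟨L, hL, hv⟩ := hasFDerivAt_crdE b yc ρ a y
  rw [hL.fderiv, hv, Module.Basis.repr_self, Finsupp.single_apply]
  simp only [eq_comm]

lemma fderiv_radE (b : Module.Basis (Fin 2) ℝ E) (yc : E) (ρ : ℝ) (a : Fin 2) (y : E) :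
    fderiv ℝ (radE b yc ρ) y (b a) = 2 * crdE b yc ρ a y / ρ := by
  obtain ⟨L0, hL0, hv0⟩ := hasFDerivAt_crdE b yc ρ 0 y
  obtain ⟨L1, hL1, hv1⟩ := hasFDerivAt_crdE b yc ρ 1 y
  have h := (hL0.pow 2).add (hL1.pow 2)
  have h' : HasFDerivAt (radE b yc ρ) _ y := h
  rw [h'.fderiv]
  fin_cases a
  · simp [hv0, hv1, Module.Basis.repr_self]
    ring
  · simp [hv0, hv1, Module.Basis.repr_self]
    ring

/-- a good radius -/
lemma exists_rho [T2Space M] (b : Module.Basis (Fin 2) ℝ E) {i : Fin K.n} {c : M}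
    (hc : c ∈ K.V i) {U : Set M} (hU : IsOpen U) (hcU : c ∈ U) :
    ∃ ρ : ℝ, 0 < ρ ∧ ∃ Q : Set M, IsClosed Q ∧ Q ⊆ U ∩ K.V i ∧
      ∀ p ∈ (K.ph i).source, radE b (K.ph i c) ρ (K.ph i p) < 9 → p ∈ Q := by
  have : FiniteDimensional ℝ E := b.finiteDimensional_of_finite
  have hcs := K.V_sub i hc
  have hO : IsOpen ((K.ph i).target ∩ (K.ph i).symm ⁻¹' (U ∩ K.V i)) :=
    (continuousOn_extChartAt_symm (K.c i)).isOpen_inter_preimage (K.isOpen_target i)
      (hU.inter (K.opn i))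
  have hcO : K.ph i c ∈ (K.ph i).target ∩ (K.ph i).symm ⁻¹' (U ∩ K.V i) := by
    refine ⟨(K.ph i).map_source hcs, ?_⟩
    show (K.ph i).symm (K.ph i c) ∈ U ∩ K.V i
    rw [(K.ph i).left_inv hcs]
    exact ⟨hcU, hc⟩
  let L : E ≃L[ℝ] (Fin 2 → ℝ) := b.equivFunL
  let φ : (Fin 2 → ℝ) → E := fun z => K.ph i c + L.symm z
  have hφ : Continuous φ := continuous_const.add L.symm.continuous
  have h1 : φ ⁻¹' ((K.ph i).target ∩ (K.ph i).symm ⁻¹' (U ∩ K.V i)) ∈ 𝓝 (0 : Fin 2 → ℝ) := by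
    apply (hO.preimage hφ).mem_nhds
    have h0 : φ 0 = K.ph i c := by simp [φ]
    rw [mem_preimage, h0]
    exact hcO
  obtain ⟨ε, hε, hball⟩ := Metric.nhds_basis_closedBall.mem_iff.1 h1
  refine ⟨ε / 3, by positivity, (K.ph i).symm '' (φ '' Metric.closedBall 0 ε), ?_, ?_, ?_⟩
  · apply IsCompact.isClosed
    apply ((isCompact_closedBall _ _).image hφ).image_of_continuousOn
    apply (continuousOn_extChartAt_symm (I := 𝓘(ℝ, E)) (K.c i)).mono
    rintro _ ⟨z, hz, rfl⟩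
    exact (hball hz).1
  · rintro _ ⟨_, ⟨z, hz, rfl⟩, rfl⟩
    exact (hball hz).2
  · intro p hp hr
    refine ⟨K.ph i p, ⟨L (K.ph i p - K.ph i c), ?_, ?_⟩, (K.ph i).left_inv hp⟩
    · rw [mem_closedBall_zero_iff, pi_norm_le_iff_of_nonneg hε.le]
      intro a
      have h2 : L (K.ph i p - K.ph i c) a = b.repr (K.ph i p - K.ph i c) a := rfl
      rw [h2, Real.norm_eq_abs]
      unfold radE crdE at hr
      have h3 : (b.repr (K.ph i p - K.ph i c) a / (ε / 3)) ^ 2 ≤ 3 ^ 2 := by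
        have p0 := sq_nonneg (b.repr (K.ph i p - K.ph i c) 0 / (ε / 3))
        have p1 := sq_nonneg (b.repr (K.ph i p - K.ph i c) 1 / (ε / 3))
        fin_cases a
        · show (b.repr (K.ph i p - K.ph i c) 0 / (ε / 3)) ^ 2 ≤ 3 ^ 2
          linarith
        · show (b.repr (K.ph i p - K.ph i c) 1 / (ε / 3)) ^ 2 ≤ 3 ^ 2
          linarith
      have h4 := abs_le_of_sq_le_sq h3 (by norm_num)
      rw [abs_div, abs_of_pos (show (0 : ℝ) < ε / 3 by positivity),
        div_le_iff₀ (by positivity)] at h4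
      linarith
    · simp [φ]

lemma sum_one {n : ℕ} {G : Type*} [AddCommMonoid G] (i : Fin n) (f : Fin n × Fin 2 → G)
    (hf : ∀ j, j.1 ≠ i → f j = 0) : ∑ j, f j = f (i, 0) + f (i, 1) := by
  rw [Fintype.sum_prod_type]
  rw [Finset.sum_eq_single i]
  · rw [Fin.sum_univ_two]
  · intro i' _ hi'
    rw [Fin.sum_univ_two, hf (i', 0) hi', hf (i', 1) hi', add_zero]
  · intro h
    exact absurd (Finset.mem_univ i) h

/-- on `V i` all fields are combinations of the fields of the chart `i` -/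
lemma X_comb (b : Module.Basis (Fin 2) ℝ E) {i : Fin K.n} {p : M} (hp : p ∈ K.V i)
    (j : Fin K.n × Fin 2) : ∃ c0 c1 : ℝ, K.X b j p = c0 • K.X b (i, 0) p + c1 • K.X b (i, 1) p ∧
      ∀ {u : M → F}, ContMDiff 𝓘(ℝ, E) 𝓘(ℝ, F) ∞ u →
        K.Dv b j u p = c0 • K.Dv b (i, 0) u p + c1 • K.Dv b (i, 1) u p := by
  have h1 := K.X_span b (K.V_sub i hp) (K.X b j p)
  rw [K.one i p hp, one_smul, Fin.sum_univ_two] at h1
  refine ⟨_, _, h1, ?_⟩
  intro u hu
  rw [K.Dv_eq b hu, K.Dv_eq b hu, K.Dv_eq b hu]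
  have key : ∀ (L : E →L[ℝ] F) (r s : ℝ) (x y z : E), x = r • y + s • z →
      L x = r • L y + s • L z := by
    intro L r s x y z h
    rw [h, map_add, map_smul, map_smul]
  exact key (mfderiv 𝓘(ℝ, E) 𝓘(ℝ, F) u p) _ _ _ _ _ h1

/-- the fields of the chart `i` are independent on `V i` -/
lemma X_indep (b : Module.Basis (Fin 2) ℝ E) {i : Fin K.n} {p : M} (hp : p ∈ K.V i)
    {r s : ℝ} (h : r • K.X b (i, 0) p + s • K.X b (i, 1) p = 0) : r = 0 ∧ s = 0 := by
  have hs := K.V_sub i hp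
  have h1 := mfderiv_extChartAt_comp_mfderivWithin_extChartAt_symm' (I := 𝓘(ℝ, E)) (x := K.c i) hs
  rw [ModelWithCorners.range_eq_univ, mfderivWithin_univ] at h1
  let T : E →L[ℝ] E := mfderiv 𝓘(ℝ, E) 𝓘(ℝ, E) (K.ph i).symm (K.ph i p)
  let S : E →L[ℝ] E := mfderiv 𝓘(ℝ, E) 𝓘(ℝ, E) (K.ph i) p
  have h2 : ∀ v : E, S (T v) = v := fun v => DFunLike.congr_fun h1 v
  have h3 : (r • (K.χ i p • T (b 0)) + s • (K.χ i p • T (b 1)) : E) = 0 := h
  rw [K.one i p hp, one_smul, one_smul] at h3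
  have h4 : r • b 0 + s • b 1 = 0 := by
    have h5 := congrArg S h3
    rw [map_add, map_smul, map_smul, h2, h2] at h5
    rw [h5]
    exact map_zero S
  have h6 := (Fintype.linearIndependent_iff.1 b.linearIndependent) ![r, s] (by
    simpa [Fin.sum_univ_two] using h4)
  exact ⟨by simpa using h6 0, by simpa using h6 1⟩

/-- polar data of one disc around `c`, supported in `Q ⊆ U` -/
structure Disc (b : Module.Basis (Fin 2) ℝ E) (c : M) (U : Set M) where
  /-- truncated radial function -/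
  T : M → ℝ
  /-- cut-off coordinate -/
  X : M → ℝ
  /-- cut-off -/
  χ : M → ℝ
  /-- radial field -/
  v : Fin K.n × Fin 2 → M → ℝ
  /-- angular field -/
  w : Fin K.n × Fin 2 → M → ℝ
  /-- coefficients -/
  β : Fin K.n × Fin 2 → M → ℝ
  /-- support -/
  Q : Set M
  clQ : IsClosed Q
  QU : Q ⊆ U
  smT : ContMDiff 𝓘(ℝ, E) 𝓘(ℝ, ℝ) ∞ T
  smX : ContMDiff 𝓘(ℝ, E) 𝓘(ℝ, ℝ) ∞ X
  smχ : ContMDiff 𝓘(ℝ, E) 𝓘(ℝ, ℝ) ∞ χ
  smv : ∀ j, ContMDiff 𝓘(ℝ, E) 𝓘(ℝ, ℝ) ∞ (v j)
  smw : ∀ j, ContMDiff 𝓘(ℝ, E) 𝓘(ℝ, ℝ) ∞ (w j)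
  smβ : ∀ j, ContMDiff 𝓘(ℝ, E) 𝓘(ℝ, ℝ) ∞ (β j)
  Tc : T c = 0
  T_off : ∀ p, p ∉ Q → T p = 4
  X_off : ∀ p, p ∉ Q → X p = 0
  χ_off : ∀ p, p ∉ Q → χ p = 0
  v_off : ∀ j p, p ∉ Q → v j p = 0
  w_off : ∀ j p, p ∉ Q → w j p = 0
  β_off : ∀ j p, p ∉ Q → β j p = 0
  vT : ∀ p, 1 / 2 ≤ T p → T p ≤ 5 / 2 → ∑ j, v j p * K.Dv b j T p = 1
  wT : ∀ p, 1 / 2 ≤ T p → T p ≤ 5 / 2 → ∑ j, w j p * K.Dv b j T p = 0
  dec : ∀ p, 1 / 2 ≤ T p → T p ≤ 5 / 2 → ∀ j, K.X b j p =
    K.Dv b j T p • (∑ k, v k p • K.X b k p) + β j p • (∑ k, w k p • K.X b k p)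
  wne : ∀ p, 1 / 2 ≤ T p → T p ≤ 5 / 2 → ∑ k, w k p • K.X b k p ≠ 0
  inner : ∀ p, T p ≤ 11 / 10 → (∀ᶠ q in 𝓝 p, χ q = 1) ∧ ∃ j, K.Dv b j X p ≠ 0
  outer : ∀ p, 19 / 10 ≤ T p → ∀ᶠ q in 𝓝 p, χ q = 0

theorem exists_disc [T2Space M] (b : Module.Basis (Fin 2) ℝ E) {c : M} {U : Set M}
    (hU : IsOpen U) (hcU : c ∈ U) : Nonempty (Disc K b c U) := by
  classical
  have : FiniteDimensional ℝ E := b.finiteDimensional_of_finite
  obtain ⟨i, hc⟩ := K.cov c
  obtain ⟨ρ, hρ, Q, hQc, hQU, hQ⟩ := exists_rho K b hc hU hcU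
  have hcs := K.V_sub i hc
  -- local functions
  let yc : E := K.ph i c
  let S : Set M := (K.ph i).source
  have hS : IsOpen S := K.isOpen_source i
  have hQS : Q ⊆ S := fun p hp => K.V_sub i (hQU hp).2
  have hsm : ∀ {g : E → ℝ}, ContDiff ℝ ∞ g →
      ContMDiffOn 𝓘(ℝ, E) 𝓘(ℝ, ℝ) ∞ (fun p => g (K.ph i p)) S := by
    intro g hg
    have h1 : ContMDiffOn 𝓘(ℝ, E) 𝓘(ℝ, E) ∞ (K.ph i) S := by
      have := contMDiffOn_extChartAt (I := 𝓘(ℝ, E)) (n := ∞) (x := K.c i)
      rwa [← extChartAt_source 𝓘(ℝ, E)] at this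
    exact hg.contMDiff.comp_contMDiffOn h1
  have hglue : ∀ (g : E → ℝ) (k : ℝ), ContDiff ℝ ∞ g → (∀ y, 9 ≤ radE b yc ρ y → g y = k) →
      ContMDiff 𝓘(ℝ, E) 𝓘(ℝ, ℝ) ∞ (fun p => if p ∈ S then g (K.ph i p) else k) ∧
      ∀ p, p ∉ Q → (if p ∈ S then g (K.ph i p) else k) = k := by
    intro g k hg hk
    have hoff : ∀ p, p ∉ Q → (if p ∈ S then g (K.ph i p) else k) = k := by
      intro p hp
      by_cases hpS : p ∈ S
      · rw [if_pos hpS]
        apply hk
        by_contra hlt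
        exact hp (hQ p hpS (not_le.1 hlt))
      · rw [if_neg hpS]
    refine ⟨contMDiff_glue hS hQc hQS (c := k) ?_ hoff, hoff⟩
    apply (hsm hg).congr
    intro p hp
    rw [if_pos hp]
  -- the functions
  let gT : E → ℝ := fun y => kap (radE b yc ρ y)
  let gY : Fin 2 → E → ℝ := fun a y => cut 4 5 (radE b yc ρ y) * crdE b yc ρ a y
  let gχ : E → ℝ := fun y => cut (12 / 10) (18 / 10) (radE b yc ρ y)
  obtain ⟨smT, offT⟩ := hglue gT 4 (contDiff_kap.comp (contDiff_radE b yc ρ))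
    (fun y hy => kap_of_ge (by linarith))
  have hY : ∀ a, _ := fun a => hglue (gY a) 0
    (((contDiff_cut 4 5).comp (contDiff_radE b yc ρ)).mul (contDiff_crdE b yc ρ a))
    (fun y hy => by
      show cut 4 5 (radE b yc ρ y) * _ = 0
      rw [cut_eq_zero (by norm_num) (by linarith), zero_mul])
  obtain ⟨smχ, offχ⟩ := hglue gχ 0 ((contDiff_cut _ _).comp (contDiff_radE b yc ρ))
    (fun y hy => cut_eq_zero (by norm_num) (by linarith))
  let T : M → ℝ := fun p => if p ∈ S then gT (K.ph i p) else 4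
  let Y : Fin 2 → M → ℝ := fun a p => if p ∈ S then gY a (K.ph i p) else 0
  let χ : M → ℝ := fun p => if p ∈ S then gχ (K.ph i p) else 0
  have smY : ∀ a, ContMDiff 𝓘(ℝ, E) 𝓘(ℝ, ℝ) ∞ (Y a) := fun a => (hY a).1
  have offY : ∀ a p, p ∉ Q → Y a p = 0 := fun a => (hY a).2
  have smT' : ContMDiff 𝓘(ℝ, E) 𝓘(ℝ, ℝ) ∞ T := smT
  have offT' : ∀ p, p ∉ Q → T p = 4 := offT
  -- continuity of the radius
  have hrc : ∀ p ∈ S, ContinuousAt (fun p => radE b yc ρ (K.ph i p)) p := by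
    intro p hp
    exact ((hsm (contDiff_radE b yc ρ)).continuousOn).continuousAt (hS.mem_nhds hp)
  -- points with small `T`
  have hsmall : ∀ p, T p < 3 → p ∈ S ∧ radE b yc ρ (K.ph i p) < 3 ∧ p ∈ K.V i ∧
      T p = radE b yc ρ (K.ph i p) := by
    intro p hp
    have hpS : p ∈ S := by
      by_contra h
      have : T p = 4 := if_neg h
      linarith
    have h1 : T p = kap (radE b yc ρ (K.ph i p)) := if_pos hpS
    rw [h1] at hp
    have h2 := le_of_kap_lt le_rfl hp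
    exact ⟨hpS, h2, (hQU (hQ p hpS (by linarith))).2, by rw [h1, kap_of_le h2.le]⟩
  have hev : ∀ p, T p < 3 → ∀ᶠ q in 𝓝 p, T q = radE b yc ρ (K.ph i q) ∧
      ∀ a, Y a q = crdE b yc ρ a (K.ph i q) := by
    intro p hp
    obtain ⟨hpS, hr, -, -⟩ := hsmall p hp
    filter_upwards [hS.mem_nhds hpS, (hrc p hpS).eventually (gt_mem_nhds hr)] with q hq hqr
    refine ⟨?_, fun a => ?_⟩
    · show (if q ∈ S then gT (K.ph i q) else 4) = _
      rw [if_pos hq]
      exact kap_of_le (le_of_lt hqr)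
    · show (if q ∈ S then gY a (K.ph i q) else 0) = _
      rw [if_pos hq]
      show cut 4 5 (radE b yc ρ (K.ph i q)) * _ = _
      rw [cut_eq_one (by norm_num) (by linarith [show radE b yc ρ (K.ph i q) < 3 from hqr]), one_mul]
  have hDT : ∀ p, T p < 3 → ∀ a, K.Dv b (i, a) T p = 2 * Y a p / ρ := by
    intro p hp a
    have h1 := Dv_loc K b (hsmall p hp).2.2.1 (g := radE b yc ρ)
      ((hev p hp).mono fun q hq => hq.1) a
    rw [h1, fderiv_radE, (hev p hp).self_of_nhds.2 a]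
  have hDY : ∀ p, T p < 3 → ∀ a a', K.Dv b (i, a') (Y a) p = (if a = a' then 1 else 0) / ρ := by
    intro p hp a a'
    have h1 := Dv_loc K b (hsmall p hp).2.2.1 (g := crdE b yc ρ a)
      ((hev p hp).mono fun q hq => hq.2 a) a'
    rw [h1, fderiv_crdE]
  have hTY : ∀ p, T p < 3 → T p = Y 0 p ^ 2 + Y 1 p ^ 2 := by
    intro p hp
    have h1 := (hev p hp).self_of_nhds
    rw [h1.1, h1.2, h1.2]
    rfl
  let v : Fin K.n × Fin 2 → M → ℝ := fun j p =>
    if j.1 = i then inv' (T p) * (ρ / 2) * Y j.2 p else 0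
  let w : Fin K.n × Fin 2 → M → ℝ := fun j p =>
    if j.1 = i then (if j.2 = 0 then - Y 1 p else Y 0 p) else 0
  let β : Fin K.n × Fin 2 → M → ℝ := fun j p =>
    ρ * inv' (T p) * (Y 0 p * K.Dv b j (Y 1) p - Y 1 p * K.Dv b j (Y 0) p)
  have smI : ContMDiff 𝓘(ℝ, E) 𝓘(ℝ, ℝ) ∞ (fun p => inv' (T p)) :=
    contDiff_inv'.comp_contMDiff smT'
  have smv : ∀ j, ContMDiff 𝓘(ℝ, E) 𝓘(ℝ, ℝ) ∞ (v j) := by
    intro j
    by_cases hj : j.1 = i
    · have : v j = fun p => inv' (T p) * (ρ / 2) * Y j.2 p := by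
        funext p
        exact if_pos hj
      rw [this]
      exact (smI.mul contMDiff_const).mul (smY j.2)
    · have : v j = fun p => 0 := by
        funext p
        exact if_neg hj
      rw [this]
      exact contMDiff_const
  have smw : ∀ j, ContMDiff 𝓘(ℝ, E) 𝓘(ℝ, ℝ) ∞ (w j) := by
    intro j
    by_cases hj : j.1 = i
    · by_cases hj2 : j.2 = 0
      · have : w j = fun p => - Y 1 p := by
          funext p
          show (if j.1 = i then (if j.2 = 0 then - Y 1 p else Y 0 p) else 0) = _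
          rw [if_pos hj, if_pos hj2]
        rw [this]
        exact (smY 1).neg
      · have : w j = fun p => Y 0 p := by
          funext p
          show (if j.1 = i then (if j.2 = 0 then - Y 1 p else Y 0 p) else 0) = _
          rw [if_pos hj, if_neg hj2]
        rw [this]
        exact (smY 0)
    · have : w j = fun p => 0 := by
        funext p
        exact if_neg hj
      rw [this]
      exact contMDiff_const
  have smβ : ∀ j, ContMDiff 𝓘(ℝ, E) 𝓘(ℝ, ℝ) ∞ (β j) := by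
    intro j
    exact (contMDiff_const.mul smI).mul (((smY 0).mul (K.Dv_contMDiff b (smY 1) j)).sub
      ((smY 1).mul (K.Dv_contMDiff b (smY 0) j)))
  -- values of the fields at small points
  have hvv : ∀ p, ∀ f : Fin K.n × Fin 2 → ℝ, ∑ j, v j p * f j =
      v (i, 0) p * f (i, 0) + v (i, 1) p * f (i, 1) := by
    intro p f
    apply sum_one i
    intro j hj
    rw [show v j p = 0 from if_neg hj, zero_mul]
  have hww : ∀ p, ∀ f : Fin K.n × Fin 2 → ℝ, ∑ j, w j p * f j =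
      w (i, 0) p * f (i, 0) + w (i, 1) p * f (i, 1) := by
    intro p f
    apply sum_one i
    intro j hj
    rw [show w j p = 0 from if_neg hj, zero_mul]
  have v0 : ∀ a p, v (i, a) p = inv' (T p) * (ρ / 2) * Y a p := fun a p => if_pos rfl
  have w0 : ∀ p, w (i, 0) p = - Y 1 p := fun p => by
    show (if (i : Fin K.n) = i then (if (0 : Fin 2) = 0 then - Y 1 p else Y 0 p) else 0) = _
    rw [if_pos rfl, if_pos rfl]
  have w1 : ∀ p, w (i, 1) p = Y 0 p := fun p => by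
    show (if (i : Fin K.n) = i then (if (1 : Fin 2) = 0 then - Y 1 p else Y 0 p) else 0) = _
    rw [if_pos rfl, if_neg (by decide)]
  have hXv : ∀ p, (∑ k, v k p • K.X b k p) =
      v (i, 0) p • K.X b (i, 0) p + v (i, 1) p • K.X b (i, 1) p := by
    intro p
    apply sum_one i
    intro j hj
    rw [show v j p = 0 from if_neg hj, zero_smul]
  have hXw : ∀ p, (∑ k, w k p • K.X b k p) =
      w (i, 0) p • K.X b (i, 0) p + w (i, 1) p • K.X b (i, 1) p := by
    intro p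
    apply sum_one i
    intro j hj
    rw [show w j p = 0 from if_neg hj, zero_smul]
  refine ⟨⟨T, Y 0, χ, v, w, β, Q, hQc, fun p hp => (hQU hp).1, smT, smY 0, smχ, smv, smw, smβ,
    ?_, offT, offY 0, offχ, ?_, ?_, ?_, ?_, ?_, ?_, ?_, ?_, ?_⟩⟩
  · show (if c ∈ S then gT (K.ph i c) else 4) = 0
    rw [if_pos hcs]
    show kap (radE b yc ρ (K.ph i c)) = 0
    have : radE b yc ρ (K.ph i c) = 0 := by simp [radE, crdE, yc]
    rw [this, kap_of_le (by norm_num)]
  · intro j p hp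
    show (if j.1 = i then inv' (T p) * (ρ / 2) * Y j.2 p else 0) = 0
    rw [offY j.2 p hp, mul_zero, ite_self]
  · intro j p hp
    show (if j.1 = i then (if j.2 = 0 then - Y 1 p else Y 0 p) else 0) = 0
    rw [offY 0 p hp, offY 1 p hp, neg_zero, ite_self, ite_self]
  · intro j p hp
    show ρ * inv' (T p) * (Y 0 p * K.Dv b j (Y 1) p - Y 1 p * K.Dv b j (Y 0) p) = 0
    rw [offY 0 p hp, offY 1 p hp]
    ring
  · intro p h1 h2
    have h3 : T p < 3 := by linarith
    have hT := hTY p h3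
    rw [hvv p, hDT p h3, hDT p h3, v0, v0, inv'_eq (by linarith)]
    have hT0 : T p ≠ 0 := by linarith
    field_simp
    linarith
  · intro p h1 h2
    have h3 : T p < 3 := by linarith
    rw [hww p, hDT p h3, hDT p h3, w0, w1]
    field_simp
    ring
  · intro p h1 h2 j
    have h3 : T p < 3 := by linarith
    have hT := hTY p h3
    obtain ⟨-, -, hpV, -⟩ := hsmall p h3
    obtain ⟨c0, c1, hX, hD⟩ := X_comb K (F := ℝ) b hpV j
    have hT0 : T p ≠ 0 := by linarith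
    have e1 : K.Dv b j T p = 2 * (c0 * Y 0 p + c1 * Y 1 p) / ρ := by
      rw [hD smT', hDT p h3, hDT p h3]
      simp only [smul_eq_mul]
      ring
    have e2 : K.Dv b j (Y 0) p = c0 / ρ := by
      rw [hD (smY 0), hDY p h3, hDY p h3]
      simp
      ring
    have e3 : K.Dv b j (Y 1) p = c1 / ρ := by
      rw [hD (smY 1), hDY p h3, hDY p h3]
      simp
      ring
    have e4 : β j p = (Y 0 p * c1 - Y 1 p * c0) / T p := by
      show ρ * inv' (T p) * (Y 0 p * K.Dv b j (Y 1) p - Y 1 p * K.Dv b j (Y 0) p) = _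
      rw [e2, e3, inv'_eq (by linarith)]
      field_simp
    rw [hXv, hXw, v0, v0, w0, w1, e1, e4, inv'_eq (by linarith), hX]
    have k0 : c0 = 2 * (c0 * Y 0 p + c1 * Y 1 p) / ρ * ((T p)⁻¹ * (ρ / 2) * Y 0 p)
        + (Y 0 p * c1 - Y 1 p * c0) / T p * (- Y 1 p) := by
      field_simp
      rw [hT]
      ring
    have k1 : c1 = 2 * (c0 * Y 0 p + c1 * Y 1 p) / ρ * ((T p)⁻¹ * (ρ / 2) * Y 1 p)
        + (Y 0 p * c1 - Y 1 p * c0) / T p * (Y 0 p) := by
      field_simp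
      rw [hT]
      ring
    have key : ∀ (x y : TangentSpace 𝓘(ℝ, E) p) (A B v0 v1 w0 w1 : ℝ), c0 = A * v0 + B * w0 →
        c1 = A * v1 + B * w1 → c0 • x + c1 • y = A • (v0 • x + v1 • y) + B • (w0 • x + w1 • y) := by
      intro x y A B v0 v1 w0 w1 hc0 hc1
      rw [hc0, hc1]
      module
    exact key _ _ _ _ _ _ _ _ k0 k1
  · intro p h1 h2 h0
    have h3 : T p < 3 := by linarith
    have hT := hTY p h3
    obtain ⟨-, -, hpV, -⟩ := hsmall p h3
    rw [hXw] at h0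
    obtain ⟨z0, z1⟩ := X_indep K b hpV h0
    rw [w0] at z0
    rw [w1] at z1
    have : T p = 0 := by
      rw [hT, z1, neg_eq_zero.1 z0]
      ring
    linarith
  · intro p h1
    have h3 : T p < 3 := by linarith
    obtain ⟨hpS, hr, hpV, hTr⟩ := hsmall p h3
    refine ⟨?_, ⟨(i, 0), ?_⟩⟩
    · have h4 : radE b yc ρ (K.ph i p) < 12 / 10 := by rw [← hTr]; linarith
      filter_upwards [hS.mem_nhds hpS, (hrc p hpS).eventually (gt_mem_nhds h4)] with q hq hqr
      show (if q ∈ S then gχ (K.ph i q) else 0) = 1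
      rw [if_pos hq]
      exact cut_eq_one (by norm_num) (le_of_lt hqr)
    · rw [hDY p h3]
      simp [hρ.ne']
  · intro p h1
    by_cases hpS : p ∈ S
    · have h4 : 18 / 10 < radE b yc ρ (K.ph i p) := by
        by_contra hlt
        push Not at hlt
        have h5 : T p = kap (radE b yc ρ (K.ph i p)) := if_pos hpS
        rw [kap_of_le (by linarith)] at h5
        linarith
      filter_upwards [hS.mem_nhds hpS, (hrc p hpS).eventually (lt_mem_nhds h4)] with q hq hqr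
      show (if q ∈ S then gχ (K.ph i q) else 0) = 0
      rw [if_pos hq]
      exact cut_eq_zero (by norm_num) (le_of_lt hqr)
    · have h4 : p ∉ Q := fun h => hpS (hQS h)
      filter_upwards [hQc.isOpen_compl.mem_nhds h4] with q hq
      exact offχ q hq

end disc

end Vale.Agent.P205.TW.Data
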