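import Vale.Agent.P205.TW.PrimM
import Vale.Agent.P205.TW.LineOf
import Vale.Agent.P205.TW.CoverIn

/-!
P205, scheme T1W, block DATA on the cover: odd functions from sections of the line field,
primitive decomposition on the cover (`PrimC`).
-/

noncomputable section

set_option linter.unusedSectionVars false

open scoped Manifold ContDiff Topology RealInnerProductSpace
open Set Filter

namespace Vale.Agent.P205.TW.Data

open Vale.Agent.P205.F

/-- the space of values -/
abbrev W4 : Type := EuclideanSpace ℝ (Fin 4)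

variable {E : Type*} [NormedAddCommGroup E] [NormedSpace ℝ E]
  {M : Type*} [TopologicalSpace M] [ChartedSpace E M] (K : Cov E M)
  (b : Module.Basis (Fin 2) ℝ E) [IsManifold 𝓘(ℝ, E) ∞ M] [CompactSpace M] (H : ImmN E M)

/-- the unit vector of a point of the cover -/
def nv (x : (lineM K b H).Pt) : W4 := WithLp.toLp 2 x.1.2

lemma nv_apply (x : (lineM K b H).Pt) (k : Fin 4) :
    ((nv K b H x k : ℝ) : ℂ) = (lineM K b H).n k x := rfl

lemma NM_nv (x : (lineM K b H).Pt) : NM K b H ((lineM K b H).pi x) (nv K b H x) := x.2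

/-- the odd function of a section -/
def oddf (B : M → W4) (x : (lineM K b H).Pt) : ℂ :=
  ((⟪B ((lineM K b H).pi x), nv K b H x⟫ : ℝ) : ℂ)

lemma oddf_eq (B : M → W4) (x : (lineM K b H).Pt) :
    oddf K b H B x = 0 + ∑ k, ((B ((lineM K b H).pi x) k : ℝ) : ℂ) * (lineM K b H).n k x := by
  unfold oddf
  rw [inner_eq_dt4, dt4, zero_add]
  push_cast
  rfl

lemma sm_comp4 {B : M → W4} (hB : ContMDiff 𝓘(ℝ, E) 𝓘(ℝ, W4) ∞ B) (k : Fin 4) :
    (K.dalg b).Sm (fun p => ((B p k : ℝ) : ℂ)) :=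
  (K.dalg_Sm b).2 (Complex.ofRealCLM.contDiff.comp_contMDiff
    ((EuclideanSpace.proj k : W4 →L[ℝ] ℝ).contDiff.comp_contMDiff hB))

lemma D_comp4 {B : M → W4} (hB : ContMDiff 𝓘(ℝ, E) 𝓘(ℝ, W4) ∞ B) (j : Fin K.n × Fin 2)
    (k : Fin 4) (p : M) :
    (K.dalg b).D j (fun p => ((B p k : ℝ) : ℂ)) p = ((K.Dv b j B p k : ℝ) : ℂ) := by
  rw [Cov.dalg_D]
  exact congrFun (K.Dv_clm b (Complex.ofRealCLM.comp
    (EuclideanSpace.proj k : W4 →L[ℝ] ℝ)) hB j) p

lemma smc_oddf {B : M → W4} (hB : ContMDiff 𝓘(ℝ, E) 𝓘(ℝ, W4) ∞ B) :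
    (lineM K b H).Smc (oddf K b H B) :=
  Line.smc_of (a := fun _ => 0) (b := fun k p => ((B p k : ℝ) : ℂ))
    ((K.dalg b).sm_const 0) (fun k => sm_comp4 K b hB k) (oddf_eq K b H B)

lemma rl_oddf (B : M → W4) : Rl (oddf K b H B) := fun _ => Complex.ofReal_im _

lemma odd_oddf (B : M → W4) : Odd' (lineM K b H).sg (oddf K b H B) := by
  intro x
  rw [oddf_eq, oddf_eq, Line.pi_sg]
  simp only [Line.n_sg, mul_neg, Finset.sum_neg_distrib, zero_add]

lemma od_oddf {B : M → W4} (hsec : Sec (NM K b H) B) (k : Fin 4) :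
    (lineM K b H).od (oddf K b H B) k = fun p => ((B p k : ℝ) : ℂ) := by
  rw [Line.od_of (a := fun _ => 0) (b := fun k p => ((B p k : ℝ) : ℂ)) (oddf_eq K b H B)]
  funext p
  have h1 := hsec p (nv K b H ((lineM K b H).s0 p)) (NM_nv K b H ((lineM K b H).s0 p))
  have h2 : B p k = ⟪B p, nv K b H ((lineM K b H).s0 p)⟫ * nv K b H ((lineM K b H).s0 p) k := by
    conv_lhs => rw [h1]
    rfl
  rw [h2, inner_eq_dt4, dt4]
  push_cast
  rw [Finset.sum_mul]
  refine Finset.sum_congr rfl fun l _ => ?_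
  rw [mul_assoc]
  rfl

/-- derivative of the odd function of a section -/
theorem D_oddf {B : M → W4} (hB : ContMDiff 𝓘(ℝ, E) 𝓘(ℝ, W4) ∞ B) (hsec : Sec (NM K b H) B)
    (j : Fin K.n × Fin 2) :
    (lineM K b H).cover.D j (oddf K b H B) = oddf K b H (K.Dv b j B) := by
  funext x
  rw [Line.cover_D, Line.Dc, Line.ev_of (a := fun _ => 0)
    (b := fun k p => ((B p k : ℝ) : ℂ)) (oddf_eq K b H B), oddf_eq]
  simp only [od_oddf K b H hsec, D_comp4 K b hB, (K.dalg b).D_const, Pi.zero_apply]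

/-- product of an even function and the odd function of a section -/
lemma oddf_smul (f : M → ℝ) (B : M → W4) (x : (lineM K b H).Pt) :
    oddf K b H (fun p => f p • B p) x =
      ((f ((lineM K b H).pi x) : ℝ) : ℂ) * oddf K b H B x := by
  unfold oddf
  rw [real_inner_smul_left]
  push_cast
  rfl

/-- square of the odd function of a unit section -/
lemma oddf_sq {ν : M → W4} (hsec : Sec (NM K b H) ν) {x : (lineM K b H).Pt}
    (h1 : ⟪ν ((lineM K b H).pi x), ν ((lineM K b H).pi x)⟫ = 1) :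
    oddf K b H ν x * oddf K b H ν x = 1 := by
  have h2 := hsec _ _ (NM_nv K b H x)
  have h3 : ⟪ν ((lineM K b H).pi x), nv K b H x⟫ * ⟪ν ((lineM K b H).pi x), nv K b H x⟫ = 1 := by
    have h4 := congrArg (fun v => ⟪ν ((lineM K b H).pi x), v⟫) h2
    simp only [real_inner_smul_right] at h4
    rw [← h4, h1]
  unfold oddf
  exact_mod_cast h3

/-- derivative of the odd function of a unit section -/
lemma D_oddf_unit {ν : M → W4} (hν : ContMDiff 𝓘(ℝ, E) 𝓘(ℝ, W4) ∞ ν)
    (hsec : Sec (NM K b H) ν) {x : (lineM K b H).Pt}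
    (h1 : ∀ᶠ q in 𝓝 ((lineM K b H).pi x), ⟪ν q, ν q⟫ = 1) (j : Fin K.n × Fin 2) :
    oddf K b H (K.Dv b j ν) x = 0 := by
  have h2 := Dv_unit K b hν h1 j
  have h3 := (lineM_NM K b H).loc ((lineM K b H).pi x)
  obtain ⟨μ, O, hO, hpO, -, hμ⟩ := h3
  have h4 := (hμ _ hpO _).1 (NM_nv K b H x)
  have h5 := hsec _ _ (NM_nv K b H x)
  have h6 : ⟪K.Dv b j ν ((lineM K b H).pi x), nv K b H x⟫ = 0 := by
    rw [h5, real_inner_smul_right] at h2
    rcases mul_eq_zero.1 h2 with h | h
    · exfalso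
      have h7 := h1.self_of_nhds
      rw [h5, h, zero_smul, inner_zero_left] at h7
      exact zero_ne_one h7
    · exact h
  unfold oddf
  rw [h6, Complex.ofReal_zero]

/-- relations for real functions hold for complex functions -/
lemma rel_complex {p : M} {c : Fin K.n × Fin 2 → ℝ}
    (h : ∀ u : M → ℝ, ContMDiff 𝓘(ℝ, E) 𝓘(ℝ, ℝ) ∞ u → ∑ j, c j * K.Dv b j u p = 0)
    {u : M → ℂ} (hu : (K.dalg b).Sm u) : ∑ j, (c j : ℂ) * (K.dalg b).D j u p = 0 := by
  have hu' : ContMDiff 𝓘(ℝ, E) 𝓘(ℝ, ℂ) ∞ u := (K.dalg_Sm b).1 hu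
  have h1 := h (fun p => (u p).re) (Complex.reCLM.contDiff.comp_contMDiff hu')
  have h2 := h (fun p => (u p).im) (Complex.imCLM.contDiff.comp_contMDiff hu')
  have e1 : ∀ j, K.Dv b j (fun p => (u p).re) p = (K.Dv b j u p).re := fun j =>
    congrFun (K.Dv_clm b Complex.reCLM hu' j) p
  have e2 : ∀ j, K.Dv b j (fun p => (u p).im) p = (K.Dv b j u p).im := fun j =>
    congrFun (K.Dv_clm b Complex.imCLM hu' j) p
  simp only [e1] at h1
  simp only [e2] at h2
  apply Complex.ext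
  · rw [Complex.re_sum, Complex.zero_re, ← h1]
    refine Finset.sum_congr rfl fun j _ => ?_
    rw [Complex.re_ofReal_mul, Cov.dalg_D]
  · rw [Complex.im_sum, Complex.zero_im, ← h2]
    refine Finset.sum_congr rfl fun j _ => ?_
    rw [Complex.im_ofReal_mul, Cov.dalg_D]

/-- **PRIM on the cover** -/
theorem primC_cover [T2Space M]
    (g : Fin K.n × Fin 2 → Fin K.n × Fin 2 → (lineM K b H).Pt → ℂ)
    (hg : ∀ (x : (lineM K b H).Pt) (ξ : Fin K.n × Fin 2 → ℝ),
      (∃ u : M → ℝ, ContMDiff 𝓘(ℝ, E) 𝓘(ℝ, ℝ) ∞ u ∧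
        ∑ j, ξ j * K.Dv b j u ((lineM K b H).pi x) ≠ 0) → 0 < qfm g x ξ) :
    PrimC (lineM K b H).cover (lineM K b H).sg g := by
  intro T hT hev ⟨c, hc, hpos⟩
  have hTe : ∀ j k x, T j k x = ((((lineM K b H).ev (T j k) ((lineM K b H).pi x)).re : ℝ) : ℂ) := by
    intro j k x
    have h1 := Line.eq_ev_of_even (L := lineM K b H) (hev j k) x
    have h2 : (T j k x).im = 0 := (hT.2 j k).2 x
    rw [← h1]
    exact Complex.ext rfl h2
  let T' : Fin K.n × Fin 2 → Fin K.n × Fin 2 → M → ℝ := fun j k p =>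
    ((lineM K b H).ev (T j k) p).re
  have hTen : TenM K b T' := by
    refine ⟨?_, ?_, ?_, ?_⟩
    · intro j k
      exact Complex.reCLM.contDiff.comp_contMDiff ((K.dalg_Sm b).1 (hT.2 j k).1.1)
    · intro j k p
      show ((lineM K b H).ev (T j k) p).re = ((lineM K b H).ev (T k j) p).re
      rw [hT.1.1 j k]
    · intro p c' h k
      have h1 := hT.1.2 ((lineM K b H).s0 p) (fun j => (c' j : ℂ)) (by
        intro u hu
        obtain ⟨i, hi⟩ := (lineM K b H).cov ((lineM K b H).pi ((lineM K b H).s0 p))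
        obtain ⟨s, -, hs⟩ := Line.sheet (L := lineM K b H) (i := i) hi
        have h3 : ∀ j, (lineM K b H).cover.D j u ((lineM K b H).s0 p) =
            (K.dalg b).D j ((lineM K b H).ev u) p +
              s * (K.dalg b).D j ((lineM K b H).be u i) p := by
          intro j
          rw [Line.cover_D, Line.Dc_be hu hi hs]
          rfl
        simp_rw [h3, mul_add]
        rw [Finset.sum_add_distrib, rel_complex K b h hu.1, zero_add]
        have h4 : ∑ j, (c' j : ℂ) * (s * (K.dalg b).D j ((lineM K b H).be u i) p) =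
            s * ∑ j, (c' j : ℂ) * (K.dalg b).D j ((lineM K b H).be u i) p := by
          rw [Finset.mul_sum]
          exact Finset.sum_congr rfl fun j _ => by ring
        rw [h4, rel_complex K b h (Line.sm_be hu i), mul_zero]) k
      have h2 : ∑ j, (c' j : ℂ) * T j k ((lineM K b H).s0 p) =
          ((∑ j, c' j * T' j k p : ℝ) : ℂ) := by
        push_cast
        refine Finset.sum_congr rfl fun j _ => ?_
        rw [hTe j k]
        rfl
      rw [h2] at h1
      exact_mod_cast h1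
    · intro p ξ hξ
      have h1 := hg ((lineM K b H).s0 p) ξ hξ
      have h2 := hpos ((lineM K b H).s0 p) ξ
      have h3 : qfm T ((lineM K b H).s0 p) ξ = ∑ j, ∑ k, T' j k p * ξ j * ξ k := by
        unfold qfm
        refine Finset.sum_congr rfl fun j _ => Finset.sum_congr rfl fun k _ => ?_
        rw [hTe j k, Complex.ofReal_re]
        rfl
      rw [← h3]
      exact lt_of_lt_of_le (mul_pos hc h1) h2
  obtain ⟨n, a, φ, ν, sa, sφ, sν, secν, hν1, hdec⟩ := exists_prim K b hTen (lineM_NM K b H)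
  have hsm : ∀ {u : M → ℝ}, ContMDiff 𝓘(ℝ, E) 𝓘(ℝ, ℝ) ∞ u → (K.dalg b).Sm (fun p => (u p : ℂ)) :=
    fun {u} hu => (K.dalg_Sm b).2 (Complex.ofRealCLM.contDiff.comp_contMDiff hu)
  have hsec' : ∀ m, Sec (NM K b H) (fun p => φ m p • ν m p) := by
    intro m p n hn
    show φ m p • ν m p = ⟪φ m p • ν m p, n⟫ • n
    rw [real_inner_smul_left, mul_smul, ← secν m p n hn]
  refine ⟨n, fun m x => ((a m ((lineM K b H).pi x) : ℝ) : ℂ),
    fun m => oddf K b H (fun p => φ m p • ν m p), ?_, ?_, ?_, ?_, ?_⟩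
  · intro m
    exact ⟨Line.sm_pi_iff.2 (hsm (sa m)), fun _ => Complex.ofReal_im _⟩
  · intro m
    exact ⟨smc_oddf K b H ((sφ m).smul (sν m)), rl_oddf K b H _⟩
  · intro m x
    rfl
  · intro m
    exact odd_oddf K b H _
  · intro j k x
    rw [hTe j k x]
    have h1 := hdec j k ((lineM K b H).pi x)
    have h2 : ((((lineM K b H).ev (T j k) ((lineM K b H).pi x)).re : ℝ) : ℂ) =
        ((T' j k ((lineM K b H).pi x) : ℝ) : ℂ) := rfl
    rw [h2, h1]
    push_cast
    refine Finset.sum_congr rfl fun m _ => ?_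
    by_cases h0 : a m ((lineM K b H).pi x) = 0
    · rw [h0]; simp
    · have hu := hν1 m _ h0
      have hD : ∀ j, (lineM K b H).cover.D j (oddf K b H (fun p => φ m p • ν m p)) x =
          ((K.Dv b j (φ m) ((lineM K b H).pi x) : ℝ) : ℂ) * oddf K b H (ν m) x := by
        intro j
        have hsmm : ContMDiff 𝓘(ℝ, E) 𝓘(ℝ, W4) ∞ (fun p => φ m p • ν m p) := (sφ m).smul (sν m)
        rw [D_oddf K b H hsmm (hsec' m)]
        have h3 : oddf K b H (K.Dv b j (fun p => φ m p • ν m p)) x =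
            oddf K b H (fun p => K.Dv b j (φ m) p • ν m p) x +
              oddf K b H (fun p => φ m p • K.Dv b j (ν m) p) x := by
          unfold oddf
          rw [Dv_smul K b (sφ m) (sν m), inner_add_left]
          push_cast
          rfl
        rw [h3, oddf_smul, oddf_smul, D_oddf_unit K b H (sν m) (secν m) hu, mul_zero, add_zero]
      rw [hD j, hD k]
      have h4 := oddf_sq K b H (secν m) hu.self_of_nhds
      linear_combination (-((a m ((lineM K b H).pi x) : ℂ) ^ 2 *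
        (((K.Dv b j (φ m) ((lineM K b H).pi x) : ℝ) : ℂ) *
        ((K.Dv b k (φ m) ((lineM K b H).pi x) : ℝ) : ℂ)))) * h4

end Vale.Agent.P205.TW.Data
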