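import Vale.Agent.P205.TW.DataCover
import Vale.Agent.P205.TW.PrimC

/-!
P205, scheme T1W, DATA on the cover (C3): **final theorem** `exists_geoC`.
-/

noncomputable section

open scoped Manifold ContDiff Topology RealInnerProductSpace
open Set Filter

namespace Vale.Agent.P205.TW.DC

open Vale.Agent.P205.F Vale.Agent.P205.TW Vale.Agent.P205.TW.Data

universe u

variable {E : Type} [NormedAddCommGroup E] [NormedSpace ℝ E]
  {M : Type u} [TopologicalSpace M] [ChartedSpace E M] [IsManifold 𝓘(ℝ, E) ∞ M] [CompactSpace M]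
  (K : Cov E M) (b : Module.Basis (Fin 2) ℝ E) (H : ImmN E M)
  (g : Bundle.ContMDiffRiemannianMetric 𝓘(ℝ, E) ∞ E
    (fun x : M => TangentSpace 𝓘(ℝ, E) x))

lemma gC_pos (x : (lineM K b H).Pt) (ξ : Fin K.n × Fin 2 → ℝ)
    (h : ∃ u : M → ℝ, ContMDiff 𝓘(ℝ, E) 𝓘(ℝ, ℝ) ∞ u ∧
      ∑ j, ξ j * K.Dv b j u ((lineM K b H).pi x) ≠ 0) : 0 < qfm (gC K b H g) x ξ := by
  have : FiniteDimensional ℝ E := Module.Basis.finiteDimensional_of_finite b
  obtain ⟨u, hu, hne⟩ := h
  rw [qfm_gC]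
  refine g.pos ((lineM K b H).pi x) (∑ j, ξ j • K.XE b j ((lineM K b H).pi x) : E) ?_
  intro h0
  apply hne
  have h1 : ∀ j, ξ j * K.Dv b j u ((lineM K b H).pi x) =
      ξ j • Cov.dfE u ((lineM K b H).pi x) (K.XE b j ((lineM K b H).pi x)) := by
    intro j
    rw [K.Dv_eqE b hu, smul_eq_mul]
  rw [Finset.sum_congr rfl fun j _ => h1 j, ← Cov.clm_exp (Cov.dfE u ((lineM K b H).pi x)) (c := ξ)
    (w := fun j => K.XE b j ((lineM K b H).pi x)) rfl]
  have h4 : (∑ j, ξ j • K.XE b j ((lineM K b H).pi x) : E) = 0 := h0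
  rw [h4, map_zero]

/-- **(C3)** the final data on the cover, for every pair `(F, ξ)` and every Riemannian metric -/
theorem exists_geoC [T2Space M] :
    Nonempty (GeoC (lineM K b H).cover (lineM K b H).sg (gC K b H g)) :=
  geoC_of_prim K b H g (primC_cover K b H _ (fun x ξ h => gC_pos K b H g x ξ h))

end Vale.Agent.P205.TW.DC
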