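import Vale.Agent.P205.TW.Cover
import Vale.Agent.P205.TW.DataDef

/-!
P205, scheme T1W, DATA on the cover: odd lifts of sections of the line field, lifts of tensors.
-/

noncomputable section

namespace Vale.Agent.P205.TW.DC

open Vale.Agent.P205.F Vale.Agent.P205.TW

section odd

variable {P κ I : Type*} {S : DAlg P κ} (L : Line S I)

/-- odd function of a section -/
def odl (Ψ : Fin 4 → P → ℂ) (x : L.Pt) : ℂ := ∑ k, Ψ k (L.pi x) * L.n k x

variable {L} {Ψ : Fin 4 → P → ℂ}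

lemma sm_odl (h : ∀ k, S.Sm (Ψ k)) : L.cover.Sm (odl L Ψ) :=
  Line.smc_of (a := fun _ => 0) (b := Ψ) (S.sm_const 0) h (fun x => by rw [zero_add]; rfl)

lemma rl_odl (h : ∀ k, Rl (Ψ k)) : Rl (odl L Ψ) := by
  intro x
  rw [odl, Complex.im_sum]
  refine Finset.sum_eq_zero fun k _ => ?_
  rw [Complex.mul_im, h k, Line.im_n]; ring

lemma odl_sg (x : L.Pt) : odl L Ψ (L.sg x) = -odl L Ψ x := by
  simp only [odl, Line.pi_sg, Line.n_sg, mul_neg, Finset.sum_neg_distrib]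

lemma od_odl (hs : ∀ k (x : L.Pt), Ψ k (L.pi x) = odl L Ψ x * L.n k x) (k : Fin 4) :
    L.od (odl L Ψ) k = Ψ k := by
  funext p
  have h1 := Line.od_pi (L := L) (odl L Ψ) k (L.s0 p)
  rw [Line.pi_s0, odl_sg] at h1
  rw [h1]
  have h2 := hs k (L.s0 p)
  rw [Line.pi_s0] at h2
  rw [h2]; ring

lemma ev_odl : L.ev (odl L Ψ) = fun _ => 0 :=
  Line.ev_of (a := fun _ => 0) (b := Ψ) (fun x => by rw [zero_add]; rfl)

lemma D_odl (hs : ∀ k (x : L.Pt), Ψ k (L.pi x) = odl L Ψ x * L.n k x) (j : κ) (x : L.Pt) :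
    L.cover.D j (odl L Ψ) x = ∑ k, S.D j (Ψ k) (L.pi x) * L.n k x := by
  rw [Line.cover_D, Line.Dc, ev_odl, S.D_const]
  simp only [od_odl hs, Pi.zero_apply, zero_add]

end odd

section tens

variable {P I : Type*} {κ : Type} [Fintype κ] {S : DAlg P κ} {L : Line S I}

/-- lift of a tensor -/
lemma isT_lift {T : κ → κ → P → ℂ} (h : S.IsT T) :
    L.cover.IsT (fun j k x => T j k (L.pi x)) := by
  refine ⟨fun j k => ?_, fun x c hc k => ?_⟩
  · funext x
    exact congrFun (h.1 j k) (L.pi x)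
  · refine h.2 (L.pi x) c (fun u hu => ?_) k
    have h1 := hc (fun x => u (L.pi x)) (Line.sm_pi_iff.2 hu)
    simp only [Line.D_pi] at h1
    exact h1

end tens

end Vale.Agent.P205.TW.DC
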