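import Vale.Agent.P205.F.T1M
import Vale.Agent.P205.TW.Parity
import Vale.Agent.P205.TW.CoverIn

/-!
P205, scheme T1W: descent of the model sequence from the cover to the surface, and the immersion
into `ℝ⁴` with a unit normal field obtained from an immersion into `ℝ³`.
-/

noncomputable section

set_option linter.unusedSectionVars false

open scoped Manifold ContDiff Topology
open Set Filter

namespace Vale.Agent.P205.TW

open Vale.Agent.P205.F

universe u

section abs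

variable {P : Type u} {κ : Type} [Fintype κ] {I : Type} {S : DAlg P κ}

/-- even model sequences exist on `S` with involution `τ` and metric `g` for every precision
`κ1`: the hypotheses of `DAlg.T1S` -/
def ModC (S : DAlg P κ) (τ : P → P) (g : κ → κ → P → ℂ) : Prop :=
  ∀ κ1 : ℝ, 0 < κ1 → ∃ (Lam δ : ℕ → ℝ) (f : ℕ → Fin 4 → P → ℂ) (c0 : ℝ),
    0 < c0 ∧ (∀ i, 1 ≤ Lam i) ∧ (∀ i, 0 < δ i) ∧ (∀ i, δ i ≤ 1) ∧
    Filter.Tendsto δ Filter.atTop (nhds 0) ∧
    (∀ i a, S.Sm (f i a)) ∧ (∀ i a, Rl (f i a)) ∧ (∀ i a, Evn τ (f i a)) ∧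
    (∀ a, S.FO Lam (fun _ => 1) (fun i => f i a)) ∧
    (∀ j a, S.FO Lam (fun _ => 1) (fun i => S.D j (f i a))) ∧
    (∀ i p, ∃ j1 j2 j k, c0 * Lam i ^ 2 ≤
      (gram3 (S.Dv j1 (f i)) (S.Dv j2 (f i)) (S.Dv j (S.Dv k (f i))) p).re) ∧
    (∀ i j k p, ‖g j k p - S.met (f i) j k p - δ i * g j k p‖ ≤ κ1 * δ i) ∧
    (∀ j k, S.FO Lam δ (fun i p => g j k p - S.met (f i) j k p))

/-- the cover is a covering in the sense of `IsCov` -/
theorem isCov_cover (L : Line S I) : IsCov L.cover S L.pi where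
  surj p := ⟨L.s0 p, Line.pi_s0 p⟩
  sm _ h := Line.sm_pi_iff.1 h
  D j u := Line.D_pi j u

/-- descent: an exact map on the base from even model sequences on the cover -/
theorem descend (L : Line S I) {g : κ → κ → P → ℂ} (h : S.T1S g)
    (hm : ModC L.cover L.sg (fun j k x => g j k (L.pi x))) :
    ∃ F : Fin 4 → P → ℂ, (∀ a, S.Sm (F a)) ∧ (∀ a, Rl (F a)) ∧
      ∀ j k p, S.met F j k p = g j k p := by
  obtain ⟨κ1, hκ1, h⟩ := h
  obtain ⟨Lam, δ, f, c0, hc0, hL, hδ, hδ1, hlim, hs, hr, he, h1, h2, h3, h4, h5⟩ := hm κ1 hκ1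
  have hC := isCov_cover L
  -- the maps on the base
  let F : ℕ → Fin 4 → P → ℂ := fun i a => L.ev (f i a)
  have hF : ∀ i a, f i a = fun x => F i a (L.pi x) := fun i a =>
    funext fun x => Line.eq_ev_of_even (he i a) x
  have hF' : ∀ i, f i = fun a x => F i a (L.pi x) := fun i => funext fun a => hF i a
  have hmet : ∀ i j k x, L.cover.met (f i) j k x = S.met (F i) j k (L.pi x) := by
    intro i j k x
    rw [hF' i]
    exact hC.met (F i) j k x
  refine h Lam δ F c0 hc0 hL hδ hδ1 hlim (fun i a => (hs i a).1) (fun i a => ?_) (fun a => ?_)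
    (fun j a => ?_) (fun i p => ?_) (fun i j k p => ?_) (fun j k => ?_)
  · refine hC.rl ?_
    rw [← hF i a]
    exact hr i a
  · refine hC.fo ?_
    have : (fun i => f i a) = fun i x => F i a (L.pi x) := funext fun i => hF i a
    rw [← this]
    exact h1 a
  · refine hC.fo ?_
    have : (fun i => L.cover.D j (f i a)) = fun i x => S.D j (F i a) (L.pi x) := by
      funext i
      rw [hF i a, Line.D_pi]
    rw [← this]
    exact h2 j a
  · obtain ⟨x, rfl⟩ := hC.surj p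
    obtain ⟨j1, j2, j, k, h6⟩ := h3 i x
    refine ⟨j1, j2, j, k, ?_⟩
    rw [← hC.gram (F i) j1 j2 j k x, ← hF' i]
    exact h6
  · obtain ⟨x, rfl⟩ := hC.surj p
    have h6 := h4 i j k x
    rw [hmet] at h6
    exact h6
  · refine hC.fo ?_
    have : (fun i x => g j k (L.pi x) - L.cover.met (f i) j k x) =
        fun i x => g j k (L.pi x) - S.met (F i) j k (L.pi x) := by
      funext i x
      rw [hmet]
    exact this ▸ h5 j k

end abs

section man

variable {E : Type} [NormedAddCommGroup E] [NormedSpace ℝ E]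
  {M : Type u} [TopologicalSpace M] [ChartedSpace E M]

/-- `ℝ³ → ℝ⁴` -/
def inc34 : EuclideanSpace ℝ (Fin 3) →L[ℝ] EuclideanSpace ℝ (Fin 4) :=
  LinearMap.toContinuousLinearMap
    { toFun := fun x => WithLp.toLp 2 ![x 0, x 1, x 2, 0]
      map_add' := fun x y => by
        ext k
        fin_cases k <;> simp
      map_smul' := fun c x => by
        ext k
        fin_cases k <;> simp }

lemma inc34_apply (x : EuclideanSpace ℝ (Fin 3)) : inc34 x = WithLp.toLp 2 ![x 0, x 1, x 2, 0] :=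
  rfl

lemma inc34_inj : Function.Injective inc34 := by
  intro x y h
  rw [inc34_apply, inc34_apply] at h
  ext k
  have h0 := congrArg (fun z : EuclideanSpace ℝ (Fin 4) => z 0) h
  have h1 := congrArg (fun z : EuclideanSpace ℝ (Fin 4) => z 1) h
  have h2 := congrArg (fun z : EuclideanSpace ℝ (Fin 4) => z 2) h
  fin_cases k
  · simpa using h0
  · simpa using h1
  · simpa using h2

/-- the last basis vector -/
def e4 : EuclideanSpace ℝ (Fin 4) := WithLp.toLp 2 ![0, 0, 0, 1]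

lemma inner_e4 (x : EuclideanSpace ℝ (Fin 3)) : inner ℝ e4 (inc34 x) = 0 := by
  rw [inner_eq_dt4, inc34_apply, e4]
  simp [dt4, Fin.sum_univ_four]

/-- the immersion `(F₀, 0)` with the unit normal field `e₄` -/
def immOf3 [IsManifold 𝓘(ℝ, E) ∞ M] (F₀ : M → EuclideanSpace ℝ (Fin 3))
    (hF : ContMDiff 𝓘(ℝ, E) 𝓘(ℝ, EuclideanSpace ℝ (Fin 3)) ∞ F₀)
    (hinj : ∀ p, Function.Injective (mfderiv 𝓘(ℝ, E) 𝓘(ℝ, EuclideanSpace ℝ (Fin 3)) F₀ p)) :
    ImmN E M where
  F p := inc34 (F₀ p)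
  ξ _ := e4
  smF := inc34.contDiff.contMDiff.comp hF
  smξ := contMDiff_const
  imm p := by
    have h1 : MDifferentiableAt 𝓘(ℝ, E) 𝓘(ℝ, EuclideanSpace ℝ (Fin 3)) F₀ p :=
      hF.contMDiffAt.mdifferentiableAt (by simp)
    have h2 : MDifferentiableAt 𝓘(ℝ, EuclideanSpace ℝ (Fin 3)) 𝓘(ℝ, EuclideanSpace ℝ (Fin 4))
        inc34 (F₀ p) := inc34.differentiableAt.mdifferentiableAt
    have h3 := mfderiv_comp p h2 h1
    have h4 : mfderiv 𝓘(ℝ, E) 𝓘(ℝ, EuclideanSpace ℝ (Fin 4)) (fun p => inc34 (F₀ p)) p = _ := h3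
    rw [mfderiv_eq_fderiv, ContinuousLinearMap.fderiv] at h4
    intro v w hvw
    rw [h4] at hvw
    exact hinj p (inc34_inj hvw)
  unit _ := by
    rw [e4, EuclideanSpace.norm_eq]
    simp [Fin.sum_univ_four]
  perp p v := by
    have h1 : MDifferentiableAt 𝓘(ℝ, E) 𝓘(ℝ, EuclideanSpace ℝ (Fin 3)) F₀ p :=
      hF.contMDiffAt.mdifferentiableAt (by simp)
    have h2 : MDifferentiableAt 𝓘(ℝ, EuclideanSpace ℝ (Fin 3)) 𝓘(ℝ, EuclideanSpace ℝ (Fin 4))
        inc34 (F₀ p) := inc34.differentiableAt.mdifferentiableAt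
    have h3 := mfderiv_comp p h2 h1
    have h4 : mfderiv 𝓘(ℝ, E) 𝓘(ℝ, EuclideanSpace ℝ (Fin 4)) (fun p => inc34 (F₀ p)) p = _ := h3
    rw [mfderiv_eq_fderiv, ContinuousLinearMap.fderiv] at h4
    rw [h4]
    exact inner_e4 _

/-- the final statement for a surface with an immersion and a unit normal field, from the blocks -/
theorem full_of_blocks [FiniteDimensional ℝ E] [T2Space M] [CompactSpace M] [Nonempty M]
    [IsManifold 𝓘(ℝ, E) ∞ M] (b : Module.Basis (Fin 2) ℝ E) (K : Cov E M) (H : ImmN E M)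
    (g : Bundle.ContMDiffRiemannianMetric 𝓘(ℝ, E) ∞ E (fun x : M => TangentSpace 𝓘(ℝ, E) x))
    (hT : (K.dalg b).T1U)
    (hm : ModC (lineM K b H).cover (lineM K b H).sg
      (fun j k x => K.G b g j k ((lineM K b H).pi x))) :
    ∃ X : Fin 4 → M → ℝ, (∀ i, ContMDiff 𝓘(ℝ, E) 𝓘(ℝ) ∞ (X i)) ∧
      ∀ (m : M) (v w : TangentSpace 𝓘(ℝ, E) m),
        ∑ i, mvfderiv 𝓘(ℝ, E) (X i) m v * mvfderiv 𝓘(ℝ, E) (X i) m w = g.inner m v w :=
  K.isom_of_met b g (descend (lineM K b H) (K.t1s_of b g hT) hm)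

end man

end Vale.Agent.P205.TW
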