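import Mathlib

/-!
P205, scheme T1W: lower bound of the Gram determinant of `D_a f, D_b f, l D_j D_k f`.
Pointwise algebra in `ℝ⁴`.
-/

noncomputable section

namespace Vale.Agent.P205.TW

open Finset

/-- the Euclidean product of `ℝ⁴` -/
def dt (x y : Fin 4 → ℝ) : ℝ := ∑ i, x i * y i

/-- Gram determinant of three vectors -/
def gr3 (x y z : Fin 4 → ℝ) : ℝ :=
  dt x x * (dt y y * dt z z - dt y z * dt y z)
    - dt x y * (dt x y * dt z z - dt y z * dt x z)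
    + dt x z * (dt x y * dt y z - dt y y * dt x z)

/-- Gram determinant of two vectors -/
def gr2 (x y : Fin 4 → ℝ) : ℝ := dt x x * dt y y - dt x y * dt x y

theorem dt_comm (x y : Fin 4 → ℝ) : dt x y = dt y x := by
  simp only [dt]; exact Finset.sum_congr rfl fun i _ => by ring

theorem dt_add_left (x y z : Fin 4 → ℝ) : dt (x + y) z = dt x z + dt y z := by
  simp only [dt, Pi.add_apply, Fin.sum_univ_four]; ring

theorem dt_add_right (x y z : Fin 4 → ℝ) : dt x (y + z) = dt x y + dt x z := by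
  simp only [dt, Pi.add_apply, Fin.sum_univ_four]; ring

theorem dt_smul_left (c : ℝ) (x y : Fin 4 → ℝ) : dt (c • x) y = c * dt x y := by
  simp only [dt, Pi.smul_apply, Fin.sum_univ_four, smul_eq_mul]; ring

theorem dt_smul_right (c : ℝ) (x y : Fin 4 → ℝ) : dt x (c • y) = c * dt x y := by
  simp only [dt, Pi.smul_apply, Fin.sum_univ_four, smul_eq_mul]; ring

theorem dt_self_nonneg (x : Fin 4 → ℝ) : 0 ≤ dt x x :=
  Finset.sum_nonneg fun i _ => mul_self_nonneg (x i)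

/-- leading Gram determinant: `U_a = α_a N + r_a e`, `U_b = α_b N + r_b e`,
`s = A J + B n` -/
theorem gr3_leading (N e J n : Fin 4 → ℝ) (hNe : dt N e = 0) (hNJ : dt N J = 0)
    (hNn : dt N n = 0) (heJ : dt e J = 0) (hen : dt e n = 0) (hJn : dt J n = 0)
    (hJJ : dt J J = 1) (hnn : dt n n = 1) (αa αb ra rb A B : ℝ) :
    gr3 (αa • N + ra • e) (αb • N + rb • e) (A • J + B • n) =
      (αa * rb - αb * ra) ^ 2 * (dt N N * dt e e) * (A ^ 2 + B ^ 2) := by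
  have hJN : dt J N = 0 := by rw [dt_comm]; exact hNJ
  have heN : dt e N = 0 := by rw [dt_comm]; exact hNe
  have hnN : dt n N = 0 := by rw [dt_comm]; exact hNn
  have hJe : dt J e = 0 := by rw [dt_comm]; exact heJ
  have hne : dt n e = 0 := by rw [dt_comm]; exact hen
  have hnJ : dt n J = 0 := by rw [dt_comm]; exact hJn
  simp only [gr3, dt_add_left, dt_add_right, dt_smul_left, dt_smul_right, hNe, hNJ, hNn, heJ,
    hen, hJn, hJJ, hnn, heN, hnJ]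
  ring

/-- `gr2` in the orthogonal frame -/
theorem gr2_leading (N e : Fin 4 → ℝ) (hNe : dt N e = 0) (αa αb ra rb : ℝ) :
    gr2 (αa • N + ra • e) (αb • N + rb • e) =
      (αa * rb - αb * ra) ^ 2 * (dt N N * dt e e) := by
  have heN : dt e N = 0 := by rw [dt_comm]; exact hNe
  simp only [gr2, dt_add_left, dt_add_right, dt_smul_left, dt_smul_right, hNe, heN]
  ring

theorem gr2_nonneg (x y : Fin 4 → ℝ) : 0 ≤ gr2 x y := by
  have h := Finset.sum_mul_sq_le_sq_mul_sq (univ : Finset (Fin 4)) x y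
  have h1 : dt x x = ∑ i, x i ^ 2 := Finset.sum_congr rfl fun i _ => (sq (x i)).symm
  have h2 : dt y y = ∑ i, y i ^ 2 := Finset.sum_congr rfl fun i _ => (sq (y i)).symm
  have h3 : dt x y * dt x y = (∑ i, x i * y i) ^ 2 := (sq _).symm
  unfold gr2
  rw [h1, h2, h3]
  linarith

/-- pointwise data: `N`, `m`, `ν` orthogonal, `ν` of length one, `q` of length one;
`e = v⁻¹ (c m + s |m| ν)` -/
structure Pt where
  /-- image of the field `w` -/
  N : Fin 4 → ℝ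
  /-- part orthogonal to `N` -/
  m : Fin 4 → ℝ
  /-- unit normal -/
  ν : Fin 4 → ℝ
  /-- vertical direction -/
  q : Fin 4 → ℝ
  /-- second normal direction -/
  n : Fin 4 → ℝ
  /-- length of `m` -/
  M : ℝ
  /-- mean -/
  v : ℝ
  /-- cosine -/
  c : ℝ
  /-- sine -/
  s : ℝ
  Nm : dt N m = 0
  Nν : dt N ν = 0
  mν : dt m ν = 0
  νν : dt ν ν = 1
  qq : dt q q = 1
  nn : dt n n = 1
  Nn : dt N n = 0
  mn : dt m n = 0
  νn : dt ν n = 0
  mm : dt m m = M ^ 2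
  M0 : 0 < M
  N0 : 0 < dt N N
  v0 : 0 < v
  v1 : v ≤ 1
  cs : c ^ 2 + s ^ 2 = 1

namespace Pt

variable (P : Pt)

/-- the loop -/
def e : Fin 4 → ℝ := (P.c / P.v) • P.m + (P.s * P.M / P.v) • P.ν

/-- the direction of the derivative of the loop -/
def J : Fin 4 → ℝ := (-(P.s / P.M)) • P.m + P.c • P.ν

/-- the length of the loop -/
def R : ℝ := P.M / P.v

theorem R0 : 0 < P.R := div_pos P.M0 P.v0

theorem Ne : dt P.N P.e = 0 := by
  simp only [e, dt_add_right, dt_smul_right, P.Nm, P.Nν]; ring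

theorem NJ : dt P.N P.J = 0 := by
  simp only [J, dt_add_right, dt_smul_right, P.Nm, P.Nν]; ring

theorem en : dt P.e P.n = 0 := by
  simp only [e, dt_add_left, dt_smul_left, P.mn, P.νn]; ring

theorem Jn : dt P.J P.n = 0 := by
  simp only [J, dt_add_left, dt_smul_left, P.mn, P.νn]; ring

theorem νm : dt P.ν P.m = 0 := by rw [dt_comm]; exact P.mν

theorem ee : dt P.e P.e = P.R ^ 2 := by
  have hv := P.v0.ne'
  have h := P.cs
  simp only [e, R, dt_add_left, dt_add_right, dt_smul_left, dt_smul_right, P.mν, P.νm, P.νν, P.mm]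
  field_simp
  linear_combination (P.M ^ 2) * h

theorem JJ : dt P.J P.J = 1 := by
  have hM := P.M0.ne'
  have h := P.cs
  simp only [J, dt_add_left, dt_add_right, dt_smul_left, dt_smul_right, P.mν, P.νm, P.νν, P.mm]
  have h2 : P.s / P.M * P.M = P.s := div_mul_cancel₀ _ hM
  linear_combination h + (P.s / P.M * P.M + P.s) * h2

theorem eJ : dt P.e P.J = 0 := by
  have hM := P.M0.ne'
  have hv := P.v0.ne'
  simp only [e, J, dt_add_left, dt_add_right, dt_smul_left, dt_smul_right, P.mν, P.νm, P.νν, P.mm]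
  field_simp
  ring

/-- the vectors `U_j` -/
def U (α r : ℝ) : Fin 4 → ℝ := α • P.N + r • P.e

/-- the vectors `u_j` of the slow map -/
def u (α r : ℝ) : Fin 4 → ℝ := α • P.N + r • P.m

theorem UU (α r : ℝ) : dt (P.U α r) (P.U α r) = α ^ 2 * dt P.N P.N + r ^ 2 * P.R ^ 2 := by
  have h : dt P.e P.N = 0 := by rw [dt_comm]; exact P.Ne
  simp only [U, dt_add_left, dt_add_right, dt_smul_left, dt_smul_right, P.Ne, h, P.ee]
  ring

theorem gr2U (αa αb ra rb : ℝ) : gr2 (P.U αa ra) (P.U αb rb) =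
    (αa * rb - αb * ra) ^ 2 * (dt P.N P.N * P.R ^ 2) := by
  rw [U, U, gr2_leading _ _ P.Ne, P.ee]

theorem gr2u (αa αb ra rb : ℝ) : gr2 (P.u αa ra) (P.u αb rb) =
    (αa * rb - αb * ra) ^ 2 * (dt P.N P.N * P.M ^ 2) := by
  rw [u, u, gr2_leading _ _ P.Nm, P.mm]

theorem gr2u_le (αa αb ra rb : ℝ) :
    gr2 (P.u αa ra) (P.u αb rb) ≤ gr2 (P.U αa ra) (P.U αb rb) := by
  rw [gr2U, gr2u]
  have h : P.M ^ 2 ≤ P.R ^ 2 := by
    apply pow_le_pow_left₀ P.M0.le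
    rw [R, le_div_iff₀ P.v0]
    nlinarith [P.M0, P.v1]
  have := P.N0
  gcongr

/-- the Gram determinant at leading order -/
theorem gr3U (αa αb ra rb A B : ℝ) :
    gr3 (P.U αa ra) (P.U αb rb) (A • P.J + B • P.n) =
      gr2 (P.U αa ra) (P.U αb rb) * (A ^ 2 + B ^ 2) := by
  rw [gr2U, U, U, gr3_leading _ _ _ _ P.Ne P.NJ P.Nn P.eJ P.en P.Jn P.JJ P.nn, P.ee]

/-- vertical component -/
def z (α r : ℝ) : ℝ := dt (P.U α r) P.q

theorem z_eq (α r : ℝ) : P.z α r = α * dt P.N P.q + r * dt P.e P.q := by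
  simp only [z, U, dt_add_left, dt_smul_left]

/-- Cauchy-Schwarz for `ν` and `q` -/
theorem νq : dt P.ν P.q ^ 2 ≤ 1 := by
  have h := gr2_nonneg P.ν P.q
  rw [gr2, P.νν, P.qq] at h
  nlinarith

/-- lower bound of the vertical part of the frame -/
theorem vert {κ : ℝ} (hκ : 0 < κ)
    (h1 : κ ^ 2 ≤ dt P.N P.q ^ 2 / dt P.N P.N + dt P.m P.q ^ 2 / P.M ^ 2)
    (hc : 3 / 4 ≤ P.c) (hs : |P.s| ≤ κ / 8) :
    κ ^ 2 / 8 ≤ dt P.N P.q ^ 2 / dt P.N P.N ∨ κ ^ 2 / 8 ≤ dt P.e P.q ^ 2 / P.R ^ 2 := by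
  by_cases hN : κ ^ 2 / 4 ≤ dt P.N P.q ^ 2 / dt P.N P.N
  · left; nlinarith
  · right
    push Not at hN
    have hM := P.M0
    have hv := P.v0
    have hx : (dt P.m P.q / P.M) ^ 2 = dt P.m P.q ^ 2 / P.M ^ 2 := by rw [div_pow]
    have hx2 : κ ^ 2 * (3 / 4) ≤ (dt P.m P.q / P.M) ^ 2 := by rw [hx]; nlinarith
    have he : dt P.e P.q ^ 2 / P.R ^ 2 = (P.c * (dt P.m P.q / P.M) + P.s * dt P.ν P.q) ^ 2 := by
      simp only [e, R, dt_add_left, dt_smul_left]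
      field_simp
    rw [he]
    set x := dt P.m P.q / P.M with hxdef
    set y := dt P.ν P.q with hydef
    have hy : |y| ≤ 1 := by
      have := P.νq
      exact abs_le_one_iff_mul_self_le_one.mpr (by nlinarith)
    have hxa : κ * (8 / 10) ≤ |x| := by
      by_contra hcon
      push Not at hcon
      have h0 := abs_nonneg x
      have : |x| ^ 2 < (κ * (8 / 10)) ^ 2 := by
        apply pow_lt_pow_left₀ hcon h0 (by norm_num)
      rw [sq_abs] at this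
      nlinarith
    have h3 : κ * (6 / 10) ≤ |P.c * x| := by
      rw [abs_mul, abs_of_nonneg (by linarith : (0 : ℝ) ≤ P.c)]
      nlinarith [abs_nonneg x]
    have h4 : |P.s * y| ≤ κ / 8 := by
      rw [abs_mul]
      nlinarith [abs_nonneg P.s, abs_nonneg y]
    have h5 : κ * (4 / 10) ≤ |P.c * x + P.s * y| := by
      have := abs_sub_abs_le_abs_sub (P.c * x) (-(P.s * y))
      rw [abs_neg, sub_neg_eq_add] at this
      linarith
    have h6 : (κ * (4 / 10)) ^ 2 ≤ |P.c * x + P.s * y| ^ 2 :=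
      pow_le_pow_left₀ (by positivity) h5 2
    rw [sq_abs] at h6
    nlinarith

end Pt

namespace Pt

variable (P : Pt)

theorem rad {αa αb ra rb C g0 : ℝ} (hg : g0 ≤ gr2 (P.U αa ra) (P.U αb rb))
    (ha : dt (P.U αa ra) (P.U αa ra) ≤ C) (hb : dt (P.U αb rb) (P.U αb rb) ≤ C) :
    g0 ≤ 4 * C * (max (ra ^ 2) (rb ^ 2) * P.R ^ 2) := by
  rw [P.gr2U] at hg
  rw [P.UU] at ha hb
  set Z := max (ra ^ 2) (rb ^ 2)
  have h1 : ra ^ 2 ≤ Z := le_max_left _ _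
  have h2 : rb ^ 2 ≤ Z := le_max_right _ _
  have hN := P.N0
  have hR := P.R0
  have hR2 : 0 < P.R ^ 2 := by positivity
  have h3 : (αa * rb - αb * ra) ^ 2 ≤ 2 * (αa ^ 2 * rb ^ 2 + αb ^ 2 * ra ^ 2) := by
    nlinarith [sq_nonneg (αa * rb + αb * ra)]
  have h4 : αa ^ 2 * rb ^ 2 ≤ αa ^ 2 * Z := by gcongr
  have h5 : αb ^ 2 * ra ^ 2 ≤ αb ^ 2 * Z := by gcongr
  have hZ : 0 ≤ Z := le_trans (sq_nonneg _) h1
  have h6 : αa ^ 2 * dt P.N P.N ≤ C := by nlinarith [sq_nonneg ra]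
  have h7 : αb ^ 2 * dt P.N P.N ≤ C := by nlinarith [sq_nonneg rb]
  calc g0 ≤ (αa * rb - αb * ra) ^ 2 * (dt P.N P.N * P.R ^ 2) := hg
    _ ≤ (2 * (αa ^ 2 * Z + αb ^ 2 * Z)) * (dt P.N P.N * P.R ^ 2) := by
        gcongr
        linarith
    _ = 2 * (αa ^ 2 * dt P.N P.N + αb ^ 2 * dt P.N P.N) * (Z * P.R ^ 2) := by ring
    _ ≤ 2 * (C + C) * (Z * P.R ^ 2) := by gcongr
    _ = 4 * C * (Z * P.R ^ 2) := by ring

theorem ver {αa αb ra rb C g0 t : ℝ} (hg : g0 ≤ gr2 (P.U αa ra) (P.U αb rb)) (ht : 0 ≤ t)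
    (ha : dt (P.U αa ra) (P.U αa ra) ≤ C) (hb : dt (P.U αb rb) (P.U αb rb) ≤ C)
    (h : t ≤ dt P.N P.q ^ 2 / dt P.N P.N ∨ t ≤ dt P.e P.q ^ 2 / P.R ^ 2) :
    g0 * t ≤ 4 * C * max (P.z αa ra ^ 2) (P.z αb rb ^ 2) := by
  rw [P.gr2U] at hg
  rw [P.UU] at ha hb
  have hza := P.z_eq αa ra
  have hzb := P.z_eq αb rb
  set za := P.z αa ra
  set zb := P.z αb rb
  set Z := max (za ^ 2) (zb ^ 2)
  have h1 : za ^ 2 ≤ Z := le_max_left _ _
  have h2 : zb ^ 2 ≤ Z := le_max_right _ _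
  have hN := P.N0
  have hR := P.R0
  have hR2 : 0 < P.R ^ 2 := by positivity
  have hZ : 0 ≤ Z := le_trans (sq_nonneg _) h1
  set Nz := dt P.N P.q
  set ez := dt P.e P.q
  rcases h with h | h
  · rw [le_div_iff₀ hN] at h
    have e1 : Nz * (αa * rb - αb * ra) = za * rb - zb * ra := by rw [hza, hzb]; ring
    have e2 : (za * rb - zb * ra) ^ 2 ≤ 2 * (za ^ 2 * rb ^ 2 + zb ^ 2 * ra ^ 2) := by
      nlinarith [sq_nonneg (za * rb + zb * ra)]
    have h4 : za ^ 2 * rb ^ 2 ≤ Z * rb ^ 2 := by gcongr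
    have h5 : zb ^ 2 * ra ^ 2 ≤ Z * ra ^ 2 := by gcongr
    have h6 : ra ^ 2 * P.R ^ 2 ≤ C := by nlinarith [mul_nonneg (sq_nonneg αa) hN.le]
    have h7 : rb ^ 2 * P.R ^ 2 ≤ C := by nlinarith [mul_nonneg (sq_nonneg αb) hN.le]
    calc g0 * t ≤ ((αa * rb - αb * ra) ^ 2 * (dt P.N P.N * P.R ^ 2)) * t := by gcongr
      _ = (αa * rb - αb * ra) ^ 2 * P.R ^ 2 * (t * dt P.N P.N) := by ring
      _ ≤ (αa * rb - αb * ra) ^ 2 * P.R ^ 2 * Nz ^ 2 := by gcongr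
      _ = (Nz * (αa * rb - αb * ra)) ^ 2 * P.R ^ 2 := by ring
      _ = (za * rb - zb * ra) ^ 2 * P.R ^ 2 := by rw [e1]
      _ ≤ (2 * (Z * rb ^ 2 + Z * ra ^ 2)) * P.R ^ 2 := by
          gcongr
          linarith
      _ = 2 * Z * (rb ^ 2 * P.R ^ 2 + ra ^ 2 * P.R ^ 2) := by ring
      _ ≤ 2 * Z * (C + C) := by gcongr
      _ = 4 * C * Z := by ring
  · rw [le_div_iff₀ hR2] at h
    have e1 : ez * (αa * rb - αb * ra) = αa * zb - αb * za := by rw [hza, hzb]; ring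
    have e2 : (αa * zb - αb * za) ^ 2 ≤ 2 * (αa ^ 2 * zb ^ 2 + αb ^ 2 * za ^ 2) := by
      nlinarith [sq_nonneg (αa * zb + αb * za)]
    have h4 : αa ^ 2 * zb ^ 2 ≤ αa ^ 2 * Z := by gcongr
    have h5 : αb ^ 2 * za ^ 2 ≤ αb ^ 2 * Z := by gcongr
    have h6 : αa ^ 2 * dt P.N P.N ≤ C := by nlinarith [mul_nonneg (sq_nonneg ra) hR2.le]
    have h7 : αb ^ 2 * dt P.N P.N ≤ C := by nlinarith [mul_nonneg (sq_nonneg rb) hR2.le]
    calc g0 * t ≤ ((αa * rb - αb * ra) ^ 2 * (dt P.N P.N * P.R ^ 2)) * t := by gcongr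
      _ = (αa * rb - αb * ra) ^ 2 * dt P.N P.N * (t * P.R ^ 2) := by ring
      _ ≤ (αa * rb - αb * ra) ^ 2 * dt P.N P.N * ez ^ 2 := by gcongr
      _ = (ez * (αa * rb - αb * ra)) ^ 2 * dt P.N P.N := by ring
      _ = (αa * zb - αb * za) ^ 2 * dt P.N P.N := by rw [e1]
      _ ≤ (2 * (αa ^ 2 * Z + αb ^ 2 * Z)) * dt P.N P.N := by
          gcongr
          linarith
      _ = 2 * Z * (αa ^ 2 * dt P.N P.N + αb ^ 2 * dt P.N P.N) := by ring
      _ ≤ 2 * Z * (C + C) := by gcongr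
      _ = 4 * C * Z := by ring

/-- **Lower bound at leading order**: for `j = a` or `j = b` the Gram determinant of
`U_a, U_b, r_j² R χ' J + β z_j² n` is bounded below -/
theorem lower {αa αb ra rb C CR g0 κ c1 χ' β : ℝ} (hg0 : 0 < g0) (hC : 0 < C)
    (hg : g0 ≤ gr2 (P.U αa ra) (P.U αb rb))
    (ha : dt (P.U αa ra) (P.U αa ra) ≤ C) (hb : dt (P.U αb rb) (P.U αb rb) ≤ C)
    (hR : P.R ≤ CR) (hκ : 0 < κ) (hc1 : 0 < c1)
    (h1 : |χ'| < c1 →
      κ ^ 2 ≤ dt P.N P.q ^ 2 / dt P.N P.N + dt P.m P.q ^ 2 / P.M ^ 2 ∧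
      3 / 4 ≤ P.c ∧ |P.s| ≤ κ / 8) :
    min ((g0 / (4 * C)) ^ 2 * c1 ^ 2 / CR ^ 2) (β ^ 2 * (g0 * κ ^ 2 / (32 * C)) ^ 2) * g0 ≤
      gr3 (P.U αa ra) (P.U αb rb)
        ((ra * ra * P.R * χ') • P.J + (β * (P.z αa ra * P.z αa ra)) • P.n) ∨
    min ((g0 / (4 * C)) ^ 2 * c1 ^ 2 / CR ^ 2) (β ^ 2 * (g0 * κ ^ 2 / (32 * C)) ^ 2) * g0 ≤
      gr3 (P.U αa ra) (P.U αb rb)
        ((rb * rb * P.R * χ') • P.J + (β * (P.z αb rb * P.z αb rb)) • P.n) := by
  simp only [P.gr3U]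
  have hR0 := P.R0
  have hCR : 0 < CR := lt_of_lt_of_le hR0 hR
  set G := gr2 (P.U αa ra) (P.U αb rb)
  have key : ∀ T : ℝ, min ((g0 / (4 * C)) ^ 2 * c1 ^ 2 / CR ^ 2)
      (β ^ 2 * (g0 * κ ^ 2 / (32 * C)) ^ 2) ≤ T →
      min ((g0 / (4 * C)) ^ 2 * c1 ^ 2 / CR ^ 2) (β ^ 2 * (g0 * κ ^ 2 / (32 * C)) ^ 2) * g0 ≤
        G * T := by
    intro T hT
    have hm : 0 ≤ min ((g0 / (4 * C)) ^ 2 * c1 ^ 2 / CR ^ 2)
      (β ^ 2 * (g0 * κ ^ 2 / (32 * C)) ^ 2) := by positivity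
    rw [mul_comm G]
    exact mul_le_mul hT hg hg0.le (hm.trans hT)
  by_cases hχ : c1 ≤ |χ'|
  · have hr := P.rad hg ha hb
    have hA : ∀ r : ℝ, g0 ≤ 4 * C * (r ^ 2 * P.R ^ 2) →
        (g0 / (4 * C)) ^ 2 * c1 ^ 2 / CR ^ 2 ≤ (r * r * P.R * χ') ^ 2 := by
      intro r hr
      have h2 : g0 / (4 * C) ≤ r ^ 2 * P.R ^ 2 := by
        rw [div_le_iff₀ (by positivity)]; linarith
      have h3 : c1 ^ 2 ≤ χ' ^ 2 := by
        rw [← sq_abs χ']
        exact pow_le_pow_left₀ hc1.le hχ 2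
      have h4 : (r * r * P.R * χ') ^ 2 = (r ^ 2 * P.R ^ 2) ^ 2 * χ' ^ 2 / P.R ^ 2 := by
        field_simp
      rw [h4]
      have h5 : 0 ≤ g0 / (4 * C) := by positivity
      gcongr
    rcases le_total (ra ^ 2) (rb ^ 2) with h | h
    · right
      rw [max_eq_right h] at hr
      apply key
      refine (min_le_left _ _).trans ((hA rb hr).trans ?_)
      nlinarith [sq_nonneg (β * (P.z αb rb * P.z αb rb))]
    · left
      rw [max_eq_left h] at hr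
      apply key
      refine (min_le_left _ _).trans ((hA ra hr).trans ?_)
      nlinarith [sq_nonneg (β * (P.z αa ra * P.z αa ra))]
  · push Not at hχ
    obtain ⟨k1, k2, k3⟩ := h1 hχ
    have hv := P.vert hκ k1 k2 k3
    have hz := P.ver hg (by positivity : 0 ≤ κ ^ 2 / 8) ha hb hv
    have hB : ∀ z : ℝ, g0 * (κ ^ 2 / 8) ≤ 4 * C * z ^ 2 →
        β ^ 2 * (g0 * κ ^ 2 / (32 * C)) ^ 2 ≤ (β * (z * z)) ^ 2 := by
      intro z hz
      have h2 : g0 * κ ^ 2 / (32 * C) ≤ z * z := by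
        rw [div_le_iff₀ (by positivity)]; nlinarith
      have h5 : 0 ≤ g0 * κ ^ 2 / (32 * C) := by positivity
      calc β ^ 2 * (g0 * κ ^ 2 / (32 * C)) ^ 2 ≤ β ^ 2 * (z * z) ^ 2 := by gcongr
        _ = (β * (z * z)) ^ 2 := by ring
    rcases le_total (P.z αa ra ^ 2) (P.z αb rb ^ 2) with h | h
    · right
      rw [max_eq_right h] at hz
      apply key
      refine (min_le_right _ _).trans ((hB _ hz).trans ?_)
      nlinarith [sq_nonneg (rb * rb * P.R * χ')]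
    · left
      rw [max_eq_left h] at hz
      apply key
      refine (min_le_right _ _).trans ((hB _ hz).trans ?_)
      nlinarith [sq_nonneg (ra * ra * P.R * χ')]

end Pt

/-- lower bound where there is no loop: `u_a, u_b` and `β z_j² n`, `z_j = u_j · q` -/
theorem lower_flat {x y q n : Fin 4 → ℝ} {g0 t β : ℝ} (hxn : dt x n = 0) (hyn : dt y n = 0)
    (hnn : dt n n = 1) (hg : g0 ≤ gr2 x y) (hg0 : 0 < g0) (ht : 0 ≤ t) {j : Fin 4 → ℝ}
    (hz : t ≤ dt j q ^ 2) :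
    β ^ 2 * t ^ 2 * g0 ≤ gr3 x y ((β * (dt j q * dt j q)) • n) := by
  have h : gr3 x y ((β * (dt j q * dt j q)) • n) = gr2 x y * (β * (dt j q * dt j q)) ^ 2 := by
    simp only [gr3, gr2, dt_smul_left, dt_smul_right, hxn, hyn, hnn]
    ring
  rw [h]
  have h2 : β ^ 2 * t ^ 2 ≤ (β * (dt j q * dt j q)) ^ 2 := by
    have : t ^ 2 ≤ (dt j q ^ 2) ^ 2 := pow_le_pow_left₀ ht hz 2
    calc β ^ 2 * t ^ 2 ≤ β ^ 2 * (dt j q ^ 2) ^ 2 := by gcongr
      _ = (β * (dt j q * dt j q)) ^ 2 := by ring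
  rw [mul_comm (gr2 x y)]
  exact mul_le_mul h2 hg hg0.le (sq_nonneg _)

end Vale.Agent.P205.TW
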