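import Vale.Agent.P205.TW.Form2
import Vale.Agent.P205.TW.Lower
import Vale.Agent.P205.F.Calc1

/-!
P205, scheme T1W, block FORMULA, part F2 (C): lower bound of the Gram determinant of the leading
terms.
-/

noncomputable section

namespace Vale.Agent.P205.TW

open Vale.Agent.P205.F

universe u

/-- scalar form of the lower bound on `K`: radii -/
theorem sc_rad {αa αb ra rb W E2 C g0 : ℝ} (hW : 0 < W) (hE : 0 < E2)
    (hg : g0 ≤ (αa * rb - αb * ra) ^ 2 * (W * E2))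
    (ha : αa ^ 2 * W + ra ^ 2 * E2 ≤ C) (hb : αb ^ 2 * W + rb ^ 2 * E2 ≤ C) :
    g0 ≤ 4 * C * (max (ra ^ 2) (rb ^ 2) * E2) := by
  set Z := max (ra ^ 2) (rb ^ 2)
  have h1 : ra ^ 2 ≤ Z := le_max_left _ _
  have h2 : rb ^ 2 ≤ Z := le_max_right _ _
  have h3 : (αa * rb - αb * ra) ^ 2 ≤ 2 * (αa ^ 2 * rb ^ 2 + αb ^ 2 * ra ^ 2) := by
    nlinarith [sq_nonneg (αa * rb + αb * ra)]
  have h4 : αa ^ 2 * rb ^ 2 ≤ αa ^ 2 * Z := by gcongr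
  have h5 : αb ^ 2 * ra ^ 2 ≤ αb ^ 2 * Z := by gcongr
  have hZ : 0 ≤ Z := le_trans (sq_nonneg _) h1
  have h6 : αa ^ 2 * W ≤ C := by nlinarith [sq_nonneg ra]
  have h7 : αb ^ 2 * W ≤ C := by nlinarith [sq_nonneg rb]
  calc g0 ≤ (αa * rb - αb * ra) ^ 2 * (W * E2) := hg
    _ ≤ (2 * (αa ^ 2 * Z + αb ^ 2 * Z)) * (W * E2) := by
        gcongr
        linarith
    _ = 2 * (αa ^ 2 * W + αb ^ 2 * W) * (Z * E2) := by ring
    _ ≤ 2 * (C + C) * (Z * E2) := by gcongr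
    _ = 4 * C * (Z * E2) := by ring

/-- scalar form: vertical components -/
theorem sc_ver {αa αb ra rb W E2 C g0 t Nz ez za zb : ℝ} (hW : 0 < W) (hE : 0 < E2)
    (ht : 0 ≤ t) (hg : g0 ≤ (αa * rb - αb * ra) ^ 2 * (W * E2))
    (ha : αa ^ 2 * W + ra ^ 2 * E2 ≤ C) (hb : αb ^ 2 * W + rb ^ 2 * E2 ≤ C)
    (hza : za = αa * Nz + ra * ez) (hzb : zb = αb * Nz + rb * ez)
    (h : t * W ≤ Nz ^ 2 ∨ t * E2 ≤ ez ^ 2) :
    g0 * t ≤ 4 * C * max (za ^ 2) (zb ^ 2) := by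
  set Z := max (za ^ 2) (zb ^ 2)
  have h1 : za ^ 2 ≤ Z := le_max_left _ _
  have h2 : zb ^ 2 ≤ Z := le_max_right _ _
  have hZ : 0 ≤ Z := le_trans (sq_nonneg _) h1
  rcases h with h | h
  · have e1 : Nz * (αa * rb - αb * ra) = za * rb - zb * ra := by rw [hza, hzb]; ring
    have e2 : (za * rb - zb * ra) ^ 2 ≤ 2 * (za ^ 2 * rb ^ 2 + zb ^ 2 * ra ^ 2) := by
      nlinarith [sq_nonneg (za * rb + zb * ra)]
    have h4 : za ^ 2 * rb ^ 2 ≤ Z * rb ^ 2 := by gcongr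
    have h5 : zb ^ 2 * ra ^ 2 ≤ Z * ra ^ 2 := by gcongr
    have h6 : ra ^ 2 * E2 ≤ C := by nlinarith [mul_nonneg (sq_nonneg αa) hW.le]
    have h7 : rb ^ 2 * E2 ≤ C := by nlinarith [mul_nonneg (sq_nonneg αb) hW.le]
    calc g0 * t ≤ ((αa * rb - αb * ra) ^ 2 * (W * E2)) * t := by gcongr
      _ = (αa * rb - αb * ra) ^ 2 * E2 * (t * W) := by ring
      _ ≤ (αa * rb - αb * ra) ^ 2 * E2 * Nz ^ 2 := by gcongr
      _ = (Nz * (αa * rb - αb * ra)) ^ 2 * E2 := by ring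
      _ = (za * rb - zb * ra) ^ 2 * E2 := by rw [e1]
      _ ≤ (2 * (Z * rb ^ 2 + Z * ra ^ 2)) * E2 := by
          gcongr
          linarith
      _ = 2 * Z * (rb ^ 2 * E2 + ra ^ 2 * E2) := by ring
      _ ≤ 2 * Z * (C + C) := by gcongr
      _ = 4 * C * Z := by ring
  · have e1 : ez * (αa * rb - αb * ra) = αa * zb - αb * za := by rw [hza, hzb]; ring
    have e2 : (αa * zb - αb * za) ^ 2 ≤ 2 * (αa ^ 2 * zb ^ 2 + αb ^ 2 * za ^ 2) := by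
      nlinarith [sq_nonneg (αa * zb + αb * za)]
    have h4 : αa ^ 2 * zb ^ 2 ≤ αa ^ 2 * Z := by gcongr
    have h5 : αb ^ 2 * za ^ 2 ≤ αb ^ 2 * Z := by gcongr
    have h6 : αa ^ 2 * W ≤ C := by nlinarith [mul_nonneg (sq_nonneg ra) hE.le]
    have h7 : αb ^ 2 * W ≤ C := by nlinarith [mul_nonneg (sq_nonneg rb) hE.le]
    calc g0 * t ≤ ((αa * rb - αb * ra) ^ 2 * (W * E2)) * t := by gcongr
      _ = (αa * rb - αb * ra) ^ 2 * W * (t * E2) := by ring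
      _ ≤ (αa * rb - αb * ra) ^ 2 * W * ez ^ 2 := by gcongr
      _ = (ez * (αa * rb - αb * ra)) ^ 2 * W := by ring
      _ = (αa * zb - αb * za) ^ 2 * W := by rw [e1]
      _ ≤ (2 * (αa ^ 2 * Z + αb ^ 2 * Z)) * W := by
          gcongr
          linarith
      _ = 2 * Z * (αa ^ 2 * W + αb ^ 2 * W) := by ring
      _ ≤ 2 * Z * (C + C) := by gcongr
      _ = 4 * C * Z := by ring

/-- the vertical alternative -/
theorem sc_vert {W M2 iv c s Nz mz Vz κ τ : ℝ} (hW : 0 < W) (hM : 0 < M2)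
    (hκ : 0 < κ) (h1 : κ ^ 2 * (W * M2) ≤ Nz ^ 2 * M2 + mz ^ 2 * W) (hV : Vz ^ 2 ≤ M2)
    (hc : 1 / 2 ≤ c) (hs : |s| ≤ τ * c) (hτ : τ ≤ κ / 4) :
    κ ^ 2 / 25 * W ≤ Nz ^ 2 ∨ κ ^ 2 / 25 * (iv ^ 2 * M2) ≤ (iv * (c * mz + s * Vz)) ^ 2 := by
  by_cases hN : κ ^ 2 / 25 * W ≤ Nz ^ 2
  · exact Or.inl hN
  · right
    push Not at hN
    have h2 : κ ^ 2 * (24 / 25) * M2 ≤ mz ^ 2 := by
      have : κ ^ 2 * (24 / 25) * M2 * W ≤ mz ^ 2 * W := by nlinarith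
      exact le_of_mul_le_mul_right this hW
    set R := Real.sqrt M2 with hR
    have hR0 : 0 < R := Real.sqrt_pos.mpr hM
    have hR2 : R ^ 2 = M2 := Real.sq_sqrt hM.le
    rw [← hR2] at h2 hV
    have h3 : κ * (9 / 10) * R ≤ |mz| := by
      by_contra hcon
      push Not at hcon
      have : |mz| ^ 2 < (κ * (9 / 10) * R) ^ 2 :=
        pow_lt_pow_left₀ hcon (abs_nonneg _) (by norm_num)
      rw [sq_abs] at this
      nlinarith [sq_nonneg (κ * R)]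
    have h4 : |Vz| ≤ R := abs_le_of_sq_le_sq (by rw [hR2] at hV ⊢; exact hV) hR0.le
    have h5 : |s * Vz| ≤ (κ / 4 * c) * R := by
      rw [abs_mul]
      have : τ * c ≤ κ / 4 * c := by gcongr
      exact mul_le_mul (hs.trans this) h4 (abs_nonneg _) (by positivity)
    have h6 : c * (κ * (9 / 10) * R) ≤ |c * mz| := by
      rw [abs_mul, abs_of_nonneg (by linarith : (0 : ℝ) ≤ c)]
      exact mul_le_mul_of_nonneg_left h3 (by linarith)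
    have h7 : κ * (1 / 4) * R ≤ |c * mz + s * Vz| := by
      have h8 := abs_sub_abs_le_abs_sub (c * mz) (-(s * Vz))
      rw [abs_neg, sub_neg_eq_add] at h8
      have h9 : 1 / 2 * (κ * R) ≤ c * (κ * R) := by gcongr
      nlinarith
    have h8 : (κ * (1 / 4) * R) ^ 2 ≤ (c * mz + s * Vz) ^ 2 := by
      rw [← sq_abs (c * mz + s * Vz)]
      exact pow_le_pow_left₀ (by positivity) h7 2
    have h9 : (iv * (c * mz + s * Vz)) ^ 2 = iv ^ 2 * (c * mz + s * Vz) ^ 2 := by ring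
    rw [h9, ← hR2]
    have h10 : κ ^ 2 / 25 * R ^ 2 ≤ (c * mz + s * Vz) ^ 2 := by nlinarith [sq_nonneg (κ * R)]
    nlinarith [sq_nonneg iv]

/-- **scalar lower bound on `K`** -/
theorem sc_lower {αa αb ra rb W M2 iv h c s Nz mz Vz κ τ C CE g0 c1 ρ za zb : ℝ}
    (hW : 0 < W) (hM : 0 < M2) (hiv : 1 ≤ iv) (hg0 : 0 < g0) (hC : 0 < C) (hκ : 0 < κ)
    (hc1 : 0 < c1) (hρ : 0 < ρ)
    (hg : g0 ≤ (αa * rb - αb * ra) ^ 2 * (W * (iv ^ 2 * M2)))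
    (ha : αa ^ 2 * W + ra ^ 2 * (iv ^ 2 * M2) ≤ C)
    (hb : αb ^ 2 * W + rb ^ 2 * (iv ^ 2 * M2) ≤ C)
    (hE : iv ^ 2 * M2 ≤ CE)
    (hza : za = αa * Nz + ra * (iv * (c * mz + s * Vz)))
    (hzb : zb = αb * Nz + rb * (iv * (c * mz + s * Vz)))
    (hV : Vz ^ 2 ≤ M2) (hτ : τ ≤ κ / 4)
    (halt : c1 ≤ |h| ∨ (1 / 2 ≤ c ∧ |s| ≤ τ * c ∧
      κ ^ 2 * (W * M2) ≤ Nz ^ 2 * M2 + mz ^ 2 * W)) :
    g0 * min ((g0 / (4 * C)) ^ 2 * c1 ^ 2 / CE) ((g0 * κ ^ 2 / (100 * C)) ^ 2 / ρ ^ 2) ≤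
      (αa * rb - αb * ra) ^ 2 * (W * (iv ^ 2 * M2)) *
        (ra ^ 4 * h ^ 2 * iv ^ 2 * M2 + za ^ 4 / ρ ^ 2) ∨
    g0 * min ((g0 / (4 * C)) ^ 2 * c1 ^ 2 / CE) ((g0 * κ ^ 2 / (100 * C)) ^ 2 / ρ ^ 2) ≤
      (αa * rb - αb * ra) ^ 2 * (W * (iv ^ 2 * M2)) *
        (rb ^ 4 * h ^ 2 * iv ^ 2 * M2 + zb ^ 4 / ρ ^ 2) := by
  have hiv0 : 0 < iv := by linarith
  have hE0 : 0 < iv ^ 2 * M2 := by positivity
  have hCE : 0 < CE := lt_of_lt_of_le hE0 hE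
  have key : ∀ T : ℝ, min ((g0 / (4 * C)) ^ 2 * c1 ^ 2 / CE)
      ((g0 * κ ^ 2 / (100 * C)) ^ 2 / ρ ^ 2) ≤ T →
      g0 * min ((g0 / (4 * C)) ^ 2 * c1 ^ 2 / CE) ((g0 * κ ^ 2 / (100 * C)) ^ 2 / ρ ^ 2) ≤
      (αa * rb - αb * ra) ^ 2 * (W * (iv ^ 2 * M2)) * T := by
    intro T hT
    have hm : 0 ≤ min ((g0 / (4 * C)) ^ 2 * c1 ^ 2 / CE)
      ((g0 * κ ^ 2 / (100 * C)) ^ 2 / ρ ^ 2) := by positivity
    exact mul_le_mul hg hT hm (hg0.le.trans hg)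
  rcases halt with hh | ⟨k1, k2, k3⟩
  · have hr := sc_rad hW hE0 hg ha hb
    have hA : ∀ r z : ℝ, g0 ≤ 4 * C * (r ^ 2 * (iv ^ 2 * M2)) →
        (g0 / (4 * C)) ^ 2 * c1 ^ 2 / CE ≤ r ^ 4 * h ^ 2 * iv ^ 2 * M2 + z ^ 4 / ρ ^ 2 := by
      intro r z hr
      have h2 : g0 / (4 * C) ≤ r ^ 2 * (iv ^ 2 * M2) := by
        rw [div_le_iff₀ (by positivity)]; linarith
      have h3 : c1 ^ 2 ≤ h ^ 2 := by
        rw [← sq_abs h]
        exact pow_le_pow_left₀ hc1.le hh 2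
      have h4 : r ^ 4 * h ^ 2 * iv ^ 2 * M2 =
          (r ^ 2 * (iv ^ 2 * M2)) ^ 2 * h ^ 2 / (iv ^ 2 * M2) := by
        field_simp
      have h5 : 0 ≤ g0 / (4 * C) := by positivity
      have h6 : 0 ≤ z ^ 4 / ρ ^ 2 := by positivity
      have h7 : (g0 / (4 * C)) ^ 2 * c1 ^ 2 / CE ≤ r ^ 4 * h ^ 2 * iv ^ 2 * M2 := by
        rw [h4]
        gcongr
      linarith
    rcases le_total (ra ^ 2) (rb ^ 2) with h | h
    · right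
      rw [max_eq_right h] at hr
      exact key _ ((min_le_left _ _).trans (hA rb zb hr))
    · left
      rw [max_eq_left h] at hr
      exact key _ ((min_le_left _ _).trans (hA ra za hr))
  · have hv := sc_vert hW hM hκ k3 hV k1 k2 hτ (iv := iv)
    have hz := sc_ver hW hE0 (by positivity : 0 ≤ κ ^ 2 / 25) hg ha hb hza hzb hv
    have hB : ∀ r z : ℝ, g0 * (κ ^ 2 / 25) ≤ 4 * C * z ^ 2 →
        (g0 * κ ^ 2 / (100 * C)) ^ 2 / ρ ^ 2 ≤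
          r ^ 4 * h ^ 2 * iv ^ 2 * M2 + z ^ 4 / ρ ^ 2 := by
      intro r z hz
      have h2 : g0 * κ ^ 2 / (100 * C) ≤ z ^ 2 := by
        rw [div_le_iff₀ (by positivity)]; nlinarith
      have h5 : 0 ≤ g0 * κ ^ 2 / (100 * C) := by positivity
      have h6 : 0 ≤ r ^ 4 * h ^ 2 * iv ^ 2 * M2 := by positivity
      have h7 : (g0 * κ ^ 2 / (100 * C)) ^ 2 / ρ ^ 2 ≤ z ^ 4 / ρ ^ 2 := by
        have : z ^ 4 = (z ^ 2) ^ 2 := by ring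
        rw [this]
        gcongr
      linarith
    rcases le_total (za ^ 2) (zb ^ 2) with h | h
    · right
      rw [max_eq_right h] at hz
      exact key _ ((min_le_right _ _).trans (hB rb zb hz))
    · left
      rw [max_eq_left h] at hz
      exact key _ ((min_le_right _ _).trans (hB ra za hz))

variable {P : Type u} {κ : Type} [Fintype κ] {S : DAlg P κ}

namespace TData

/-- pointwise bounds at `p`: `C` bounds the fields, the derivatives of `X`, `ψ`, `r`, and `iv`;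
`1 ≤ iv`; the fields `a`, `b` span with constant `c0` -/
structure PtBd (S : DAlg P κ) (d : TData P κ) (p : P) (C c0 : ℝ) (a b : κ) : Prop where
  t : ∀ j, ‖d.r.t j p‖ ≤ C
  w : ∀ j, ‖d.r.w j p‖ ≤ C
  X : ∀ j i, ‖S.D j (d.X i) p‖ ≤ C
  ψ : ∀ j, ‖S.D j d.ψ p‖ ≤ C
  r : ∀ j, ‖S.D j d.r.Ψ p‖ ≤ C
  iv : ‖d.iv p‖ ≤ C
  iv1 : 1 ≤ (d.iv p).re
  det : c0 ≤ (S.met d.X a a p * S.met d.X b b p - S.met d.X a b p ^ 2).re

/-- real parts: the real numbers behind the data at `p` -/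
structure RP (S : DAlg P κ) (d : TData P κ) (ρ : ℝ) (p : P) where
  /-- `D_j X` -/
  x : κ → Fin 4 → ℝ
  /-- `X_t` -/
  xt : Fin 4 → ℝ
  /-- `X_w` -/
  xw : Fin 4 → ℝ
  /-- `D_j ψ` -/
  y : κ → ℝ
  /-- `ψ_t` -/
  yt : ℝ
  /-- `ψ_w` -/
  yw : ℝ
  /-- `D_j r` -/
  r : κ → ℝ
  /-- `β` -/
  β : κ → ℝ
  /-- `iG` -/
  iG : ℝ
  /-- `σ` -/
  σ : ℝ
  /-- `cos χ` -/
  c : ℝ
  /-- `sin χ` -/
  s : ℝ
  /-- `χ'` -/
  h : ℝ
  /-- `1 / v` -/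
  iv : ℝ
  hx : ∀ j i, S.D j (d.X i) p = x j i
  hxt : ∀ i, d.Xt S i p = xt i
  hxw : ∀ i, d.Xw S i p = xw i
  hy : ∀ j, S.D j d.ψ p = y j
  hyt : d.ψt S p = yt
  hyw : d.ψw S p = yw
  hr : ∀ j, S.D j d.r.Ψ p = r j
  hβ : ∀ j, d.r.β j p = β j
  hiG : d.iG p = iG
  hσ : d.σ p = σ
  hc : d.c p = c
  hs : d.s p = s
  hh : d.h p = h
  hiv : d.iv p = iv

/-- existence of the real numbers -/
def mkRP {d : TData P κ} {ρ : ℝ} (hd : d.Ok S ρ) (p : P) : RP S d ρ p where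
  x j i := (S.D j (d.X i) p).re
  xt i := (d.Xt S i p).re
  xw i := (d.Xw S i p).re
  y j := (S.D j d.ψ p).re
  yt := (d.ψt S p).re
  yw := (d.ψw S p).re
  r j := (S.D j d.r.Ψ p).re
  β j := (d.r.β j p).re
  iG := (d.iG p).re
  σ := (d.σ p).re
  c := (d.c p).re
  s := (d.s p).re
  h := (d.h p).re
  iv := (d.iv p).re
  hx j i := ((S.rl_D j (hd.smX i) (hd.rX i)).ofReal_re p).symm
  hxt i := ((Rl.dir hd.ray.rt (hd.smX i) (hd.rX i) : Rl (S.dir d.r.t (d.X i))).ofReal_re p).symm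
  hxw i := ((Rl.dir hd.ray.rw' (hd.smX i) (hd.rX i) : Rl (S.dir d.r.w (d.X i))).ofReal_re p).symm
  hy j := ((S.rl_D j hd.smψ hd.rψ).ofReal_re p).symm
  hyt := ((Rl.dir hd.ray.rt hd.smψ hd.rψ : Rl (S.dir d.r.t d.ψ)).ofReal_re p).symm
  hyw := ((Rl.dir hd.ray.rw' hd.smψ hd.rψ : Rl (S.dir d.r.w d.ψ)).ofReal_re p).symm
  hr j := ((S.rl_D j hd.ray.smΨ hd.ray.rΨ).ofReal_re p).symm
  hβ j := ((hd.ray.rβ j).ofReal_re p).symm
  hiG := (hd.riG.ofReal_re p).symm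
  hσ := (hd.rσ.ofReal_re p).symm
  hc := (hd.rc.ofReal_re p).symm
  hs := (hd.rs.ofReal_re p).symm
  hh := (hd.rh.ofReal_re p).symm
  hiv := (hd.riv.ofReal_re p).symm

namespace RP

variable {d : TData P κ} {ρ : ℝ} {p : P} (R : RP S d ρ p)

/-- `E_tt` -/
def Ett : ℝ := dt R.xt R.xt
/-- `E_tw` -/
def Etw : ℝ := dt R.xt R.xw
/-- `E_ww` -/
def Eww : ℝ := dt R.xw R.xw
/-- `G_tt` -/
def Gtt : ℝ := R.Ett + ρ ^ 2 * (R.yt * R.yt)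
/-- `G_tw` -/
def Gtw : ℝ := R.Etw + ρ ^ 2 * (R.yt * R.yw)
/-- `G_ww` -/
def Gww : ℝ := R.Eww + ρ ^ 2 * (R.yw * R.yw)
/-- `dX` -/
def dX : ℝ := R.Ett * R.Eww - R.Etw * R.Etw
/-- `|m|²` -/
def M2 : ℝ := R.Gtt - R.Gtw * R.Gtw * R.iG
/-- `G_tw / G_ww` -/
def bt : ℝ := R.Gtw * R.iG

theorem cEtt : d.Ett S p = R.Ett := by
  simp only [TData.Ett, Ett, dot, dt, R.hxt]; push_cast; rfl
theorem cEtw : d.Etw S p = R.Etw := by
  simp only [TData.Etw, Etw, dot, dt, R.hxt, R.hxw]; push_cast; rfl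
theorem cEww : d.Eww S p = R.Eww := by
  simp only [TData.Eww, Eww, dot, dt, R.hxw]; push_cast; rfl
theorem cGtt : d.Gtt S ρ p = R.Gtt := by
  simp only [TData.Gtt, Gtt, R.cEtt, R.hyt]; push_cast; rfl
theorem cGtw : d.Gtw S ρ p = R.Gtw := by
  simp only [TData.Gtw, Gtw, R.cEtw, R.hyt, R.hyw]; push_cast; rfl
theorem cGww : d.Gww S ρ p = R.Gww := by
  simp only [TData.Gww, Gww, R.cEww, R.hyw]; push_cast; rfl
theorem cdX : d.dX S p = R.dX := by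
  simp only [TData.dX, dX, R.cEtt, R.cEtw, R.cEww]; push_cast; rfl
theorem cM2 : d.M2 S ρ p = R.M2 := by
  simp only [TData.M2, M2, R.cGtt, R.cGtw, R.hiG]; push_cast; rfl
theorem cbt : d.bt S ρ p = R.bt := by
  simp only [TData.bt, bt, R.cGtw, R.hiG]; push_cast; rfl

theorem cmet (j k : κ) : S.met d.X j k p = (dt (R.x j) (R.x k) : ℝ) := by
  simp only [DAlg.met, dot, DAlg.Dv, dt, R.hx]; push_cast; rfl

theorem cQ (j k : κ) : d.Q S ρ j k p =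
    (dt (R.x j) (R.x k) + ρ ^ 2 * (R.y j * R.y k) + (R.iv ^ 2 - 1) * R.M2 * (R.r j * R.r k) : ℝ) := by
  simp only [TData.Q, R.cmet, R.hy, R.cM2, R.hiv, R.hr]; push_cast; rfl

theorem Ett0 : 0 ≤ R.Ett := dt_self_nonneg _
theorem Eww0 : 0 ≤ R.Eww := dt_self_nonneg _
theorem dX0 : 0 ≤ R.dX := gr2_nonneg _ _

theorem area_ge (j k : κ) :
    gr2 (R.x j) (R.x k) ≤ (dt (R.x j) (R.x j) + ρ ^ 2 * (R.y j * R.y j)) *
      (dt (R.x k) (R.x k) + ρ ^ 2 * (R.y k * R.y k)) -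
      (dt (R.x j) (R.x k) + ρ ^ 2 * (R.y j * R.y k)) ^ 2 := by
  have h := dt_self_nonneg (R.y j • R.x k - R.y k • R.x j)
  have h2 : dt (R.y j • R.x k - R.y k • R.x j) (R.y j • R.x k - R.y k • R.x j) =
      R.y j ^ 2 * dt (R.x k) (R.x k) + R.y k ^ 2 * dt (R.x j) (R.x j)
        - 2 * (R.y j * R.y k) * dt (R.x j) (R.x k) := by
    simp only [dt, Pi.sub_apply, Pi.smul_apply, smul_eq_mul, Fin.sum_univ_four]; ring
  rw [h2] at h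
  have h3 : 0 ≤ ρ ^ 2 * (R.y j ^ 2 * dt (R.x k) (R.x k) + R.y k ^ 2 * dt (R.x j) (R.x j)
        - 2 * (R.y j * R.y k) * dt (R.x j) (R.x k)) := mul_nonneg (sq_nonneg _) h
  unfold gr2
  nlinarith

end RP

theorem dir_bd {c : κ → P → ℂ} {u : P → ℂ} {p : P} {C : ℝ} (hC : 0 ≤ C)
    (hc : ∀ j, ‖c j p‖ ≤ C) (hu : ∀ j, ‖S.D j u p‖ ≤ C) :
    ‖S.dir c u p‖ ≤ Fintype.card κ * (C * C) := by
  calc ‖S.dir c u p‖ ≤ ∑ j, ‖c j p * S.D j u p‖ := norm_sum_le _ _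
    _ ≤ ∑ _j : κ, C * C := Finset.sum_le_sum fun j _ => by
        rw [norm_mul]; exact mul_le_mul (hc j) (hu j) (norm_nonneg _) hC
    _ = Fintype.card κ * (C * C) := by
        rw [Finset.sum_const, Finset.card_univ, nsmul_eq_mul]

/-- `Q` in the orthogonal frame -/
theorem Q_K {d : TData P κ} {ρ : ℝ} (hd : d.Ok S ρ) {p : P} (hp : p ∈ d.r.K) (j k : κ) :
    d.Q S ρ j k p =
      (d.r.β j p + S.D j d.r.Ψ p * d.bt S ρ p) * (d.r.β k p + S.D k d.r.Ψ p * d.bt S ρ p)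
        * d.Gww S ρ p + S.D j d.r.Ψ p * S.D k d.r.Ψ p * (d.iv p ^ 2 * d.M2 S ρ p) := by
  have heN : dc (ve S d ρ 0 p) (vN S d ρ 0 p) = 0 := by rw [dc_comm]; exact Ne 0 hd p hp
  rw [← LL_K 0 hd p hp j k, vL_eq 0 hd p hp j, vL_eq 0 hd p hp k]
  simp only [dc_add_left, dc_smul_left, dc_add_right, dc_smul_right, Ne 0 hd p hp, heN, NN 0 hd,
    ee 0 hd p hp]
  ring

theorem sq_le_of_norm {z : ℂ} {x C : ℝ} (h : z = x) (hz : ‖z‖ ≤ C) : x ^ 2 ≤ C ^ 2 := by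
  rw [h, Complex.norm_real, Real.norm_eq_abs] at hz
  rw [← sq_abs]
  exact pow_le_pow_left₀ (abs_nonneg _) hz 2

theorem dt_le {x : Fin 4 → ℝ} {B : ℝ} (h : ∀ i, x i ^ 2 ≤ B) : dt x x ≤ 4 * B := by
  simp only [dt, Fin.sum_univ_four]
  nlinarith [h 0, h 1, h 2, h 3]

/-- upper bound of `G_tt + G_ww` -/
def cT (n : ℕ) (C ρ : ℝ) : ℝ := 8 * (n * (C * C)) ^ 2 + 2 * ρ ^ 2 * (n * (C * C)) ^ 2 + 1

/-- upper bound of `Q_jj` -/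
def cU (n : ℕ) (C ρ : ℝ) : ℝ := 4 * C ^ 2 + ρ ^ 2 * C ^ 2 + C ^ 2 * cT n C ρ * C ^ 2 + 1

/-- lower bound for the vertical part -/
def cκ (n : ℕ) (C ρ cψ : ℝ) : ℝ := ρ * cψ / (2 * (1 + cT n C ρ))

/-- the constant on `K` -/
def cK (n : ℕ) (C ρ cψ c0 c1 : ℝ) : ℝ :=
  c0 * min ((c0 / (4 * cU n C ρ)) ^ 2 * c1 ^ 2 / (C ^ 2 * cT n C ρ))
    ((c0 * cκ n C ρ cψ ^ 2 / (100 * cU n C ρ)) ^ 2 / ρ ^ 2)

theorem cT_pos (n : ℕ) (C ρ : ℝ) : 0 < cT n C ρ := by unfold cT; positivity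

theorem cU_pos (n : ℕ) (C ρ : ℝ) : 0 < cU n C ρ := by
  have := cT_pos n C ρ
  unfold cU; positivity

theorem cκ_pos (n : ℕ) {C ρ cψ : ℝ} (hρ : 0 < ρ) (hψ : 0 < cψ) : 0 < cκ n C ρ cψ := by
  have := cT_pos n C ρ
  unfold cκ; positivity

theorem cK_pos (n : ℕ) {C ρ cψ c0 c1 : ℝ} (hC : 0 < C) (hρ : 0 < ρ) (hψ : 0 < cψ) (hc0 : 0 < c0)
    (hc1 : 0 < c1) : 0 < cK n C ρ cψ c0 c1 := by
  have h1 := cT_pos n C ρ
  have h2 := cU_pos n C ρ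
  have h3 := cκ_pos n (C := C) hρ hψ
  unfold cK
  apply mul_pos hc0
  apply lt_min <;> positivity

namespace RP

variable {d : TData P κ} {ρ : ℝ} {p : P} (R : RP S d ρ p)

/-- coefficient of `N` in `L_j` -/
def al (j : κ) : ℝ := R.β j + R.r j * R.bt

section onK
variable (hd : d.Ok S ρ) (hp : p ∈ d.r.K)
include hd hp

theorem iGG : R.iG * R.Gww = 1 := by
  have := hd.iGG p hp
  rw [R.hiG, R.cGww] at this
  exact_mod_cast this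

theorem σσ : R.σ ^ 2 * (R.dX * R.Gww) = 1 := by
  have := hd.σσ p hp
  rw [R.hσ, R.cdX, R.cGww] at this
  exact_mod_cast this

theorem W_pos : 0 < R.Gww := by
  have hW0 : 0 ≤ R.Gww := by
    unfold Gww; nlinarith [R.Eww0, sq_nonneg (ρ * R.yw)]
  have e1 := R.iGG hd hp
  exact lt_of_le_of_ne hW0 fun h => by rw [← h] at e1; simp at e1

theorem dX_pos : 0 < R.dX := by
  have e2 := R.σσ hd hp
  exact lt_of_le_of_ne R.dX0 fun h => by rw [← h] at e2; simp at e2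

theorem dX_le : R.dX ≤ R.M2 * R.Gww := by
  have e1 := R.iGG hd hp
  have hM2W : R.M2 * R.Gww = R.Gtt * R.Gww - R.Gtw * R.Gtw := by
    unfold M2; linear_combination (-(R.Gtw * R.Gtw)) * e1
  have hdet : R.Gtt * R.Gww - R.Gtw * R.Gtw = R.dX + ρ ^ 2 * (R.yt ^ 2 * R.Eww
      - 2 * (R.yt * R.yw) * R.Etw + R.yw ^ 2 * R.Ett) := by
    unfold Gtt Gww Gtw dX; ring
  have hform : 0 ≤ R.yt ^ 2 * R.Eww - 2 * (R.yt * R.yw) * R.Etw + R.yw ^ 2 * R.Ett := by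
    have h := dt_self_nonneg (R.yt • R.xw - R.yw • R.xt)
    have h2 : dt (R.yt • R.xw - R.yw • R.xt) (R.yt • R.xw - R.yw • R.xt) =
        R.yt ^ 2 * R.Eww - 2 * (R.yt * R.yw) * R.Etw + R.yw ^ 2 * R.Ett := by
      simp only [Eww, Etw, Ett, dt, Pi.sub_apply, Pi.smul_apply, smul_eq_mul,
        Fin.sum_univ_four]
      ring
    rwa [h2] at h
  rw [hM2W, hdet]
  have := mul_nonneg (sq_nonneg ρ) hform
  linarith

theorem M_pos : 0 < R.M2 := by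
  have h1 := R.dX_pos hd hp
  have h2 := R.dX_le hd hp
  have h3 := R.W_pos hd hp
  by_contra hcon
  push Not at hcon
  nlinarith

theorem hQ (j k : κ) : dt (R.x j) (R.x k) + ρ ^ 2 * (R.y j * R.y k)
      + (R.iv ^ 2 - 1) * R.M2 * (R.r j * R.r k) =
      R.al j * R.al k * R.Gww + R.r j * R.r k * (R.iv ^ 2 * R.M2) := by
  have h := Q_K hd hp j k
  rw [R.cQ, R.hβ, R.hβ, R.hr, R.hr, R.cbt, R.cGww, R.hiv, R.cM2] at h
  simp only [al]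
  exact_mod_cast h

/-- vertical component of the loop -/
def ez : ℝ := R.iv * (R.c * (ρ * (R.yt - R.bt * R.yw)) + R.s * (R.σ * R.dX))

theorem hgram (μ : ℝ) (hρ : 0 < ρ) (a b j : κ) :
    (gram3 (d.L S ρ μ a) (d.L S ρ μ b) (d.B S ρ μ j j) p).re =
      (R.al a * R.r b - R.al b * R.r a) ^ 2 * (R.Gww * (R.iv ^ 2 * R.M2)) *
        (R.r j ^ 4 * R.h ^ 2 * R.iv ^ 2 * R.M2
          + (R.al j * (ρ * R.yw) + R.r j * R.ez) ^ 4 / ρ ^ 2) := by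
  have h := gram_K μ hd p hρ.ne' hp a b j
  rw [area_K hd p hp, zeta_eq hd p hp, R.hβ, R.hβ, R.hβ, R.hr, R.hr, R.hr, R.cbt, R.cGww, R.hiv,
    R.cM2, R.hyw, R.hc, R.hs, R.hh] at h
  have h3 : d.a3 S ρ p = (ρ * (R.yt - R.bt * R.yw) : ℝ) := by
    simp only [TData.a3, R.hyt, R.hyw, R.cbt]; push_cast; rfl
  have h4 : d.b3 S p = (R.σ * R.dX : ℝ) := by
    simp only [TData.b3, R.hσ, R.cdX]; push_cast; rfl
  rw [h3, h4] at h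
  rw [h]
  rw [← Complex.ofReal_re ((R.al a * R.r b - R.al b * R.r a) ^ 2
      * (R.Gww * (R.iv ^ 2 * R.M2)) *
      (R.r j ^ 4 * R.h ^ 2 * R.iv ^ 2 * R.M2
        + (R.al j * (ρ * R.yw) + R.r j * R.ez) ^ 4 / ρ ^ 2))]
  congr 1
  simp only [al, ez]
  push_cast
  ring

end onK

section bounds
variable {C c0 : ℝ} {a b : κ} (hC : 0 ≤ C) (hB : PtBd S d p C c0 a b)
include hC hB

theorem xt_le (i : Fin 4) : R.xt i ^ 2 ≤ (Fintype.card κ * (C * C)) ^ 2 :=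
  sq_le_of_norm (R.hxt i) (dir_bd hC hB.t fun j => hB.X j i)

theorem xw_le (i : Fin 4) : R.xw i ^ 2 ≤ (Fintype.card κ * (C * C)) ^ 2 :=
  sq_le_of_norm (R.hxw i) (dir_bd hC hB.w fun j => hB.X j i)

theorem T_le : R.Gtt + R.Gww ≤ cT (Fintype.card κ) C ρ := by
  have hyt : R.yt ^ 2 ≤ (Fintype.card κ * (C * C)) ^ 2 :=
    sq_le_of_norm R.hyt (dir_bd hC hB.t hB.ψ)
  have hyw : R.yw ^ 2 ≤ (Fintype.card κ * (C * C)) ^ 2 :=
    sq_le_of_norm R.hyw (dir_bd hC hB.w hB.ψ)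
  have h1 := dt_le (R.xt_le hC hB)
  have h2 := dt_le (R.xw_le hC hB)
  have h3 : ρ ^ 2 * R.yt ^ 2 ≤ ρ ^ 2 * (Fintype.card κ * (C * C)) ^ 2 := by gcongr
  have h4 : ρ ^ 2 * R.yw ^ 2 ≤ ρ ^ 2 * (Fintype.card κ * (C * C)) ^ 2 := by gcongr
  unfold Gtt Gww Ett Eww cT
  linarith

end bounds

theorem Gtt0 : 0 ≤ R.Gtt := by
  unfold Gtt
  have := R.Ett0
  have := mul_self_nonneg (ρ * R.yt)
  nlinarith

theorem M_le (hd : d.Ok S ρ) (hp : p ∈ d.r.K) {C c0 : ℝ} {a b : κ} (hC : 0 ≤ C)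
    (hB : PtBd S d p C c0 a b) : R.M2 ≤ cT (Fintype.card κ) C ρ := by
  have e1 := R.iGG hd hp
  have hW := R.W_pos hd hp
  have h1 := R.T_le hC hB
  have : R.M2 ≤ R.Gtt := by
    unfold M2
    have h5 : R.Gtw * R.Gtw * R.iG = (R.Gtw * R.iG) ^ 2 * R.Gww := by
      linear_combination (-(R.Gtw * R.Gtw * R.iG)) * e1
    have h6 : 0 ≤ (R.Gtw * R.iG) ^ 2 * R.Gww := by positivity
    linarith
  linarith

theorem UU_le (hd : d.Ok S ρ) (hp : p ∈ d.r.K) {C c0 : ℝ} {a b : κ} (hC : 0 ≤ C)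
    (hB : PtBd S d p C c0 a b) (j : κ) :
    R.al j ^ 2 * R.Gww + R.r j ^ 2 * (R.iv ^ 2 * R.M2) ≤ cU (Fintype.card κ) C ρ := by
  have h := R.hQ hd hp j j
  have hx := dt_le fun i => sq_le_of_norm (R.hx j i) (hB.X j i)
  have hy := sq_le_of_norm (R.hy j) (hB.ψ j)
  have hr := sq_le_of_norm (R.hr j) (hB.r j)
  have hivC : R.iv ^ 2 ≤ C ^ 2 := sq_le_of_norm R.hiv hB.iv
  have hiv1 : 1 ≤ R.iv := by
    have := hB.iv1
    rwa [R.hiv, Complex.ofReal_re] at this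
  have hM2le := R.M_le hd hp hC hB
  have hM0 := R.M_pos hd hp
  have hT := cT_pos (Fintype.card κ) C ρ
  have h1 : ρ ^ 2 * R.y j ^ 2 ≤ ρ ^ 2 * C ^ 2 := by gcongr
  have h2 : (R.iv ^ 2 - 1) * R.M2 * (R.r j * R.r j) ≤
      C ^ 2 * cT (Fintype.card κ) C ρ * C ^ 2 := by
    have a1 : R.iv ^ 2 - 1 ≤ C ^ 2 := by linarith
    have a2 : 0 ≤ R.iv ^ 2 - 1 := by nlinarith
    have a3 : R.r j * R.r j ≤ C ^ 2 := by rw [← sq]; exact hr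
    have a4 : 0 ≤ R.r j * R.r j := mul_self_nonneg _
    calc (R.iv ^ 2 - 1) * R.M2 * (R.r j * R.r j) ≤
          C ^ 2 * cT (Fintype.card κ) C ρ * (R.r j * R.r j) := by gcongr
      _ ≤ C ^ 2 * cT (Fintype.card κ) C ρ * C ^ 2 := by gcongr
  unfold cU
  have e : R.al j ^ 2 * R.Gww + R.r j ^ 2 * (R.iv ^ 2 * R.M2) =
    dt (R.x j) (R.x j) + ρ ^ 2 * R.y j ^ 2 + (R.iv ^ 2 - 1) * R.M2 * (R.r j * R.r j) := by
    linear_combination -h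
  rw [e]
  linarith

theorem det_ge {C c0 : ℝ} {a b : κ} (hB : PtBd S d p C c0 a b) :
    c0 ≤ gr2 (R.x a) (R.x b) := by
  have h := hB.det
  rw [R.cmet, R.cmet, R.cmet] at h
  have e : (((dt (R.x a) (R.x a) : ℝ) : ℂ) * ((dt (R.x b) (R.x b) : ℝ) : ℂ)
    - ((dt (R.x a) (R.x b) : ℝ) : ℂ) ^ 2) =
    ((gr2 (R.x a) (R.x b) : ℝ) : ℂ) := by
    unfold gr2; push_cast; ring
  rw [e, Complex.ofReal_re] at h
  exact h

theorem area_K_ge (hd : d.Ok S ρ) (hp : p ∈ d.r.K) {C c0 : ℝ} {a b : κ}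
    (hB : PtBd S d p C c0 a b) :
    c0 ≤ (R.al a * R.r b - R.al b * R.r a) ^ 2 * (R.Gww * (R.iv ^ 2 * R.M2)) := by
  have h0 := R.det_ge hB
  have h1 := R.area_ge a b
  have haa := R.hQ hd hp a a
  have hbb := R.hQ hd hp b b
  have hab := R.hQ hd hp a b
  have g1 : dt (R.x a) (R.x a) + ρ ^ 2 * (R.y a * R.y a) =
      R.al a ^ 2 * R.Gww + R.r a ^ 2 * R.M2 := by linear_combination haa
  have g2 : dt (R.x b) (R.x b) + ρ ^ 2 * (R.y b * R.y b) =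
      R.al b ^ 2 * R.Gww + R.r b ^ 2 * R.M2 := by linear_combination hbb
  have g3 : dt (R.x a) (R.x b) + ρ ^ 2 * (R.y a * R.y b) =
      R.al a * R.al b * R.Gww + R.r a * R.r b * R.M2 := by linear_combination hab
  rw [g1, g2, g3] at h1
  have h2 : (R.al a ^ 2 * R.Gww + R.r a ^ 2 * R.M2) * (R.al b ^ 2 * R.Gww + R.r b ^ 2 * R.M2)
      - (R.al a * R.al b * R.Gww + R.r a * R.r b * R.M2) ^ 2 =
      (R.al a * R.r b - R.al b * R.r a) ^ 2 * (R.Gww * R.M2) := by ring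
  rw [h2] at h1
  have hiv1 : 1 ≤ R.iv := by
    have := hB.iv1
    rwa [R.hiv, Complex.ofReal_re] at this
  have hW := R.W_pos hd hp
  have hM := R.M_pos hd hp
  have hiv2 : 1 ≤ R.iv ^ 2 := by nlinarith
  have h4 : R.M2 ≤ R.iv ^ 2 * R.M2 := by nlinarith
  have h3 : (R.al a * R.r b - R.al b * R.r a) ^ 2 * (R.Gww * R.M2) ≤
      (R.al a * R.r b - R.al b * R.r a) ^ 2 * (R.Gww * (R.iv ^ 2 * R.M2)) := by
    gcongr
  linarith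

theorem V_le (hd : d.Ok S ρ) (hp : p ∈ d.r.K) : (R.σ * R.dX) ^ 2 ≤ R.M2 := by
  have e2 := R.σσ hd hp
  have hW := R.W_pos hd hp
  have h1 : (R.σ * R.dX) ^ 2 * R.Gww = R.dX := by linear_combination R.dX * e2
  have h2 : (R.σ * R.dX) ^ 2 * R.Gww ≤ R.M2 * R.Gww := by rw [h1]; exact R.dX_le hd hp
  exact le_of_mul_le_mul_right h2 hW

theorem grad_ge (hd : d.Ok S ρ) (hp : p ∈ d.r.K) :
    (R.yt ^ 2 + R.yw ^ 2) * (R.Gww * R.M2) ≤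
      (R.yw ^ 2 * R.M2 + (R.yt - R.bt * R.yw) ^ 2 * R.Gww) * (R.Gtt + R.Gww) := by
  have e1 := R.iGG hd hp
  have hW := R.W_pos hd hp
  have hM := R.M_pos hd hp
  have hG : R.Gtt = R.M2 + R.bt ^ 2 * R.Gww := by
    unfold M2 bt; linear_combination (-(R.Gtw ^ 2 * R.iG)) * e1
  rw [hG]
  set W := R.Gww
  set M := R.M2
  set b := R.bt
  set x := R.yw
  set z := R.yt - b * x with hz
  have hyt : R.yt = z + b * x := by rw [hz]; ring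
  rw [hyt]
  have key : (x ^ 2 * M + z ^ 2 * W) * (M + b ^ 2 * W + W) - ((z + b * x) ^ 2 + x ^ 2) * (W * M)
      = (x * M - z * b * W) ^ 2 + z ^ 2 * W ^ 2 := by ring
  have : 0 ≤ (x * M - z * b * W) ^ 2 + z ^ 2 * W ^ 2 := by positivity
  linarith

theorem vert_ge (hd : d.Ok S ρ) (hp : p ∈ d.r.K) {C c0 cψ : ℝ} {a b : κ} (hC : 0 ≤ C)
    (hψ : 0 < cψ) (hB : PtBd S d p C c0 a b)
    (h3 : cψ ≤ ‖d.ψt S p‖ + ‖d.ψw S p‖) :
    cκ (Fintype.card κ) C ρ cψ ^ 2 * (R.Gww * R.M2) ≤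
        (ρ * R.yw) ^ 2 * R.M2 + (ρ * (R.yt - R.bt * R.yw)) ^ 2 * R.Gww := by
  rw [R.hyt, R.hyw, Complex.norm_real, Complex.norm_real, Real.norm_eq_abs,
    Real.norm_eq_abs] at h3
  have hT := R.T_le hC hB
  have hW := R.W_pos hd hp
  have hM := R.M_pos hd hp
  have hG0 := R.Gtt0
  have hT0 := cT_pos (Fintype.card κ) C ρ
  have hg := R.grad_ge hd hp
  set n := Fintype.card κ
  have h1 : cψ ^ 2 ≤ 2 * (R.yt ^ 2 + R.yw ^ 2) := by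
    have h5 : cψ ^ 2 ≤ (|R.yt| + |R.yw|) ^ 2 := pow_le_pow_left₀ hψ.le h3 2
    nlinarith [sq_abs R.yt, sq_abs R.yw, sq_nonneg (|R.yt| - |R.yw|)]
  have h4 : cκ n C ρ cψ ^ 2 * (4 * (1 + cT n C ρ) ^ 2) = ρ ^ 2 * cψ ^ 2 := by
    unfold cκ; field_simp; ring
  have h5 : 2 * (R.Gtt + R.Gww) ≤ 4 * (1 + cT n C ρ) ^ 2 := by nlinarith
  have h3 : cκ n C ρ cψ ^ 2 * (2 * (R.Gtt + R.Gww)) ≤ ρ ^ 2 * cψ ^ 2 := by
    calc cκ n C ρ cψ ^ 2 * (2 * (R.Gtt + R.Gww))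
        ≤ cκ n C ρ cψ ^ 2 * (4 * (1 + cT n C ρ) ^ 2) := by gcongr
      _ = ρ ^ 2 * cψ ^ 2 := h4
  have hS : 0 < R.Gtt + R.Gww := by linarith
  have hWM : 0 < R.Gww * R.M2 := mul_pos hW hM
  have h6 : cκ n C ρ cψ ^ 2 * (R.Gww * R.M2) * (R.Gtt + R.Gww) ≤
      ((ρ * R.yw) ^ 2 * R.M2 + (ρ * (R.yt - R.bt * R.yw)) ^ 2 * R.Gww)
        * (R.Gtt + R.Gww) := by
    calc cκ n C ρ cψ ^ 2 * (R.Gww * R.M2) * (R.Gtt + R.Gww)
        = (cκ n C ρ cψ ^ 2 * (2 * (R.Gtt + R.Gww))) * (R.Gww * R.M2) / 2 := by ring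
      _ ≤ (ρ ^ 2 * cψ ^ 2) * (R.Gww * R.M2) / 2 := by gcongr
      _ ≤ (ρ ^ 2 * (2 * (R.yt ^ 2 + R.yw ^ 2))) * (R.Gww * R.M2) / 2 := by gcongr
      _ = ρ ^ 2 * ((R.yt ^ 2 + R.yw ^ 2) * (R.Gww * R.M2)) := by ring
      _ ≤ ρ ^ 2 * ((R.yw ^ 2 * R.M2 + (R.yt - R.bt * R.yw) ^ 2 * R.Gww)
          * (R.Gtt + R.Gww)) := by gcongr
      _ = _ := by ring
  exact le_of_mul_le_mul_right h6 hS

end RP

/-- **(C) on `K`** -/
theorem lowerK {d : TData P κ} {ρ : ℝ} (hd : d.Ok S ρ) (μ : ℝ) {p : P} (hp : p ∈ d.r.K)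
    {C c0 c1 cψ : ℝ} {a b : κ} (hC : 1 ≤ C) (hc0 : 0 < c0) (hc1 : 0 < c1) (hψ : 0 < cψ)
    (hρ : 0 < ρ) (hB : PtBd S d p C c0 a b)
    (halt : c1 ≤ ‖d.h p‖ ∨ (1 / 2 ≤ (d.c p).re ∧
      ‖d.s p‖ ≤ cκ (Fintype.card κ) C ρ cψ / 4 * (d.c p).re ∧
      cψ ≤ ‖d.ψt S p‖ + ‖d.ψw S p‖)) :
    ∃ j, cK (Fintype.card κ) C ρ cψ c0 c1 ≤
      (gram3 (d.L S ρ μ a) (d.L S ρ μ b) (d.B S ρ μ j j) p).re := by
  have hC0 : 0 ≤ C := by linarith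
  have R := mkRP hd p
  have hivC : R.iv ^ 2 ≤ C ^ 2 := sq_le_of_norm R.hiv hB.iv
  have hiv1 : 1 ≤ R.iv := by
    have := hB.iv1
    rwa [R.hiv, Complex.ofReal_re] at this
  have hM2le := R.M_le hd hp hC0 hB
  have hM := R.M_pos hd hp
  have hE : R.iv ^ 2 * R.M2 ≤ C ^ 2 * cT (Fintype.card κ) C ρ := by gcongr
  have halt' : c1 ≤ |R.h| ∨ (1 / 2 ≤ R.c ∧ |R.s| ≤ cκ (Fintype.card κ) C ρ cψ / 4 * R.c ∧
      cκ (Fintype.card κ) C ρ cψ ^ 2 * (R.Gww * R.M2) ≤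
        (ρ * R.yw) ^ 2 * R.M2 + (ρ * (R.yt - R.bt * R.yw)) ^ 2 * R.Gww) := by
    rcases halt with h | ⟨k1, k2, k3⟩
    · left
      rw [R.hh, Complex.norm_real, Real.norm_eq_abs] at h
      exact h
    · right
      refine ⟨?_, ?_, R.vert_ge hd hp hC0 hψ hB k3⟩
      · rw [R.hc, Complex.ofReal_re] at k1
        exact k1
      · rw [R.hs, R.hc, Complex.norm_real, Complex.ofReal_re, Real.norm_eq_abs] at k2
        exact k2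
  have hfin := sc_lower (za := R.al a * (ρ * R.yw) + R.r a * R.ez)
    (zb := R.al b * (ρ * R.yw) + R.r b * R.ez)
    (R.W_pos hd hp) hM hiv1 hc0 (cU_pos _ _ _) (cκ_pos _ hρ hψ) hc1 hρ
    (R.area_K_ge hd hp hB) (R.UU_le hd hp hC0 hB a) (R.UU_le hd hp hC0 hB b) hE rfl rfl
    (R.V_le hd hp) (le_refl _) halt'
  rcases hfin with h | h
  · exact ⟨a, by rw [R.hgram hd hp μ hρ]; exact h⟩
  · exact ⟨b, by rw [R.hgram hd hp μ hρ]; exact h⟩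

/-- **(C) off `K`** -/
theorem lower_off {d : TData P κ} {ρ : ℝ} (hd : d.Ok S ρ) (μ : ℝ) {p : P} (hp : p ∉ d.r.K)
    {C c0 cψ : ℝ} {a b : κ} (hc0 : 0 < c0) (hψ : 0 < cψ)
    (hρ : 0 < ρ) (hB : PtBd S d p C c0 a b) {j : κ} (hj : cψ ≤ ‖S.D j d.ψ p‖) :
    c0 * (ρ ^ 2 * cψ ^ 4) ≤
      (gram3 (d.L S ρ μ a) (d.L S ρ μ b) (d.B S ρ μ j j) p).re := by
  have R := mkRP hd p
  have h0 := R.det_ge hB
  have h1 := R.area_ge a b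
  have hiv : R.iv = 1 := by
    have := hd.ziv p hp
    rw [R.hiv] at this
    exact_mod_cast this
  have hh : R.h = 0 := by
    have := hd.zh p hp
    rw [R.hh] at this
    exact_mod_cast this
  have hg := gram_off μ hd p hρ.ne' hp a b j
  rw [zeta_off hd p hp, R.cQ, R.cQ, R.cQ, R.hh, R.hy, R.hr, R.hiv, R.cM2, hiv, hh] at hg
  have hg2 : (gram3 (d.L S ρ μ a) (d.L S ρ μ b) (d.B S ρ μ j j) p).re =
      ((dt (R.x a) (R.x a) + ρ ^ 2 * (R.y a * R.y a)) *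
      (dt (R.x b) (R.x b) + ρ ^ 2 * (R.y b * R.y b)) -
      (dt (R.x a) (R.x b) + ρ ^ 2 * (R.y a * R.y b)) ^ 2) * (ρ ^ 2 * R.y j ^ 4) := by
    rw [hg]
    rw [← Complex.ofReal_re (((dt (R.x a) (R.x a) + ρ ^ 2 * (R.y a * R.y a)) *
      (dt (R.x b) (R.x b) + ρ ^ 2 * (R.y b * R.y b)) -
      (dt (R.x a) (R.x b) + ρ ^ 2 * (R.y a * R.y b)) ^ 2) * (ρ ^ 2 * R.y j ^ 4))]
    congr 1
    have hρ' : (ρ : ℂ) ≠ 0 := by exact_mod_cast hρ.ne'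
    push_cast
    field_simp
    ring
  rw [hg2]
  have h2 := h0.trans h1
  have h3 : cψ ^ 4 ≤ R.y j ^ 4 := by
    rw [R.hy, Complex.norm_real, Real.norm_eq_abs] at hj
    have : R.y j ^ 4 = |R.y j| ^ 4 := by
      rw [← abs_pow, abs_of_nonneg (by positivity)]
    rw [this]
    exact pow_le_pow_left₀ hψ.le hj 4
  have h4 : ρ ^ 2 * cψ ^ 4 ≤ ρ ^ 2 * R.y j ^ 4 := by gcongr
  exact mul_le_mul h2 h4 (by positivity) (hc0.le.trans h2)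

variable (S) in
/-- **(C)** lower bound of the Gram determinant at leading order -/
theorem lower {ρ C c0 c1 cψ : ℝ} (hC : 1 ≤ C) (hc0 : 0 < c0)
    (hc1 : 0 < c1) (hψ : 0 < cψ) (hρ : 0 < ρ) :
    ∃ τ0 : ℝ, 0 < τ0 ∧ ∃ c : ℝ, 0 < c ∧ ∀ (d : TData P κ), d.Ok S ρ → ∀ (μ : ℝ) (p : P) (a b : κ),
      PtBd S d p C c0 a b →
      ((p ∈ d.r.K ∧ c1 ≤ ‖d.h p‖) ∨ (1 / 2 ≤ (d.c p).re ∧ ‖d.s p‖ ≤ τ0 * (d.c p).re ∧
        (p ∈ d.r.K → cψ ≤ ‖d.ψt S p‖ + ‖d.ψw S p‖) ∧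
        (p ∉ d.r.K → ∃ j, cψ ≤ ‖S.D j d.ψ p‖))) →
      ∃ j, c ≤ (gram3 (d.L S ρ μ a) (d.L S ρ μ b) (d.B S ρ μ j j) p).re := by
  have hC0 : 0 < C := by linarith
  have hκ := cκ_pos (Fintype.card κ) (C := C) hρ hψ
  have hK := cK_pos (Fintype.card κ) hC0 hρ hψ hc0 hc1
  refine ⟨cκ (Fintype.card κ) C ρ cψ / 4, by positivity,
    min (cK (Fintype.card κ) C ρ cψ c0 c1) (c0 * (ρ ^ 2 * cψ ^ 4)),
    lt_min hK (by positivity), ?_⟩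
  intro d hd μ p a b hB halt
  by_cases hp : p ∈ d.r.K
  · have h1 : c1 ≤ ‖d.h p‖ ∨ (1 / 2 ≤ (d.c p).re ∧
      ‖d.s p‖ ≤ cκ (Fintype.card κ) C ρ cψ / 4 * (d.c p).re ∧
      cψ ≤ ‖d.ψt S p‖ + ‖d.ψw S p‖) := by
      rcases halt with ⟨_, h⟩ | ⟨k1, k2, k3, _⟩
      · exact Or.inl h
      · exact Or.inr ⟨k1, k2, k3 hp⟩
    obtain ⟨j, hj⟩ := lowerK hd μ hp hC hc0 hc1 hψ hρ hB h1
    exact ⟨j, (min_le_left _ _).trans hj⟩
  · rcases halt with ⟨h, _⟩ | ⟨_, _, _, k4⟩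
    · exact absurd h hp
    · obtain ⟨j, hj⟩ := k4 hp
      exact ⟨j, (min_le_right _ _).trans (lower_off hd μ hp hc0 hψ hρ hB hj)⟩

end TData

end Vale.Agent.P205.TW
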