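import Vale.Agent.P205.TW.FormSpec
import Vale.Agent.P205.TW.Form2C

/-!
P205, scheme T1W, block FORMULA: proof of `LowerC`.
-/

noncomputable section

namespace Vale.Agent.P205.TW

open Vale.Agent.P205.F

universe u

variable {P : Type u} {κ : Type} [Fintype κ] (S : DAlg P κ)

namespace TData

/-- pointwise lower bound of the Gram determinant of the leading terms -/
theorem lowerC : LowerC S := by
  intro C0 c0 cψ ρ _ hc0 hψ hρ
  set C := max C0 1 with hCdef
  have hC : 1 ≤ C := le_max_right _ _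
  have hCle : C0 ≤ C := le_max_left _ _
  have hC0 : 0 < C := by linarith
  have hκ := cκ_pos (Fintype.card κ) (C := C) hρ hψ
  refine ⟨min 1 (cκ (Fintype.card κ) C ρ cψ / 4), lt_min one_pos (by positivity),
    min_le_left _ _, ?_⟩
  intro c1 hc1
  have hK := cK_pos (Fintype.card κ) hC0 hρ hψ hc0 hc1
  refine ⟨min (cK (Fintype.card κ) C ρ cψ c0 c1) (c0 * (ρ ^ 2 * cψ ^ 4)),
    lt_min hK (by positivity), ?_⟩
  intro d μ p hd hp
  obtain ⟨a, b, hdet⟩ := hp.det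
  have hB : PtBd S d p C c0 a b :=
    ⟨fun j => (hp.t j).trans hCle, fun j => (hp.w j).trans hCle,
      fun j i => (hp.DX j i).trans hCle, fun j => (hp.Dψ j).trans hCle,
      fun j => (hp.Dr j).trans hCle, hp.iv.trans hCle, hp.iv1, hdet⟩
  refine ⟨a, b, ?_⟩
  by_cases hK' : p ∈ d.r.K
  · have h1 : c1 ≤ ‖d.h p‖ ∨ (1 / 2 ≤ (d.c p).re ∧
      ‖d.s p‖ ≤ cκ (Fintype.card κ) C ρ cψ / 4 * (d.c p).re ∧
      cψ ≤ ‖d.ψt S p‖ + ‖d.ψw S p‖) := by
      rcases hp.alt with ⟨_, h⟩ | ⟨k1, k2, k3, _⟩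
      · exact Or.inl h
      · refine Or.inr ⟨k1, k2.trans ?_, k3 hK'⟩
        have : 0 ≤ (d.c p).re := by linarith
        gcongr
        exact min_le_right _ _
    obtain ⟨j, hj⟩ := lowerK hd μ hK' hC hc0 hc1 hψ hρ hB h1
    exact ⟨j, (min_le_left _ _).trans hj⟩
  · rcases hp.alt with ⟨h, _⟩ | ⟨_, _, _, k4⟩
    · exact absurd h hK'
    · obtain ⟨j, hj⟩ := k4 hK'
      exact ⟨j, (min_le_right _ _).trans (lower_off hd μ hK' hc0 hψ hρ hB hj)⟩

end TData

end Vale.Agent.P205.TW
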