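import Vale.Agent.P205.TW.Build2

/-!
P205, scheme T1W, block C5: the sequence of approximate maps (`ModelC`) from the blocks.

`TensC D ..`: the tensor facts (block TENS, helper203).
`model_of`: GeoC + NASH + CHI + FORMULA + TENS give `ModelC S τ g κ1` for every `κ1 > 0`.
-/

noncomputable section

namespace Vale.Agent.P205.TW

open Vale.Agent.P205.F

universe u

variable {P : Type u} {κ : Type} [Fintype κ] {S : DAlg P κ} {τ : P → P} {g : κ → κ → P → ℂ}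

/-- the approximate maps needed by `T1U` (sequence form), even under `τ` -/
def ModelC (S : DAlg P κ) (τ : P → P) (g : κ → κ → P → ℂ) (κ1 : ℝ) : Prop :=
  ∃ (Lam δ : ℕ → ℝ) (f : ℕ → Fin 4 → P → ℂ) (c0 : ℝ), 0 < c0 ∧ (∀ i, 1 ≤ Lam i) ∧
    (∀ i, 0 < δ i) ∧ (∀ i, δ i ≤ 1) ∧ Filter.Tendsto δ Filter.atTop (nhds 0) ∧
    (∀ i a, S.Sm (f i a)) ∧ (∀ i a, Rl (f i a)) ∧ (∀ i a, Evn τ (f i a)) ∧
    (∀ a, S.FO Lam (fun _ => 1) (fun i => f i a)) ∧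
    (∀ j a, S.FO Lam (fun _ => 1) (fun i => S.D j (f i a))) ∧
    (∀ i p, ∃ j1 j2 j k, c0 * Lam i ^ 2 ≤
      (gram3 (S.Dv j1 (f i)) (S.Dv j2 (f i)) (S.Dv j (S.Dv k (f i))) p).re) ∧
    (∀ i j k p, ‖g j k p - S.met (f i) j k p - δ i * g j k p‖ ≤ κ1 * δ i) ∧
    (∀ j k, S.FO Lam δ (fun i p => g j k p - S.met (f i) j k p))

/-- `g(c, c')` -/
def gcc (g : κ → κ → P → ℂ) (c c' : κ → P → ℂ) : P → ℂ := fun p =>
  ∑ j, ∑ k, g j k p * c j p * c' k p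

/-- `g_tt - g_tw² / g_ww` -/
def m2C (g : κ → κ → P → ℂ) (r : Ray P κ) (c : ℝ) : P → ℂ := fun p =>
  gcc g r.t r.t p - gcc g r.t r.w p ^ 2 * iv1 c (gcc g r.w r.w) p

/-- the metric of the slow map -/
def gSC (S : DAlg P κ) (g : κ → κ → P → ℂ) (ψ : P → ℂ) (r : Ray P κ) (c : ℝ) (v : P → ℂ)
    (δ : ℝ) (j k : κ) : P → ℂ := fun p =>
  (1 - δ) * (g j k p - (1 - v p ^ 2) * m2C g r c p * (S.D j r.Ψ p * S.D k r.Ψ p))
    - S.D j ψ p * S.D k ψ p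

/-- admissible mean functions -/
structure VOk (S : DAlg P κ) (r v : P → ℂ) : Prop where
  sm : RSm S v
  v1 : ∀ p, 15 / 16 ≤ (v p).re ∧ (v p).re ≤ 1
  zv : S.Zs (Kc r) (fun p => v p - 1)
  ev : ∀ p q, r p = r q → v p = v q

/-- tensor facts for one mean function `v` -/
structure TensA (D : GeoC S τ g) (cG cσ c0 C η0 : ℝ) (v : P → ℂ) : Prop where
  ts : ∀ δ : ℝ, 0 ≤ δ → δ ≤ 1 / 16 →
    TSm S (fun j k p => gSC S g D.ψ D.r D.c v δ j k p - S.met D.X0 j k p)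
  ev : ∀ δ : ℝ, ∀ j k, Evn τ (fun p => gSC S g D.ψ D.r D.c v δ j k p - S.met D.X0 j k p)
  pos : ∀ δ : ℝ, 0 ≤ δ → δ ≤ 1 / 16 → ∃ c' : ℝ, 0 < c' ∧ ∀ p ξ, c' * qfm g p ξ ≤
    qfm (fun j k p => gSC S g D.ψ D.r D.c v δ j k p - S.met D.X0 j k p) p ξ
  low : ∀ δ : ℝ, 0 ≤ δ → δ ≤ 1 / 16 → ∀ X : Fin 4 → P → ℂ, (∀ a, RSm S (X a)) →
    (∀ j k p, ‖S.met X j k p - gSC S g D.ψ D.r D.c v δ j k p‖ ≤ η0) →
    (∀ p ∈ D.r.K, cG ≤ (Gw S D.ψ D.r X p).re) ∧ (∀ p ∈ D.r.K, cσ ≤ (Gd S D.ψ D.r X p).re) ∧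
    (∀ p, ∃ a b, c0 ≤ (S.met X a a p * S.met X b b p - S.met X a b p ^ 2).re) ∧
    ∀ j a p, ‖S.D j (X a) p‖ ≤ C
  met : ∃ C2 : ℝ, 0 < C2 ∧ ∀ δ : ℝ, 0 ≤ δ → δ ≤ 1 / 16 → ∀ η : ℝ, 0 < η → η ≤ η0 →
    ∀ X : Fin 4 → P → ℂ, (∀ a, RSm S (X a)) →
    (∀ j k p, ‖S.met X j k p - gSC S g D.ψ D.r D.c v δ j k p‖ ≤ η) →
    ∀ d : TData P κ, d.X = X → d.ψ = D.ψ → d.r = D.r → (∀ p, d.iv p * v p = 1) →
    (∀ p ∈ D.r.K, d.iG p * d.Gww S 1 p = 1) →
    ∀ j k p, ‖d.Q S 1 j k p - (1 - δ) * g j k p‖ ≤ C2 * η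

/-- **(TENS)** tensor facts; all constants in `TensA` are independent of `v` -/
def TensC (D : GeoC S τ g) : Prop :=
  ∃ cG cσ c0 C η0 : ℝ, 0 < cG ∧ 0 < cσ ∧ 0 < c0 ∧ 0 < C ∧ 0 < η0 ∧
    (∀ p, c0 ≤ (∑ j, ∑ k, (S.met D.X0 j j p * S.met D.X0 k k p
      - S.met D.X0 j k p ^ 2)).re) ∧
    ∀ v : P → ℂ, VOk S D.r.Ψ v → TensA D cG cσ c0 C η0 v

theorem sup_fin {α : Type*} [Finite α] {u : α → P → ℂ} (hu : ∀ a, S.Sm (u a)) :
    ∃ C : ℝ, 0 ≤ C ∧ ∀ a p, ‖u a p‖ ≤ C := by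
  have := Fintype.ofFinite α
  choose C hC using fun a => S.bdd (hu a)
  refine ⟨∑ a, |C a|, Finset.sum_nonneg fun a _ => abs_nonneg _, fun a p => ?_⟩
  exact (hC a p).trans ((le_abs_self _).trans
    (Finset.single_le_sum (f := fun a => |C a|) (fun a _ => abs_nonneg _) (Finset.mem_univ a)))

theorem sm_Q {d : TData P κ} (hr : d.r.Ok S) (hψ : S.Sm d.ψ) (hX : ∀ a, S.Sm (d.X a))
    (hG : S.Sm d.iG) (hv : S.Sm d.iv) (j k : κ) : S.Sm (d.Q S 1 j k) := by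
  have h1 := sm_dirv (S := S) hr.smw hX
  have h2 := sm_dirv (S := S) hr.smt hX
  have h3 := S.sm_dir hr.smw hψ
  have h4 := S.sm_dir hr.smt hψ
  have hGtt : S.Sm (d.Gtt S 1) := S.sm_add (S.sm_dot h2 h2) (S.sm_smul _ (S.sm_mul h4 h4))
  have hGtw : S.Sm (d.Gtw S 1) := S.sm_add (S.sm_dot h2 h1) (S.sm_smul _ (S.sm_mul h4 h3))
  have hM2 : S.Sm (d.M2 S 1) := S.sm_sub hGtt (S.sm_mul (S.sm_mul hGtw hGtw) hG)
  have hm : S.Sm (S.met d.X j k) := S.sm_dot (fun a => S.sm_D j (hX a)) (fun a => S.sm_D k (hX a))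
  have hψψ : S.Sm (fun p => ((1 : ℝ) : ℂ) ^ 2 * (S.D j d.ψ p * S.D k d.ψ p)) :=
    S.sm_smul _ (S.sm_mul (S.sm_D j hψ) (S.sm_D k hψ))
  have hiv : S.Sm (d.iv ^ 2 - 1) := S.sm_sub (S.sm_pow hv 2) S.sm_one
  exact S.sm_add (S.sm_add hm hψψ) (S.sm_mul (S.sm_mul hiv hM2)
    (S.sm_mul (S.sm_D j hr.smΨ) (S.sm_D k hr.smΨ)))

/-- the slow maps -/
theorem exists_slow (D : GeoC S τ g) (hN : NashC S) {cG cσ c0 C η0 : ℝ} (hc0 : 0 < c0)
    (h0 : ∀ p, c0 ≤ (∑ j, ∑ k, (S.met D.X0 j j p * S.met D.X0 k k p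
      - S.met D.X0 j k p ^ 2)).re) {v : P → ℂ}
    (hT : TensA D cG cσ c0 C η0 v) {δ η : ℝ} (hδ : 0 ≤ δ) (hδ1 : δ ≤ 1 / 16) (hη : 0 < η) :
    ∃ X q1 q2 : Fin 4 → P → ℂ, (∀ a, RSm S (X a)) ∧ CNFr S X q1 q2 ∧
      (∀ a p, ‖X a p - D.X0 a p‖ ≤ η) ∧
      (∀ j k p, ‖S.met X j k p - gSC S g D.ψ D.r D.c v δ j k p‖ ≤ η) ∧
      (∀ a, Evn τ (X a)) ∧ (∀ a, Evn τ (q1 a)) ∧ ∀ a, Odd' τ (q2 a) := by
  obtain ⟨n, a, φ, ha, hφ, hae, hφo, hdec⟩ := D.prim _ (hT.ts δ hδ hδ1) (hT.ev δ)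
    (hT.pos δ hδ hδ1)
  obtain ⟨Y, p1, p2, hY, hYr, hNY, hcl, hmet, heq⟩ := hN n a φ D.X0 D.q1 D.q2 c0 η
    (fun i => (ha i).1) (fun i => (ha i).2) (fun i => (hφ i).1) (fun i => (hφ i).2)
    (fun a => (D.rX a).1) (fun a => (D.rX a).2) D.nf hc0 h0 hη
  obtain ⟨e1, e2, e3⟩ := heq τ (fun j u hu _ p => D.inv.D j u hu p) (fun a p => D.Xev a p)
    (fun a p => D.q1ev a p) (fun a p => D.q2od a p) (fun i p => hae i p) (fun i p => hφo i p)
  refine ⟨Y, p1, p2, fun a => ⟨hY a, hYr a⟩, hNY, hcl, fun j k p => ?_, e1, e2, e3⟩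
  have h := hmet j k p
  rw [← hdec j k p] at h
  have e : S.met D.X0 j k p + (gSC S g D.ψ D.r D.c v δ j k p - S.met D.X0 j k p) =
    gSC S g D.ψ D.r D.c v δ j k p := by ring
  rw [e] at h
  exact h

/-- **MODEL** -/
theorem model_of (D : GeoC S τ g) (hN : NashC S) (hχ : ChiC S) (hL : TData.LowerC S)
    (hT : TensC D) {κ1 : ℝ} (hκ : 0 < κ1) : ModelC S τ g κ1 := by
  obtain ⟨cG, cσ, c0, C', η0, hcG, hcσ, hc0, hC', hη0, hA0, hT⟩ := hT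
  -- fixed bounds
  obtain ⟨Ct, hCt0, hCt⟩ := sup_fin D.ray.smt
  obtain ⟨Cw, hCw0, hCw⟩ := sup_fin D.ray.smw
  obtain ⟨Cβ, hCβ0, hCβ⟩ := sup_fin D.ray.smβ
  obtain ⟨Cψ, hCψ0, hCψ⟩ := sup_fin (S := S) (u := fun j => S.D j D.ψ) fun j => S.sm_D j D.rψ.1
  obtain ⟨Cr, hCr0, hCr⟩ := sup_fin (S := S) (u := fun j => S.D j D.r.Ψ)
    fun j => S.sm_D j D.ray.smΨ
  have hG0 : 0 ≤ 4 / cG := by positivity
  have hσ0 : 0 ≤ 2 / Real.sqrt cσ := by positivity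
  set C : ℝ := 5 + 4 / cG + 2 / Real.sqrt cσ + C' + Ct + Cw + Cβ + Cψ + Cr with hCdef
  have hC5 : 5 ≤ C := by linarith
  have hC0 : 0 < C := by linarith
  -- loops
  obtain ⟨τ0, hτ0, -, hgram⟩ := TData.formula_gram hL C c0 (D.c / C) 1 hC0 hc0
    (div_pos D.cpos hC0) one_pos
  obtain ⟨v, c1, hc1, hv, hv1, hzv, hvr, N, hloop⟩ := hχ D.r.Ψ ⟨D.ray.smΨ, D.ray.rΨ⟩ τ0 hτ0
  obtain ⟨c, hc, hgram⟩ := hgram c1 hc1
  have hT := hT v ⟨hv, hv1, hzv, hvr⟩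
  obtain ⟨C2, hC2, hmet⟩ := hT.met
  have hF : Fix S D.ψ D.e v D.r := ⟨D.ray, D.rK, D.rψ.1, D.rψ.2, D.re.1, D.re.2, D.esq, D.eD,
    hv.1, hv.2, hv1, hzv⟩
  -- parameters
  set ε : ℕ → ℝ := fun i => 1 / ((i : ℝ) + 1) ^ 2 with hε
  set δ : ℕ → ℝ := fun i => 1 / (16 * ((i : ℝ) + 1)) with hδ
  have hi1 : ∀ i : ℕ, (1 : ℝ) ≤ (i : ℝ) + 1 := fun i => by
    have : (0 : ℝ) ≤ (i : ℝ) := Nat.cast_nonneg i
    linarith
  have hi0 : ∀ i : ℕ, (0 : ℝ) < (i : ℝ) + 1 := fun i => by linarith [hi1 i]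
  have hεpos : ∀ i, 0 < ε i := fun i => div_pos one_pos (pow_pos (hi0 i) 2)
  have hε1 : ∀ i, ε i ≤ 1 := fun i => by
    simp only [hε]
    rw [div_le_one (pow_pos (hi0 i) 2)]
    exact one_le_pow₀ (hi1 i)
  have hδpos : ∀ i, 0 < δ i := fun i => by simp only [hδ]; have := hi0 i; positivity
  have hδ16 : ∀ i, δ i ≤ 1 / 16 := fun i => by
    simp only [hδ]
    rw [div_le_div_iff₀ (by have := hi0 i; positivity) (by norm_num)]
    linarith [hi1 i]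
  set η : ℕ → ℝ := fun i => min η0 (κ1 * δ i / (2 * C2)) with hη
  have hηpos : ∀ i, 0 < η i := fun i =>
    lt_min hη0 (div_pos (mul_pos hκ (hδpos i)) (by positivity))
  have hη0' : ∀ i, η i ≤ η0 := fun i => min_le_left _ _
  have hη1 : ∀ i, C2 * η i ≤ κ1 * δ i / 2 := fun i => by
    have h1 : η i ≤ κ1 * δ i / (2 * C2) := min_le_right _ _
    calc C2 * η i ≤ C2 * (κ1 * δ i / (2 * C2)) := mul_le_mul_of_nonneg_left h1 hC2.le
      _ = κ1 * δ i / 2 := by field_simp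
  -- slow maps
  choose X q1 q2 hX hNF hcl hXm hXe hq1e hq2o using fun i =>
    exists_slow D hN hc0 hA0 hT (hδpos i).le (hδ16 i) (hηpos i)
  have hlow := fun i => hT.low (δ i) (hδpos i).le (hδ16 i) (X i) (hX i)
    (fun j k p => (hXm i j k p).trans (hη0' i))
  have hS : ∀ i, Slo S D.ψ D.r cG cσ (X i) (q1 i) (q2 i) := fun i =>
    ⟨fun a => (hX i a).1, fun a => (hX i a).2, hNF i, (hlow i).1, (hlow i).2.1⟩
  -- the slow metric
  set dq : ℕ → TData P κ := fun i =>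
    mkT S D.ψ D.e v D.r cG cσ (X i) (q1 i) (q2 i) 0 0 0 0 0 with hdq
  have hsmG : ∀ i, S.Sm (iv1 cG (Gw S D.ψ D.r (X i))) := fun i =>
    sm_iv1 (sm_Gw D.ray D.rψ.1 (hS i).smX) (rl_Gw D.ray D.rψ.1 D.rψ.2 (hS i).smX (hS i).rX)
  have hsmσ : ∀ i, S.Sm (is1 cσ (Gd S D.ψ D.r (X i))) := fun i =>
    sm_is1 (sm_Gd D.ray D.rψ.1 (hS i).smX) (rl_Gd D.ray D.rψ.1 D.rψ.2 (hS i).smX (hS i).rX)
  have hQ : ∀ i j k p, ‖(dq i).Q S 1 j k p - (1 - δ i) * g j k p‖ ≤ C2 * η i :=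
    fun i => hmet (δ i) (hδpos i).le (hδ16 i) (η i) (hηpos i) (hη0' i) (X i) (hX i) (hXm i)
      (dq i) rfl rfl rfl hF.iv_mul
      (fun p hp => iv1_mul hcG (rl_Gw D.ray D.rψ.1 D.rψ.2 (hS i).smX (hS i).rX p)
        ((hS i).hG p hp))
  have hsmQ : ∀ i j k, S.Sm ((dq i).Q S 1 j k) := fun i j k =>
    sm_Q (d := dq i) D.ray D.rψ.1 (hS i).smX (hsmG i) hF.smiv j k
  -- uniform bounds of the slow functions
  have bq1 : ∀ a, ∃ B : ℝ, ∀ i p, ‖q1 i a p‖ ≤ B := fun a => ⟨1, fun i p => by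
    have h := (hNF i).n11 p
    have hr := (hNF i).r1
    have h1 : ∑ b, (q1 i b p).re ^ 2 = 1 := by
      have h2 := congrArg Complex.re h
      simp only [dot, Complex.re_sum, Complex.mul_re, hr _ p, mul_zero, sub_zero,
        Complex.one_re] at h2
      rw [← h2]
      exact Finset.sum_congr rfl fun b _ => by ring
    have h3 : (q1 i a p).re ^ 2 ≤ 1 := by
      rw [← h1]
      exact Finset.single_le_sum (f := fun b => (q1 i b p).re ^ 2) (fun _ _ => sq_nonneg _)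
        (Finset.mem_univ a)
    have h4 : q1 i a p = (((q1 i a p).re : ℝ) : ℂ) :=
      Complex.ext (by simp) (by simp [hr a p])
    rw [h4, Complex.norm_real, Real.norm_eq_abs]
    exact (sq_le_one_iff_abs_le_one _).1 h3⟩
  have bq2 : ∀ a, ∃ B : ℝ, ∀ i p, ‖q2 i a p‖ ≤ B := fun a => ⟨1, fun i p => by
    have h := (hNF i).n22 p
    have hr := (hNF i).r2
    have h1 : ∑ b, (q2 i b p).re ^ 2 = 1 := by
      have h2 := congrArg Complex.re h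
      simp only [dot, Complex.re_sum, Complex.mul_re, hr _ p, mul_zero, sub_zero,
        Complex.one_re] at h2
      rw [← h2]
      exact Finset.sum_congr rfl fun b _ => by ring
    have h3 : (q2 i a p).re ^ 2 ≤ 1 := by
      rw [← h1]
      exact Finset.single_le_sum (f := fun b => (q2 i b p).re ^ 2) (fun _ _ => sq_nonneg _)
        (Finset.mem_univ a)
    have h4 : q2 i a p = (((q2 i a p).re : ℝ) : ℂ) :=
      Complex.ext (by simp) (by simp [hr a p])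
    rw [h4, Complex.norm_real, Real.norm_eq_abs]
    exact (sq_le_one_iff_abs_le_one _).1 h3⟩
  have bX : ∀ a, ∃ B : ℝ, ∀ i p, ‖X i a p‖ ≤ B := fun a => by
    obtain ⟨B, hB⟩ := S.bdd (D.rX a).1
    refine ⟨B + η0, fun i p => ?_⟩
    have h1 := hcl i a p
    have h2 := hη0' i
    have h3 := norm_add_le (X i a p - D.X0 a p) (D.X0 a p)
    rw [sub_add_cancel] at h3
    linarith [hB p]
  have bQ : ∀ j k, ∃ B : ℝ, ∀ i p,
      ‖((1 / δ i : ℝ) : ℂ) * (g j k p - (dq i).Q S 1 j k p)‖ ≤ B := fun j k => by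
    obtain ⟨B, hB⟩ := S.bdd (D.gT.2 j k).1
    refine ⟨B + κ1, fun i p => ?_⟩
    have h1 := (hQ i j k p).trans (hη1 i)
    have e : g j k p - (dq i).Q S 1 j k p =
      ((δ i : ℝ) : ℂ) * g j k p - ((dq i).Q S 1 j k p - (1 - δ i) * g j k p) := by ring
    have h2 : ‖g j k p - (dq i).Q S 1 j k p‖ ≤ δ i * B + κ1 * δ i := by
      rw [e]
      refine (norm_sub_le _ _).trans (add_le_add ?_ ?_)
      · rw [norm_mul, Complex.norm_real, Real.norm_eq_abs, abs_of_pos (hδpos i)]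
        exact mul_le_mul_of_nonneg_left (hB p) (hδpos i).le
      · have : 0 ≤ κ1 * δ i := (mul_pos hκ (hδpos i)).le
        linarith
    rw [norm_mul, Complex.norm_real, Real.norm_eq_abs, abs_of_pos (by have := hδpos i; positivity)]
    calc 1 / δ i * ‖g j k p - (dq i).Q S 1 j k p‖ ≤ 1 / δ i * (δ i * B + κ1 * δ i) :=
          mul_le_mul_of_nonneg_left h2 (by have := hδpos i; positivity)
      _ = B + κ1 := by have := (hδpos i).ne'; field_simp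
  -- frequencies
  let α := (κ × Fin 4) ⊕ (Fin 4 ⊕ Fin 4 ⊕ Fin 4) ⊕ (κ ⊕ κ ⊕ κ ⊕ κ) ⊕
    (Unit ⊕ Unit ⊕ Unit ⊕ Unit) ⊕ (κ × κ)
  let U : α → ℕ → P → ℂ := Sum.elim (fun x i => S.D x.1 (X i x.2))
    (Sum.elim (Sum.elim (fun a i => X i a) (Sum.elim (fun a i => q1 i a) (fun a i => q2 i a)))
    (Sum.elim (Sum.elim (fun j _ => S.D j D.ψ) (Sum.elim (fun j _ => S.D j D.r.Ψ)
      (Sum.elim (fun j _ => D.r.t j) (fun j _ => D.r.w j))))
    (Sum.elim (Sum.elim (fun _ i => iv1 cG (Gw S D.ψ D.r (X i)))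
      (Sum.elim (fun _ i => is1 cσ (Gd S D.ψ D.r (X i)))
        (Sum.elim (fun _ _ => iv1 (15 / 16) v) (fun _ _ => D.e))))
      (fun x i p => ((1 / δ i : ℝ) : ℂ) * (g x.1 x.2 p - (dq i).Q S 1 x.1 x.2 p)))))
  have hUs : ∀ x i, S.Sm (U x i) := by
    rintro (⟨j, a⟩ | (a | a | a) | (j | j | j | j) | (_ | _ | _ | _) | ⟨j, k⟩) i
    · exact S.sm_D j (hX i a).1
    · exact (hX i a).1
    · exact (hNF i).s1 a
    · exact (hNF i).s2 a
    · exact S.sm_D j D.rψ.1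
    · exact S.sm_D j D.ray.smΨ
    · exact D.ray.smt j
    · exact D.ray.smw j
    · exact hsmG i
    · exact hsmσ i
    · exact hF.smiv
    · exact D.re.1
    · exact S.sm_smul _ (S.sm_sub (D.gT.2 j k).1 (hsmQ i j k))
  have hUb : ∀ x, ∃ B : ℝ, ∀ i p, ‖U x i p‖ ≤ B := by
    rintro (⟨j, a⟩ | (a | a | a) | (j | j | j | j) | (_ | _ | _ | _) | ⟨j, k⟩)
    · exact ⟨C', fun i p => (hlow i).2.2.2 j a p⟩
    · exact bX a
    · exact bq1 a
    · exact bq2 a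
    · exact ⟨Cψ, fun _ p => hCψ j p⟩
    · exact ⟨Cr, fun _ p => hCr j p⟩
    · exact ⟨Ct, fun _ p => hCt j p⟩
    · exact ⟨Cw, fun _ p => hCw j p⟩
    · exact ⟨_, fun i p => iv1_bd hcG p⟩
    · exact ⟨_, fun i p => is1_bd hcσ p⟩
    · exact ⟨_, fun i p => iv1_bd (by norm_num) p⟩
    · exact const_bdd S D.re.1
    · exact bQ j k
  obtain ⟨n0, hn0⟩ := exists_mu S hUs hUb ε hεpos hε1
  obtain ⟨hμ1, hεμ, hSL⟩ := hn0 (fun i => max (n0 i) N) (fun i => le_max_left _ _)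
  obtain ⟨L⟩ := hloop (fun i => max (n0 i) N) (fun i => le_max_right _ _)
  set μ : ℕ → ℝ := fun i => 2 * Real.pi * ((max (n0 i) N : ℕ) : ℝ) with hμ
  have hμ0 : ∀ i, 0 ≤ μ i := fun i => le_trans zero_le_one (hμ1 i)
  have hSC : SloC S μ ε D.ψ D.e v D.r cG cσ X q1 q2 :=
    ⟨fun j a => hSL (Sum.inl (j, a)), fun a => hSL (Sum.inr (Sum.inl (Sum.inr (Sum.inl a)))),
      fun a => hSL (Sum.inr (Sum.inl (Sum.inr (Sum.inr a)))),
      fun j => hSL (Sum.inr (Sum.inr (Sum.inl (Sum.inl j)))),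
      fun j => hSL (Sum.inr (Sum.inr (Sum.inl (Sum.inr (Sum.inl j))))),
      fun j => hSL (Sum.inr (Sum.inr (Sum.inl (Sum.inr (Sum.inr (Sum.inl j)))))),
      fun j => hSL (Sum.inr (Sum.inr (Sum.inl (Sum.inr (Sum.inr (Sum.inr j)))))),
      hSL (Sum.inr (Sum.inr (Sum.inr (Sum.inl (Sum.inl ()))))),
      hSL (Sum.inr (Sum.inr (Sum.inr (Sum.inl (Sum.inr (Sum.inl ())))))),
      hSL (Sum.inr (Sum.inr (Sum.inr (Sum.inl (Sum.inr (Sum.inr (Sum.inl ()))))))),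
      hSL (Sum.inr (Sum.inr (Sum.inr (Sum.inl (Sum.inr (Sum.inr (Sum.inr ())))))))⟩
  -- the data
  set d : ℕ → TData P κ := fun i => mkT S D.ψ D.e v D.r cG cσ (X i) (q1 i) (q2 i)
    (L.c i) (L.s i) (L.h i) (L.A i) (L.B i) with hd
  have H : TData.Hyp S d 1 μ ε := ⟨one_pos, fun i => lt_of_lt_of_le one_pos (hμ1 i),
    fun i => (hεpos i).le, hε1, fun i => mkT_ok hF hcG hcσ (hS i) L i,
    mkT_cls hF hμ1 hεμ hSC L⟩
  have hpt : ∀ i p, TData.PtOk S (d i) C c0 c1 (D.c / C) τ0 p := fun i p =>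
    mkT_pt hF hcG hcσ L hc1 i hC5 (by linarith) (by linarith) D.cpos p
      (fun j => (hCt j p).trans (by linarith)) (fun j => (hCw j p).trans (by linarith))
      (fun j => (hCβ j p).trans (by linarith)) (fun j => (hCψ j p).trans (by linarith))
      (fun j => (hCr j p).trans (by linarith))
      (fun j a => ((hlow i).2.2.2 j a p).trans (by linarith)) ((hlow i).2.2.1 p) (D.nd p)
  obtain ⟨ε0, hε0, hgr⟩ := hgram d μ ε H hpt
  have hFm := fun j k => TData.formula_met H j k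
  -- uniform constant for the metric error
  choose C3 hC30 hC3 using fun x : κ × κ => (hFm x.1 x.2).apply
  set C4 : ℝ := ∑ x : κ × κ, C3 x with hC4
  have hC40 : 0 ≤ C4 := Finset.sum_nonneg fun x _ => hC30 x
  have hC4' : ∀ i j k p,
      ‖S.met ((d i).f S 1 (μ i)) j k p - (d i).Q S 1 j k p‖ ≤ C4 * ε i := fun i j k p => by
    refine (hC3 (j, k) i p).trans (mul_le_mul_of_nonneg_right ?_ (hεpos i).le)
    exact Finset.single_le_sum (f := C3) (fun x _ => hC30 x) (Finset.mem_univ (j, k))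
  -- tail
  obtain ⟨i0, hi0'⟩ : ∃ i0 : ℕ, ∀ i, i0 ≤ i → ε i ≤ ε0 ∧ C4 * ε i ≤ κ1 * δ i / 2 := by
    obtain ⟨m1, hm1⟩ := exists_nat_ge (1 / ε0)
    obtain ⟨m2, hm2⟩ := exists_nat_ge (32 * C4 / κ1)
    refine ⟨max m1 m2, fun i hi => ⟨?_, ?_⟩⟩
    · have h1 : (m1 : ℝ) ≤ i := by exact_mod_cast (le_max_left m1 m2).trans hi
      have h2 : 1 / ε0 ≤ (i : ℝ) + 1 := by linarith
      have h3 : (i : ℝ) + 1 ≤ ((i : ℝ) + 1) ^ 2 := by nlinarith [hi1 i]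
      simp only [hε]
      rw [div_le_iff₀ (pow_pos (hi0 i) 2)]
      rw [div_le_iff₀ hε0] at h2
      nlinarith
    · have h1 : (m2 : ℝ) ≤ i := by exact_mod_cast (le_max_right m1 m2).trans hi
      have h2 : 32 * C4 / κ1 ≤ (i : ℝ) + 1 := by linarith
      rw [div_le_iff₀ hκ] at h2
      simp only [hε, hδ]
      have h3 := hi0 i
      have e1 : C4 * (1 / ((i : ℝ) + 1) ^ 2) = C4 / ((i : ℝ) + 1) ^ 2 := by ring
      have e2 : κ1 * (1 / (16 * ((i : ℝ) + 1))) / 2 = κ1 / (32 * ((i : ℝ) + 1)) := by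
        field_simp
        norm_num
      rw [e1, e2, div_le_div_iff₀ (by positivity) (by positivity)]
      nlinarith
  -- conclusion
  refine ⟨fun i => μ (i + i0), fun i => δ (i + i0), fun i => (d (i + i0)).f S 1 (μ (i + i0)), c,
    hc, fun i => hμ1 _, fun i => hδpos _, fun i => (hδ16 _).trans (by norm_num), ?_,
    fun i a => H.smf _ a, fun i a => (H.ok _).rf _ a, fun i a => ?_,
    fun a => (fo_f H hμ1 (fun a => (hSL (Sum.inr (Sum.inl (Sum.inl a)))).1) a).reindex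
      (fun i => i + i0), fun j a => (H.foDf j a).reindex (fun i => i + i0), fun i p => ?_,
    fun i j k p => ?_, fun j k => ?_⟩
  · have h1 : Filter.Tendsto δ Filter.atTop (nhds 0) := by
      have h2 := (tendsto_one_div_add_atTop_nhds_zero_nat (𝕜 := ℝ)).const_mul (1 / 16 : ℝ)
      rw [mul_zero] at h2
      refine h2.congr fun i => ?_
      simp only [hδ]
      have := (hi0 i).ne'
      field_simp
    exact h1.comp (Filter.tendsto_add_atTop_nat i0)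
  · exact (mkT_par D.inv D.ψod D.rψ.1 D.eod (fun p => hvr _ _ (D.Ψev p)) D.tev D.wev D.Ψev
      (hS _).smX (hXe _) (hq1e _) (hq2o _) L (i + i0)).f_even D.inv (hS _).smX D.rψ.1 1 _ a
  · obtain ⟨a, b, j, h⟩ := hgr (i + i0) (hi0' _ (Nat.le_add_left _ _)).1 p
    exact ⟨a, b, j, j, h⟩
  · have h1 := hC4' (i + i0) j k p
    have h2 := (hQ (i + i0) j k p).trans (hη1 (i + i0))
    have h3 := (hi0' (i + i0) (Nat.le_add_left _ _)).2
    have e : g j k p - S.met ((d (i + i0)).f S 1 (μ (i + i0))) j k p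
        - ((δ (i + i0) : ℝ) : ℂ) * g j k p =
        -((dq (i + i0)).Q S 1 j k p - (1 - δ (i + i0)) * g j k p)
        - (S.met ((d (i + i0)).f S 1 (μ (i + i0))) j k p - (d (i + i0)).Q S 1 j k p) := by
      have : (d (i + i0)).Q S 1 j k p = (dq (i + i0)).Q S 1 j k p := rfl
      rw [this]
      ring
    rw [e]
    refine (norm_sub_le _ _).trans ?_
    rw [norm_neg]
    linarith
  · have h1 : S.FO μ δ (fun i p => g j k p - (dq i).Q S 1 j k p) := by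
      have h2 := (hSL (Sum.inr (Sum.inr (Sum.inr (Sum.inr (j, k)))))).1
      have h3 := DAlg.FO.real_mul (r := δ) (fun i => (hδpos i).le) h2
      refine (h3.congr_s fun i => mul_one _).congr fun i p => ?_
      show ((δ i : ℝ) : ℂ) * (((1 / δ i : ℝ) : ℂ) * (g j k p - (dq i).Q S 1 j k p)) = _
      rw [← mul_assoc, ← Complex.ofReal_mul, mul_one_div_cancel (hδpos i).ne',
        Complex.ofReal_one, one_mul]
    have h2 : S.FO μ δ (fun i p => S.met ((d i).f S 1 (μ i)) j k p - (d i).Q S 1 j k p) := by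
      refine (hFm j k).mono_s (C := 16) (fun i => ?_) (fun i => (hδpos i).le) hμ0
      simp only [hε, hδ]
      have h3 := hi0 i
      have e1 : (16 : ℝ) * (1 / (16 * ((i : ℝ) + 1))) = 1 / ((i : ℝ) + 1) := by
        field_simp
      rw [e1, div_le_div_iff₀ (by positivity) h3]
      nlinarith [hi1 i]
    have h3 : S.FO μ δ (fun i p => g j k p - S.met ((d i).f S 1 (μ i)) j k p) := by
      refine (h1.sub h2).congr fun i p => ?_
      show (g j k p - (d i).Q S 1 j k p)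
        - (S.met ((d i).f S 1 (μ i)) j k p - (d i).Q S 1 j k p) = _
      ring
    exact h3.reindex (fun i => i + i0)

end Vale.Agent.P205.TW
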