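import Vale.Agent.P205.TW.NashCalc

/-!
P205, scheme T1W, block NASH: the real statement `NashR` gives the complex notation `NashC`.
-/

noncomputable section

namespace Vale.Agent.P205.TW

open Vale.Agent.P205.F

universe u

variable {P : Type u} {κ : Type}

theorem rl_coe_re {u : P → ℂ} (h : Rl u) (p : P) : (((u p).re : ℝ) : ℂ) = u p :=
  Complex.ext rfl (by rw [Complex.ofReal_im, h p])

theorem rl_coe_re' {u : P → ℂ} (h : Rl u) : (fun p => (((u p).re : ℝ) : ℂ)) = u :=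
  funext (rl_coe_re h)

variable {S : DAlg P κ}

theorem RS.of_rl {u : P → ℂ} (hs : S.Sm u) (h : Rl u) : RS S (fun p => (u p).re) := by
  unfold RS
  rw [rl_coe_re' h]
  exact hs

theorem rl_coe (u : P → ℝ) : Rl (fun p => (u p : ℂ)) := fun p => Complex.ofReal_im (u p)

/-- the derivative of a real function is real -/
theorem coe_RD_re (j : κ) {u : P → ℂ} (hs : S.Sm u) (h : Rl u) (p : P) :
    S.D j u p = ((RD S j (fun p => (u p).re) p : ℝ) : ℂ) := by
  have h1 := coe_RD j (RS.of_rl hs h) p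
  rw [rl_coe_re' h] at h1
  exact h1

theorem dot_coe (X Y : Fin 4 → P → ℝ) (p : P) :
    dot (fun i p => (X i p : ℂ)) (fun i p => (Y i p : ℂ)) p =
      ((∑ i, X i p * Y i p : ℝ) : ℂ) := by
  unfold dot
  push_cast
  rfl

theorem met_coe {X : Fin 4 → P → ℝ} (hX : ∀ i, RS S (X i)) (j k : κ) (p : P) :
    S.met (fun i p => (X i p : ℂ)) j k p = ((rmet S X j k p : ℝ) : ℂ) := by
  unfold DAlg.met rmet dot DAlg.Dv
  push_cast
  refine Finset.sum_congr rfl fun i _ => ?_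
  rw [← coe_RD j (hX i) p, ← coe_RD k (hX i) p]

theorem dot_Dv_coe (q : Fin 4 → P → ℝ) {X : Fin 4 → P → ℝ} (hX : ∀ i, RS S (X i)) (j : κ)
    (p : P) : dot (fun i p => (q i p : ℂ)) (S.Dv j fun i p => (X i p : ℂ)) p =
      ((∑ i, q i p * RD S j (X i) p : ℝ) : ℂ) := by
  unfold dot DAlg.Dv
  push_cast
  refine Finset.sum_congr rfl fun i _ => ?_
  rw [← coe_RD j (hX i) p]

theorem nfr_of_cnfr {X q1 q2 : Fin 4 → P → ℝ} (hX : ∀ i, RS S (X i))
    (h : CNFr S (fun i p => (X i p : ℂ)) (fun i p => (q1 i p : ℂ)) fun i p => (q2 i p : ℂ)) :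
    NFr S X q1 q2 where
  s1 := h.s1
  s2 := h.s2
  n11 p := by
    have h1 := h.n11 p
    rw [dot_coe] at h1
    exact_mod_cast h1
  n22 p := by
    have h1 := h.n22 p
    rw [dot_coe] at h1
    exact_mod_cast h1
  n12 p := by
    have h1 := h.n12 p
    rw [dot_coe] at h1
    exact_mod_cast h1
  t1 j p := by
    have h1 := h.t1 j p
    rw [dot_Dv_coe q1 hX] at h1
    exact_mod_cast h1
  t2 j p := by
    have h1 := h.t2 j p
    rw [dot_Dv_coe q2 hX] at h1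
    exact_mod_cast h1

theorem cnfr_of_nfr {X q1 q2 : Fin 4 → P → ℝ} (hX : ∀ i, RS S (X i)) (h : NFr S X q1 q2) :
    CNFr S (fun i p => (X i p : ℂ)) (fun i p => (q1 i p : ℂ)) fun i p => (q2 i p : ℂ) where
  s1 := h.s1
  s2 := h.s2
  r1 i := rl_coe _
  r2 i := rl_coe _
  n11 p := by
    rw [dot_coe, h.n11 p, Complex.ofReal_one]
  n22 p := by
    rw [dot_coe, h.n22 p, Complex.ofReal_one]
  n12 p := by
    rw [dot_coe, h.n12 p, Complex.ofReal_zero]
  t1 j p := by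
    rw [dot_Dv_coe q1 hX, h.t1 j p, Complex.ofReal_zero]
  t2 j p := by
    rw [dot_Dv_coe q2 hX, h.t2 j p, Complex.ofReal_zero]

/-- families of real functions: the complex family is the cast of its real parts -/
theorem fam_coe {ι : Type*} {X : ι → P → ℂ} (h : ∀ i, Rl (X i)) :
    X = fun i p => (((X i p).re : ℝ) : ℂ) := by
  funext i p
  exact (rl_coe_re (h i) p).symm

variable [Fintype κ]

/-- `NashC` for cast data -/
theorem nashC_core (h : NashR S) (N : ℕ) (a φ : Fin N → P → ℝ) (X q1 q2 : Fin 4 → P → ℝ)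
    (c η : ℝ) (ha : ∀ i, RS S (a i)) (hφ : ∀ i, RS S (φ i)) (hX : ∀ i, RS S (X i))
    (hN : CNFr S (fun i p => (X i p : ℂ)) (fun i p => (q1 i p : ℂ)) fun i p => (q2 i p : ℂ))
    (hc : 0 < c)
    (hce : ∀ p, c ≤ (∑ j, ∑ k, (S.met (fun i p => (X i p : ℂ)) j j p *
      S.met (fun i p => (X i p : ℂ)) k k p - S.met (fun i p => (X i p : ℂ)) j k p ^ 2)).re)
    (hη : 0 < η) :
    ∃ Y p1 p2 : Fin 4 → P → ℂ, (∀ i, S.Sm (Y i)) ∧ (∀ i, Rl (Y i)) ∧ CNFr S Y p1 p2 ∧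
    (∀ i p, ‖Y i p - (X i p : ℂ)‖ ≤ η) ∧
    (∀ j k p, ‖S.met Y j k p - (S.met (fun i p => (X i p : ℂ)) j k p
      + ∑ i, (a i p : ℂ) ^ 2 * (S.D j (fun p => (φ i p : ℂ)) p *
        S.D k (fun p => (φ i p : ℂ)) p))‖ ≤ η) ∧
    ∀ σ : P → P, (∀ j u, S.Sm u → S.Sm (fun p => u (σ p)) →
        ∀ p, S.D j (fun p => u (σ p)) p = S.D j u (σ p)) →
      (∀ i p, (X i (σ p) : ℂ) = X i p) → (∀ i p, (q1 i (σ p) : ℂ) = q1 i p) →
      (∀ i p, (q2 i (σ p) : ℂ) = -q2 i p) → (∀ i p, (a i (σ p) : ℂ) = a i p) →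
      (∀ i p, (φ i (σ p) : ℂ) = -φ i p) →
      (∀ i p, Y i (σ p) = Y i p) ∧ (∀ i p, p1 i (σ p) = p1 i p) ∧
        ∀ i p, p2 i (σ p) = -p2 i p := by
  have hce' : ∀ p, c ≤ e2 S X p := by
    intro p
    have h1 := hce p
    have h2 : (∑ j, ∑ k, (S.met (fun i p => (X i p : ℂ)) j j p *
      S.met (fun i p => (X i p : ℂ)) k k p - S.met (fun i p => (X i p : ℂ)) j k p ^ 2)) =
        ((e2 S X p : ℝ) : ℂ) := by
      simp only [met_coe hX]
      unfold e2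
      push_cast
      rfl
    rw [h2, Complex.ofReal_re] at h1
    exact h1
  obtain ⟨Y, p1, p2, hY, hF, -, hd, hm, hσ⟩ :=
    h N a φ X q1 q2 c η ha hφ hX (nfr_of_cnfr hX hN) hc hce' hη
  refine ⟨fun i p => (Y i p : ℂ), fun i p => (p1 i p : ℂ), fun i p => (p2 i p : ℂ), hY,
    fun i => rl_coe _, cnfr_of_nfr hY hF, fun i p => ?_, fun j k p => ?_, ?_⟩
  · have h1 := hd i p
    rw [← Complex.ofReal_sub, Complex.norm_real, Real.norm_eq_abs]
    exact h1
  · have h1 := hm j k p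
    have h2 : S.met (fun i p => (Y i p : ℂ)) j k p - (S.met (fun i p => (X i p : ℂ)) j k p
      + ∑ i, (a i p : ℂ) ^ 2 * (S.D j (fun p => (φ i p : ℂ)) p *
        S.D k (fun p => (φ i p : ℂ)) p)) = ((rmet S Y j k p - (rmet S X j k p
      + ∑ i, a i p ^ 2 * (RD S j (φ i) p * RD S k (φ i) p)) : ℝ) : ℂ) := by
      rw [met_coe hX, met_coe hY]
      push_cast
      congr 2
      refine Finset.sum_congr rfl fun i _ => ?_
      rw [← coe_RD j (hφ i) p, ← coe_RD k (hφ i) p]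
    rw [h2, Complex.norm_real, Real.norm_eq_abs]
    exact h1
  · intro σ hE h1 h2 h3 h4 h5
    have hE' : Eqv S σ := by
      intro j u hu hu' p
      unfold RD
      rw [hE j (fun p => (u p : ℂ)) hu hu' p]
    obtain ⟨k1, k2, k3⟩ := hσ σ hE' (fun i p => by exact_mod_cast h1 i p)
      (fun i p => by exact_mod_cast h2 i p) (fun i p => by exact_mod_cast h3 i p)
      (fun i p => by exact_mod_cast h4 i p) (fun i p => by exact_mod_cast h5 i p)
    refine ⟨fun i p => ?_, fun i p => ?_, fun i p => ?_⟩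
    · simp only [k1 i p]
    · simp only [k2 i p]
    · simp only [k3 i p]
      push_cast
      rfl

/-- the real statement gives the complex notation -/
theorem nashC_of_nashR (S : DAlg P κ) (h : NashR S) : NashC S := by
  intro N a φ X q1 q2 c η ha ra hφ rφ hX rX hN hc hce hη
  obtain ⟨a, rfl⟩ : ∃ a' : Fin N → P → ℝ, a = fun i p => (a' i p : ℂ) := ⟨_, fam_coe ra⟩
  obtain ⟨φ, rfl⟩ : ∃ φ' : Fin N → P → ℝ, φ = fun i p => (φ' i p : ℂ) := ⟨_, fam_coe rφ⟩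
  obtain ⟨X, rfl⟩ : ∃ X' : Fin 4 → P → ℝ, X = fun i p => (X' i p : ℂ) := ⟨_, fam_coe rX⟩
  obtain ⟨q1, rfl⟩ : ∃ q' : Fin 4 → P → ℝ, q1 = fun i p => (q' i p : ℂ) := ⟨_, fam_coe hN.r1⟩
  obtain ⟨q2, rfl⟩ : ∃ q' : Fin 4 → P → ℝ, q2 = fun i p => (q' i p : ℂ) := ⟨_, fam_coe hN.r2⟩
  exact nashC_core h N a φ X q1 q2 c η ha hφ hX hN hc hce hη

end Vale.Agent.P205.TW
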