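import Vale.Agent.P205.TW.Nash1
import Vale.Agent.P205.TW.NashConv

/-!
P205, scheme T1W, block NASH: finitely many pieces.
-/

noncomputable section

namespace Vale.Agent.P205.TW

open Vale.Agent.P205.F

universe u

variable {P : Type u} {κ : Type} [Fintype κ] {S : DAlg P κ}

/-- **NASH** (real form) -/
theorem nashR (hd : Dim2 S) : NashR S := by
  intro N
  induction N with
  | zero =>
    intro a φ X q1 q2 c η ha hφ hX hN hc hE hη
    refine ⟨X, q1, q2, hX, hN, ⟨c, hc, hE⟩, fun i p => ?_, fun j k p => ?_,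
      fun σ _ h1 h2 h3 _ _ => ⟨h1, h2, h3⟩⟩
    · rw [sub_self, abs_zero]; exact hη.le
    · rw [Finset.univ_eq_empty, Finset.sum_empty, add_zero, sub_self, abs_zero]; exact hη.le
  | succ N ih =>
    intro a φ X q1 q2 c η ha hφ hX hN hc hE hη
    obtain ⟨Y, p1, p2, hY, hNY, ⟨c', hc', hEY⟩, hcl, hmet, heq⟩ :=
      ih (fun i => a i.castSucc) (fun i => φ i.castSucc) X q1 q2 c (η / 2)
        (fun i => ha _) (fun i => hφ _) hX hN hc hE (by positivity)
    obtain ⟨μ, hZ, hNZ, hEZ, hcl2, hmet2⟩ := nash_step hd (ha (Fin.last N)) (hφ (Fin.last N)) hY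
      hNY hc' hEY (η := η / 2) (by positivity)
    refine ⟨_, _, _, hZ, hNZ, ⟨c' / 2, by positivity, hEZ⟩, fun i p => ?_, fun j k p => ?_, ?_⟩
    · have h1 := hcl i p
      have h2 := hcl2 i p
      have e : stY (a (Fin.last N)) (φ (Fin.last N)) Y p1 p2 μ i p - X i p =
          (stY (a (Fin.last N)) (φ (Fin.last N)) Y p1 p2 μ i p - Y i p) + (Y i p - X i p) := by
        ring
      rw [e]
      exact (abs_add_le _ _).trans (by linarith)
    · have h1 := hmet j k p
      have h2 := hmet2 j k p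
      rw [Fin.sum_univ_castSucc]
      have e : rmet S (stY (a (Fin.last N)) (φ (Fin.last N)) Y p1 p2 μ) j k p
          - (rmet S X j k p + (∑ i : Fin N, a i.castSucc p ^ 2 *
              (RD S j (φ i.castSucc) p * RD S k (φ i.castSucc) p)
            + a (Fin.last N) p ^ 2 * (RD S j (φ (Fin.last N)) p * RD S k (φ (Fin.last N)) p))) =
          (rmet S (stY (a (Fin.last N)) (φ (Fin.last N)) Y p1 p2 μ) j k p
            - (rmet S Y j k p + a (Fin.last N) p ^ 2 *
              (RD S j (φ (Fin.last N)) p * RD S k (φ (Fin.last N)) p)))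
          + (rmet S Y j k p - (rmet S X j k p + ∑ i : Fin N, a i.castSucc p ^ 2 *
              (RD S j (φ i.castSucc) p * RD S k (φ i.castSucc) p))) := by ring
      rw [e]
      exact (abs_add_le _ _).trans (by linarith)
    · intro σ hσ h1 h2 h3 h4 h5
      obtain ⟨e1, e2, e3⟩ := heq σ hσ h1 h2 h3 (fun i p => h4 _ p) (fun i p => h5 _ p)
      obtain ⟨f1, f2⟩ := st_eqv (μ := μ) hσ hY (hφ (Fin.last N)) hZ (h4 (Fin.last N)) e1 e2 e3
        (h5 (Fin.last N))
      exact ⟨stY_eqv (h4 (Fin.last N)) e1 e2 e3 (h5 (Fin.last N)), f1, f2⟩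

/-- **NASH** (complex notation) -/
theorem nashC (hd : Dim2 S) : NashC S := nashC_of_nashR S (nashR hd)

end Vale.Agent.P205.TW
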