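import Vale.Agent.P205.TW.Slow4
import Vale.Agent.P205.TW.Model

/-!
P205, scheme T1W: **(TENS)**, `tensC`.
-/

noncomputable section

namespace Vale.Agent.P205.TW

open Vale.Agent.P205.F

universe u

variable {P : Type u} {κ : Type} [Fintype κ] {S : DAlg P κ} {τ : P → P} {g : κ → κ → P → ℂ}

theorem gcc_eq (c c' : κ → P → ℂ) : gcc g c c' = gv g c c' := by
  funext p
  simp only [gcc, gv]
  exact Finset.sum_congr rfl fun j _ => Finset.sum_congr rfl fun k _ => by ring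

theorem m2C_eq (D : GeoC S τ g) : m2C g D.r D.c = D.m2 := by
  funext p
  simp only [m2C, GeoC.m2, gcc_eq]
  ring

theorem gSC_eq (D : GeoC S τ g) (v : P → ℂ) (δ : ℝ) (j k : κ) :
    gSC S g D.ψ D.r D.c v δ j k = D.gS v δ j k := by
  funext p
  simp only [gSC, GeoC.gS, m2C_eq]

theorem VOk.toS {D : GeoC S τ g} {v : P → ℂ} (hv : VOk S D.r.Ψ v) : VOkS S τ D.r.Ψ v :=
  ⟨hv.sm, hv.v1, hv.zv, fun p => hv.ev _ _ (D.Ψev p)⟩

/-- **(TENS)** -/
theorem tensC (D : GeoC S τ g) : TensC D := by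
  obtain ⟨cG, cσ, c0, C, η0, h1, h2, h3, h4, h5, h0, h⟩ := D.slow_main
  refine ⟨cG, cσ, c0, C, η0, h1, h2, h3, h4, h5, h0, fun v hv => ?_⟩
  obtain ⟨hlow, C2, hC2, hmet⟩ := h v hv.toS
  refine ⟨fun δ hδ hδ1 => ?_, fun δ j k => ?_, fun δ hδ hδ1 => ⟨1 / 4, by norm_num, ?_⟩,
    fun δ hδ hδ1 X hX hm => ?_, C2, hC2, fun δ hδ hδ1 η hη hη0 X hX hm d hdX hψ hr hiv hG => ?_⟩
  · simp only [gSC_eq]
    exact (D.slow_low hv.toS hδ (by linarith)).1
  · simp only [gSC_eq]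
    intro p
    simp only [D.gS_even hv.toS δ j k p, GeoC.met_even D.inv (fun a => (D.rX a).1) D.Xev j k p]
  · simp only [gSC_eq]
    exact (D.slow_low hv.toS hδ (by linarith)).2.2
  · simp only [gSC_eq] at hm
    exact hlow δ hδ (by linarith) X hX hm
  · simp only [gSC_eq] at hm
    refine hmet δ hδ (by linarith) η hη0 d (by rw [hdX]; exact hX) hψ hr
      (by rw [hdX]; exact hm) (fun p _ => hiv p) (fun p hp => ?_) hG
    have h6 := hiv p
    rw [D.VK hv.toS p hp, mul_one] at h6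
    exact h6

end Vale.Agent.P205.TW
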