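import Vale.Agent.P205.TW.Descent
import Vale.Agent.P205.TW.DataCover
import Vale.Agent.P205.TW.PrimC
import Vale.Agent.P205.TW.Model
import Vale.Agent.P205.TW.LowerC
import Vale.Agent.P205.TW.Nash
import Vale.Agent.P205.TW.Slow5
import Vale.Agent.P205.TW.Chi8
import Vale.Agent.P205.PC.Pieces

/-!
P205, scheme T1W: final assembly.
-/

noncomputable section

set_option linter.unusedSectionVars false

open scoped Manifold ContDiff Topology
open Set Filter

namespace Vale.Agent.P205.TW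

open Vale.Agent.P205.F

universe u

variable {E : Type} [NormedAddCommGroup E] [NormedSpace ℝ E]
  {M : Type u} [TopologicalSpace M] [ChartedSpace E M] (K : Cov E M)
  (b : Module.Basis (Fin 2) ℝ E) [IsManifold 𝓘(ℝ, E) ∞ M] (H : ImmN E M) [CompactSpace M]
  (g : Bundle.ContMDiffRiemannianMetric 𝓘(ℝ, E) ∞ E (fun x : M => TangentSpace 𝓘(ℝ, E) x))

/-- positivity of the lifted metric -/
theorem gC_pos (x : (lineM K b H).Pt) (ξ : Fin K.n × Fin 2 → ℝ)
    (h : ∃ u : M → ℝ, ContMDiff 𝓘(ℝ, E) 𝓘(ℝ, ℝ) ∞ u ∧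
      ∑ j, ξ j * K.Dv b j u ((lineM K b H).pi x) ≠ 0) : 0 < qfm (DC.gC K b H g) x ξ := by
  have : FiniteDimensional ℝ E := Module.Basis.finiteDimensional_of_finite b
  obtain ⟨u, hu, h1⟩ := h
  have h2 := K.G_posT b g ((lineM K b H).pi x) ξ ⟨fun p => ((u p : ℝ) : ℂ),
    (K.dalg_Sm b).2 (Complex.ofRealCLM.contDiff.comp_contMDiff hu), by
      have e : ∀ j, (K.dalg b).D j (fun p => ((u p : ℝ) : ℂ)) ((lineM K b H).pi x) =
          ((K.Dv b j u ((lineM K b H).pi x) : ℝ) : ℂ) := fun j => by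
        rw [Cov.dalg_D, K.Dv_ofReal b hu]
      rw [Finset.sum_congr rfl fun j _ => congrArg (((ξ j : ℝ) : ℂ) * ·) (e j)]
      have e2 : (∑ j, ((ξ j : ℝ) : ℂ) * ((K.Dv b j u ((lineM K b H).pi x) : ℝ) : ℂ)) =
          ((∑ j, ξ j * K.Dv b j u ((lineM K b H).pi x) : ℝ) : ℂ) := by push_cast; rfl
      refine fun h0 => h1 ?_
      exact_mod_cast e2.symm.trans h0⟩
  refine lt_of_lt_of_eq h2 ?_
  rw [Complex.re_sum, qfm]
  refine Finset.sum_congr rfl fun j _ => ?_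
  rw [Complex.re_sum]
  refine Finset.sum_congr rfl fun k _ => ?_
  have h3 : DC.gC K b H g j k x = K.G b g j k ((lineM K b H).pi x) := rfl
  rw [← h3, ← Complex.ofReal_mul, Complex.re_ofReal_mul]
  ring

/-- the geometric data on the cover -/
theorem exists_geo [T2Space M] :
    Nonempty (GeoC (lineM K b H).cover (lineM K b H).sg (DC.gC K b H g)) :=
  DC.geoC_of_prim K b H g (Data.primC_cover K b H _ (gC_pos K b H g))

/-- the model sequences on the cover -/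
theorem modC_cover [T2Space M] : ModC (lineM K b H).cover (lineM K b H).sg
      (fun j k x => K.G b g j k ((lineM K b H).pi x)) := by
  intro κ1 hκ1
  obtain ⟨D⟩ := exists_geo K b H g
  exact model_of D (nashC (dim2_cover K b H)) chiC (TData.lowerC _) (tensC D) hκ1

/-- **The theorem** for surfaces with an immersion into `ℝ⁴` and a unit normal field (block `Iter`
as hypothesis). -/
theorem full_of_immN {E : Type} [NormedAddCommGroup E] [NormedSpace ℝ E]
    (hE : Module.finrank ℝ E = 2) {M : Type u} [TopologicalSpace M] [T2Space M] [CompactSpace M]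
    [ChartedSpace E M] [IsManifold 𝓘(ℝ, E) ∞ M] (H : ImmN E M)
    (g : Bundle.ContMDiffRiemannianMetric 𝓘(ℝ, E) ∞ E (fun x : M => TangentSpace 𝓘(ℝ, E) x))
    (hI : ∀ (K : Cov E M) (b : Module.Basis (Fin 2) ℝ E), (K.dalg b).Iter) :
    ∃ X : Fin 4 → M → ℝ, (∀ i, ContMDiff 𝓘(ℝ, E) 𝓘(ℝ) ∞ (X i)) ∧
      ∀ (m : M) (v w : TangentSpace 𝓘(ℝ, E) m),
        ∑ i, mvfderiv 𝓘(ℝ, E) (X i) m v * mvfderiv 𝓘(ℝ, E) (X i) m w = g.inner m v w := by
  rcases isEmpty_or_nonempty M with he | he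
  · exact ⟨fun _ _ => 0, fun _ => contMDiff_const, fun m => (he.false m).elim⟩
  · have hfin : FiniteDimensional ℝ E :=
      FiniteDimensional.of_finrank_pos (by rw [hE]; exact two_pos)
    obtain ⟨K⟩ := Cov.exists (E := E) (M := M)
    have b := Module.finBasisOfFinrankEq ℝ E hE
    exact full_of_blocks b K H g (K.t1u_of b (hI K b) (DAlg.pieces _)) (modC_cover K b H g)

/-- **The theorem** for surfaces with a smooth immersion into `ℝ³`. -/
theorem full_of_imm3 {E : Type} [NormedAddCommGroup E] [NormedSpace ℝ E]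
    (hE : Module.finrank ℝ E = 2) {M : Type u} [TopologicalSpace M] [T2Space M] [CompactSpace M]
    [ChartedSpace E M] [IsManifold 𝓘(ℝ, E) ∞ M] (F₀ : M → EuclideanSpace ℝ (Fin 3))
    (hF : ContMDiff 𝓘(ℝ, E) 𝓘(ℝ, EuclideanSpace ℝ (Fin 3)) ∞ F₀)
    (hinj : ∀ p, Function.Injective (mfderiv 𝓘(ℝ, E) 𝓘(ℝ, EuclideanSpace ℝ (Fin 3)) F₀ p))
    (g : Bundle.ContMDiffRiemannianMetric 𝓘(ℝ, E) ∞ E (fun x : M => TangentSpace 𝓘(ℝ, E) x))
    (hI : ∀ (K : Cov E M) (b : Module.Basis (Fin 2) ℝ E), (K.dalg b).Iter) :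
    ∃ X : Fin 4 → M → ℝ, (∀ i, ContMDiff 𝓘(ℝ, E) 𝓘(ℝ) ∞ (X i)) ∧
      ∀ (m : M) (v w : TangentSpace 𝓘(ℝ, E) m),
        ∑ i, mvfderiv 𝓘(ℝ, E) (X i) m v * mvfderiv 𝓘(ℝ, E) (X i) m w = g.inner m v w :=
  full_of_immN hE (immOf3 F₀ hF hinj) g hI

end Vale.Agent.P205.TW
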