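import Mathlib

/-!
Generic members of a linear family have isolated zeros (equal dimensional Sard).
-/

open MeasureTheory Set Filter Module
open scoped Topology ContDiff

namespace Vale.Agent.P205.TW

variable {E F Op : Type*}
  [NormedAddCommGroup E] [NormedSpace ℝ E] [FiniteDimensional ℝ E]
  [NormedAddCommGroup F] [NormedSpace ℝ F] [FiniteDimensional ℝ F]
  [NormedAddCommGroup Op] [NormedSpace ℝ Op] [FiniteDimensional ℝ Op]

/-- equal dimensional Sard together with the inverse function theorem: for almost every value `B`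
the solutions of `f z = B` in the open set `s` are isolated -/
theorem ae_isolated_of_contDiffOn [MeasurableSpace Op] [BorelSpace Op] (μ : Measure Op)
    [μ.IsAddHaarMeasure] {s : Set Op} (hs : IsOpen s) {f : Op → Op} (hf : ContDiffOn ℝ 1 f s) :
    ∀ᵐ B ∂μ, ∀ z ∈ s, f z = B → ∀ᶠ y in 𝓝 z, f y = B → y = z := by
  set s0 : Set Op := {z ∈ s | (fderiv ℝ f z).det = 0} with hs0
  have hnull : μ (f '' s0) = 0 := by
    refine addHaar_image_eq_zero_of_det_fderivWithin_eq_zero μ (f' := fun z => fderiv ℝ f z) ?_ ?_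
    · intro z hz
      have h1 : ContDiffAt ℝ 1 f z := hf.contDiffAt (hs.mem_nhds hz.1)
      exact (h1.differentiableAt one_ne_zero).hasFDerivAt.hasFDerivWithinAt
    · intro z hz
      exact hz.2
  have h2 : ∀ᵐ B ∂μ, B ∉ f '' s0 := measure_eq_zero_iff_ae_notMem.1 hnull
  filter_upwards [h2] with B hB z hz hfz
  have hdet : (fderiv ℝ f z).det ≠ 0 := fun h => hB ⟨z, ⟨hz, h⟩, hfz⟩
  have h1 : ContDiffAt ℝ 1 f z := hf.contDiffAt (hs.mem_nhds hz)
  have hstrict : HasStrictFDerivAt f (fderiv ℝ f z) z := h1.hasStrictFDerivAt one_ne_zero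
  set e : Op ≃L[ℝ] Op := (fderiv ℝ f z).toContinuousLinearEquivOfDetNeZero hdet with he
  have hstrict' : HasStrictFDerivAt f (e : Op →L[ℝ] Op) z := by
    have : (e : Op →L[ℝ] Op) = fderiv ℝ f z := by
      ext v
      simp [he]
    rw [this]
    exact hstrict
  set φ := hstrict'.toOpenPartialHomeomorph f with hφ
  have hz' : z ∈ φ.source := hstrict'.mem_toOpenPartialHomeomorph_source
  filter_upwards [φ.open_source.mem_nhds hz'] with y hy hfy
  have hc : ∀ w, φ w = f w := fun w => rfl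
  exact φ.injOn hy hz' (by rw [hc, hc, hfy, hfz])

/-- local version near `x0` of `ae_isolated` -/
theorem ae_isolated_local [MeasurableSpace Op] [BorelSpace Op] (μ : Measure Op)
    [μ.IsAddHaarMeasure] (hdim : finrank ℝ F = finrank ℝ E) {V : Set E} (hV : IsOpen V)
    (L : E → (Op →L[ℝ] F)) (hL : ContDiffOn ℝ 1 L V) (x0 : E) (hx0 : x0 ∈ V)
    (hs : Function.Surjective (L x0)) :
    ∃ V' ∈ 𝓝 x0, ∀ᵐ B ∂μ, ∀ x ∈ V', L x B = 0 → ∀ᶠ y in 𝓝 x, L y B = 0 → y = x := by
  classical
  -- right inverse of `L x0`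
  obtain ⟨R, hR⟩ := (L x0 : Op →ₗ[ℝ] F).exists_rightInverse_of_surjective
    (LinearMap.range_eq_top.2 hs)
  set R0 : F →L[ℝ] Op := LinearMap.toContinuousLinearMap R with hR0
  have hLR : ∀ y, L x0 (R0 y) = y := by
    intro y
    have := congrArg (fun g => g y) hR
    simpa [hR0] using this
  set A : E → (F →L[ℝ] F) := fun x => (L x).comp R0 with hA
  have hA0 : A x0 = 1 := by
    ext y
    simp [hA, hLR]
  have hAc : ContDiffOn ℝ 1 A V := by
    have : ContDiff ℝ 1 (fun T : Op →L[ℝ] F => T.comp R0) :=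
      (ContinuousLinearMap.compL ℝ F Op F).flip R0 |>.contDiff
    exact this.comp_contDiffOn hL
  -- the open set where `A x` is invertible
  have hAcont : ContinuousAt A x0 := (hAc.continuousOn.continuousAt (hV.mem_nhds hx0))
  have hunit : ∀ᶠ x in 𝓝 x0, IsUnit (A x) := by
    have h1 : {T : F →L[ℝ] F | IsUnit T} ∈ 𝓝 (A x0) :=
      Units.isOpen.mem_nhds (by simp [hA0])
    exact hAcont h1
  obtain ⟨V', hV'sub, hV'o, hx0'⟩ := mem_nhds_iff.1
    (Filter.inter_mem (hV.mem_nhds hx0) hunit)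
  set K0 : Submodule ℝ Op := LinearMap.ker (L x0 : Op →ₗ[ℝ] F) with hK0
  have hfin : finrank ℝ (E × K0) = finrank ℝ Op := by
    have h1 : finrank ℝ F + finrank ℝ K0 = finrank ℝ Op := by
      have h2 := LinearMap.finrank_range_add_finrank_ker (L x0 : Op →ₗ[ℝ] F)
      rwa [LinearMap.range_eq_top.2 hs, finrank_top] at h2
    rw [Module.finrank_prod]
    omega
  set T : (E × K0) ≃L[ℝ] Op := ContinuousLinearEquiv.ofFinrankEq hfin with hT
  set h : E × K0 → Op := fun z =>
    (z.2 : Op) - R0 (Ring.inverse (A z.1) (L z.1 (z.2 : Op))) with hh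
  have hhc : ContDiffOn ℝ 1 h (V' ×ˢ univ) := by
    intro z hz
    have hzV : z.1 ∈ V ∧ IsUnit (A z.1) := hV'sub hz.1
    have h1 : ContDiffAt ℝ 1 (fun z : E × K0 => L z.1) z :=
      (hL.contDiffAt (hV.mem_nhds hzV.1)).comp z contDiffAt_fst
    have h2 : ContDiffAt ℝ 1 (fun z : E × K0 => (z.2 : Op)) z :=
      (K0.subtypeL.contDiff.contDiffAt).comp z contDiffAt_snd
    have h3 : ContDiffAt ℝ 1 (fun z : E × K0 => A z.1) z :=
      (hAc.contDiffAt (hV.mem_nhds hzV.1)).comp z contDiffAt_fst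
    obtain ⟨u, hu⟩ := hzV.2
    have h4 : ContDiffAt ℝ 1 (fun z : E × K0 => Ring.inverse (A z.1)) z := by
      have h5 : ContDiffAt ℝ 1 (Ring.inverse : (F →L[ℝ] F) → (F →L[ℝ] F)) (A z.1) := by
        rw [← hu]
        exact contDiffAt_ringInverse ℝ u
      exact h5.comp z h3
    have h6 : ContDiffAt ℝ 1 (fun z : E × K0 => L z.1 (z.2 : Op)) z := h1.clm_apply h2
    have h7 : ContDiffAt ℝ 1 (fun z : E × K0 => Ring.inverse (A z.1) (L z.1 (z.2 : Op))) z :=
      h4.clm_apply h6
    have h8 : ContDiffAt ℝ 1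
        (fun z : E × K0 => R0 (Ring.inverse (A z.1) (L z.1 (z.2 : Op)))) z :=
      R0.contDiff.contDiffAt.comp z h7
    exact (h2.sub h8).contDiffWithinAt
  -- main identity
  have key : ∀ B : Op, ∃ C : K0, ∀ x ∈ V', L x B = 0 → h (x, C) = B := by
    intro B
    have hC : B - R0 (L x0 B) ∈ K0 := by
      rw [hK0, LinearMap.mem_ker]
      simp [hLR]
    refine ⟨⟨B - R0 (L x0 B), hC⟩, fun x hx hLB => ?_⟩
    have hu : IsUnit (A x) := (hV'sub hx).2
    have h1 : L x (B - R0 (L x0 B)) = - A x (L x0 B) := by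
      rw [map_sub, hLB]
      simp [hA]
    have h2 : Ring.inverse (A x) (L x (B - R0 (L x0 B))) = - L x0 B := by
      rw [h1, map_neg]
      have h3 : Ring.inverse (A x) * A x = 1 := Ring.inverse_mul_cancel _ hu
      have h4 := congrArg (fun g : F →L[ℝ] F => g (L x0 B)) h3
      simpa using h4
    simp only [hh]
    rw [h2]
    simp
  have key2 : ∀ x ∈ V', ∀ C : K0, L x (h (x, C)) = 0 := by
    intro x hx C
    have hu : IsUnit (A x) := (hV'sub hx).2
    have h3 : A x * Ring.inverse (A x) = 1 := Ring.mul_inverse_cancel _ hu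
    have h4 := congrArg (fun g : F →L[ℝ] F => g (L x (C : Op))) h3
    have h5 : L x (R0 (Ring.inverse (A x) (L x (C : Op)))) = L x (C : Op) := by
      simpa [hA] using h4
    simp only [hh]
    rw [map_sub, h5, sub_self]
  -- transport to `Op`
  set s : Set Op := T.symm ⁻¹' (V' ×ˢ univ) with hsdef
  have hso : IsOpen s := (hV'o.prod isOpen_univ).preimage T.symm.continuous
  set f : Op → Op := fun z => h (T.symm z) with hf
  have hfc : ContDiffOn ℝ 1 f s :=
    hhc.comp T.symm.contDiff.contDiffOn (fun z hz => hz)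
  refine ⟨V', hV'o.mem_nhds hx0', ?_⟩
  filter_upwards [ae_isolated_of_contDiffOn μ hso hfc] with B hB x hx hLB
  obtain ⟨C, hC⟩ := key B
  have hz : T (x, C) ∈ s := by
    simp [hsdef, hx]
  have hfz : f (T (x, C)) = B := by
    simp only [hf, ContinuousLinearEquiv.symm_apply_apply]
    exact hC x hx hLB
  have h1 := hB (T (x, C)) hz hfz
  have hcont : Tendsto (fun y : E => T (y, C)) (𝓝 x) (𝓝 (T (x, C))) :=
    (T.continuous.comp (by fun_prop : Continuous fun y : E => (y, C))).tendsto x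
  filter_upwards [hcont.eventually h1, hV'o.mem_nhds hx] with y hy hyV hLy
  have h2 : f (T (y, C)) = B := by
    simp only [hf, ContinuousLinearEquiv.symm_apply_apply]
    exact hC y hyV hLy
  have h3 := hy h2
  have h4 := T.injective h3
  exact (Prod.ext_iff.1 h4).1

/-- **generic members have isolated zeros** -/
theorem ae_isolated [MeasurableSpace Op] [BorelSpace Op] (μ : Measure Op)
    [μ.IsAddHaarMeasure] (hdim : finrank ℝ F = finrank ℝ E) {V : Set E} (hV : IsOpen V)
    (L : E → (Op →L[ℝ] F)) (hL : ContDiffOn ℝ 1 L V)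
    (hs : ∀ x ∈ V, Function.Surjective (L x)) :
    ∀ᵐ B ∂μ, ∀ x ∈ V, L x B = 0 → ∀ᶠ y in 𝓝 x, L y B = 0 → y = x := by
  choose! V' hV' hae using fun x0 hx0 => ae_isolated_local μ hdim hV L hL x0 hx0 (hs x0 hx0)
  obtain ⟨t, htV, htc, hcov⟩ := TopologicalSpace.countable_cover_nhdsWithin
    (f := V') (s := V) (fun x hx => mem_nhdsWithin_of_mem_nhds (hV' x hx))
  have h1 : ∀ᵐ B ∂μ, ∀ x0 ∈ t, ∀ x ∈ V' x0, L x B = 0 → ∀ᶠ y in 𝓝 x, L y B = 0 → y = x :=
    (ae_ball_iff htc).2 fun x0 hx0 => hae x0 (htV hx0)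
  filter_upwards [h1] with B hB x hx hLB
  obtain ⟨x0, hx0, hxx⟩ := mem_iUnion₂.1 (hcov hx)
  exact hB x0 hx0 x hxx hLB

end Vale.Agent.P205.TW
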