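import Vale.Agent.P205.TW.FinalTop
import Vale.Agent.P205.Top.Main

/-!
Every compact smooth surface carries the data `ImmN`.
-/

noncomputable section

open scoped Manifold ContDiff Topology

namespace Vale.Agent.P205.TW

variable {E : Type*} [NormedAddCommGroup E] [NormedSpace ℝ E]
  {M : Type*} [TopologicalSpace M] [T2Space M] [CompactSpace M] [ChartedSpace E M]
  [IsManifold 𝓘(ℝ, E) ∞ M]

/-- an immersion into `ℝ⁴` with a unit normal field exists on every closed surface -/
theorem exists_immN (hE : Module.finrank ℝ E = 2) : Nonempty (ImmN E M) := by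
  have : FiniteDimensional ℝ E := Module.finite_of_finrank_eq_succ (n := 1) (by omega)
  obtain ⟨F, q, hF, hq, hn⟩ := Vale.Agent.P205.Top.exists_imm_unitNormal (E := E) (M := M) hE
  exact immN_of_pair F q hF.sm hF.inj hq.sm (fun p v => hq.orth p v)
    (fun p h => by
      have := hn p
      rw [h, norm_zero] at this
      exact zero_ne_one this)

end Vale.Agent.P205.TW
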