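import Vale.Agent.P205.TW.Final
import Vale.Agent.P205.TW.ImmAll
import Vale.Agent.P205.F.ItIter

/-!
# P205: every closed smooth Riemannian surface has a smooth isometric immersion into `ℝ⁴`

All blocks together.
-/

noncomputable section

open scoped Manifold ContDiff Topology

namespace Vale.Agent.P205.TW

open Vale.Agent.P205.F

universe u

/-- **The theorem.** -/
theorem full_all {E : Type} [NormedAddCommGroup E] [NormedSpace ℝ E]
    (hE : Module.finrank ℝ E = 2) {M : Type u} [TopologicalSpace M] [T2Space M] [CompactSpace M]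
    [ChartedSpace E M] [IsManifold 𝓘(ℝ, E) ∞ M]
    (g : Bundle.ContMDiffRiemannianMetric 𝓘(ℝ, E) ∞ E (fun x : M => TangentSpace 𝓘(ℝ, E) x)) :
    ∃ X : Fin 4 → M → ℝ, (∀ i, ContMDiff 𝓘(ℝ, E) 𝓘(ℝ) ∞ (X i)) ∧
      ∀ (m : M) (v w : TangentSpace 𝓘(ℝ, E) m),
        ∑ i, mvfderiv 𝓘(ℝ, E) (X i) m v * mvfderiv 𝓘(ℝ, E) (X i) m w = g.inner m v w := by
  obtain ⟨H⟩ := exists_immN (E := E) (M := M) hE
  exact full_of_immN hE H g (fun K b => (K.dalg b).iter)

end Vale.Agent.P205.TW
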