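import Vale.Agent.P205.TW.CoverM

/-!
From a pair (immersion into `ℝ⁴`, nowhere zero normal field) to the data `ImmN`, and from an
immersion into `ℝ³` to the same data.
-/

noncomputable section

open scoped Manifold ContDiff Topology
open Set Filter

namespace Vale.Agent.P205.TW

variable {E : Type*} [NormedAddCommGroup E] [NormedSpace ℝ E]
  {M : Type*} [TopologicalSpace M] [ChartedSpace E M]

/-- a nowhere zero normal field can be normalised -/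
theorem immN_of_pair (f ξ : M → EuclideanSpace ℝ (Fin 4))
    (hf : ContMDiff 𝓘(ℝ, E) 𝓘(ℝ, EuclideanSpace ℝ (Fin 4)) ∞ f)
    (hinj : ∀ p, Function.Injective (mfderiv 𝓘(ℝ, E) 𝓘(ℝ, EuclideanSpace ℝ (Fin 4)) f p))
    (hξ : ContMDiff 𝓘(ℝ, E) 𝓘(ℝ, EuclideanSpace ℝ (Fin 4)) ∞ ξ)
    (hperp : ∀ (p : M) (v : TangentSpace 𝓘(ℝ, E) p),
      inner ℝ (ξ p) (mfderiv 𝓘(ℝ, E) 𝓘(ℝ, EuclideanSpace ℝ (Fin 4)) f p v :
        EuclideanSpace ℝ (Fin 4)) = 0)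
    (h0 : ∀ p, ξ p ≠ 0) : Nonempty (ImmN E M) := by
  have hn : ContMDiff 𝓘(ℝ, E) 𝓘(ℝ, ℝ) ∞ (fun p => ‖ξ p‖) := by
    intro p
    have h1 : ContDiffAt ℝ ∞ (fun x : EuclideanSpace ℝ (Fin 4) => ‖x‖) (ξ p) :=
      contDiffAt_norm ℝ (h0 p)
    exact h1.contMDiffAt.comp p (hξ p)
  have hi : ContMDiff 𝓘(ℝ, E) 𝓘(ℝ, ℝ) ∞ (fun p => ‖ξ p‖⁻¹) := by
    intro p
    have h1 : ContDiffAt ℝ ∞ (fun x : ℝ => x⁻¹) ‖ξ p‖ :=
      contDiffAt_inv ℝ (norm_ne_zero_iff.2 (h0 p))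
    exact h1.contMDiffAt.comp p (hn p)
  refine ⟨⟨f, fun p => ‖ξ p‖⁻¹ • ξ p, hf, ?_, hinj, ?_, ?_⟩⟩
  · exact hi.smul hξ
  · intro p
    rw [norm_smul, norm_inv, norm_norm, inv_mul_cancel₀ (norm_ne_zero_iff.2 (h0 p))]
  · intro p v
    exact (real_inner_smul_left (ξ p)
      (mfderiv 𝓘(ℝ, E) 𝓘(ℝ, EuclideanSpace ℝ (Fin 4)) f p v : EuclideanSpace ℝ (Fin 4))
      (‖ξ p‖⁻¹)).trans ((congrArg (fun t => ‖ξ p‖⁻¹ * t) (hperp p v)).trans (mul_zero _))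

end Vale.Agent.P205.TW
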