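import Vale.Agent.P205.F.Calc1
import Vale.Agent.P205.TW.FormDef

/-!
P205, scheme T1W, block FORMULA: closure lemmas for the classes `FO μ 1`, `SL μ ε`, `FO μ ε`.
-/

noncomputable section

namespace Vale.Agent.P205.TW

open Vale.Agent.P205.F
open scoped ContDiff

universe u

variable {P : Type u} {κ : Type} {S : DAlg P κ}
variable {ι : Type*} {μ ε s : ι → ℝ} {u v : ι → P → ℂ}

/-- fast times anything -/
theorem fo_mul (hu : S.FO μ (fun _ => 1) u) (hv : S.FO μ s v) :
    S.FO μ s (fun i p => u i p * v i p) :=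
  (hu.mul hv).congr_s fun i => one_mul (s i)

/-- anything times fast -/
theorem fo_mul' (hu : S.FO μ s u) (hv : S.FO μ (fun _ => 1) v) :
    S.FO μ s (fun i p => u i p * v i p) :=
  (hu.mul hv).congr_s fun i => mul_one (s i)

theorem fo_add (hu : S.FO μ s u) (hv : S.FO μ s v) : S.FO μ s (fun i p => u i p + v i p) :=
  hu.add hv

theorem fo_sub (hu : S.FO μ s u) (hv : S.FO μ s v) : S.FO μ s (fun i p => u i p - v i p) :=
  hu.sub hv

theorem fo_neg (hu : S.FO μ s u) : S.FO μ s (fun i p => -u i p) := hu.neg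

/-- division by `μ` of a derivative-type term -/
theorem fo_div (hμ : ∀ i, 0 < μ i) (hu : S.FO μ (fun i => s i * μ i) u) :
    S.FO μ s (fun i p => (1 / μ i : ℂ) * u i p) := by
  have h := DAlg.FO.real_mul (r := fun i => 1 / μ i)
    (fun i => (div_pos one_pos (hμ i)).le) hu
  refine (h.congr_s fun i => ?_).congr fun i p => ?_
  · have := (hμ i).ne'
    field_simp
  · push_cast
    rfl

theorem fo_div1 (hμ : ∀ i, 0 < μ i) (hu : S.FO μ μ u) :
    S.FO μ (fun _ => 1) (fun i p => (1 / μ i : ℂ) * u i p) :=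
  fo_div hμ (hu.congr_s fun _ => (one_mul _).symm)

theorem fo_mulmu (hμ : ∀ i, 0 < μ i) (hu : S.FO μ s u) :
    S.FO μ (fun i => s i * μ i) (fun i p => (μ i : ℂ) * u i p) :=
  (DAlg.FO.real_mul (r := μ) (fun i => (hμ i).le) hu).congr_s fun i => mul_comm _ _

/-! ### slow functions -/

theorem SL.fo (h : SL S μ ε u) : S.FO μ (fun _ => 1) u := h.1

theorem SL.D (h : SL S μ ε u) (j : κ) : S.FO μ (fun i => ε i * μ i) (fun i => S.D j (u i)) :=
  h.2 j

theorem SL.congr (h : SL S μ ε u) (e : ∀ i p, u i p = v i p) : SL S μ ε v := by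
  have e : u = v := funext fun i => funext fun p => e i p
  rwa [e] at h

theorem SL.add (hu : SL S μ ε u) (hv : SL S μ ε v) : SL S μ ε (fun i p => u i p + v i p) :=
  ⟨hu.1.add hv.1, fun j => ((hu.2 j).add (hv.2 j)).congr fun i p =>
    (S.D_add_apply j (hu.1.1 i) (hv.1.1 i) p).symm⟩

theorem SL.sub (hu : SL S μ ε u) (hv : SL S μ ε v) : SL S μ ε (fun i p => u i p - v i p) :=
  ⟨hu.1.sub hv.1, fun j => ((hu.2 j).sub (hv.2 j)).congr fun i p =>
    (S.D_sub_apply j (hu.1.1 i) (hv.1.1 i) p).symm⟩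

theorem SL.neg (hu : SL S μ ε u) : SL S μ ε (fun i p => -u i p) :=
  ⟨hu.1.neg, fun j => ((hu.2 j).neg).congr fun i p =>
    (S.D_neg_apply j (hu.1.1 i) p).symm⟩

theorem SL.mul (hu : SL S μ ε u) (hv : SL S μ ε v) : SL S μ ε (fun i p => u i p * v i p) :=
  ⟨fo_mul hu.1 hv.1, fun j => ((fo_mul' (hu.2 j) hv.1).add (fo_mul hu.1 (hv.2 j))).congr
    fun i p => (S.D_mul_apply j (hu.1.1 i) (hv.1.1 i) p).symm⟩

theorem SL.const (c : ℂ) (hμ : ∀ i, 0 < μ i) : SL S μ ε (fun _ _ => c) :=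
  ⟨DAlg.FO.const c fun i => (hμ i).le, fun j =>
    (DAlg.FO.zero (S := S) (μ := μ) (s := fun i => ε i * μ i)).congr fun i p => by
      rw [S.D_const]⟩

theorem SL.cmul (c : ℂ) (hu : SL S μ ε u) : SL S μ ε (fun i p => c * u i p) :=
  ⟨hu.1.const_mul c, fun j => ((hu.2 j).const_mul c).congr fun i p =>
    (S.D_smul_apply j c (hu.1.1 i) p).symm⟩

theorem SL.sum {α : Type*} {A : Finset α} {u : α → ι → P → ℂ} (hμ : ∀ i, 0 < μ i)
    (h : ∀ a ∈ A, SL S μ ε (u a)) : SL S μ ε (fun i p => ∑ a ∈ A, u a i p) := by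
  classical
  induction A using Finset.induction_on with
  | empty => simpa using (SL.const (S := S) (ε := ε) 0 hμ)
  | insert a A ha ih =>
    refine ((h a (Finset.mem_insert_self a A)).add
      (ih fun b hb => h b (Finset.mem_insert_of_mem hb))).congr fun i p => ?_
    rw [Finset.sum_insert ha]

theorem SL.dot (hμ : ∀ i, 0 < μ i) {X Y : ι → Fin 4 → P → ℂ}
    (hX : ∀ a, SL S μ ε (fun i => X i a))
    (hY : ∀ a, SL S μ ε (fun i => Y i a)) : SL S μ ε (fun i => dot (X i) (Y i)) :=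
  SL.sum (A := (Finset.univ : Finset (Fin 4))) (u := fun a i p => X i a p * Y i a p) hμ
    fun a _ => (hX a).mul (hY a)

theorem SL.dir [Fintype κ] (hμ : ∀ i, 0 < μ i) {c : ι → κ → P → ℂ}
    (hc : ∀ j, SL S μ ε (fun i => c i j))
    (hu : ∀ j, SL S μ ε (fun i => S.D j (u i))) : SL S μ ε (fun i => S.dir (c i) (u i)) :=
  SL.sum (A := (Finset.univ : Finset κ)) (u := fun j i p => c i j p * S.D j (u i) p) hμ
    fun j _ => (hc j).mul (hu j)

/-! ### composition with one real function -/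

theorem bd_comp (S : DAlg P κ) (k : ℕ) : ∀ (F : ℝ → ℂ), ContDiff ℝ ∞ F → ∀ R : ℝ, 0 ≤ R →
    ∃ C : ℝ, 0 ≤ C ∧ ∀ (μ : ℝ) (u : P → ℂ), 0 ≤ μ → S.Sm u → Rl u → S.Bd μ k R u →
      S.Bd μ k C (fun p => F (u p).re) := by
  induction k with
  | zero =>
    intro F hF R hR
    obtain ⟨C, hC⟩ := (isCompact_Icc (a := -R) (b := R)).exists_bound_of_continuousOn
      hF.continuous.continuousOn
    refine ⟨|C|, abs_nonneg C, fun μ u hμ hu hr hb w hw p => ?_⟩
    have hw0 : w = [] := List.length_eq_zero_iff.1 (Nat.le_zero.1 hw)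
    subst hw0
    have h1 : ‖u p‖ ≤ R := hb.apply p
    have h2 : |(u p).re| ≤ R := (Complex.abs_re_le_norm _).trans h1
    simpa using (hC _ ⟨(abs_le.1 h2).1, (abs_le.1 h2).2⟩).trans (le_abs_self C)
  | succ k ih =>
    intro F hF R hR
    obtain ⟨C0, hC0⟩ := (isCompact_Icc (a := -R) (b := R)).exists_bound_of_continuousOn
      hF.continuous.continuousOn
    have hF' : ContDiff ℝ ∞ (deriv F) := (contDiff_infty_iff_deriv.1 hF).2
    obtain ⟨C1, hC1, h1⟩ := ih (deriv F) hF' R hR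
    refine ⟨max |C0| (2 ^ k * (C1 * R)), le_max_of_le_left (abs_nonneg _),
      fun μ u hμ hu hr hb w hw p => ?_⟩
    rcases List.eq_nil_or_concat w with rfl | ⟨w', j, rfl⟩
    · have h1 : ‖u p‖ ≤ R := hb.apply p
      have h2 : |(u p).re| ≤ R := (Complex.abs_re_le_norm _).trans h1
      have h3 := (hC0 _ ⟨(abs_le.1 h2).1, (abs_le.1 h2).2⟩).trans (le_abs_self C0)
      simpa using h3.trans (le_max_left _ _)
    · rw [List.concat_eq_append] at hw ⊢
      have hw' : w'.length ≤ k := by simpa using hw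
      rw [S.wd_snoc, S.D_comp j hF hu hr, List.length_append, List.length_singleton]
      have e1 : S.Bd μ k C1 (fun p => deriv F (u p).re) :=
        h1 μ u hμ hu hr (hb.mono_k (Nat.le_succ k))
      have e2 := DAlg.Bd.mul (S.sm_comp hF' hu hr) (S.sm_D j hu) e1 (hb.D j) w' hw' p
      refine e2.trans ?_
      have h4 : (2 : ℝ) ^ k * (C1 * (R * μ)) * μ ^ w'.length
          = 2 ^ k * (C1 * R) * μ ^ (w'.length + 1) := by ring
      rw [h4]
      exact mul_le_mul_of_nonneg_right (le_max_right _ _) (by positivity)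

theorem fo_comp {F : ℝ → ℂ} (hF : ContDiff ℝ ∞ F) (hμ : ∀ i, 0 ≤ μ i)
    (hu : S.FO μ (fun _ => 1) u) (hr : ∀ i, Rl (u i)) :
    S.FO μ (fun _ => 1) (fun i p => F (u i p).re) := by
  refine ⟨fun i => S.sm_comp hF (hu.1 i) (hr i), fun k => ?_⟩
  obtain ⟨R, hR, h⟩ := hu.2 k
  obtain ⟨C, hC, h'⟩ := bd_comp S k F hF R hR
  refine ⟨C, hC, fun i => ?_⟩
  have := h i
  rw [mul_one] at this ⊢
  exact h' (μ i) (u i) (hμ i) (hu.1 i) (hr i) this

theorem SL.comp {F : ℝ → ℂ} (hF : ContDiff ℝ ∞ F) (hμ : ∀ i, 0 < μ i)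
    (hu : SL S μ ε u) (hr : ∀ i, Rl (u i)) :
    SL S μ ε (fun i p => F (u i p).re) := by
  refine ⟨fo_comp hF (fun i => (hμ i).le) hu.1 hr, fun j => ?_⟩
  have hF' : ContDiff ℝ ∞ (deriv F) := (contDiff_infty_iff_deriv.1 hF).2
  refine (fo_mul (fo_comp hF' (fun i => (hμ i).le) hu.1 hr) (hu.2 j)).congr fun i p => ?_
  rw [S.D_comp j hF (hu.1.1 i) (hr i)]

/-! ### `cos` and `sin` of a phase which is not bounded -/

theorem contDiff_cos_c : ContDiff ℝ ∞ (fun x : ℝ => ((Real.cos x : ℝ) : ℂ)) :=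
  Complex.ofRealCLM.contDiff.comp Real.contDiff_cos

theorem contDiff_sin_c : ContDiff ℝ ∞ (fun x : ℝ => ((Real.sin x : ℝ) : ℂ)) :=
  Complex.ofRealCLM.contDiff.comp Real.contDiff_sin

theorem deriv_cos_c (x : ℝ) : deriv (fun x : ℝ => ((Real.cos x : ℝ) : ℂ)) x
    = -((Real.sin x : ℝ) : ℂ) := by
  have h := (Real.hasDerivAt_cos x).ofReal_comp
  rw [h.deriv]
  push_cast
  rfl

theorem deriv_sin_c (x : ℝ) : deriv (fun x : ℝ => ((Real.sin x : ℝ) : ℂ)) x
    = ((Real.cos x : ℝ) : ℂ) := by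
  have h := (Real.hasDerivAt_sin x).ofReal_comp
  rw [h.deriv]

section

variable (S)

theorem sm_co {u : P → ℂ} (hu : S.Sm u) (hr : Rl u) : S.Sm (co u) :=
  S.sm_comp (F := fun x : ℝ => ((Real.cos x : ℝ) : ℂ)) contDiff_cos_c hu hr

theorem sm_si {u : P → ℂ} (hu : S.Sm u) (hr : Rl u) : S.Sm (si u) :=
  S.sm_comp (F := fun x : ℝ => ((Real.sin x : ℝ) : ℂ)) contDiff_sin_c hu hr

theorem D_co {u : P → ℂ} (j : κ) (hu : S.Sm u) (hr : Rl u) (p : P) :
    S.D j (co u) p = -(si u p * S.D j u p) := by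
  have h := congrFun (S.D_comp j contDiff_cos_c hu hr) p
  change S.D j (fun p => ((Real.cos (u p).re : ℝ) : ℂ)) p = _
  rw [h, deriv_cos_c, neg_mul]
  rfl

theorem D_si {u : P → ℂ} (j : κ) (hu : S.Sm u) (hr : Rl u) (p : P) :
    S.D j (si u) p = co u p * S.D j u p := by
  have h := congrFun (S.D_comp j contDiff_sin_c hu hr) p
  change S.D j (fun p => ((Real.sin (u p).re : ℝ) : ℂ)) p = _
  rw [h, deriv_sin_c]
  rfl

theorem co_sq_add (u : P → ℂ) (p : P) : co u p * co u p + si u p * si u p = 1 := by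
  simp only [co, si]
  rw [← Complex.ofReal_mul, ← Complex.ofReal_mul, ← Complex.ofReal_add]
  have := Real.cos_sq_add_sin_sq (u p).re
  rw [show Real.cos (u p).re * Real.cos (u p).re + Real.sin (u p).re * Real.sin (u p).re = 1 by
    nlinarith [this]]
  rfl

theorem rl_co (u : P → ℂ) : Rl (co u) := Rl.ofReal _

theorem rl_si (u : P → ℂ) : Rl (si u) := Rl.ofReal _

/-- `cos` and `sin` of a phase with derivative `O(μ)` -/
theorem bd_cosi (k : ℕ) : ∀ R : ℝ, 0 ≤ R → ∃ C : ℝ, 0 ≤ C ∧ ∀ (μ : ℝ) (u : P → ℂ), 0 ≤ μ →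
    S.Sm u → Rl u → (∀ j, S.Bd μ k (R * μ) (S.D j u)) →
      S.Bd μ k C (co u) ∧ S.Bd μ k C (si u) := by
  induction k with
  | zero =>
    intro R _
    refine ⟨1, zero_le_one, fun μ u hμ hu hr _ => ⟨fun w hw p => ?_, fun w hw p => ?_⟩⟩
    · have hw0 : w = [] := List.length_eq_zero_iff.1 (Nat.le_zero.1 hw)
      subst hw0
      simp only [S.wd_nil, co, List.length_nil, pow_zero, mul_one, Complex.norm_real,
        Real.norm_eq_abs]
      exact Real.abs_cos_le_one _
    · have hw0 : w = [] := List.length_eq_zero_iff.1 (Nat.le_zero.1 hw)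
      subst hw0
      simp only [S.wd_nil, si, List.length_nil, pow_zero, mul_one, Complex.norm_real,
        Real.norm_eq_abs]
      exact Real.abs_sin_le_one _
  | succ k ih =>
    intro R hR
    obtain ⟨C1, hC1, h1⟩ := ih R hR
    refine ⟨max 1 (2 ^ k * (C1 * R)), le_max_of_le_left zero_le_one,
      fun μ u hμ hu hr hb => ?_⟩
    obtain ⟨hc, hs⟩ := h1 μ u hμ hu hr fun j => (hb j).mono_k (Nat.le_succ k)
    constructor
    · intro w hw p
      rcases List.eq_nil_or_concat w with rfl | ⟨w', j, rfl⟩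
      · simp only [S.wd_nil, co, List.length_nil, pow_zero, mul_one, Complex.norm_real,
          Real.norm_eq_abs]
        exact (Real.abs_cos_le_one _).trans (le_max_left _ _)
      · rw [List.concat_eq_append] at hw ⊢
        have hw' : w'.length ≤ k := by simpa using hw
        have e0 : S.D j (co u) = -(si u * S.D j u) := funext fun q => D_co S j hu hr q
        rw [S.wd_snoc, e0, S.wd_neg w' (S.sm_mul (sm_si S hu hr) (S.sm_D j hu)), Pi.neg_apply,
          norm_neg, List.length_append, List.length_singleton]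
        have e2 := DAlg.Bd.mul (sm_si S hu hr) (S.sm_D j hu) hs
          ((hb j).mono_k (Nat.le_succ k)) w' hw' p
        refine e2.trans ?_
        have h4 : (2 : ℝ) ^ k * (C1 * (R * μ)) * μ ^ w'.length
            = 2 ^ k * (C1 * R) * μ ^ (w'.length + 1) := by ring
        rw [h4]
        exact mul_le_mul_of_nonneg_right (le_max_right _ _) (by positivity)
    · intro w hw p
      rcases List.eq_nil_or_concat w with rfl | ⟨w', j, rfl⟩
      · simp only [S.wd_nil, si, List.length_nil, pow_zero, mul_one, Complex.norm_real,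
          Real.norm_eq_abs]
        exact (Real.abs_sin_le_one _).trans (le_max_left _ _)
      · rw [List.concat_eq_append] at hw ⊢
        have hw' : w'.length ≤ k := by simpa using hw
        have e0 : S.D j (si u) = co u * S.D j u := funext fun q => D_si S j hu hr q
        rw [S.wd_snoc, e0, List.length_append, List.length_singleton]
        have e2 := DAlg.Bd.mul (sm_co S hu hr) (S.sm_D j hu) hc
          ((hb j).mono_k (Nat.le_succ k)) w' hw' p
        refine e2.trans ?_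
        have h4 : (2 : ℝ) ^ k * (C1 * (R * μ)) * μ ^ w'.length
            = 2 ^ k * (C1 * R) * μ ^ (w'.length + 1) := by ring
        rw [h4]
        exact mul_le_mul_of_nonneg_right (le_max_right _ _) (by positivity)

end

theorem fo_cosi [Fintype κ] (hμ : ∀ i, 0 ≤ μ i) (sm : ∀ i, S.Sm (u i)) (hr : ∀ i, Rl (u i))
    (hu : ∀ j, S.FO μ μ (fun i => S.D j (u i))) :
    S.FO μ (fun _ => 1) (fun i => co (u i)) ∧ S.FO μ (fun _ => 1) (fun i => si (u i)) := by
  have key : ∀ k, ∃ C : ℝ, 0 ≤ C ∧ ∀ i, S.Bd (μ i) k (C * 1) (co (u i)) ∧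
      S.Bd (μ i) k (C * 1) (si (u i)) := by
    intro k
    have h1 : ∃ R : ℝ, 0 ≤ R ∧ ∀ j i, S.Bd (μ i) k (R * μ i) (S.D j (u i)) := by
      choose R hR h using fun j => (hu j).2 k
      refine ⟨∑ j, R j, Finset.sum_nonneg fun j _ => hR j, fun j i => (h j i).mono (hμ i) ?_⟩
      exact mul_le_mul_of_nonneg_right
        (Finset.single_le_sum (fun j _ => hR j) (Finset.mem_univ j)) (hμ i)
    obtain ⟨R, hR, h⟩ := h1
    obtain ⟨C, hC, h'⟩ := bd_cosi S k R hR
    refine ⟨C, hC, fun i => ?_⟩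
    rw [mul_one]
    exact h' (μ i) (u i) (hμ i) (sm i) (hr i) fun j => h j i
  refine ⟨⟨fun i => sm_co S (sm i) (hr i), fun k => ?_⟩,
    ⟨fun i => sm_si S (sm i) (hr i), fun k => ?_⟩⟩
  · obtain ⟨C, hC, h⟩ := key k
    exact ⟨C, hC, fun i => (h i).1⟩
  · obtain ⟨C, hC, h⟩ := key k
    exact ⟨C, hC, fun i => (h i).2⟩

end Vale.Agent.P205.TW
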