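import Vale.Agent.P205.TW.FormDef

/-!
P205, scheme T1W, block FORMULA, part F2: pointwise algebra of the leading terms.
-/

noncomputable section

namespace Vale.Agent.P205.TW

open Vale.Agent.P205.F

universe u

/-- bilinear product of `ℂ⁴` -/
def dc (x y : Fin 4 → ℂ) : ℂ := ∑ i, x i * y i

theorem dc_comm (x y : Fin 4 → ℂ) : dc x y = dc y x := by
  simp only [dc]; exact Finset.sum_congr rfl fun i _ => by ring

theorem dc_add_left (x y z : Fin 4 → ℂ) : dc (x + y) z = dc x z + dc y z := by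
  simp only [dc, Pi.add_apply, Fin.sum_univ_four]; ring

theorem dc_add_right (x y z : Fin 4 → ℂ) : dc x (y + z) = dc x y + dc x z := by
  simp only [dc, Pi.add_apply, Fin.sum_univ_four]; ring

theorem dc_smul_left (c : ℂ) (x y : Fin 4 → ℂ) : dc (c • x) y = c * dc x y := by
  simp only [dc, Pi.smul_apply, Fin.sum_univ_four, smul_eq_mul]; ring

theorem dc_smul_right (c : ℂ) (x y : Fin 4 → ℂ) : dc x (c • y) = c * dc x y := by
  simp only [dc, Pi.smul_apply, Fin.sum_univ_four, smul_eq_mul]; ring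

/-- Gram determinant of three vectors of `ℂ⁴` -/
def dg3 (x y z : Fin 4 → ℂ) : ℂ :=
  dc x x * (dc y y * dc z z - dc y z * dc y z)
    - dc x y * (dc x y * dc z z - dc y z * dc x z)
    + dc x z * (dc x y * dc y z - dc y y * dc x z)

/-- Gram determinant of two orthogonal combinations and an orthogonal vector -/
theorem dg3_eq (N e s : Fin 4 → ℂ) (hNe : dc N e = 0) (hNs : dc N s = 0) (hes : dc e s = 0)
    (αa αb ra rb : ℂ) :
    dg3 (αa • N + ra • e) (αb • N + rb • e) s =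
      (αa * rb - αb * ra) ^ 2 * (dc N N * dc e e) * dc s s := by
  have heN : dc e N = 0 := by rw [dc_comm]; exact hNe
  have hsN : dc s N = 0 := by rw [dc_comm]; exact hNs
  have hse : dc s e = 0 := by rw [dc_comm]; exact hes
  simp only [dg3, dc_add_left, dc_add_right, dc_smul_left, dc_smul_right, hNe, hNs, hes, heN]
  ring

variable {P : Type u} {κ : Type} [Fintype κ] (S : DAlg P κ)

theorem co_sq (u : P → ℂ) (p : P) : co u p ^ 2 + si u p ^ 2 = 1 := by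
  simp only [co, si]
  norm_cast
  exact Real.cos_sq_add_sin_sq _

namespace TData

variable {d : TData P κ} {ρ : ℝ} (μ : ℝ)

variable {S}

/-- dot product with a directional derivative -/
theorem dot_dirv (c : κ → P → ℂ) (q X : Fin 4 → P → ℂ) (p : P)
    (h : ∀ j, dot q (S.Dv j X) p = 0) : dot q (S.dirv c X) p = 0 := by
  have : dot q (S.dirv c X) p = ∑ j, c j p * dot q (S.Dv j X) p := by
    simp only [dot, DAlg.dirv, DAlg.dir, DAlg.Dv, Finset.mul_sum]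
    rw [Finset.sum_comm]
    exact Finset.sum_congr rfl fun j _ => Finset.sum_congr rfl fun i _ => by ring
  rw [this]
  exact Finset.sum_eq_zero fun j _ => by rw [h, mul_zero]

/-- `X_t` at a point -/
def vT (S : DAlg P κ) (d : TData P κ) (p : P) : Fin 4 → ℂ := fun a => d.Xt S a p
/-- `X_w` at a point -/
def vW (S : DAlg P κ) (d : TData P κ) (p : P) : Fin 4 → ℂ := fun a => d.Xw S a p
/-- `E` at a point -/
def vE (S : DAlg P κ) (d : TData P κ) (ρ μ : ℝ) (p : P) : Fin 4 → ℂ := fun a => d.E S ρ μ a p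
/-- `iE` at a point -/
def vF (S : DAlg P κ) (d : TData P κ) (ρ μ : ℝ) (p : P) : Fin 4 → ℂ := fun a => d.iE S ρ μ a p
/-- `D_j X` at a point -/
def vX (S : DAlg P κ) (d : TData P κ) (j : κ) (p : P) : Fin 4 → ℂ := fun a => S.D j (d.X a) p

theorem vE_eq (p : P) : vE S d ρ μ p =
    co (d.Φ S ρ μ) p • (fun a => d.q1 a p) + si (d.Φ S ρ μ) p • (fun a => d.q2 a p) := by
  funext a
  simp [vE, E]

theorem vF_eq (p : P) : vF S d ρ μ p =
    (-si (d.Φ S ρ μ) p) • (fun a => d.q1 a p) + co (d.Φ S ρ μ) p • (fun a => d.q2 a p) := by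
  funext a
  simp [vF, iE]
  ring

theorem qq1 (hd : d.Ok S ρ) (p : P) : dc (fun a => d.q1 a p) (fun a => d.q1 a p) = 1 := hd.q11 p
theorem qq2 (hd : d.Ok S ρ) (p : P) : dc (fun a => d.q1 a p) (fun a => d.q2 a p) = 0 := hd.q12 p
theorem qq2' (hd : d.Ok S ρ) (p : P) : dc (fun a => d.q2 a p) (fun a => d.q1 a p) = 0 := by
  rw [dc_comm]; exact hd.q12 p
theorem qq3 (hd : d.Ok S ρ) (p : P) : dc (fun a => d.q2 a p) (fun a => d.q2 a p) = 1 := hd.q22 p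

theorem EE (hd : d.Ok S ρ) (p : P) : dc (vE S d ρ μ p) (vE S d ρ μ p) = 1 := by
  rw [vE_eq]
  simp only [dc_add_left, dc_add_right, dc_smul_left, dc_smul_right, qq1 hd, qq2 hd, qq2' hd,
    qq3 hd]
  linear_combination co_sq (d.Φ S ρ μ) p

theorem FF (hd : d.Ok S ρ) (p : P) : dc (vF S d ρ μ p) (vF S d ρ μ p) = 1 := by
  rw [vF_eq]
  simp only [dc_add_left, dc_add_right, dc_smul_left, dc_smul_right, qq1 hd, qq2 hd, qq2' hd,
    qq3 hd]
  linear_combination co_sq (d.Φ S ρ μ) p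

theorem EF (hd : d.Ok S ρ) (p : P) : dc (vE S d ρ μ p) (vF S d ρ μ p) = 0 := by
  rw [vE_eq, vF_eq]
  simp only [dc_add_left, dc_add_right, dc_smul_left, dc_smul_right, qq1 hd, qq2 hd, qq2' hd,
    qq3 hd]
  ring

theorem q1v (hd : d.Ok S ρ) (p : P) (j : κ) : dc (fun a => d.q1 a p) (vX S d j p) = 0 :=
  hd.q1X j p
theorem q2v (hd : d.Ok S ρ) (p : P) (j : κ) : dc (fun a => d.q2 a p) (vX S d j p) = 0 :=
  hd.q2X j p

theorem EX (hd : d.Ok S ρ) (p : P) (j : κ) : dc (vE S d ρ μ p) (vX S d j p) = 0 := by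
  rw [vE_eq]
  simp only [dc_add_left, dc_smul_left, q1v hd, q2v hd]
  ring

theorem FX (hd : d.Ok S ρ) (p : P) (j : κ) : dc (vF S d ρ μ p) (vX S d j p) = 0 := by
  rw [vF_eq]
  simp only [dc_add_left, dc_smul_left, q1v hd, q2v hd]
  ring

theorem ET (hd : d.Ok S ρ) (p : P) : dc (vE S d ρ μ p) (vT S d p) = 0 :=
  dot_dirv d.r.t (d.E S ρ μ) d.X p fun j => EX μ hd p j

theorem EW (hd : d.Ok S ρ) (p : P) : dc (vE S d ρ μ p) (vW S d p) = 0 :=
  dot_dirv d.r.w (d.E S ρ μ) d.X p fun j => EX μ hd p j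

theorem FT (hd : d.Ok S ρ) (p : P) : dc (vF S d ρ μ p) (vT S d p) = 0 :=
  dot_dirv d.r.t (d.iE S ρ μ) d.X p fun j => FX μ hd p j

theorem FW (hd : d.Ok S ρ) (p : P) : dc (vF S d ρ μ p) (vW S d p) = 0 :=
  dot_dirv d.r.w (d.iE S ρ μ) d.X p fun j => FX μ hd p j

/-- `N = u(w)` -/
def vN (S : DAlg P κ) (d : TData P κ) (ρ μ : ℝ) (p : P) : Fin 4 → ℂ :=
  vW S d p + (ρ * d.ψw S p) • vF S d ρ μ p
/-- `m` -/
def vm (S : DAlg P κ) (d : TData P κ) (ρ μ : ℝ) (p : P) : Fin 4 → ℂ :=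
  vT S d p + (d.a2 S ρ p) • vW S d p + (d.a3 S ρ p) • vF S d ρ μ p
/-- `|m| ν` -/
def vV (S : DAlg P κ) (d : TData P κ) (ρ μ : ℝ) (p : P) : Fin 4 → ℂ :=
  (d.b1 S ρ p) • vT S d p + (d.b2 S ρ p) • vW S d p + (d.b3 S p) • vF S d ρ μ p
/-- `e` -/
def ve (S : DAlg P κ) (d : TData P κ) (ρ μ : ℝ) (p : P) : Fin 4 → ℂ :=
  (d.c p * d.iv p) • vm S d ρ μ p + (d.s p * d.iv p) • vV S d ρ μ p
/-- derivative of `e` without the factor `h iv` -/
def vJ (S : DAlg P κ) (d : TData P κ) (ρ μ : ℝ) (p : P) : Fin 4 → ℂ :=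
  (-d.s p) • vm S d ρ μ p + (d.c p) • vV S d ρ μ p

theorem TT (p : P) : dc (vT S d p) (vT S d p) = d.Ett S p := rfl
theorem TW' (p : P) : dc (vT S d p) (vW S d p) = d.Etw S p := rfl
theorem WT (p : P) : dc (vW S d p) (vT S d p) = d.Etw S p := by rw [dc_comm]; rfl
theorem WW (p : P) : dc (vW S d p) (vW S d p) = d.Eww S p := rfl

section
variable (hd : d.Ok S ρ) (p : P)
include hd

theorem TF : dc (vT S d p) (vF S d ρ μ p) = 0 := by rw [dc_comm]; exact FT μ hd p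
theorem WF : dc (vW S d p) (vF S d ρ μ p) = 0 := by rw [dc_comm]; exact FW μ hd p

theorem NN : dc (vN S d ρ μ p) (vN S d ρ μ p) = d.Gww S ρ p := by
  simp only [vN, dc_add_left, dc_add_right, dc_smul_left, dc_smul_right, WW, WF μ hd, FW μ hd,
    FF μ hd, Gww]
  ring

theorem Nm (hp : p ∈ d.r.K) : dc (vN S d ρ μ p) (vm S d ρ μ p) = 0 := by
  have h := hd.iGG p hp
  simp only [vN, vm, dc_add_left, dc_add_right, dc_smul_left, dc_smul_right, WW, WT, WF μ hd,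
    FW μ hd, FT μ hd, FF μ hd, a2, a3, bt]
  simp only [Gww, Gtw] at h ⊢
  linear_combination (-(d.Etw S p + ρ ^ 2 * (d.ψt S p * d.ψw S p))) * h

theorem mm (hp : p ∈ d.r.K) : dc (vm S d ρ μ p) (vm S d ρ μ p) = d.M2 S ρ p := by
  have h := hd.iGG p hp
  simp only [vm, dc_add_left, dc_add_right, dc_smul_left, dc_smul_right, TT, TW', WW, WT,
    WF μ hd, FW μ hd, FT μ hd, TF μ hd, FF μ hd, a2, a3, bt, M2]
  simp only [Gww, Gtw, Gtt] at h ⊢
  linear_combination ((d.Etw S p + ρ ^ 2 * (d.ψt S p * d.ψw S p)) ^ 2 * d.iG p) * h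

theorem NV : dc (vN S d ρ μ p) (vV S d ρ μ p) = 0 := by
  simp only [vN, vV, dc_add_left, dc_add_right, dc_smul_left, dc_smul_right, WW, WT, WF μ hd,
    FW μ hd, FT μ hd, FF μ hd, b1, b2, b3, dX]
  ring

theorem mV : dc (vm S d ρ μ p) (vV S d ρ μ p) = 0 := by
  simp only [vm, vV, dc_add_left, dc_add_right, dc_smul_left, dc_smul_right, TT, TW', WW, WT,
    WF μ hd, FW μ hd, FT μ hd, TF μ hd, FF μ hd, a2, a3, bt, b1, b2, b3, dX]
  ring

theorem VV (hp : p ∈ d.r.K) : dc (vV S d ρ μ p) (vV S d ρ μ p) = d.M2 S ρ p := by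
  have h := hd.iGG p hp
  have h2 := hd.σσ p hp
  have h1 : dc (vV S d ρ μ p) (vV S d ρ μ p) =
      d.σ p ^ 2 * d.dX S p * (d.Gtt S ρ p * d.Gww S ρ p - d.Gtw S ρ p * d.Gtw S ρ p) := by
    simp only [vV, dc_add_left, dc_add_right, dc_smul_left, dc_smul_right, TT, TW', WW, WT,
      WF μ hd, FW μ hd, FT μ hd, TF μ hd, FF μ hd, b1, b2, b3, dX, Gww, Gtw, Gtt]
    ring
  have h3 : d.M2 S ρ p * d.Gww S ρ p =
      d.Gtt S ρ p * d.Gww S ρ p - d.Gtw S ρ p * d.Gtw S ρ p := by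
    simp only [M2]
    linear_combination (-(d.Gtw S ρ p * d.Gtw S ρ p)) * h
  rw [h1, ← h3]
  linear_combination d.M2 S ρ p * h2

theorem Vm : dc (vV S d ρ μ p) (vm S d ρ μ p) = 0 := by rw [dc_comm]; exact mV μ hd p

theorem Ne (hp : p ∈ d.r.K) : dc (vN S d ρ μ p) (ve S d ρ μ p) = 0 := by
  simp only [ve, dc_add_right, dc_smul_right, Nm μ hd p hp, NV μ hd]
  ring

theorem NJ (hp : p ∈ d.r.K) : dc (vN S d ρ μ p) (vJ S d ρ μ p) = 0 := by
  simp only [vJ, dc_add_right, dc_smul_right, Nm μ hd p hp, NV μ hd]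
  ring

theorem eJ (hp : p ∈ d.r.K) : dc (ve S d ρ μ p) (vJ S d ρ μ p) = 0 := by
  simp only [ve, vJ, dc_add_left, dc_smul_left, dc_add_right, dc_smul_right, mm μ hd p hp,
    VV μ hd p hp, mV μ hd, Vm μ hd]
  ring

theorem ee (hp : p ∈ d.r.K) :
    dc (ve S d ρ μ p) (ve S d ρ μ p) = d.iv p ^ 2 * d.M2 S ρ p := by
  have h := hd.cs p
  simp only [ve, dc_add_left, dc_smul_left, dc_add_right, dc_smul_right, mm μ hd p hp,
    VV μ hd p hp, mV μ hd, Vm μ hd]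
  linear_combination (d.iv p ^ 2 * d.M2 S ρ p) * h

theorem JJ (hp : p ∈ d.r.K) : dc (vJ S d ρ μ p) (vJ S d ρ μ p) = d.M2 S ρ p := by
  have h := hd.cs p
  simp only [vJ, dc_add_left, dc_smul_left, dc_add_right, dc_smul_right, mm μ hd p hp,
    VV μ hd p hp, mV μ hd, Vm μ hd]
  linear_combination (d.M2 S ρ p) * h

theorem Em : dc (vE S d ρ μ p) (vm S d ρ μ p) = 0 := by
  simp only [vm, dc_add_right, dc_smul_right, ET μ hd, EW μ hd, EF μ hd]; ring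

theorem EV : dc (vE S d ρ μ p) (vV S d ρ μ p) = 0 := by
  simp only [vV, dc_add_right, dc_smul_right, ET μ hd, EW μ hd, EF μ hd]; ring

theorem EN : dc (vE S d ρ μ p) (vN S d ρ μ p) = 0 := by
  simp only [vN, dc_add_right, dc_smul_right, EW μ hd, EF μ hd]; ring

theorem Ee : dc (vE S d ρ μ p) (ve S d ρ μ p) = 0 := by
  simp only [ve, dc_add_right, dc_smul_right, Em μ hd, EV μ hd]; ring

theorem EJ : dc (vE S d ρ μ p) (vJ S d ρ μ p) = 0 := by
  simp only [vJ, dc_add_right, dc_smul_right, Em μ hd, EV μ hd]; ring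


/-- decomposition of `D_j X` -/
theorem vX_eq (hp : p ∈ d.r.K) (j : κ) : vX S d j p =
    (S.D j d.r.Ψ p) • vT S d p + (d.r.β j p) • vW S d p := by
  funext a
  have := hd.ray.dec (d.X a) (hd.smX a) j p hp
  simp only [vX, vT, vW, Pi.add_apply, Pi.smul_apply, smul_eq_mul]
  exact this

theorem Dψ_eq (hp : p ∈ d.r.K) (j : κ) : S.D j d.ψ p =
    S.D j d.r.Ψ p * d.ψt S p + d.r.β j p * d.ψw S p :=
  hd.ray.dec d.ψ hd.smψ j p hp

/-- coefficient of `N` in `L_j` -/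
theorem vL_eq (hp : p ∈ d.r.K) (j : κ) : (fun a => d.L S ρ μ j a p) =
    (d.r.β j p + S.D j d.r.Ψ p * d.bt S ρ p) • vN S d ρ μ p
      + (S.D j d.r.Ψ p) • ve S d ρ μ p := by
  have h1 := vX_eq hd p hp j
  have h2 := Dψ_eq hd p hp j
  funext a
  have h1a := congrFun h1 a
  simp only [vX, vT, vW, Pi.add_apply, Pi.smul_apply, smul_eq_mul] at h1a
  simp only [L, ζ, vN, ve, vm, vV, vT, vW, vF, Pi.add_apply, Pi.smul_apply, smul_eq_mul, h1a, h2,
    e1, e2, e3, cc, ss, a2, a3]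
  ring

omit hd in
/-- the leading second derivative -/
theorem vB_eq (j k : κ) : (fun a => d.B S ρ μ j k a p) =
    (S.D j d.r.Ψ p * S.D k d.r.Ψ p * (d.h p * d.iv p)) • vJ S d ρ μ p
      + (-(1 / ρ : ℂ) * (d.ζ S ρ j p * d.ζ S ρ k p)) • vE S d ρ μ p := by
  funext a
  simp only [B, g1, g2, g3, vJ, vm, vV, vE, vT, vW, vF, Pi.add_apply, Pi.smul_apply, smul_eq_mul]
  ring

/-- vertical component of `L_j` -/
theorem zeta_eq (hp : p ∈ d.r.K) (j : κ) : d.ζ S ρ j p =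
    (d.r.β j p + S.D j d.r.Ψ p * d.bt S ρ p) * (ρ * d.ψw S p)
      + S.D j d.r.Ψ p * (d.iv p * (d.c p * d.a3 S ρ p + d.s p * d.b3 S p)) := by
  have h2 := Dψ_eq hd p hp j
  simp only [ζ, h2, e3, cc, ss, a3]
  ring

/-- decomposition of `u_j = D_j X + ρ ψ_j iE` -/
theorem vu_eq (hp : p ∈ d.r.K) (j : κ) :
    vX S d j p + (ρ * S.D j d.ψ p) • vF S d ρ μ p =
    (d.r.β j p + S.D j d.r.Ψ p * d.bt S ρ p) • vN S d ρ μ p
      + (S.D j d.r.Ψ p) • vm S d ρ μ p := by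
  have h1 := vX_eq hd p hp j
  have h2 := Dψ_eq hd p hp j
  rw [h1, h2]
  funext a
  simp only [vN, vm, vT, vW, vF, Pi.add_apply, Pi.smul_apply, smul_eq_mul, a2, a3]
  ring

theorem vu_dc (j k : κ) :
    dc (vX S d j p + (ρ * S.D j d.ψ p) • vF S d ρ μ p)
      (vX S d k p + (ρ * S.D k d.ψ p) • vF S d ρ μ p) =
    S.met d.X j k p + ρ ^ 2 * (S.D j d.ψ p * S.D k d.ψ p) := by
  have h1 : dc (vX S d j p) (vX S d k p) = S.met d.X j k p := rfl
  have h2 : ∀ j, dc (vX S d j p) (vF S d ρ μ p) = 0 := fun j => by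
    rw [dc_comm]; exact FX μ hd p j
  simp only [dc_add_left, dc_smul_left, dc_add_right, dc_smul_right, h1, h2, FX μ hd, FF μ hd]
  ring

theorem LL_K (hp : p ∈ d.r.K) (j k : κ) :
    dc (fun a => d.L S ρ μ j a p) (fun a => d.L S ρ μ k a p) = d.Q S ρ j k p := by
  have h := vu_dc μ hd p j k
  rw [vu_eq μ hd p hp j, vu_eq μ hd p hp k] at h
  have hNm := Nm μ hd p hp
  have hmN : dc (vm S d ρ μ p) (vN S d ρ μ p) = 0 := by rw [dc_comm]; exact hNm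
  have heN : dc (ve S d ρ μ p) (vN S d ρ μ p) = 0 := by rw [dc_comm]; exact Ne μ hd p hp
  simp only [dc_add_left, dc_smul_left, dc_add_right, dc_smul_right, hNm, hmN, NN μ hd,
    mm μ hd p hp] at h
  rw [vL_eq μ hd p hp j, vL_eq μ hd p hp k]
  simp only [dc_add_left, dc_smul_left, dc_add_right, dc_smul_right, Ne μ hd p hp, heN, NN μ hd,
    ee μ hd p hp]
  simp only [Q]
  linear_combination h

theorem cc_off (hp : p ∉ d.r.K) : d.cc p = 0 := by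
  simp only [cc, hd.zc p hp, hd.ziv p hp]; ring

theorem ss_off (hp : p ∉ d.r.K) : d.ss p = 0 := by
  simp only [ss, hd.zs p hp]; ring

theorem zeta_off (hp : p ∉ d.r.K) (j : κ) : d.ζ S ρ j p = ρ * S.D j d.ψ p := by
  simp only [ζ, e3, cc_off hd p hp, ss_off hd p hp]; ring

theorem vL_off (hp : p ∉ d.r.K) (j : κ) : (fun a => d.L S ρ μ j a p) =
    vX S d j p + (ρ * S.D j d.ψ p) • vF S d ρ μ p := by
  funext a
  simp only [L, zeta_off hd p hp, e1, e2, cc_off hd p hp, ss_off hd p hp, vX, vF, Pi.add_apply,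
    Pi.smul_apply, smul_eq_mul]
  ring

theorem LL_off (hp : p ∉ d.r.K) (j k : κ) :
    dc (fun a => d.L S ρ μ j a p) (fun a => d.L S ρ μ k a p) = d.Q S ρ j k p := by
  rw [vL_off μ hd p hp, vL_off μ hd p hp, vu_dc μ hd]
  simp only [Q, hd.ziv p hp]
  ring

/-- **(A)** -/
theorem LL (j k : κ) : dot (d.L S ρ μ j) (d.L S ρ μ k) p = d.Q S ρ j k p := by
  by_cases hp : p ∈ d.r.K
  · exact LL_K μ hd p hp j k
  · exact LL_off μ hd p hp j k

/-- the area -/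
theorem area_K (hp : p ∈ d.r.K) (a b : κ) :
    d.Q S ρ a a p * d.Q S ρ b b p - d.Q S ρ a b p ^ 2 =
    ((d.r.β a p + S.D a d.r.Ψ p * d.bt S ρ p) * S.D b d.r.Ψ p
      - (d.r.β b p + S.D b d.r.Ψ p * d.bt S ρ p) * S.D a d.r.Ψ p) ^ 2
      * (d.Gww S ρ p * (d.iv p ^ 2 * d.M2 S ρ p)) := by
  have heN : dc (ve S d ρ 0 p) (vN S d ρ 0 p) = 0 := by rw [dc_comm]; exact Ne 0 hd p hp
  rw [← LL_K 0 hd p hp a a, ← LL_K 0 hd p hp b b, ← LL_K 0 hd p hp a b,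
    vL_eq 0 hd p hp a, vL_eq 0 hd p hp b]
  simp only [dc_add_left, dc_smul_left, dc_add_right, dc_smul_right, Ne 0 hd p hp, heN, NN 0 hd,
    ee 0 hd p hp]
  ring

/-- **(B)** on `K` -/
theorem gram_K (hρ : ρ ≠ 0) (hp : p ∈ d.r.K) (a b j : κ) :
    gram3 (d.L S ρ μ a) (d.L S ρ μ b) (d.B S ρ μ j j) p =
    (d.Q S ρ a a p * d.Q S ρ b b p - d.Q S ρ a b p ^ 2) *
      (S.D j d.r.Ψ p ^ 4 * d.h p ^ 2 * d.iv p ^ 2 * d.M2 S ρ p + d.ζ S ρ j p ^ 4 / ρ ^ 2) := by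
  have h0 : gram3 (d.L S ρ μ a) (d.L S ρ μ b) (d.B S ρ μ j j) p =
    dg3 (fun i => d.L S ρ μ a i p) (fun i => d.L S ρ μ b i p) (fun i => d.B S ρ μ j j i p) := rfl
  have hNE : dc (vN S d ρ μ p) (vE S d ρ μ p) = 0 := by rw [dc_comm]; exact EN μ hd p
  have heE : dc (ve S d ρ μ p) (vE S d ρ μ p) = 0 := by rw [dc_comm]; exact Ee μ hd p
  have hJE : dc (vJ S d ρ μ p) (vE S d ρ μ p) = 0 := by rw [dc_comm]; exact EJ μ hd p
  rw [h0, vL_eq μ hd p hp, vL_eq μ hd p hp, vB_eq, dg3_eq _ _ _ (Ne μ hd p hp)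
    (by simp only [dc_add_right, dc_smul_right, NJ μ hd p hp, hNE]; ring)
    (by simp only [dc_add_right, dc_smul_right, eJ μ hd p hp, heE]; ring), area_K hd p hp]
  simp only [dc_add_left, dc_smul_left, dc_add_right, dc_smul_right, NN μ hd, ee μ hd p hp,
    JJ μ hd p hp, hJE, EJ μ hd, EE μ hd]
  have hρ' : (ρ : ℂ) ≠ 0 := by exact_mod_cast hρ
  field_simp
  ring

/-- **(B)** off `K` -/
theorem gram_off (hρ : ρ ≠ 0) (hp : p ∉ d.r.K) (a b j : κ) :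
    gram3 (d.L S ρ μ a) (d.L S ρ μ b) (d.B S ρ μ j j) p =
    (d.Q S ρ a a p * d.Q S ρ b b p - d.Q S ρ a b p ^ 2) *
      (S.D j d.r.Ψ p ^ 4 * d.h p ^ 2 * d.iv p ^ 2 * d.M2 S ρ p + d.ζ S ρ j p ^ 4 / ρ ^ 2) := by
  have h0 : gram3 (d.L S ρ μ a) (d.L S ρ μ b) (d.B S ρ μ j j) p =
    dg3 (fun i => d.L S ρ μ a i p) (fun i => d.L S ρ μ b i p) (fun i => d.B S ρ μ j j i p) := rfl
  have hB : (fun i => d.B S ρ μ j j i p) =
      (-(1 / ρ : ℂ) * (d.ζ S ρ j p * d.ζ S ρ j p)) • vE S d ρ μ p := by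
    rw [vB_eq, hd.zh p hp]
    simp
  have hLE : ∀ a, dc (fun i => d.L S ρ μ a i p) (vE S d ρ μ p) = 0 := by
    intro a
    rw [vL_off μ hd p hp, dc_comm, dc_add_right, dc_smul_right, EX μ hd, EF μ hd]
    ring
  rw [h0, hB, ← LL_off μ hd p hp a a, ← LL_off μ hd p hp b b, ← LL_off μ hd p hp a b]
  simp only [dg3, dc_smul_left, dc_smul_right, hLE, EE μ hd, hd.zh p hp]
  have hρ' : (ρ : ℂ) ≠ 0 := by exact_mod_cast hρ
  field_simp
  ring

/-- **(B)** -/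
theorem gram (hρ : ρ ≠ 0) (a b j : κ) :
    gram3 (d.L S ρ μ a) (d.L S ρ μ b) (d.B S ρ μ j j) p =
    (d.Q S ρ a a p * d.Q S ρ b b p - d.Q S ρ a b p ^ 2) *
      (S.D j d.r.Ψ p ^ 4 * d.h p ^ 2 * d.iv p ^ 2 * d.M2 S ρ p + d.ζ S ρ j p ^ 4 / ρ ^ 2) := by
  by_cases hp : p ∈ d.r.K
  · exact gram_K μ hd p hρ hp a b j
  · exact gram_off μ hd p hρ hp a b j

end

end TData

end Vale.Agent.P205.TW
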