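import Vale.Agent.P205.TW.Form1
import Vale.Agent.P205.TW.Form2

/-!
P205, scheme T1W, block FORMULA: the metric of `f`, and perturbation of the Gram determinant.
-/

noncomputable section

namespace Vale.Agent.P205.TW

open Vale.Agent.P205.F
open scoped ContDiff

universe u

variable {P : Type u} {κ : Type}

/-- `u`, `u'` are `O(1)` and `u - u' = O(ε)` -/
structure NE (S : DAlg P κ) {ι : Type*} (μ ε : ι → ℝ) (u u' : ι → P → ℂ) : Prop where
  l : S.FO μ (fun _ => 1) u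
  r : S.FO μ (fun _ => 1) u'
  d : S.FO μ ε (fun i p => u i p - u' i p)

variable {S : DAlg P κ} {ι : Type*} {μ ε : ι → ℝ} {u u' v v' : ι → P → ℂ}

theorem NE.add (h : NE S μ ε u u') (h' : NE S μ ε v v') :
    NE S μ ε (fun i p => u i p + v i p) (fun i p => u' i p + v' i p) :=
  ⟨h.l.add h'.l, h.r.add h'.r, (h.d.add h'.d).congr fun i p => by
    simp only [Pi.add_apply]
    ring⟩

theorem NE.sub (h : NE S μ ε u u') (h' : NE S μ ε v v') :
    NE S μ ε (fun i p => u i p - v i p) (fun i p => u' i p - v' i p) :=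
  ⟨h.l.sub h'.l, h.r.sub h'.r, (h.d.sub h'.d).congr fun i p => by
    simp only [Pi.sub_apply]
    ring⟩

theorem NE.mul (h : NE S μ ε u u') (h' : NE S μ ε v v') :
    NE S μ ε (fun i p => u i p * v i p) (fun i p => u' i p * v' i p) :=
  ⟨fo_mul h.l h'.l, fo_mul h.r h'.r, ((fo_mul' h.d h'.l).add (fo_mul h.r h'.d)).congr
    fun i p => by
      simp only [Pi.add_apply]
      ring⟩

theorem NE.dot {X X' Y Y' : ι → Fin 4 → P → ℂ}
    (hX : ∀ a, NE S μ ε (fun i => X i a) (fun i => X' i a))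
    (hY : ∀ a, NE S μ ε (fun i => Y i a) (fun i => Y' i a)) :
    NE S μ ε (fun i => dot (X i) (Y i)) (fun i => dot (X' i) (Y' i)) := by
  have h := ((((hX 0).mul (hY 0)).add ((hX 1).mul (hY 1))).add ((hX 2).mul (hY 2))).add
    ((hX 3).mul (hY 3))
  refine ⟨h.l.congr fun i p => ?_, h.r.congr fun i p => ?_, h.d.congr fun i p => ?_⟩
  · simp only [Vale.Agent.P205.F.dot, Fin.sum_univ_four]
  · simp only [Vale.Agent.P205.F.dot, Fin.sum_univ_four]
  · simp only [Vale.Agent.P205.F.dot, Fin.sum_univ_four]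

theorem NE.gram3 {X X' Y Y' Z Z' : ι → Fin 4 → P → ℂ}
    (hX : ∀ a, NE S μ ε (fun i => X i a) (fun i => X' i a))
    (hY : ∀ a, NE S μ ε (fun i => Y i a) (fun i => Y' i a))
    (hZ : ∀ a, NE S μ ε (fun i => Z i a) (fun i => Z' i a)) :
    NE S μ ε (fun i => gram3 (X i) (Y i) (Z i)) (fun i => gram3 (X' i) (Y' i) (Z' i)) :=
  (((NE.dot hX hX).mul (((NE.dot hY hY).mul (NE.dot hZ hZ)).sub
    ((NE.dot hY hZ).mul (NE.dot hY hZ)))).sub ((NE.dot hX hY).mul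
      (((NE.dot hX hY).mul (NE.dot hZ hZ)).sub ((NE.dot hY hZ).mul (NE.dot hX hZ))))).add
    ((NE.dot hX hZ).mul (((NE.dot hX hY).mul (NE.dot hY hZ)).sub
      ((NE.dot hY hY).mul (NE.dot hX hZ))))

/-- scaling of the last vector -/
theorem gram3_smul (X Y Z : Fin 4 → P → ℂ) (c : ℂ) (p : P) :
    gram3 X Y (fun a q => c * Z a q) p = c ^ 2 * gram3 X Y Z p := by
  simp only [Vale.Agent.P205.F.gram3, Vale.Agent.P205.F.dot, Fin.sum_univ_four]
  ring

namespace TData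

variable [Fintype κ] {d : ι → TData P κ} {ρ : ℝ} (H : Hyp S d ρ μ ε)
include H

/-- **the induced metric of `f`** -/
theorem formula_met (j k : κ) : S.FO μ ε
    (fun i p => S.met ((d i).f S ρ (μ i)) j k p - (d i).Q S ρ j k p) :=
  (H.metf j k).congr fun i p => by rw [LL (μ i) (H.ok i) p j k]

theorem Hyp.neD (j : κ) (a : Fin 4) :
    NE S μ ε (fun i => S.D j ((d i).f S ρ (μ i) a)) (fun i => (d i).L S ρ (μ i) j a) :=
  ⟨H.foDf j a, H.foL j a, H.Df j a⟩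

theorem Hyp.foB (j k : κ) (a : Fin 4) :
    S.FO μ (fun _ => 1) (fun i => (d i).B S ρ (μ i) j k a) := by
  have g1 : S.FO μ (fun _ => 1) (fun i => (d i).g1 S ρ) :=
    fo_mul (fo_mul H.cls.h H.cls.iv.1) ((fo_mul H.cls.c H.sb1.1).sub H.cls.s)
  have g2 : S.FO μ (fun _ => 1) (fun i => (d i).g2 S ρ) :=
    fo_mul (fo_mul H.cls.h H.cls.iv.1) ((fo_mul H.cls.c H.sb2.1).sub
      (fo_mul H.cls.s H.sa2.1))
  have g3 : S.FO μ (fun _ => 1) (fun i => (d i).g3 S ρ) :=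
    fo_mul (fo_mul H.cls.h H.cls.iv.1) ((fo_mul H.cls.c H.sb3.1).sub
      (fo_mul H.cls.s H.sa3.1))
  have h1 := fo_mul (fo_mul (H.cls.Dr j).1 (H.cls.Dr k).1)
    (((fo_mul g1 (H.sXt a).1).add (fo_mul g2 (H.sXw a).1)).add (fo_mul g3 (H.diE a).1))
  have h2 := fo_mul ((fo_mul (H.foζ j) (H.foζ k)).const_mul (1 / ρ : ℂ)) (H.dE a).1
  exact h1.sub h2

theorem Hyp.neB (j k : κ) (a : Fin 4) :
    NE S μ ε (fun i p => (1 / μ i : ℂ) * S.D k (S.D j ((d i).f S ρ (μ i) a)) p)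
      (fun i => (d i).B S ρ (μ i) j k a) := by
  have h := fo_div H.μ0 (H.DDf j k a)
  have h' : S.FO μ ε (fun i p => (1 / μ i : ℂ) * S.D k (S.D j ((d i).f S ρ (μ i) a)) p
      - (d i).B S ρ (μ i) j k a p) := h.congr fun i p => by
    have : (μ i : ℂ) ≠ 0 := by exact_mod_cast (H.μ0 i).ne'
    field_simp
  refine ⟨?_, H.foB j k a, h'⟩
  exact ((h'.mono_s' H.ε1 fun i => (H.μ0 i).le).add (H.foB j k a)).congr fun i p => by
    simp only [Pi.add_apply]
    ring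

/-- `f = O(1)` -/
theorem Hyp.fof (h1 : ∀ i, 1 ≤ μ i) (hX : ∀ a, S.FO μ (fun _ => 1) (fun i => (d i).X a))
    (a : Fin 4) : S.FO μ (fun _ => 1) (fun i => (d i).f S ρ (μ i) a) := by
  have hinv : ∀ i, ‖(1 / μ i : ℂ)‖ ≤ 1 * 1 := fun i => by
    rw [norm_div, norm_one, Complex.norm_real, Real.norm_eq_abs, abs_of_pos (H.μ0 i), mul_one]
    exact (div_le_one (H.μ0 i)).2 (h1 i)
  have hinv' : ∀ i, ‖(ρ / μ i : ℂ)‖ ≤ ρ * 1 := fun i => by
    rw [norm_div, Complex.norm_real, Complex.norm_real, Real.norm_eq_abs, Real.norm_eq_abs,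
      abs_of_pos (H.μ0 i), abs_of_pos H.ρ0, mul_one]
    exact div_le_self H.ρ0.le (h1 i)
  have s1 := (H.dc1.mul (H.sXt a).dm).1.add (H.dc2.mul (H.sXw a).dm).1
  have t1 := DAlg.FO.smul (r := fun _ => 1) hinv (fun _ => zero_le_one) s1
  have t2 := DAlg.FO.smul (r := fun _ => 1) hinv' (fun _ => zero_le_one) (H.dE a).1
  exact (((hX a).add (t1.congr_s fun _ => one_mul _)).add
    (t2.congr_s fun _ => one_mul _))

/-- perturbation of the Gram determinant -/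
theorem Hyp.neGram (a b j : κ) : ∃ C : ℝ, 0 ≤ C ∧ ∀ i p,
    μ i ^ 2 * ((gram3 ((d i).L S ρ (μ i) a) ((d i).L S ρ (μ i) b)
      ((d i).B S ρ (μ i) j j) p).re - C * ε i) ≤
    (gram3 (S.Dv a ((d i).f S ρ (μ i))) (S.Dv b ((d i).f S ρ (μ i)))
      (S.Dv j (S.Dv j ((d i).f S ρ (μ i)))) p).re := by
  obtain ⟨C, hC, h⟩ := (NE.gram3 (H.neD a) (H.neD b) (H.neB j j)).d.apply
  refine ⟨C, hC, fun i p => ?_⟩
  have h1 := h i p
  have e : gram3 (S.Dv a ((d i).f S ρ (μ i))) (S.Dv b ((d i).f S ρ (μ i)))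
      (S.Dv j (S.Dv j ((d i).f S ρ (μ i)))) p
      = ((μ i ^ 2 : ℝ) : ℂ) * gram3 (fun a_1 => S.D a ((d i).f S ρ (μ i) a_1))
        (fun a => S.D b ((d i).f S ρ (μ i) a))
        (fun a p => (1 / μ i : ℂ) * S.D j (S.D j ((d i).f S ρ (μ i) a)) p) p := by
    rw [gram3_smul]
    have : (μ i : ℂ) ≠ 0 := by exact_mod_cast (H.μ0 i).ne'
    push_cast
    field_simp
    rfl
  rw [e, Complex.re_ofReal_mul]
  refine mul_le_mul_of_nonneg_left ?_ (by positivity)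
  have h2 := (abs_le.1 ((Complex.abs_re_le_norm _).trans h1)).1
  rw [Complex.sub_re] at h2
  linarith

end TData

end Vale.Agent.P205.TW
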