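import Mathlib

noncomputable section

open scoped Manifold ContDiff Topology
open Set Filter

namespace Vale.Agent.P205.TW

/-- four functions as one map into Euclidean space -/
theorem exists_map_of_coords {E : Type*} [NormedAddCommGroup E] [NormedSpace ℝ E]
    {M : Type*} [TopologicalSpace M] [ChartedSpace E M]
    {G : ∀ m : M, TangentSpace 𝓘(ℝ, E) m → TangentSpace 𝓘(ℝ, E) m → ℝ}
    (h : ∃ X : Fin 4 → M → ℝ, (∀ i, ContMDiff 𝓘(ℝ, E) 𝓘(ℝ) ∞ (X i)) ∧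
      ∀ (m : M) (v w : TangentSpace 𝓘(ℝ, E) m),
        ∑ i, mvfderiv 𝓘(ℝ, E) (X i) m v * mvfderiv 𝓘(ℝ, E) (X i) m w = G m v w) :
    ∃ F : M → EuclideanSpace ℝ (Fin 4), ContMDiff 𝓘(ℝ, E) 𝓘(ℝ, EuclideanSpace ℝ (Fin 4)) ∞ F ∧
      ∀ (m : M) (v w : TangentSpace 𝓘(ℝ, E) m),
        inner (E := EuclideanSpace ℝ (Fin 4)) ℝ
          (mfderiv 𝓘(ℝ, E) 𝓘(ℝ, EuclideanSpace ℝ (Fin 4)) F m v)
          (mfderiv 𝓘(ℝ, E) 𝓘(ℝ, EuclideanSpace ℝ (Fin 4)) F m w) = G m v w := by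
  obtain ⟨X, hX, h⟩ := h
  let F : M → EuclideanSpace ℝ (Fin 4) := fun m => WithLp.toLp 2 (fun i => X i m)
  have hF : ContMDiff 𝓘(ℝ, E) 𝓘(ℝ, EuclideanSpace ℝ (Fin 4)) ∞ F := by
    have h1 : ContMDiff 𝓘(ℝ, E) 𝓘(ℝ, Fin 4 → ℝ) ∞ (fun m i => X i m) :=
      contMDiff_pi_space.2 hX
    exact (PiLp.continuousLinearEquiv 2 ℝ (fun _ : Fin 4 => ℝ)).symm.contDiff.contMDiff.comp h1
  refine ⟨F, hF, fun m v w => ?_⟩
  rw [← h m v w]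
  have hd : ∀ (i : Fin 4) (v : TangentSpace 𝓘(ℝ, E) m),
      (show EuclideanSpace ℝ (Fin 4) from
        mfderiv 𝓘(ℝ, E) 𝓘(ℝ, EuclideanSpace ℝ (Fin 4)) F m v) i =
        mvfderiv 𝓘(ℝ, E) (X i) m v := by
    intro i v
    have h1 : MDifferentiableAt 𝓘(ℝ, E) 𝓘(ℝ, EuclideanSpace ℝ (Fin 4)) F m :=
      hF.contMDiffAt.mdifferentiableAt (by simp)
    have h2 : MDifferentiableAt 𝓘(ℝ, EuclideanSpace ℝ (Fin 4)) 𝓘(ℝ, ℝ)
        (EuclideanSpace.proj i : EuclideanSpace ℝ (Fin 4) →L[ℝ] ℝ) (F m) :=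
      (EuclideanSpace.proj i : EuclideanSpace ℝ (Fin 4) →L[ℝ] ℝ).differentiableAt.mdifferentiableAt
    have h3 := mfderiv_comp m h2 h1
    rw [mfderiv_eq_fderiv, ContinuousLinearMap.fderiv] at h3
    have h4 := congrArg (fun T : TangentSpace 𝓘(ℝ, E) m →L[ℝ] ℝ => T v) h3
    exact h4.symm
  have key : ∀ (x y : EuclideanSpace ℝ (Fin 4)) (a c : Fin 4 → ℝ), (∀ i, x i = a i) →
      (∀ i, y i = c i) → inner ℝ x y = ∑ i, a i * c i := by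
    intro x y a c h1 h2
    rw [PiLp.inner_apply]
    refine Finset.sum_congr rfl fun i _ => ?_
    rw [← h1 i, ← h2 i]
    exact mul_comm _ _
  exact key _ _ _ _ (fun i => hd i v) (fun i => hd i w)

end Vale.Agent.P205.TW
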