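import Vale.Agent.P205.TW.PrimC
import Vale.Agent.P205.TW.DataCover

/-!
P205, scheme T1W, block DATA: the geometric data exist on the cover of every pair `(F, ξ)`.
-/

noncomputable section

open scoped Manifold ContDiff Topology RealInnerProductSpace
open Set Filter

namespace Vale.Agent.P205.TW.DC

open Vale.Agent.P205.F Vale.Agent.P205.TW Vale.Agent.P205.TW.Data

universe u

variable {E : Type} [NormedAddCommGroup E] [NormedSpace ℝ E]
  {M : Type u} [TopologicalSpace M] [ChartedSpace E M] [IsManifold 𝓘(ℝ, E) ∞ M] [CompactSpace M]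
  (K : Cov E M) (b : Module.Basis (Fin 2) ℝ E) (H : ImmN E M)
  (g : Bundle.ContMDiffRiemannianMetric 𝓘(ℝ, E) ∞ E (fun x : M => TangentSpace 𝓘(ℝ, E) x))

lemma gC_pos (x : (lineM K b H).Pt) (ξ : Fin K.n × Fin 2 → ℝ)
    (h : ∃ u : M → ℝ, ContMDiff 𝓘(ℝ, E) 𝓘(ℝ, ℝ) ∞ u ∧
      ∑ j, ξ j * K.Dv b j u ((lineM K b H).pi x) ≠ 0) : 0 < qfm (gC K b H g) x ξ := by
  have : FiniteDimensional ℝ E := Module.Basis.finiteDimensional_of_finite b
  obtain ⟨u, hu, hne⟩ := h
  have h1 := K.G_posT b g ((lineM K b H).pi x) ξ ⟨cx u, sm_cx K b hu, by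
    simp only [D_cx K b hu]
    rw [← Complex.ofReal_zero]
    intro h0
    apply hne
    have h2 : ∑ j, (ξ j : ℂ) * ((K.Dv b j u ((lineM K b H).pi x) : ℝ) : ℂ) =
        ((∑ j, ξ j * K.Dv b j u ((lineM K b H).pi x) : ℝ) : ℂ) := by
      push_cast
      rfl
    rw [h2] at h0
    exact_mod_cast h0⟩
  rw [K.G_quad b g, Complex.ofReal_re] at h1
  rw [qfm_gC]
  exact h1

theorem primC_cover' [T2Space M] :
    PrimC (lineM K b H).cover (lineM K b H).sg (gC K b H g) :=
  primC_cover K b H (gC K b H g) (gC_pos K b H g)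

/-- **DATA** -/
theorem exists_geoC [T2Space M] :
    Nonempty (GeoC (lineM K b H).cover (lineM K b H).sg (gC K b H g)) :=
  geoC_of_prim K b H g (primC_cover' K b H g)

end Vale.Agent.P205.TW.DC
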