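import Vale.Agent.P205.TW.Model
import Vale.Agent.P205.TW.Descent

/-!
P205, scheme T1W: `ModC` from the blocks.
-/

noncomputable section

namespace Vale.Agent.P205.TW

open Vale.Agent.P205.F

universe u

variable {P : Type u} {κ : Type} [Fintype κ] {S : DAlg P κ} {τ : P → P} {g : κ → κ → P → ℂ}

/-- even model sequences from the geometric data and the blocks -/
theorem modC_of (D : GeoC S τ g) (hN : NashC S) (hχ : ChiC S) (hL : TData.LowerC S)
    (hT : TensC D) : ModC S τ g := fun _ hκ => model_of D hN hχ hL hT hκ

end Vale.Agent.P205.TW
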