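import Vale.Agent.P205.TW.NashStep

/-!
P205, scheme T1W, block NASH: one step, estimates.
-/

noncomputable section

open scoped ContDiff

namespace Vale.Agent.P205.TW

open Vale.Agent.P205.F

universe u

variable {P : Type u} {κ : Type} [Fintype κ] {S : DAlg P κ}

omit [Fintype κ] in
theorem abs_le_one_of_ip {y : Fin 4 → ℝ} (hy : ip y y = 1) (i : Fin 4) : |y i| ≤ 1 := by
  have : y i * y i ≤ ip y y :=
    Finset.single_le_sum (f := fun i => y i * y i) (fun j _ => mul_self_nonneg (y j))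
      (Finset.mem_univ i)
  rw [hy] at this
  rw [← sq_le_one_iff_abs_le_one]
  nlinarith

theorem sol_zero (T : κ → Fin 4 → ℝ) (i : Fin 4) : sol T (fun _ => 0) i = 0 := by
  have h := sol_neg T (fun _ => (0 : ℝ)) i
  simp only [neg_zero] at h
  linarith

section step

variable {a φ : P → ℝ} {X q1 q2 : Fin 4 → P → ℝ} {μ : ℝ}

theorem rs_cos (hφ : RS S φ) : RS S (fun p => Real.cos (μ * φ p)) :=
  RS.comp (F := fun x => Real.cos (μ * x)) (by fun_prop) hφ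

theorem rs_sin (hφ : RS S φ) : RS S (fun p => Real.sin (μ * φ p)) :=
  RS.comp (F := fun x => Real.sin (μ * x)) (by fun_prop) hφ

theorem rd_cos (hφ : RS S φ) (j : κ) (p : P) :
    RD S j (fun p => Real.cos (μ * φ p)) p = -(μ * Real.sin (μ * φ p)) * RD S j φ p := by
  rw [RD_comp (F := fun x => Real.cos (μ * x)) j (by fun_prop) hφ]
  have : deriv (fun x => Real.cos (μ * x)) (φ p) = -(μ * Real.sin (μ * φ p)) := by
    have h : HasDerivAt (fun x => Real.cos (μ * x)) (-Real.sin (μ * φ p) * (μ * 1)) (φ p) :=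
      ((hasDerivAt_id (φ p)).const_mul μ).cos
    rw [h.deriv]; ring
  rw [this]

theorem rd_sin (hφ : RS S φ) (j : κ) (p : P) :
    RD S j (fun p => Real.sin (μ * φ p)) p = μ * Real.cos (μ * φ p) * RD S j φ p := by
  rw [RD_comp (F := fun x => Real.sin (μ * x)) j (by fun_prop) hφ]
  have : deriv (fun x => Real.sin (μ * x)) (φ p) = μ * Real.cos (μ * φ p) := by
    have h : HasDerivAt (fun x => Real.sin (μ * x)) (Real.cos (μ * φ p) * (μ * 1)) (φ p) :=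
      ((hasDerivAt_id (φ p)).const_mul μ).sin
    rw [h.deriv]; ring
  rw [this]

theorem rs_stN (hφ : RS S φ) (h1 : ∀ i, RS S (q1 i)) (h2 : ∀ i, RS S (q2 i)) (i : Fin 4) :
    RS S (fun p => stN φ q1 q2 μ p i) :=
  ((rs_cos hφ).mul (h1 i)).add ((rs_sin hφ).mul (h2 i))

theorem rs_stB (hφ : RS S φ) (h1 : ∀ i, RS S (q1 i)) (h2 : ∀ i, RS S (q2 i)) (i : Fin 4) :
    RS S (fun p => stB φ q1 q2 μ p i) :=
  ((rs_cos hφ).mul (h2 i)).sub ((rs_sin hφ).mul (h1 i))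

theorem rd_stN (hφ : RS S φ) (h1 : ∀ i, RS S (q1 i)) (h2 : ∀ i, RS S (q2 i)) (i : Fin 4)
    (j : κ) (p : P) :
    RD S j (fun p => stN φ q1 q2 μ p i) p = μ * RD S j φ p * stB φ q1 q2 μ p i
      + (Real.cos (μ * φ p) * RD S j (q1 i) p + Real.sin (μ * φ p) * RD S j (q2 i) p) := by
  have e : (fun p => stN φ q1 q2 μ p i) =
      fun p => Real.cos (μ * φ p) * q1 i p + Real.sin (μ * φ p) * q2 i p := rfl
  rw [e, RD_add j ((rs_cos hφ).mul (h1 i)) ((rs_sin hφ).mul (h2 i)),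
    RD_mul j (rs_cos hφ) (h1 i), RD_mul j (rs_sin hφ) (h2 i), rd_cos hφ, rd_sin hφ]
  simp only [stB, bb]
  ring

theorem rs_stY (ha : RS S a) (hφ : RS S φ) (hX : ∀ i, RS S (X i)) (h1 : ∀ i, RS S (q1 i))
    (h2 : ∀ i, RS S (q2 i)) (i : Fin 4) : RS S (stY a φ X q1 q2 μ i) :=
  (hX i).add (((RS.const μ⁻¹).mul ha).mul (rs_stN hφ h1 h2 i))

/-- the error term -/
def stR (S : DAlg P κ) (a φ : P → ℝ) (q1 q2 : Fin 4 → P → ℝ) (μ : ℝ) (p : P) (j : κ)
    (i : Fin 4) : ℝ :=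
  RD S j a p * stN φ q1 q2 μ p i + a p * (Real.cos (μ * φ p) * RD S j (q1 i) p
    + Real.sin (μ * φ p) * RD S j (q2 i) p)

/-- the leading derivative -/
def stT (S : DAlg P κ) (a φ : P → ℝ) (X q1 q2 : Fin 4 → P → ℝ) (μ : ℝ) (p : P) (j : κ)
    (i : Fin 4) : ℝ :=
  xx S X p j i + a p * RD S j φ p * stB φ q1 q2 μ p i

theorem rd_stY (hμ : μ ≠ 0) (ha : RS S a) (hφ : RS S φ) (hX : ∀ i, RS S (X i))
    (h1 : ∀ i, RS S (q1 i)) (h2 : ∀ i, RS S (q2 i)) (i : Fin 4) (j : κ) (p : P) :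
    xx S (stY a φ X q1 q2 μ) p j i = stT S a φ X q1 q2 μ p j i
      + μ⁻¹ * stR S a φ q1 q2 μ p j i := by
  have e : stY a φ X q1 q2 μ i = fun p => X i p + μ⁻¹ * a p * stN φ q1 q2 μ p i := rfl
  unfold xx
  rw [e, RD_add j (hX i) (((RS.const μ⁻¹).mul ha).mul (rs_stN hφ h1 h2 i)),
    RD_mul j ((RS.const μ⁻¹).mul ha) (rs_stN hφ h1 h2 i), RD_mul j (RS.const μ⁻¹) ha,
    RD_const, rd_stN hφ h1 h2]
  simp only [stT, stR, xx]
  field_simp
  ring

end step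

/-- one Nash step -/
theorem nash_step (hd : Dim2 S) {a φ : P → ℝ} {X q1 q2 : Fin 4 → P → ℝ} {c η : ℝ}
    (ha : RS S a) (hφ : RS S φ) (hX : ∀ i, RS S (X i)) (hN : NFr S X q1 q2) (hc : 0 < c)
    (hE : ∀ p, c ≤ e2 S X p) (hη : 0 < η) :
    ∃ μ : ℝ, (∀ i, RS S (stY a φ X q1 q2 μ i)) ∧
      NFr S (stY a φ X q1 q2 μ) (stP1 S a φ X q1 q2 μ) (stP2 S a φ X q1 q2 μ) ∧
      (∀ p, c / 2 ≤ e2 S (stY a φ X q1 q2 μ) p) ∧
      (∀ i p, |stY a φ X q1 q2 μ i p - X i p| ≤ η) ∧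
      ∀ j k p, |rmet S (stY a φ X q1 q2 μ) j k p
        - (rmet S X j k p + a p ^ 2 * (RD S j φ p * RD S k φ p))| ≤ η := by
  -- bounds
  obtain ⟨B1, hB1, hX1⟩ := RS.bdd_fin (S := S) (w := fun z : κ × Fin 4 => RD S z.1 (X z.2))
    fun z => (hX z.2).D z.1
  obtain ⟨B2, hB2, ha1⟩ := ha.bdd
  obtain ⟨B3, hB3, hφ1⟩ := RS.bdd_fin (S := S) (w := fun j : κ => RD S j φ) fun j => hφ.D j
  obtain ⟨B4, hB4, ha2⟩ := RS.bdd_fin (S := S) (w := fun j : κ => RD S j a) fun j => ha.D j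
  obtain ⟨B5, hB5, hq1⟩ := RS.bdd_fin (S := S) (w := fun z : κ × Fin 4 => RD S z.1 (q1 z.2))
    fun z => (hN.s1 z.2).D z.1
  obtain ⟨B6, hB6, hq2⟩ := RS.bdd_fin (S := S) (w := fun z : κ × Fin 4 => RD S z.1 (q2 z.2))
    fun z => (hN.s2 z.2).D z.1
  obtain ⟨B, hB0, b1, b2, b3, b4, b5, b6⟩ : ∃ B : ℝ, 0 ≤ B ∧ B1 ≤ B ∧ B2 ≤ B ∧ B3 ≤ B ∧ B4 ≤ B ∧
      B5 ≤ B ∧ B6 ≤ B := by
    refine ⟨B1 + B2 + B3 + B4 + B5 + B6, ?_, ?_, ?_, ?_, ?_, ?_, ?_⟩ <;> linarith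
  -- the frame at each point
  have h11 : ∀ p, ip (fun i => q1 i p) (fun i => q1 i p) = 1 := hN.n11
  have h22 : ∀ p, ip (fun i => q2 i p) (fun i => q2 i p) = 1 := hN.n22
  have h12 : ∀ p, ip (fun i => q1 i p) (fun i => q2 i p) = 0 := hN.n12
  have ht1 : ∀ j p, ip (fun i => q1 i p) (xx S X p j) = 0 := hN.t1
  have ht2 : ∀ j p, ip (fun i => q2 i p) (xx S X p j) = 0 := hN.t2
  have hcs : ∀ μ p, Real.cos (μ * φ p) ^ 2 + Real.sin (μ * φ p) ^ 2 = 1 := fun μ p =>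
    Real.cos_sq_add_sin_sq _
  have hnn : ∀ μ p, ip (stN φ q1 q2 μ p) (stN φ q1 q2 μ p) = 1 := fun μ p =>
    ip_nn (hcs μ p) (h11 p) (h22 p) (h12 p)
  have hbb : ∀ μ p, ip (stB φ q1 q2 μ p) (stB φ q1 q2 μ p) = 1 := fun μ p =>
    ip_bb (hcs μ p) (h11 p) (h22 p) (h12 p)
  have hnb : ∀ μ p, ip (stN φ q1 q2 μ p) (stB φ q1 q2 μ p) = 0 := fun μ p =>
    ip_nb (h11 p) (h22 p) (h12 p)
  have hnx : ∀ μ p j, ip (stN φ q1 q2 μ p) (xx S X p j) = 0 := fun μ p j =>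
    ip_nn_zero (ht1 j p) (ht2 j p)
  have hbx : ∀ μ p j, ip (stB φ q1 q2 μ p) (xx S X p j) = 0 := fun μ p j =>
    ip_bb_zero (ht1 j p) (ht2 j p)
  have hE' : ∀ p, c ≤ E2 (xx S X p) := hE
  have hE0 : ∀ p, E2 (xx S X p) ≠ 0 := fun p => (hc.trans_le (hE' p)).ne'
  -- leading derivative
  have htt : ∀ μ p j k, ip (stT S a φ X q1 q2 μ p j) (stT S a φ X q1 q2 μ p k) =
      ip (xx S X p j) (xx S X p k) + (a p * RD S j φ p) * (a p * RD S k φ p) := by
    intro μ p j k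
    have e : ∀ j, stT S a φ X q1 q2 μ p j = fun i => xx S X p j i
        + (a p * RD S j φ p) * stB φ q1 q2 μ p i := fun j => rfl
    rw [e, e, ip_add_left, ip_smul_left, ip_add_right, ip_add_right, ip_smul_right,
      ip_smul_right, hbb, hbx, ip_comm (xx S X p j) (stB φ q1 q2 μ p), hbx]
    ring
  have hnt : ∀ μ p j, ip (stT S a φ X q1 q2 μ p j) (stN φ q1 q2 μ p) = 0 := by
    intro μ p j
    have e : stT S a φ X q1 q2 μ p j = fun i => xx S X p j i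
        + (a p * RD S j φ p) * stB φ q1 q2 μ p i := rfl
    rw [e, ip_add_left, ip_smul_left, ip_comm, hnx, ip_comm, hnb]; ring
  have hmm1 : ∀ μ p, 1 ≤ ip (mm (xx S X p) (fun j => RD S j φ p) (a p) (stB φ q1 q2 μ p))
      (mm (xx S X p) (fun j => RD S j φ p) (a p) (stB φ q1 q2 μ p)) := fun μ p =>
    one_le_mm (hbb μ p) fun j => by rw [ip_comm]; exact hbx μ p j
  have hMM : ∀ μ p, ip (stM S a φ X q1 q2 μ p) (stM S a φ X q1 q2 μ p) = 1 := fun μ p =>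
    ip_unit _ (one_pos.trans_le (hmm1 μ p))
  have hMn : ∀ μ p, ip (stM S a φ X q1 q2 μ p) (stN φ q1 q2 μ p) = 0 := fun μ p =>
    ip_unit_zero (ip_mm_n (by rw [ip_comm]; exact hnb μ p)
      fun j => by rw [ip_comm]; exact hnx μ p j)
  have hMt : ∀ μ p j, ip (stT S a φ X q1 q2 μ p j) (stM S a φ X q1 q2 μ p) = 0 := by
    intro μ p j
    rw [ip_comm]
    refine ip_unit_zero ?_
    exact ip_mm_t (hbb μ p) (fun j => by rw [ip_comm]; exact hbx μ p j) (hE0 p)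
      (dim2_xx hd hX hφ p) j
  -- sizes
  have ht : ∀ μ p j i, |stT S a φ X q1 q2 μ p j i| ≤ B + B * B := by
    intro μ p j i
    have := abs_le_one_of_ip (hbb μ p) i
    unfold stT
    refine (abs_add_le _ _).trans (add_le_add ((hX1 (j, i) p).trans b1) ?_)
    rw [abs_mul, abs_mul]
    calc |a p| * |RD S j φ p| * |stB φ q1 q2 μ p i| ≤ B * B * 1 :=
          mul_le_mul (mul_le_mul ((ha1 p).trans b2) ((hφ1 j p).trans b3) (abs_nonneg _) hB0) this
            (abs_nonneg _) (by positivity)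
      _ = B * B := mul_one _
  have hr : ∀ μ p j i, |stR S a φ q1 q2 μ p j i| ≤ B + B * (B + B) := by
    intro μ p j i
    have h1 := abs_le_one_of_ip (hnn μ p) i
    unfold stR
    refine (abs_add_le _ _).trans (add_le_add ?_ ?_)
    · rw [abs_mul]
      calc |RD S j a p| * |stN φ q1 q2 μ p i| ≤ B * 1 :=
            mul_le_mul ((ha2 j p).trans b4) h1 (abs_nonneg _) hB0
        _ = B := mul_one _
    · rw [abs_mul]
      refine mul_le_mul ((ha1 p).trans b2) ?_ (abs_nonneg _) hB0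
      refine (abs_add_le _ _).trans (add_le_add ?_ ?_)
      · rw [abs_mul]
        calc |Real.cos (μ * φ p)| * |RD S j (q1 i) p| ≤ 1 * B :=
              mul_le_mul (Real.abs_cos_le_one _) ((hq1 (j, i) p).trans b5) (abs_nonneg _)
                zero_le_one
          _ = B := one_mul _
      · rw [abs_mul]
        calc |Real.sin (μ * φ p)| * |RD S j (q2 i) p| ≤ 1 * B :=
              mul_le_mul (Real.abs_sin_le_one _) ((hq2 (j, i) p).trans b6) (abs_nonneg _)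
                zero_le_one
          _ = B := one_mul _
  -- moduli of continuity
  have hcip : Continuous fun z : (κ → Fin 4 → ℝ) => fun j k => ip (z j) (z k) := by
    unfold ip; fun_prop
  have hcE : Continuous fun z : (κ → Fin 4 → ℝ) => E2 z := by
    unfold E2 ip; fun_prop
  have hcs' : Continuous fun z : (κ → Fin 4 → ℝ) × (Fin 4 → ℝ) =>
      sol z.1 (fun j => ip (z.1 j) z.2) := by
    unfold sol comb E1 ip; fun_prop
  obtain ⟨δ1, hδ1, H1⟩ := unif_ball _ hcip (B + B * B + 1) η hη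
  obtain ⟨δ2, hδ2, H2⟩ := unif_ball _ hcE (B + B * B + 1) (c / 2) (by positivity)
  obtain ⟨δ3, hδ3, H3⟩ := unif_ball _ hcs' (B + B * B + 1) (c / 200) (by positivity)
  obtain ⟨δ, hδ, d1, d2, d3, d4⟩ : ∃ δ : ℝ, 0 < δ ∧ δ ≤ δ1 ∧ δ ≤ δ2 ∧ δ ≤ δ3 ∧ δ ≤ η :=
    ⟨min (min δ1 δ2) (min δ3 η), by positivity, (min_le_left _ _).trans (min_le_left _ _),
      (min_le_left _ _).trans (min_le_right _ _), (min_le_right _ _).trans (min_le_left _ _),
      (min_le_right _ _).trans (min_le_right _ _)⟩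
  obtain ⟨μ, hμ, hμ1⟩ : ∃ μ : ℝ, 0 < μ ∧ μ⁻¹ * (2 * B + B * (B + B)) ≤ δ := by
    refine ⟨(2 * B + B * (B + B) + 1) / δ, by positivity, ?_⟩
    rw [inv_div, div_mul_eq_mul_div, div_le_iff₀ (by positivity)]
    nlinarith
  have hμi : 0 < μ⁻¹ := inv_pos.2 hμ
  refine ⟨μ, rs_stY ha hφ hX hN.s1 hN.s2, ?_⟩
  have hYs : ∀ i, RS S (stY a φ X q1 q2 μ i) := rs_stY ha hφ hX hN.s1 hN.s2
  -- closeness of derivatives
  have hclose : ∀ p, ‖xx S (stY a φ X q1 q2 μ) p - stT S a φ X q1 q2 μ p‖ ≤ δ := by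
    intro p
    rw [pi_norm_le_iff_of_nonneg hδ.le]
    intro j
    rw [pi_norm_le_iff_of_nonneg hδ.le]
    intro i
    rw [Pi.sub_apply, Pi.sub_apply, rd_stY hμ.ne' ha hφ hX hN.s1 hN.s2, add_sub_cancel_left,
      Real.norm_eq_abs, abs_mul, abs_of_pos hμi]
    refine le_trans ?_ hμ1
    refine mul_le_mul_of_nonneg_left ((hr μ p j i).trans ?_) hμi.le
    linarith
  have hMt' : ∀ p, ‖stT S a φ X q1 q2 μ p‖ ≤ B + B * B + 1 := by
    intro p
    rw [pi_norm_le_iff_of_nonneg (by positivity)]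
    intro j
    rw [pi_norm_le_iff_of_nonneg (by positivity)]
    intro i
    rw [Real.norm_eq_abs]
    exact (ht μ p j i).trans (by linarith)
  have hEt : ∀ p, c ≤ E2 (stT S a φ X q1 q2 μ p) := fun p =>
    (hE' p).trans (E2_mono _ _ (fun j => a p * RD S j φ p) (htt μ p))
  have hEY : ∀ p, c / 2 ≤ E2 (xx S (stY a φ X q1 q2 μ) p) := by
    intro p
    have := H2 _ _ (hMt' p) ((hclose p).trans d2)
    rw [Real.dist_eq, abs_le] at this
    linarith [this.1, hEt p]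
  -- corrections
  have hcorr : ∀ p (m : Fin 4 → ℝ), ip m m = 1 → (∀ j, ip (stT S a φ X q1 q2 μ p j) m = 0) →
      ∀ i, |vv (xx S (stY a φ X q1 q2 μ) p) m i - m i| ≤ 1 / 100 := by
    intro p m hm hmt i
    have hmn : ‖m‖ ≤ B + B * B + 1 := by
      rw [pi_norm_le_iff_of_nonneg (by positivity)]
      intro i
      rw [Real.norm_eq_abs]
      exact (abs_le_one_of_ip hm i).trans (by nlinarith)
    have h3 := H3 (stT S a φ X q1 q2 μ p, m) (xx S (stY a φ X q1 q2 μ) p, m)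
      (by rw [Prod.norm_mk]; exact max_le (hMt' p) hmn)
      (by
        rw [Prod.mk_sub_mk, sub_self, Prod.norm_mk, norm_zero]
        exact max_le ((hclose p).trans d3) hδ3.le)
    have h4 : |sol (xx S (stY a φ X q1 q2 μ) p)
        (fun j => ip (xx S (stY a φ X q1 q2 μ) p j) m) i| ≤ c / 200 := by
      have h5 := (dist_pi_le_iff (by positivity)).1 h3 i
      have h6 : (fun j => ip (stT S a φ X q1 q2 μ p j) m) = fun _ => (0 : ℝ) := funext hmt
      simp only [h6, sol_zero] at h5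
      rwa [Real.dist_eq, sub_zero] at h5
    have hEp := hEY p
    have hEp0 : 0 < E2 (xx S (stY a φ X q1 q2 μ) p) := lt_of_lt_of_le (by positivity) hEp
    unfold vv
    rw [sub_sub_cancel_left, abs_neg, abs_mul, abs_of_pos (inv_pos.2 hEp0)]
    calc (E2 (xx S (stY a φ X q1 q2 μ) p))⁻¹ * |sol (xx S (stY a φ X q1 q2 μ) p)
          (fun j => ip (xx S (stY a φ X q1 q2 μ) p j) m) i| ≤ (c / 2)⁻¹ * (c / 200) :=
          mul_le_mul (inv_anti₀ (by positivity) hEp) h4 (abs_nonneg _) (by positivity)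
      _ = 1 / 100 := by field_simp; norm_num
  have hv1 : ∀ p i, |stV1 S a φ X q1 q2 μ p i - stN φ q1 q2 μ p i| ≤ 1 / 100 := fun p =>
    hcorr p _ (hnn μ p) (hnt μ p)
  have hv2 : ∀ p i, |stV2 S a φ X q1 q2 μ p i - stM S a φ X q1 q2 μ p i| ≤ 1 / 100 := fun p =>
    hcorr p _ (hMM μ p) (hMt μ p)
  have g11 : ∀ p, 9 / 10 ≤ ip (stV1 S a φ X q1 q2 μ p) (stV1 S a φ X q1 q2 μ p) := by
    intro p
    have := ip_close le_rfl (hv1 p) (hv1 p) (hnn μ p) (hnn μ p)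
    rw [hnn, abs_le] at this
    linarith [this.1]
  have g22 : ∀ p, 9 / 10 ≤ ip (stV2 S a φ X q1 q2 μ p) (stV2 S a φ X q1 q2 μ p) := by
    intro p
    have := ip_close le_rfl (hv2 p) (hv2 p) (hMM μ p) (hMM μ p)
    rw [hMM, abs_le] at this
    linarith [this.1]
  have g12 : ∀ p, |ip (stV2 S a φ X q1 q2 μ p) (stV1 S a φ X q1 q2 μ p)| ≤ 1 / 10 := by
    intro p
    have := ip_close le_rfl (hv2 p) (hv1 p) (hMM μ p) (hnn μ p)
    rwa [hMn, sub_zero] at this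
  have g10 : ∀ p, ip (stV1 S a φ X q1 q2 μ p) (stV1 S a φ X q1 q2 μ p) ≠ 0 := fun p =>
    (lt_of_lt_of_le (by norm_num) (g11 p)).ne'
  have ggs : ∀ p, 1 / 2 ≤ ip (gs (stV1 S a φ X q1 q2 μ p) (stV2 S a φ X q1 q2 μ p))
      (gs (stV1 S a φ X q1 q2 μ p) (stV2 S a φ X q1 q2 μ p)) := by
    intro p
    rw [ip_gs_self (g10 p)]
    have h1 : ip (stV2 S a φ X q1 q2 μ p) (stV1 S a φ X q1 q2 μ p) ^ 2 ≤ 1 / 100 := by
      have := sq_le_sq' (abs_le.1 (g12 p)).1 (abs_le.1 (g12 p)).2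
      linarith
    have h2 : (ip (stV1 S a φ X q1 q2 μ p) (stV1 S a φ X q1 q2 μ p))⁻¹ ≤ (9 / 10)⁻¹ :=
      inv_anti₀ (by norm_num) (g11 p)
    have h3 : ip (stV2 S a φ X q1 q2 μ p) (stV1 S a φ X q1 q2 μ p) ^ 2 *
        (ip (stV1 S a φ X q1 q2 μ p) (stV1 S a φ X q1 q2 μ p))⁻¹ ≤ 1 / 100 * (9 / 10)⁻¹ :=
      mul_le_mul h1 h2 (inv_nonneg.2 (ip_self_nonneg _)) (by norm_num)
    have := g22 p
    norm_num at h3 this ⊢
    linarith
  -- smoothness
  have sT : ∀ j i, RS S (fun p => xx S (stY a φ X q1 q2 μ) p j i) := fun j i => (hYs i).D j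
  have sX : ∀ j i, RS S (fun p => xx S X p j i) := fun j i => (hX i).D j
  have sM : ∀ i, RS S (fun p => stM S a φ X q1 q2 μ p i) :=
    RS.unit (v := fun i p => mm (xx S X p) (fun j => RD S j φ p) (a p) (stB φ q1 q2 μ p) i)
      one_pos (RS.mm (x := fun j i p => xx S X p j i) (f := fun j p => RD S j φ p)
        (b := fun i p => stB φ q1 q2 μ p i) hc sX (fun j => hφ.D j) ha
        (rs_stB hφ hN.s1 hN.s2) hE') (hmm1 μ)
  have sV1 : ∀ i, RS S (fun p => stV1 S a φ X q1 q2 μ p i) :=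
    RS.vv (T := fun j i p => xx S (stY a φ X q1 q2 μ) p j i)
      (m := fun i p => stN φ q1 q2 μ p i) (c := c / 2) (by positivity) sT
      (rs_stN hφ hN.s1 hN.s2) hEY
  have sV2 : ∀ i, RS S (fun p => stV2 S a φ X q1 q2 μ p i) :=
    RS.vv (T := fun j i p => xx S (stY a φ X q1 q2 μ) p j i)
      (m := fun i p => stM S a φ X q1 q2 μ p i) (c := c / 2) (by positivity) sT sM hEY
  have sP1 : ∀ i, RS S (stP1 S a φ X q1 q2 μ i) :=
    RS.unit (v := fun i p => stV1 S a φ X q1 q2 μ p i) (c := 9 / 10) (by norm_num) sV1 g11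
  have sP2 : ∀ i, RS S (stP2 S a φ X q1 q2 μ i) :=
    RS.unit (v := fun i p => gs (stV1 S a φ X q1 q2 μ p) (stV2 S a φ X q1 q2 μ p) i)
      (c := 1 / 2) (by norm_num)
      (RS.gs (v := fun i p => stV1 S a φ X q1 q2 μ p i)
        (w := fun i p => stV2 S a φ X q1 q2 μ p i) (c := 9 / 10) (by norm_num) sV1 sV2 g11) ggs
  have o1 : ∀ p j, ip (stV1 S a φ X q1 q2 μ p) (xx S (stY a φ X q1 q2 μ) p j) = 0 := fun p j =>
    ip_vv (lt_of_lt_of_le (by positivity) (hEY p)).ne' (dim2_xx' hd hYs _ p) j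
  have o2 : ∀ p j, ip (stV2 S a φ X q1 q2 μ p) (xx S (stY a φ X q1 q2 μ) p j) = 0 := fun p j =>
    ip_vv (lt_of_lt_of_le (by positivity) (hEY p)).ne' (dim2_xx' hd hYs _ p) j
  refine ⟨⟨sP1, sP2, ?_, ?_, ?_, ?_, ?_⟩, hEY, ?_, ?_⟩
  · intro p
    exact ip_unit _ (lt_of_lt_of_le (by norm_num) (g11 p))
  · intro p
    exact ip_unit _ (lt_of_lt_of_le (by norm_num) (ggs p))
  · intro p
    have h : ip (unit (stV1 S a φ X q1 q2 μ p))
        (unit (gs (stV1 S a φ X q1 q2 μ p) (stV2 S a φ X q1 q2 μ p))) = 0 := by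
      refine ip_unit_zero ?_
      rw [ip_comm]
      exact ip_unit_zero (ip_gs_left (g10 p))
    exact h
  · intro j p
    have h : ip (unit (stV1 S a φ X q1 q2 μ p)) (xx S (stY a φ X q1 q2 μ) p j) = 0 :=
      ip_unit_zero (o1 p j)
    exact h
  · intro j p
    have h : ip (unit (gs (stV1 S a φ X q1 q2 μ p) (stV2 S a φ X q1 q2 μ p)))
        (xx S (stY a φ X q1 q2 μ) p j) = 0 :=
      ip_unit_zero (ip_gs_zero (o1 p j) (o2 p j))
    exact h
  · intro i p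
    have : stY a φ X q1 q2 μ i p - X i p = μ⁻¹ * (a p * stN φ q1 q2 μ p i) := by
      simp only [stY]; ring
    rw [this, abs_mul, abs_of_pos hμi, abs_mul]
    refine le_trans ?_ (hμ1.trans d4)
    refine mul_le_mul_of_nonneg_left ?_ hμi.le
    calc |a p| * |stN φ q1 q2 μ p i| ≤ B * 1 :=
          mul_le_mul ((ha1 p).trans b2) (abs_le_one_of_ip (hnn μ p) i) (abs_nonneg _) hB0
      _ ≤ 2 * B + B * (B + B) := by nlinarith
  · intro j k p
    have h1 := H1 _ _ (hMt' p) ((hclose p).trans d1)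
    have h2 := (dist_pi_le_iff hη.le).1 ((dist_pi_le_iff hη.le).1 h1 j) k
    rw [Real.dist_eq, htt] at h2
    rw [rmet_eq, rmet_eq]
    have e : a p ^ 2 * (RD S j φ p * RD S k φ p) = (a p * RD S j φ p) * (a p * RD S k φ p) := by
      ring
    rw [e]
    exact h2

end Vale.Agent.P205.TW
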