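import Mathlib

/-!
P205, scheme T1W, block NASH: linear algebra.

`sol T τ` solves `sol T τ ⬝ T k = E2 T * τ k` for vectors `T j` spanning at most a plane and
compatible right hand sides `τ` (Cayley-Hamilton in dimension two).
-/

noncomputable section

namespace Vale.Agent.P205.TW

variable {κ : Type*} [Fintype κ]

/-- inner product -/
def ip (x y : Fin 4 → ℝ) : ℝ := ∑ i, x i * y i

theorem ip_comm (x y : Fin 4 → ℝ) : ip x y = ip y x := by
  simp only [ip, mul_comm]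

theorem ip_add_left (x y z : Fin 4 → ℝ) : ip (fun i => x i + y i) z = ip x z + ip y z := by
  simp only [ip, add_mul, Finset.sum_add_distrib]

theorem ip_sub_left (x y z : Fin 4 → ℝ) : ip (fun i => x i - y i) z = ip x z - ip y z := by
  simp only [ip, sub_mul, Finset.sum_sub_distrib]

theorem ip_smul_left (c : ℝ) (x z : Fin 4 → ℝ) : ip (fun i => c * x i) z = c * ip x z := by
  simp only [ip, Finset.mul_sum, mul_assoc]

theorem ip_add_right (x y z : Fin 4 → ℝ) : ip z (fun i => x i + y i) = ip z x + ip z y := by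
  rw [ip_comm, ip_add_left, ip_comm x, ip_comm y]

theorem ip_sub_right (x y z : Fin 4 → ℝ) : ip z (fun i => x i - y i) = ip z x - ip z y := by
  rw [ip_comm, ip_sub_left, ip_comm x, ip_comm y]

theorem ip_smul_right (c : ℝ) (x z : Fin 4 → ℝ) : ip z (fun i => c * x i) = c * ip z x := by
  rw [ip_comm, ip_smul_left, ip_comm x]

theorem ip_sum_left {ι : Type*} (A : Finset ι) (x : ι → Fin 4 → ℝ) (z : Fin 4 → ℝ) :
    ip (fun i => ∑ a ∈ A, x a i) z = ∑ a ∈ A, ip (x a) z := by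
  simp only [ip, Finset.sum_mul]
  rw [Finset.sum_comm]

theorem ip_self_nonneg (x : Fin 4 → ℝ) : 0 ≤ ip x x :=
  Finset.sum_nonneg fun i _ => mul_self_nonneg (x i)

/-- `∑ τ j T j` -/
def comb (T : κ → Fin 4 → ℝ) (τ : κ → ℝ) : Fin 4 → ℝ := fun i => ∑ j, τ j * T j i

/-- trace -/
def E1 (T : κ → Fin 4 → ℝ) : ℝ := ∑ j, ip (T j) (T j)

/-- sum of the Gram determinants -/
def E2 (T : κ → Fin 4 → ℝ) : ℝ :=
  ∑ j, ∑ k, (ip (T j) (T j) * ip (T k) (T k) - ip (T j) (T k) ^ 2)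

/-- the solution of `G ⬝ T k = E2 T * τ k` -/
def sol (T : κ → Fin 4 → ℝ) (τ : κ → ℝ) : Fin 4 → ℝ := fun i =>
  2 * (E1 T * comb T τ i - comb T (fun j => ip (T j) (comb T τ)) i)

theorem ip_comb_left (T : κ → Fin 4 → ℝ) (τ : κ → ℝ) (z : Fin 4 → ℝ) :
    ip (comb T τ) z = ∑ j, τ j * ip (T j) z := by
  unfold comb
  rw [ip_sum_left]
  exact Finset.sum_congr rfl fun j _ => ip_smul_left _ _ _

theorem ip_sol (T : κ → Fin 4 → ℝ) (τ : κ → ℝ) (α β : κ → ℝ) (X1 X2 : Fin 4 → ℝ) (f1 f2 : ℝ)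
    (hT : ∀ j i, T j i = α j * X1 i + β j * X2 i) (hτ : ∀ j, τ j = α j * f1 + β j * f2) (k : κ) :
    ip (sol T τ) (T k) = E2 T * τ k := by
  have hT' : ∀ j, T j = fun i => α j * X1 i + β j * X2 i := fun j => funext fun i => hT j i
  obtain ⟨a, ha⟩ : ∃ a, a = ∑ j, α j * α j := ⟨_, rfl⟩
  obtain ⟨b, hb⟩ : ∃ b, b = ∑ j, α j * β j := ⟨_, rfl⟩
  obtain ⟨d, hd⟩ : ∃ d, d = ∑ j, β j * β j := ⟨_, rfl⟩
  have h1 : ∀ z, ∀ j, ip (T j) z = α j * ip X1 z + β j * ip X2 z := by
    intro z j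
    rw [hT' j, ip_add_left, ip_smul_left, ip_smul_left]
  have h2 : ∀ z, ∀ j, ip z (T j) = α j * ip z X1 + β j * ip z X2 := by
    intro z j
    rw [ip_comm, h1, ip_comm X1, ip_comm X2]
  -- combinations
  have hc : ∀ (σ : κ → ℝ) (y1 y2 : ℝ), (∀ j, σ j = α j * y1 + β j * y2) →
      ∀ i, comb T σ i = (a * y1 + b * y2) * X1 i + (b * y1 + d * y2) * X2 i := by
    intro σ y1 y2 hσ i
    simp only [comb]
    have : ∀ j, σ j * T j i = (α j * α j) * (y1 * X1 i) + (α j * β j) * (y2 * X1 i + y1 * X2 i)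
        + (β j * β j) * (y2 * X2 i) := by
      intro j
      rw [hσ, hT]; ring
    rw [Finset.sum_congr rfl fun j _ => this j, Finset.sum_add_distrib, Finset.sum_add_distrib,
      ← Finset.sum_mul, ← Finset.sum_mul, ← Finset.sum_mul, ← ha, ← hb, ← hd]
    ring
  have hE1 : E1 T = a * ip X1 X1 + 2 * b * ip X1 X2 + d * ip X2 X2 := by
    have : ∀ j, ip (T j) (T j) = (α j * α j) * ip X1 X1 + (α j * β j) * (2 * ip X1 X2)
        + (β j * β j) * ip X2 X2 := by
      intro j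
      rw [h1, h2, h2, ip_comm X2 X1]; ring
    simp only [E1]
    rw [Finset.sum_congr rfl fun j _ => this j, Finset.sum_add_distrib, Finset.sum_add_distrib,
      ← Finset.sum_mul, ← Finset.sum_mul, ← Finset.sum_mul, ← ha, ← hb, ← hd]
    ring
  have hE2 : E2 T = 2 * (a * d - b * b) * (ip X1 X1 * ip X2 X2 - ip X1 X2 ^ 2) := by
    have : ∀ j k, ip (T j) (T j) * ip (T k) (T k) - ip (T j) (T k) ^ 2 =
        ((α j * α j) * (β k * β k) + (β j * β j) * (α k * α k)
          - 2 * ((α j * β j) * (α k * β k))) * (ip X1 X1 * ip X2 X2 - ip X1 X2 ^ 2) := by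
      intro j k
      rw [h1 (T j) j, h1 (T k) k, h1 (T k) j, h2, h2, h2, h2, ip_comm X2 X1]; ring
    simp only [E2]
    have h3 : ∑ j, ∑ k, (ip (T j) (T j) * ip (T k) (T k) - ip (T j) (T k) ^ 2) =
        (∑ j, ∑ k, ((α j * α j) * (β k * β k) + (β j * β j) * (α k * α k)
          - 2 * ((α j * β j) * (α k * β k)))) * (ip X1 X1 * ip X2 X2 - ip X1 X2 ^ 2) := by
      rw [Finset.sum_mul]
      refine Finset.sum_congr rfl fun j _ => ?_
      rw [Finset.sum_mul]
      exact Finset.sum_congr rfl fun k _ => this j k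
    rw [h3]
    have h4 : ∑ j, ∑ k, ((α j * α j) * (β k * β k) + (β j * β j) * (α k * α k)
          - 2 * ((α j * β j) * (α k * β k))) = a * d + d * a - 2 * (b * b) := by
      simp only [Finset.sum_add_distrib, Finset.sum_sub_distrib, ← Finset.mul_sum,
        ← Finset.sum_mul, ← ha, ← hb, ← hd]
    rw [h4]; ring
  -- the two combinations
  have hw := hc τ f1 f2 hτ
  have hw' : comb T τ = fun i => (a * f1 + b * f2) * X1 i + (b * f1 + d * f2) * X2 i :=
    funext hw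
  have hx1 : ip X1 (comb T τ) = (a * f1 + b * f2) * ip X1 X1 + (b * f1 + d * f2) * ip X1 X2 := by
    rw [hw', ip_add_right, ip_smul_right, ip_smul_right]
  have hx2 : ip X2 (comb T τ) = (a * f1 + b * f2) * ip X1 X2 + (b * f1 + d * f2) * ip X2 X2 := by
    rw [hw', ip_add_right, ip_smul_right, ip_smul_right, ip_comm X2 X1]
  have hv := hc (fun j => ip (T j) (comb T τ)) _ _ (fun j => h1 _ j)
  have hsol : sol T τ = fun i => (2 * (E1 T * (a * f1 + b * f2)
      - (a * ip X1 (comb T τ) + b * ip X2 (comb T τ)))) * X1 i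
      + (2 * (E1 T * (b * f1 + d * f2)
      - (b * ip X1 (comb T τ) + d * ip X2 (comb T τ)))) * X2 i := by
    funext i
    simp only [sol]
    rw [hw i, hv i]; ring
  rw [hsol, ip_add_left, ip_smul_left, ip_smul_left, h2, h2, hE1, hE2, hx1, hx2, hτ,
    ip_comm X2 X1]
  ring

theorem E2_mono (x t : κ → Fin 4 → ℝ) (β : κ → ℝ)
    (h : ∀ j k, ip (t j) (t k) = ip (x j) (x k) + β j * β k) : E2 x ≤ E2 t := by
  unfold E2
  refine Finset.sum_le_sum fun j _ => Finset.sum_le_sum fun k _ => ?_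
  have h0 := ip_self_nonneg (fun i => β k * x j i - β j * x k i)
  rw [ip_sub_left, ip_smul_left, ip_smul_left, ip_sub_right, ip_sub_right, ip_smul_right,
    ip_smul_right, ip_smul_right, ip_smul_right, ip_comm (x k) (x j)] at h0
  rw [h, h, h]
  nlinarith [h0]

/-- uniform continuity on balls -/
theorem unif_ball {E F : Type*} [NormedAddCommGroup E] [ProperSpace E] [PseudoMetricSpace F]
    (f : E → F) (hf : Continuous f) (M ε : ℝ) (hε : 0 < ε) :
    ∃ δ : ℝ, 0 < δ ∧ ∀ x y, ‖x‖ ≤ M → ‖y - x‖ ≤ δ → dist (f y) (f x) ≤ ε := by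
  have hK : IsCompact (Metric.closedBall (0 : E) (M + 1)) := isCompact_closedBall _ _
  have hu := hK.uniformContinuousOn_of_continuous hf.continuousOn
  rw [Metric.uniformContinuousOn_iff] at hu
  obtain ⟨δ, hδ, h⟩ := hu ε hε
  refine ⟨min (δ / 2) 1, by positivity, fun x y hx hy => ?_⟩
  have h1 : ‖y - x‖ ≤ δ / 2 := hy.trans (min_le_left _ _)
  have h2 : ‖y - x‖ ≤ 1 := hy.trans (min_le_right _ _)
  refine (h y ?_ x ?_ ?_).le
  · rw [mem_closedBall_zero_iff]
    calc ‖y‖ = ‖(y - x) + x‖ := by rw [sub_add_cancel]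
      _ ≤ ‖y - x‖ + ‖x‖ := norm_add_le _ _
      _ ≤ M + 1 := by linarith
  · rw [mem_closedBall_zero_iff]; linarith
  · rw [dist_eq_norm]; linarith

end Vale.Agent.P205.TW
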