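import Vale.Agent.P205.F.Calc1
import Vale.Agent.P205.TW.NashDef

/-!
P205, scheme T1W, block NASH: real calculus in a `DAlg`.
-/

noncomputable section

open scoped ContDiff

namespace Vale.Agent.P205.TW

open Vale.Agent.P205.F

universe u

variable {P : Type u} {κ : Type} {S : DAlg P κ} {u v : P → ℝ}

theorem RS.const (c : ℝ) : RS S (fun _ => c) := S.sm_const (c : ℂ)

theorem nc_add_eq (u v : P → ℝ) : (fun p => ((u p + v p : ℝ) : ℂ)) =
    (fun p => (u p : ℂ)) + fun p => (v p : ℂ) := by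
  funext p
  simp

theorem nc_neg_eq (u : P → ℝ) : (fun p => ((-u p : ℝ) : ℂ)) = -fun p => (u p : ℂ) := by
  funext p
  simp

theorem nc_sub_eq (u v : P → ℝ) : (fun p => ((u p - v p : ℝ) : ℂ)) =
    (fun p => (u p : ℂ)) - fun p => (v p : ℂ) := by
  funext p
  simp

theorem nc_mul_eq (u v : P → ℝ) : (fun p => ((u p * v p : ℝ) : ℂ)) =
    (fun p => (u p : ℂ)) * fun p => (v p : ℂ) := by
  funext p
  simp

theorem nc_sum_eq {ι : Type*} (A : Finset ι) (w : ι → P → ℝ) :
    (fun p => ((∑ a ∈ A, w a p : ℝ) : ℂ)) = fun p => ∑ a ∈ A, ((w a p : ℝ) : ℂ) := by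
  funext p
  push_cast
  rfl

theorem RS.add (hu : RS S u) (hv : RS S v) : RS S (fun p => u p + v p) := by
  unfold RS
  rw [nc_add_eq]
  exact S.sm_add hu hv

theorem RS.neg (hu : RS S u) : RS S (fun p => -u p) := by
  unfold RS
  rw [nc_neg_eq]
  exact S.sm_neg hu

theorem RS.sub (hu : RS S u) (hv : RS S v) : RS S (fun p => u p - v p) := by
  unfold RS
  rw [nc_sub_eq]
  exact S.sm_sub hu hv

theorem RS.mul (hu : RS S u) (hv : RS S v) : RS S (fun p => u p * v p) := by
  unfold RS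
  rw [nc_mul_eq]
  exact S.sm_mul hu hv

theorem RS.pow (hu : RS S u) (n : ℕ) : RS S (fun p => u p ^ n) := by
  induction n with
  | zero =>
    have h : RS S (fun _ => (1 : ℝ)) := RS.const 1
    simpa using h
  | succ n ih =>
    have h := ih.mul hu
    simpa only [pow_succ] using h

theorem RS.sum {ι : Type*} {A : Finset ι} {w : ι → P → ℝ} (hw : ∀ a ∈ A, RS S (w a)) :
    RS S (fun p => ∑ a ∈ A, w a p) := by
  unfold RS
  rw [nc_sum_eq]
  exact S.sm_sum' hw

theorem RS.comp {F : ℝ → ℝ} (hF : ContDiff ℝ ∞ F) (hu : RS S u) : RS S (fun p => F (u p)) := by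
  have h := S.sm_comp (F := fun x => ((F x : ℝ) : ℂ)) (Complex.ofRealCLM.contDiff.comp hF) hu
    (fun p => Complex.ofReal_im _)
  exact h

theorem RS.bdd (hu : RS S u) : ∃ C : ℝ, 0 ≤ C ∧ ∀ p, |u p| ≤ C := by
  obtain ⟨C, hC⟩ := S.bdd hu
  refine ⟨|C|, abs_nonneg C, fun p => ?_⟩
  have h := hC p
  rw [Complex.norm_real, Real.norm_eq_abs] at h
  exact h.trans (le_abs_self C)

theorem RS.D (j : κ) (hu : RS S u) : RS S (RD S j u) := S.sm_re (S.sm_D j hu)

theorem coe_RD (j : κ) (hu : RS S u) (p : P) :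
    S.D j (fun p => (u p : ℂ)) p = ((RD S j u p : ℝ) : ℂ) := by
  have h := S.D_conj j hu
  have e : (fun p => (starRingEnd ℂ) ((fun p => (u p : ℂ)) p)) = fun p => (u p : ℂ) := by
    funext q
    exact Complex.conj_ofReal _
  rw [e] at h
  have h2 := congrFun h p
  exact (Complex.conj_eq_iff_re.1 h2.symm).symm

theorem RD_const (j : κ) (c : ℝ) (p : P) : RD S j (fun _ => c) p = 0 := by
  unfold RD
  rw [S.D_const_apply]
  rfl

theorem RD_add (j : κ) (hu : RS S u) (hv : RS S v) (p : P) :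
    RD S j (fun p => u p + v p) p = RD S j u p + RD S j v p := by
  unfold RD
  rw [nc_add_eq, S.D_add_apply j hu hv, Complex.add_re]

theorem RD_neg (j : κ) (hu : RS S u) (p : P) : RD S j (fun p => -u p) p = -RD S j u p := by
  unfold RD
  rw [nc_neg_eq, S.D_neg_apply j hu, Complex.neg_re]

theorem RD_sub (j : κ) (hu : RS S u) (hv : RS S v) (p : P) :
    RD S j (fun p => u p - v p) p = RD S j u p - RD S j v p := by
  unfold RD
  rw [nc_sub_eq, S.D_sub_apply j hu hv, Complex.sub_re]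

theorem RD_mul (j : κ) (hu : RS S u) (hv : RS S v) (p : P) :
    RD S j (fun p => u p * v p) p = RD S j u p * v p + u p * RD S j v p := by
  have h1 := coe_RD j hu p
  have h2 := coe_RD j hv p
  unfold RD at h1 h2 ⊢
  rw [nc_mul_eq, S.D_mul_apply j hu hv, h1, h2]
  simp

theorem RD_sum (j : κ) {ι : Type*} {A : Finset ι} {w : ι → P → ℝ} (hw : ∀ a ∈ A, RS S (w a))
    (p : P) : RD S j (fun p => ∑ a ∈ A, w a p) p = ∑ a ∈ A, RD S j (w a) p := by
  unfold RD
  rw [nc_sum_eq, S.D_sum_apply (A := A) (u := fun a p => ((w a p : ℝ) : ℂ)) j hw, Complex.re_sum]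

theorem RD_comp (j : κ) {F : ℝ → ℝ} (hF : ContDiff ℝ ∞ F) (hu : RS S u) (p : P) :
    RD S j (fun p => F (u p)) p = deriv F (u p) * RD S j u p := by
  have h := congrFun (S.D_comp (F := fun x => ((F x : ℝ) : ℂ)) j
    (Complex.ofRealCLM.contDiff.comp hF) hu (fun p => Complex.ofReal_im _)) p
  have hd : deriv (fun x => ((F x : ℝ) : ℂ)) (u p) = ((deriv F (u p) : ℝ) : ℂ) :=
    (((hF.differentiable (by simp)) (u p)).hasDerivAt.ofReal_comp).deriv
  simp only [Complex.ofReal_re] at h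
  rw [hd] at h
  unfold RD
  rw [h, Complex.re_ofReal_mul]

/-- a smooth function, equal to `y` for `y ≥ 1`, at least `1/2` -/
def nkf (y : ℝ) : ℝ := 1 / 2 + (y - 1 / 2) * Real.smoothTransition (4 * y - 3)

theorem nkf_of_one_le {y : ℝ} (hy : 1 ≤ y) : nkf y = y := by
  unfold nkf
  rw [Real.smoothTransition.one_of_one_le (by linarith)]
  ring

theorem nkf_pos (y : ℝ) : 0 < nkf y := by
  rcases le_total y (3 / 4) with h | h
  · unfold nkf
    rw [Real.smoothTransition.zero_of_nonpos (by linarith)]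
    norm_num
  · unfold nkf
    have h1 := Real.smoothTransition.nonneg (4 * y - 3)
    have h2 : 0 ≤ (y - 1 / 2) * Real.smoothTransition (4 * y - 3) :=
      mul_nonneg (by linarith) h1
    linarith

theorem nkf_smooth : ContDiff ℝ ∞ nkf := by
  unfold nkf
  have h1 : ContDiff ℝ ∞ (fun y : ℝ => Real.smoothTransition (4 * y - 3)) :=
    Real.smoothTransition.contDiff.comp ((contDiff_const.mul contDiff_id).sub contDiff_const)
  exact contDiff_const.add ((contDiff_id.sub contDiff_const).mul h1)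

/-- inverse square root of a function bounded below -/
theorem RS.isq {c : ℝ} (hc : 0 < c) (hu : RS S u) (h : ∀ p, c ≤ u p) :
    RS S (fun p => (Real.sqrt (u p))⁻¹) := by
  have hF : ContDiff ℝ ∞ (fun y : ℝ => (Real.sqrt (c * nkf (c⁻¹ * y)))⁻¹) := by
    have h1 : ContDiff ℝ ∞ (fun y : ℝ => c * nkf (c⁻¹ * y)) :=
      contDiff_const.mul (nkf_smooth.comp (contDiff_const.mul contDiff_id))
    have h2 : ∀ y : ℝ, 0 < c * nkf (c⁻¹ * y) := fun y => mul_pos hc (nkf_pos _)
    exact (h1.sqrt fun y => (h2 y).ne').inv fun y => (Real.sqrt_pos.2 (h2 y)).ne'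
  have h3 := hu.comp hF
  have e : (fun p => (Real.sqrt (c * nkf (c⁻¹ * u p)))⁻¹) = fun p => (Real.sqrt (u p))⁻¹ := by
    funext p
    rw [nkf_of_one_le (by
      rw [inv_mul_eq_div, le_div_iff₀ hc, one_mul]
      exact h p), mul_inv_cancel_left₀ hc.ne']
  rwa [e] at h3

/-- inverse of a function bounded below -/
theorem RS.inv {c : ℝ} (hc : 0 < c) (hu : RS S u) (h : ∀ p, c ≤ u p) :
    RS S (fun p => (u p)⁻¹) := by
  have h1 := (hu.isq hc h).pow 2
  have e : (fun p => (Real.sqrt (u p))⁻¹ ^ 2) = fun p => (u p)⁻¹ := by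
    funext p
    rw [inv_pow, Real.sq_sqrt (hc.le.trans (h p))]
  rwa [e] at h1

end Vale.Agent.P205.TW
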