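import Vale.Agent.P205.TW.NashAlg

/-!
P205, scheme T1W, block NASH: the new normal frame, pointwise.
-/

noncomputable section

namespace Vale.Agent.P205.TW

variable {κ : Type*} [Fintype κ]

/-- rotated frame, first vector -/
def nn (C s : ℝ) (Q1 Q2 : Fin 4 → ℝ) : Fin 4 → ℝ := fun i => C * Q1 i + s * Q2 i

/-- rotated frame, second vector -/
def bb (C s : ℝ) (Q1 Q2 : Fin 4 → ℝ) : Fin 4 → ℝ := fun i => C * Q2 i - s * Q1 i

/-- `b - a grad φ` -/
def mm (x : κ → Fin 4 → ℝ) (f : κ → ℝ) (a : ℝ) (b : Fin 4 → ℝ) : Fin 4 → ℝ :=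
  fun i => b i - a * (E2 x)⁻¹ * sol x f i

/-- normalisation -/
def unit (v : Fin 4 → ℝ) : Fin 4 → ℝ := fun i => (Real.sqrt (ip v v))⁻¹ * v i

/-- projection to the orthogonal complement of the `T j` -/
def vv (T : κ → Fin 4 → ℝ) (m : Fin 4 → ℝ) : Fin 4 → ℝ :=
  fun i => m i - (E2 T)⁻¹ * sol T (fun j => ip (T j) m) i

/-- Gram-Schmidt, second vector before normalisation -/
def gs (v w : Fin 4 → ℝ) : Fin 4 → ℝ := fun i => w i - ip w v * (ip v v)⁻¹ * v i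

theorem ip_unit (v : Fin 4 → ℝ) (h : 0 < ip v v) : ip (unit v) (unit v) = 1 := by
  unfold unit
  rw [ip_smul_left, ip_smul_right, ← mul_assoc, ← mul_inv, Real.mul_self_sqrt h.le,
    inv_mul_cancel₀ h.ne']

theorem ip_unit_left (v z : Fin 4 → ℝ) : ip (unit v) z = (Real.sqrt (ip v v))⁻¹ * ip v z := by
  unfold unit
  rw [ip_smul_left]

theorem ip_unit_zero {v z : Fin 4 → ℝ} (h : ip v z = 0) : ip (unit v) z = 0 := by
  rw [ip_unit_left, h, mul_zero]

theorem ip_comb_zero {T : κ → Fin 4 → ℝ} {τ : κ → ℝ} {z : Fin 4 → ℝ}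
    (h : ∀ j, ip (T j) z = 0) : ip (comb T τ) z = 0 := by
  rw [ip_comb_left]
  exact Finset.sum_eq_zero fun j _ => by rw [h, mul_zero]

theorem ip_sol_zero {T : κ → Fin 4 → ℝ} {τ : κ → ℝ} {z : Fin 4 → ℝ}
    (h : ∀ j, ip (T j) z = 0) : ip (sol T τ) z = 0 := by
  unfold sol
  rw [ip_smul_left, ip_sub_left, ip_smul_left, ip_comb_zero h, ip_comb_zero h]
  ring

section rot

variable {C s : ℝ} {Q1 Q2 : Fin 4 → ℝ}

theorem ip_nn (hC : C ^ 2 + s ^ 2 = 1) (h11 : ip Q1 Q1 = 1) (h22 : ip Q2 Q2 = 1)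
    (h12 : ip Q1 Q2 = 0) : ip (nn C s Q1 Q2) (nn C s Q1 Q2) = 1 := by
  unfold nn
  rw [ip_add_left, ip_smul_left, ip_smul_left, ip_add_right, ip_add_right, ip_smul_right,
    ip_smul_right, ip_smul_right, ip_smul_right, ip_comm Q2 Q1, h11, h22, h12]
  linear_combination hC

theorem ip_bb (hC : C ^ 2 + s ^ 2 = 1) (h11 : ip Q1 Q1 = 1) (h22 : ip Q2 Q2 = 1)
    (h12 : ip Q1 Q2 = 0) : ip (bb C s Q1 Q2) (bb C s Q1 Q2) = 1 := by
  unfold bb
  rw [ip_sub_left, ip_smul_left, ip_smul_left, ip_sub_right, ip_sub_right, ip_smul_right,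
    ip_smul_right, ip_smul_right, ip_smul_right, ip_comm Q2 Q1, h11, h22, h12]
  linear_combination hC

theorem ip_nb (h11 : ip Q1 Q1 = 1) (h22 : ip Q2 Q2 = 1)
    (h12 : ip Q1 Q2 = 0) : ip (nn C s Q1 Q2) (bb C s Q1 Q2) = 0 := by
  unfold bb nn
  rw [ip_add_left, ip_smul_left, ip_smul_left, ip_sub_right, ip_sub_right, ip_smul_right,
    ip_smul_right, ip_smul_right, ip_smul_right, ip_comm Q2 Q1, h11, h22, h12]
  ring

theorem ip_nn_zero {z : Fin 4 → ℝ} (h1 : ip Q1 z = 0) (h2 : ip Q2 z = 0) :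
    ip (nn C s Q1 Q2) z = 0 := by
  unfold nn
  rw [ip_add_left, ip_smul_left, ip_smul_left, h1, h2]; ring

theorem ip_bb_zero {z : Fin 4 → ℝ} (h1 : ip Q1 z = 0) (h2 : ip Q2 z = 0) :
    ip (bb C s Q1 Q2) z = 0 := by
  unfold bb
  rw [ip_sub_left, ip_smul_left, ip_smul_left, h1, h2]; ring

end rot

/-- `|b - a grad φ|² ≥ 1` -/
theorem one_le_mm {x : κ → Fin 4 → ℝ} {f : κ → ℝ} {a : ℝ} {b : Fin 4 → ℝ} (hb : ip b b = 1)
    (hx : ∀ j, ip (x j) b = 0) : 1 ≤ ip (mm x f a b) (mm x f a b) := by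
  have h0 : ip b (sol x f) = 0 := by rw [ip_comm]; exact ip_sol_zero hx
  have h1 : ip (sol x f) b = 0 := ip_sol_zero hx
  have h2 := ip_self_nonneg (fun i => a * (E2 x)⁻¹ * sol x f i)
  rw [ip_smul_left, ip_smul_right] at h2
  unfold mm
  rw [ip_sub_left, ip_smul_left, ip_sub_right, ip_sub_right, ip_smul_right, ip_smul_right, h0, h1,
    hb]
  linarith

/-- `b - a grad φ` is orthogonal to `n` -/
theorem ip_mm_n {x : κ → Fin 4 → ℝ} {f : κ → ℝ} {a : ℝ} {b n : Fin 4 → ℝ} (hb : ip b n = 0)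
    (hx : ∀ j, ip (x j) n = 0) : ip (mm x f a b) n = 0 := by
  unfold mm
  rw [ip_sub_left, ip_smul_left, hb, ip_sol_zero hx]; ring

/-- `b - a grad φ` is orthogonal to `x k + a f k b` -/
theorem ip_mm_t {x : κ → Fin 4 → ℝ} {f : κ → ℝ} {a : ℝ} {b : Fin 4 → ℝ} (hb : ip b b = 1)
    (hx : ∀ j, ip (x j) b = 0) (hE : E2 x ≠ 0) (hs : ∀ k, ip (sol x f) (x k) = E2 x * f k)
    (k : κ) : ip (mm x f a b) (fun i => x k i + a * f k * b i) = 0 := by
  have h1 : ip (sol x f) b = 0 := ip_sol_zero hx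
  have h2 : ip b (x k) = 0 := by rw [ip_comm]; exact hx k
  unfold mm
  rw [ip_add_right, ip_smul_right, ip_sub_left, ip_smul_left, ip_sub_left, ip_smul_left, hs, h1,
    h2, hb]
  field_simp
  ring

theorem ip_vv {T : κ → Fin 4 → ℝ} {m : Fin 4 → ℝ} (hE : E2 T ≠ 0)
    (hs : ∀ k, ip (sol T (fun j => ip (T j) m)) (T k) = E2 T * ip (T k) m) (k : κ) :
    ip (vv T m) (T k) = 0 := by
  unfold vv
  rw [ip_sub_left, ip_smul_left, hs, ip_comm m]
  field_simp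
  ring

theorem ip_gs_left {v w : Fin 4 → ℝ} (hv : ip v v ≠ 0) : ip (gs v w) v = 0 := by
  unfold gs
  rw [ip_sub_left, ip_smul_left]
  field_simp
  ring

theorem ip_gs_zero {v w z : Fin 4 → ℝ} (hv : ip v z = 0) (hw : ip w z = 0) :
    ip (gs v w) z = 0 := by
  unfold gs
  rw [ip_sub_left, ip_smul_left, hv, hw]; ring

theorem ip_gs_self {v w : Fin 4 → ℝ} (hv : ip v v ≠ 0) :
    ip (gs v w) (gs v w) = ip w w - ip w v ^ 2 * (ip v v)⁻¹ := by
  have h1 : ∀ z, ip (gs v w) z = ip w z - ip w v * (ip v v)⁻¹ * ip v z := by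
    intro z
    unfold gs
    rw [ip_sub_left, ip_smul_left]
  have h2 : ip v (gs v w) = 0 := by rw [ip_comm, ip_gs_left hv]
  rw [h1 (gs v w), h2, ip_comm w (gs v w), h1 w, ip_comm v w]
  ring

/-- closeness of inner products -/
theorem ip_close {v w m m' : Fin 4 → ℝ} {ε : ℝ} (hε : ε ≤ 1 / 100) (h1 : ∀ i, |v i - m i| ≤ ε)
    (h2 : ∀ i, |w i - m' i| ≤ ε) (hm : ip m m = 1) (hm' : ip m' m' = 1) :
    |ip v w - ip m m'| ≤ 1 / 10 := by
  have hb : ∀ {y : Fin 4 → ℝ}, ip y y = 1 → ∀ i, |y i| ≤ 1 := by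
    intro y hy i
    have : y i * y i ≤ ip y y :=
      Finset.single_le_sum (f := fun i => y i * y i) (fun j _ => mul_self_nonneg (y j))
        (Finset.mem_univ i)
    rw [hy] at this
    rw [← sq_le_one_iff_abs_le_one]
    nlinarith
  have h0 : ∀ i, |v i * w i - m i * m' i| ≤ 1 / 40 := by
    intro i
    have e : v i * w i - m i * m' i = (v i - m i) * (w i - m' i) + (v i - m i) * m' i
        + m i * (w i - m' i) := by ring
    have hε0 : 0 ≤ ε := (abs_nonneg _).trans (h1 i)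
    have a1 : |(v i - m i) * (w i - m' i)| ≤ ε * ε := by
      rw [abs_mul]; exact mul_le_mul (h1 i) (h2 i) (abs_nonneg _) hε0
    have a2 : |(v i - m i) * m' i| ≤ ε * 1 := by
      rw [abs_mul]; exact mul_le_mul (h1 i) (hb hm' i) (abs_nonneg _) hε0
    have a3 : |m i * (w i - m' i)| ≤ 1 * ε := by
      rw [abs_mul]; exact mul_le_mul (hb hm i) (h2 i) (abs_nonneg _) zero_le_one
    rw [e]
    refine (abs_add_le _ _).trans ?_
    have := abs_add_le ((v i - m i) * (w i - m' i)) ((v i - m i) * m' i)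
    nlinarith
  unfold ip
  rw [← Finset.sum_sub_distrib]
  refine (Finset.abs_sum_le_sum_abs _ _).trans ?_
  refine (Finset.sum_le_sum fun i _ => h0 i).trans ?_
  simp
  norm_num

end Vale.Agent.P205.TW
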