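import Vale.Agent.P205.TW.NashCalc
import Vale.Agent.P205.TW.NashPt

/-!
P205, scheme T1W, block NASH: one step.
-/

noncomputable section

open scoped ContDiff

namespace Vale.Agent.P205.TW

open Vale.Agent.P205.F

universe u

variable {P : Type u} {κ : Type} [Fintype κ] {S : DAlg P κ}

theorem RS.ip {x y : Fin 4 → P → ℝ} (hx : ∀ i, RS S (x i)) (hy : ∀ i, RS S (y i)) :
    RS S (fun p => ip (fun i => x i p) (fun i => y i p)) :=
  RS.sum fun i _ => (hx i).mul (hy i)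

theorem RS.comb {T : κ → Fin 4 → P → ℝ} {τ : κ → P → ℝ} (hT : ∀ j i, RS S (T j i))
    (hτ : ∀ j, RS S (τ j)) (i : Fin 4) :
    RS S (fun p => comb (fun j i => T j i p) (fun j => τ j p) i) :=
  RS.sum fun j _ => (hτ j).mul (hT j i)

theorem RS.E1 {T : κ → Fin 4 → P → ℝ} (hT : ∀ j i, RS S (T j i)) :
    RS S (fun p => E1 (fun j i => T j i p)) :=
  RS.sum fun j _ => RS.ip (hT j) (hT j)

theorem RS.E2 {T : κ → Fin 4 → P → ℝ} (hT : ∀ j i, RS S (T j i)) :
    RS S (fun p => E2 (fun j i => T j i p)) :=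
  RS.sum fun j _ => RS.sum fun k _ =>
    ((RS.ip (hT j) (hT j)).mul (RS.ip (hT k) (hT k))).sub ((RS.ip (hT j) (hT k)).pow 2)

theorem RS.sol {T : κ → Fin 4 → P → ℝ} {τ : κ → P → ℝ} (hT : ∀ j i, RS S (T j i))
    (hτ : ∀ j, RS S (τ j)) (i : Fin 4) :
    RS S (fun p => sol (fun j i => T j i p) (fun j => τ j p) i) :=
  (RS.const 2).mul (((RS.E1 hT).mul (RS.comb hT hτ i)).sub
    (RS.comb hT (fun j => RS.ip (hT j) (fun i => RS.comb hT hτ i)) i))

theorem RS.unit {v : Fin 4 → P → ℝ} {c : ℝ} (hc : 0 < c) (hv : ∀ i, RS S (v i))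
    (h : ∀ p, c ≤ TW.ip (fun i => v i p) (fun i => v i p)) (i : Fin 4) :
    RS S (fun p => unit (fun i => v i p) i) :=
  (RS.isq hc (RS.ip hv hv) h).mul (hv i)

theorem RS.mm {x : κ → Fin 4 → P → ℝ} {f : κ → P → ℝ} {a : P → ℝ} {b : Fin 4 → P → ℝ} {c : ℝ}
    (hc : 0 < c) (hx : ∀ j i, RS S (x j i)) (hf : ∀ j, RS S (f j)) (ha : RS S a)
    (hb : ∀ i, RS S (b i)) (h : ∀ p, c ≤ TW.E2 (fun j i => x j i p)) (i : Fin 4) :
    RS S (fun p => mm (fun j i => x j i p) (fun j => f j p) (a p) (fun i => b i p) i) :=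
  (hb i).sub ((ha.mul (RS.inv hc (RS.E2 hx) h)).mul (RS.sol hx hf i))

theorem RS.vv {T : κ → Fin 4 → P → ℝ} {m : Fin 4 → P → ℝ} {c : ℝ}
    (hc : 0 < c) (hT : ∀ j i, RS S (T j i)) (hm : ∀ i, RS S (m i))
    (h : ∀ p, c ≤ TW.E2 (fun j i => T j i p)) (i : Fin 4) :
    RS S (fun p => vv (fun j i => T j i p) (fun i => m i p) i) :=
  (hm i).sub ((RS.inv hc (RS.E2 hT) h).mul (RS.sol hT (fun j => RS.ip (hT j) hm) i))

theorem RS.gs {v w : Fin 4 → P → ℝ} {c : ℝ} (hc : 0 < c) (hv : ∀ i, RS S (v i))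
    (hw : ∀ i, RS S (w i)) (h : ∀ p, c ≤ TW.ip (fun i => v i p) (fun i => v i p)) (i : Fin 4) :
    RS S (fun p => gs (fun i => v i p) (fun i => w i p) i) :=
  (hw i).sub ((((RS.ip hw hv).mul (RS.inv hc (RS.ip hv hv) h))).mul (hv i))

theorem RS.bdd_fin {ι : Type*} [Fintype ι] {w : ι → P → ℝ} (h : ∀ i, RS S (w i)) :
    ∃ C : ℝ, 0 ≤ C ∧ ∀ i p, |w i p| ≤ C := by
  choose C hC hb using fun i => (h i).bdd
  refine ⟨∑ i, C i, Finset.sum_nonneg fun i _ => hC i, fun i p => (hb i p).trans ?_⟩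
  exact Finset.single_le_sum (fun j _ => hC j) (Finset.mem_univ i)

/-- derivatives at a point -/
def xx (S : DAlg P κ) (X : Fin 4 → P → ℝ) (p : P) : κ → Fin 4 → ℝ := fun j i => RD S j (X i) p

theorem e2_eq (X : Fin 4 → P → ℝ) (p : P) : e2 S X p = E2 (xx S X p) := rfl

theorem rmet_eq (X : Fin 4 → P → ℝ) (j k : κ) (p : P) :
    rmet S X j k p = ip (xx S X p j) (xx S X p k) := rfl

/-- compatibility from `Dim2` -/
theorem dim2_xx (hd : Dim2 S) {X : Fin 4 → P → ℝ} (hX : ∀ i, RS S (X i)) {φ : P → ℝ}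
    (hφ : RS S φ) (p : P) (k : κ) :
    ip (sol (xx S X p) (fun j => RD S j φ p)) (xx S X p k) = E2 (xx S X p) * RD S k φ p := by
  obtain ⟨α, β, L1, L2, h⟩ := hd p
  exact ip_sol _ _ α β (fun i => L1 (X i)) (fun i => L2 (X i)) (L1 φ) (L2 φ)
    (fun j i => h j _ (hX i)) (fun j => h j _ hφ) k

theorem dim2_xx' (hd : Dim2 S) {X : Fin 4 → P → ℝ} (hX : ∀ i, RS S (X i)) (m : Fin 4 → ℝ)
    (p : P) (k : κ) :
    ip (sol (xx S X p) (fun j => ip (xx S X p j) m)) (xx S X p k) =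
      E2 (xx S X p) * ip (xx S X p k) m := by
  obtain ⟨α, β, L1, L2, h⟩ := hd p
  refine ip_sol _ _ α β (fun i => L1 (X i)) (fun i => L2 (X i)) (ip (fun i => L1 (X i)) m)
    (ip (fun i => L2 (X i)) m) (fun j i => h j _ (hX i)) (fun j => ?_) k
  have : xx S X p j = fun i => α j * L1 (X i) + β j * L2 (X i) :=
    funext fun i => h j _ (hX i)
  rw [this, ip_add_left, ip_smul_left, ip_smul_left]

section defs

variable (S) (a φ : P → ℝ) (X q1 q2 : Fin 4 → P → ℝ) (μ : ℝ)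

/-- `n` -/
def stN (p : P) : Fin 4 → ℝ :=
  nn (Real.cos (μ * φ p)) (Real.sin (μ * φ p)) (fun i => q1 i p) (fun i => q2 i p)

/-- `b` -/
def stB (p : P) : Fin 4 → ℝ :=
  bb (Real.cos (μ * φ p)) (Real.sin (μ * φ p)) (fun i => q1 i p) (fun i => q2 i p)

/-- new map -/
def stY (i : Fin 4) (p : P) : ℝ := X i p + μ⁻¹ * a p * stN φ q1 q2 μ p i

/-- second approximate normal -/
def stM (p : P) : Fin 4 → ℝ :=
  unit (mm (xx S X p) (fun j => RD S j φ p) (a p) (stB φ q1 q2 μ p))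

/-- first normal, before normalisation -/
def stV1 (p : P) : Fin 4 → ℝ := vv (xx S (stY a φ X q1 q2 μ) p) (stN φ q1 q2 μ p)

/-- second normal, before orthonormalisation -/
def stV2 (p : P) : Fin 4 → ℝ := vv (xx S (stY a φ X q1 q2 μ) p) (stM S a φ X q1 q2 μ p)

/-- new frame, first vector -/
def stP1 (i : Fin 4) (p : P) : ℝ := unit (stV1 S a φ X q1 q2 μ p) i

/-- new frame, second vector -/
def stP2 (i : Fin 4) (p : P) : ℝ :=
  unit (gs (stV1 S a φ X q1 q2 μ p) (stV2 S a φ X q1 q2 μ p)) i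

end defs

section eqv

variable {a φ : P → ℝ} {X q1 q2 : Fin 4 → P → ℝ} {μ : ℝ} {σ : P → P}

theorem RD_eqv (hσ : Eqv S σ) {w : P → ℝ} (hw : RS S w) (h : ∀ p, w (σ p) = w p) (j : κ)
    (p : P) : RD S j w (σ p) = RD S j w p := by
  have e : (fun p => w (σ p)) = w := funext h
  have := hσ j w hw (by rw [e]; exact hw) p
  rw [e] at this
  exact this.symm

theorem RD_eqv' (hσ : Eqv S σ) {w : P → ℝ} (hw : RS S w) (h : ∀ p, w (σ p) = -w p) (j : κ)
    (p : P) : RD S j w (σ p) = -RD S j w p := by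
  have e : (fun p => w (σ p)) = fun p => -w p := funext h
  have := hσ j w hw (by rw [e]; exact hw.neg) p
  rw [e, RD_neg j hw] at this
  exact this.symm

theorem sol_neg (T : κ → Fin 4 → ℝ) (τ : κ → ℝ) (i : Fin 4) :
    sol T (fun j => -τ j) i = -sol T τ i := by
  have h1 : ∀ (ρ : κ → ℝ), comb T (fun j => -ρ j) = fun i => (-1) * comb T ρ i := by
    intro ρ; funext i
    simp only [comb, Finset.mul_sum]
    exact Finset.sum_congr rfl fun j _ => by ring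
  have h2 : ∀ j, ip (T j) (fun i => (-1) * comb T τ i) = -ip (T j) (comb T τ) := by
    intro j; rw [ip_smul_right]; ring
  simp only [sol]
  rw [h1 τ]
  simp only [h2]
  rw [h1]
  ring

theorem unit_neg (v : Fin 4 → ℝ) : unit (fun i => -v i) = fun i => -unit v i := by
  funext i
  have : ip (fun i => -v i) (fun i => -v i) = ip v v := by
    simp only [ip]; exact Finset.sum_congr rfl fun j _ => by ring
  simp only [unit, this]; ring

theorem stN_eqv (h1 : ∀ i p, q1 i (σ p) = q1 i p) (h2 : ∀ i p, q2 i (σ p) = -q2 i p)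
    (hφ : ∀ p, φ (σ p) = -φ p) (p : P) : stN φ q1 q2 μ (σ p) = stN φ q1 q2 μ p := by
  funext i
  simp only [stN, nn, h1, h2, hφ]
  rw [show μ * -φ p = -(μ * φ p) by ring, Real.cos_neg, Real.sin_neg]; ring

theorem stB_eqv (h1 : ∀ i p, q1 i (σ p) = q1 i p) (h2 : ∀ i p, q2 i (σ p) = -q2 i p)
    (hφ : ∀ p, φ (σ p) = -φ p) (p : P) :
    stB φ q1 q2 μ (σ p) = fun i => -stB φ q1 q2 μ p i := by
  funext i
  simp only [stB, bb, h1, h2, hφ]
  rw [show μ * -φ p = -(μ * φ p) by ring, Real.cos_neg, Real.sin_neg]; ring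

theorem stY_eqv (ha : ∀ p, a (σ p) = a p) (hX : ∀ i p, X i (σ p) = X i p)
    (h1 : ∀ i p, q1 i (σ p) = q1 i p) (h2 : ∀ i p, q2 i (σ p) = -q2 i p)
    (hφ : ∀ p, φ (σ p) = -φ p) (i : Fin 4) (p : P) :
    stY a φ X q1 q2 μ i (σ p) = stY a φ X q1 q2 μ i p := by
  simp only [stY, stN_eqv h1 h2 hφ, ha, hX]

theorem st_eqv (hσ : Eqv S σ) (hXs : ∀ i, RS S (X i)) (hφs : RS S φ)
    (hYs : ∀ i, RS S (stY a φ X q1 q2 μ i))
    (ha : ∀ p, a (σ p) = a p) (hX : ∀ i p, X i (σ p) = X i p)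
    (h1 : ∀ i p, q1 i (σ p) = q1 i p) (h2 : ∀ i p, q2 i (σ p) = -q2 i p)
    (hφ : ∀ p, φ (σ p) = -φ p) :
    (∀ i p, stP1 S a φ X q1 q2 μ i (σ p) = stP1 S a φ X q1 q2 μ i p) ∧
      ∀ i p, stP2 S a φ X q1 q2 μ i (σ p) = -stP2 S a φ X q1 q2 μ i p := by
  have hx : ∀ p, xx S X (σ p) = xx S X p := fun p => by
    funext j i; exact RD_eqv hσ (hXs i) (hX i) j p
  have hy : ∀ p, xx S (stY a φ X q1 q2 μ) (σ p) = xx S (stY a φ X q1 q2 μ) p := fun p => by
    funext j i; exact RD_eqv hσ (hYs i) (stY_eqv ha hX h1 h2 hφ i) j p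
  have hf : ∀ p, (fun j => RD S j φ (σ p)) = fun j => -RD S j φ p := fun p => by
    funext j; exact RD_eqv' hσ hφs hφ j p
  have hM : ∀ p, stM S a φ X q1 q2 μ (σ p) = fun i => -stM S a φ X q1 q2 μ p i := fun p => by
    have : mm (xx S X (σ p)) (fun j => RD S j φ (σ p)) (a (σ p)) (stB φ q1 q2 μ (σ p)) =
        fun i => -mm (xx S X p) (fun j => RD S j φ p) (a p) (stB φ q1 q2 μ p) i := by
      funext i
      simp only [mm, hx, hf, ha, stB_eqv h1 h2 hφ, sol_neg]; ring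
    simp only [stM]
    rw [this, unit_neg]
  have hV1 : ∀ p, stV1 S a φ X q1 q2 μ (σ p) = stV1 S a φ X q1 q2 μ p := fun p => by
    simp only [stV1, hy, stN_eqv h1 h2 hφ]
  have hV2 : ∀ p, stV2 S a φ X q1 q2 μ (σ p) = fun i => -stV2 S a φ X q1 q2 μ p i := fun p => by
    funext i
    simp only [stV2, vv, hy, hM]
    have : (fun j => ip (xx S (stY a φ X q1 q2 μ) p j) (fun i => -stM S a φ X q1 q2 μ p i)) =
        fun j => -ip (xx S (stY a φ X q1 q2 μ) p j) (stM S a φ X q1 q2 μ p) := by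
      funext j; simp only [ip, mul_neg, Finset.sum_neg_distrib]
    rw [this, sol_neg]; ring
  refine ⟨fun i p => ?_, fun i p => ?_⟩
  · simp only [stP1, hV1]
  · simp only [stP2, hV1, hV2]
    have : gs (stV1 S a φ X q1 q2 μ p) (fun i => -stV2 S a φ X q1 q2 μ p i) =
        fun i => -gs (stV1 S a φ X q1 q2 μ p) (stV2 S a φ X q1 q2 μ p) i := by
      funext i
      have : ip (fun i => -stV2 S a φ X q1 q2 μ p i) (stV1 S a φ X q1 q2 μ p) =
          -ip (stV2 S a φ X q1 q2 μ p) (stV1 S a φ X q1 q2 μ p) := by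
        simp only [ip, neg_mul, Finset.sum_neg_distrib]
      simp only [gs, this]; ring
    rw [this, unit_neg]

end eqv

end Vale.Agent.P205.TW
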