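import Vale.Agent.P205.TW.DataM

/-!
P205, scheme T1W, data block on `M`: decomposition of positive tensors into primitive ones,
`T j k = ∑ a² D_j φ D_k φ`, with local unit sections of a line field near the supports.
-/

noncomputable section

set_option linter.unusedSectionVars false

open scoped Manifold ContDiff Topology RealInnerProductSpace
open Set Filter

namespace Vale.Agent.P205.TW.Data

open Vale.Agent.P205.F

/-- the four covectors -/
def cvec (s : ℝ) : Fin 4 → Fin 2 → ℝ := ![![1, s], ![0, 1], ![1, s + 1], ![1, s - 1]]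

/-- the coefficients of `A dx² + 2 B dx dy + C dy²` in the four covectors -/
def lco (s k A B C : ℝ) : Fin 4 → ℝ :=
  ![A - 2 * k, C - 2 * B * s + A * s ^ 2 - 2 * k, k + (B - A * s) / 2, k - (B - A * s) / 2]

lemma lco_sum (s k A B C x0 x1 y0 y1 : ℝ) :
    ∑ m, lco s k A B C m * ((cvec s m 0 * x0 + cvec s m 1 * x1) *
      (cvec s m 0 * y0 + cvec s m 1 * y1)) =
      A * (x0 * y0) + B * (x0 * y1 + x1 * y0) + C * (x1 * y1) := by
  simp only [Fin.sum_univ_four, lco, cvec, Matrix.cons_val]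
  ring

lemma lco_pos {A B C : ℝ} (hA : 0 < A) (hd : 0 < A * C - B ^ 2) :
    ∃ s k : ℝ, ∀ m, 0 < lco s k A B C m := by
  have h1 : 0 < C - B ^ 2 / A := by
    rw [sub_pos, div_lt_iff₀ hA]
    linarith
  refine ⟨B / A, min A (C - B ^ 2 / A) / 4, ?_⟩
  have h2 : 0 < min A (C - B ^ 2 / A) := lt_min hA h1
  have h3 := min_le_left A (C - B ^ 2 / A)
  have h4 := min_le_right A (C - B ^ 2 / A)
  have h5 : B - A * (B / A) = 0 := by
    field_simp
    ring
  have h6 : C - 2 * B * (B / A) + A * (B / A) ^ 2 = C - B ^ 2 / A := by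
    field_simp
    ring
  intro m
  fin_cases m
  · show 0 < A - 2 * (min A (C - B ^ 2 / A) / 4)
    linarith
  · show 0 < C - 2 * B * (B / A) + A * (B / A) ^ 2 - 2 * (min A (C - B ^ 2 / A) / 4)
    rw [h6]
    linarith
  · show 0 < min A (C - B ^ 2 / A) / 4 + (B - A * (B / A)) / 2
    rw [h5]
    linarith
  · show 0 < min A (C - B ^ 2 / A) / 4 - (B - A * (B / A)) / 2
    rw [h5]
    linarith

section prim

variable {E : Type*} [NormedAddCommGroup E] [NormedSpace ℝ E]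
  {M : Type*} [TopologicalSpace M] [ChartedSpace E M] [IsManifold 𝓘(ℝ, E) ∞ M]
  (K : Cov E M) (b : Module.Basis (Fin 2) ℝ E)
  {W : Type*} [NormedAddCommGroup W] [InnerProductSpace ℝ W]

/-- the cut-off coordinates of the chart `i` -/
def crdM (i : Fin K.n) (a : Fin 2) (p : M) : ℝ := K.χ i p * crdE b 0 1 a (K.ph i p)

lemma contMDiff_crdM (i : Fin K.n) (a : Fin 2) :
    ContMDiff 𝓘(ℝ, E) 𝓘(ℝ, ℝ) ∞ (crdM K b i a) := by
  refine contMDiff_of_tsupport fun p hp => ?_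
  have h1 : p ∈ (K.ph i).source := K.tsupport_sub i (tsupport_mul_subset_left hp)
  have h2 : ContMDiffOn 𝓘(ℝ, E) 𝓘(ℝ, E) ∞ (K.ph i) (K.ph i).source := by
    have := contMDiffOn_extChartAt (I := 𝓘(ℝ, E)) (n := ∞) (x := K.c i)
    rwa [← extChartAt_source 𝓘(ℝ, E)] at this
  have h3 : ContMDiffAt 𝓘(ℝ, E) 𝓘(ℝ, ℝ) ∞ (fun p => crdE b 0 1 a (K.ph i p)) p :=
    ((contDiff_crdE b 0 1 a).contMDiff.comp_contMDiffOn h2).contMDiffAt
      ((K.isOpen_source i).mem_nhds h1)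
  exact (K.sm i).contMDiffAt.mul h3

lemma Dv_crdM {i : Fin K.n} {p : M} (hp : p ∈ K.V i) (a a' : Fin 2) :
    K.Dv b (i, a') (crdM K b i a) p = if a = a' then 1 else 0 := by
  have h1 := Dv_loc K b hp (u := crdM K b i a) (g := crdE b 0 1 a) (by
    filter_upwards [(K.opn i).mem_nhds hp] with q hq
    show K.χ i q * _ = _
    rw [K.one i q hq, one_mul]) a'
  rw [h1, fderiv_crdE]
  simp

/-- all derivatives on `V i` in terms of the coordinates -/
lemma Dv_expand {F : Type*} [NormedAddCommGroup F] [NormedSpace ℝ F] {i : Fin K.n} {p : M}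
    (hp : p ∈ K.V i) (j : Fin K.n × Fin 2) {u : M → F}
    (hu : ContMDiff 𝓘(ℝ, E) 𝓘(ℝ, F) ∞ u) :
    K.Dv b j u p = K.Dv b j (crdM K b i 0) p • K.Dv b (i, 0) u p +
      K.Dv b j (crdM K b i 1) p • K.Dv b (i, 1) u p := by
  have h1 := K.X_span b (K.V_sub i hp) (K.X b j p)
  rw [K.one i p hp, one_smul, Fin.sum_univ_two] at h1
  have key : ∀ (L : E →L[ℝ] F) (r s : ℝ)
      (x y z : E), x = r • y + s • z → L x = r • L y + s • L z := by
    intro L r s x y z h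
    rw [h, map_add, map_smul, map_smul]
  have key0 : ∀ (L : E →L[ℝ] ℝ) (r s : ℝ)
      (x y z : E), x = r • y + s • z → L x = r • L y + s • L z := by
    intro L r s x y z h
    rw [h, map_add, map_smul, map_smul]
  have h2 : ∀ a, K.Dv b j (crdM K b i a) p =
      (b.repr (mfderiv 𝓘(ℝ, E) 𝓘(ℝ, E) (K.ph i) p (K.X b j p) : E) a) := by
    intro a
    have h3 := key0 (mfderiv 𝓘(ℝ, E) 𝓘(ℝ, ℝ) (crdM K b i a) p) _ _ _ _ _ h1
    have e0 := K.Dv_eq b (contMDiff_crdM K b i a) j p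
    have e1 := K.Dv_eq b (contMDiff_crdM K b i a) (i, 0) p
    have e2 := K.Dv_eq b (contMDiff_crdM K b i a) (i, 1) p
    have h4 : K.Dv b j (crdM K b i a) p =
        (b.repr (mfderiv 𝓘(ℝ, E) 𝓘(ℝ, E) (K.ph i) p (K.X b j p) : E) 0) •
          K.Dv b (i, 0) (crdM K b i a) p +
        (b.repr (mfderiv 𝓘(ℝ, E) 𝓘(ℝ, E) (K.ph i) p (K.X b j p) : E) 1) •
          K.Dv b (i, 1) (crdM K b i a) p := by
      rw [e0, e1, e2]
      exact h3
    rw [h4, Dv_crdM K b hp, Dv_crdM K b hp]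
    fin_cases a <;> simp
  rw [h2, h2, K.Dv_eq b hu, K.Dv_eq b hu, K.Dv_eq b hu]
  exact key (mfderiv 𝓘(ℝ, E) 𝓘(ℝ, F) u p) _ _ _ _ _ h1

/-- linearity of the derivations -/
lemma Dv_lin2 {x y : M → ℝ} (hx : ContMDiff 𝓘(ℝ, E) 𝓘(ℝ, ℝ) ∞ x)
    (hy : ContMDiff 𝓘(ℝ, E) 𝓘(ℝ, ℝ) ∞ y) (r s : ℝ) (j : Fin K.n × Fin 2) (p : M) :
    K.Dv b j (fun p => r * x p + s * y p) p = r * K.Dv b j x p + s * K.Dv b j y p := by
  have h1 := Dv_smul K b (f := fun _ => r) (u := x) contMDiff_const hx j p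
  have h2 := Dv_smul K b (f := fun _ => s) (u := y) contMDiff_const hy j p
  have h3 := congrFun (K.Dv_add b (u := fun p => r • x p) (v := fun p => s • y p)
    (contMDiff_const.mul hx) (contMDiff_const.mul hy) j) p
  rw [K.Dv_const b j r] at h1
  rw [K.Dv_const b j s] at h2
  rw [Pi.add_apply, h1, h2] at h3
  simp only [Pi.zero_apply, zero_mul, zero_add, smul_eq_mul] at h3
  exact h3

/-- the tensors under consideration -/
structure TenM (T : Fin K.n × Fin 2 → Fin K.n × Fin 2 → M → ℝ) : Prop where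
  sm : ∀ j k, ContMDiff 𝓘(ℝ, E) 𝓘(ℝ, ℝ) ∞ (T j k)
  symm : ∀ j k p, T j k p = T k j p
  rel : ∀ p (c : Fin K.n × Fin 2 → ℝ), (∀ u : M → ℝ, ContMDiff 𝓘(ℝ, E) 𝓘(ℝ, ℝ) ∞ u →
    ∑ j, c j * K.Dv b j u p = 0) → ∀ k, ∑ j, c j * T j k p = 0
  pos : ∀ p (ξ : Fin K.n × Fin 2 → ℝ), (∃ u : M → ℝ, ContMDiff 𝓘(ℝ, E) 𝓘(ℝ, ℝ) ∞ u ∧
    ∑ j, ξ j * K.Dv b j u p ≠ 0) → 0 < ∑ j, ∑ k, T j k p * ξ j * ξ k

variable {T : Fin K.n × Fin 2 → Fin K.n × Fin 2 → M → ℝ}

lemma TenM.row (hT : TenM K b T) {i : Fin K.n} {p : M} (hp : p ∈ K.V i)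
    (j k : Fin K.n × Fin 2) : T j k p = K.Dv b j (crdM K b i 0) p * T (i, 0) k p +
      K.Dv b j (crdM K b i 1) p * T (i, 1) k p := by
  classical
  have h := hT.rel p (fun l => (if l = j then 1 else 0) -
    (K.Dv b j (crdM K b i 0) p * (if l = (i, 0) then 1 else 0) +
      K.Dv b j (crdM K b i 1) p * (if l = (i, 1) then 1 else 0))) (by
      intro u hu
      have h1 := Dv_expand K b hp j hu
      simp only [sub_mul, add_mul, mul_assoc, Finset.sum_sub_distrib, Finset.sum_add_distrib,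
        ← Finset.mul_sum, ite_mul, one_mul, zero_mul, Finset.sum_ite_eq', Finset.mem_univ, if_true]
      rw [h1]
      simp only [smul_eq_mul]
      ring) k
  simp only [sub_mul, add_mul, mul_assoc, Finset.sum_sub_distrib, Finset.sum_add_distrib,
    ← Finset.mul_sum, ite_mul, one_mul, zero_mul, Finset.sum_ite_eq', Finset.mem_univ, if_true] at h
  linarith

lemma TenM.expand (hT : TenM K b T) {i : Fin K.n} {p : M} (hp : p ∈ K.V i)
    (j k : Fin K.n × Fin 2) : T j k p =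
      T (i, 0) (i, 0) p * (K.Dv b j (crdM K b i 0) p * K.Dv b k (crdM K b i 0) p) +
      T (i, 0) (i, 1) p * (K.Dv b j (crdM K b i 0) p * K.Dv b k (crdM K b i 1) p +
        K.Dv b j (crdM K b i 1) p * K.Dv b k (crdM K b i 0) p) +
      T (i, 1) (i, 1) p * (K.Dv b j (crdM K b i 1) p * K.Dv b k (crdM K b i 1) p) := by
  have h1 := hT.row K b hp j k
  have h2 := hT.row K b hp k (i, 0)
  have h3 := hT.row K b hp k (i, 1)
  rw [h1, hT.symm (i, 0) k, hT.symm (i, 1) k, h2, h3, hT.symm (i, 1) (i, 0)]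
  ring

lemma sum_two {n : ℕ} (i : Fin n) (r s : ℝ) (f : Fin n × Fin 2 → ℝ) :
    ∑ j, (if j.1 = i then (if j.2 = 0 then r else s) else 0) * f j =
      r * f (i, 0) + s * f (i, 1) := by
  rw [sum_one i]
  · simp
  · intro j hj
    rw [if_neg hj, zero_mul]

lemma TenM.pos2 (hT : TenM K b T) {i : Fin K.n} {p : M} (hp : p ∈ K.V i) :
    0 < T (i, 0) (i, 0) p ∧
      0 < T (i, 0) (i, 0) p * T (i, 1) (i, 1) p - T (i, 0) (i, 1) p ^ 2 := by
  have hgen : ∀ r s : ℝ, (r ≠ 0 ∨ s ≠ 0) → 0 < T (i, 0) (i, 0) p * r ^ 2 +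
      2 * T (i, 0) (i, 1) p * (r * s) + T (i, 1) (i, 1) p * s ^ 2 := by
    intro r s hrs
    have h1 := hT.pos p (fun j => if j.1 = i then (if j.2 = 0 then r else s) else 0) (by
      rcases hrs with h | h
      · refine ⟨crdM K b i 0, contMDiff_crdM K b i 0, ?_⟩
        rw [sum_two, Dv_crdM K b hp, Dv_crdM K b hp]
        simpa using h
      · refine ⟨crdM K b i 1, contMDiff_crdM K b i 1, ?_⟩
        rw [sum_two, Dv_crdM K b hp, Dv_crdM K b hp]
        simpa using h)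
    have h2 : ∀ j : Fin K.n × Fin 2, ∑ k, T j k p *
        (if j.1 = i then (if j.2 = 0 then r else s) else 0) *
        (if k.1 = i then (if k.2 = 0 then r else s) else 0) =
        (if j.1 = i then (if j.2 = 0 then r else s) else 0) *
          (r * T j (i, 0) p + s * T j (i, 1) p) := by
      intro j
      rw [← sum_two i r s (fun k => T j k p), Finset.mul_sum]
      apply Finset.sum_congr rfl
      intro k _
      ring
    simp only [h2] at h1
    rw [sum_two i r s, hT.symm (i, 1) (i, 0)] at h1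
    linarith [h1]
  have hA : 0 < T (i, 0) (i, 0) p := by
    have := hgen 1 0 (Or.inl one_ne_zero)
    linarith
  refine ⟨hA, ?_⟩
  have h1 := hgen (T (i, 0) (i, 1) p) (- T (i, 0) (i, 0) p) (Or.inr (neg_ne_zero.2 hA.ne'))
  have h2 : T (i, 0) (i, 0) p * T (i, 0) (i, 1) p ^ 2 +
      2 * T (i, 0) (i, 1) p * (T (i, 0) (i, 1) p * - T (i, 0) (i, 0) p) +
      T (i, 1) (i, 1) p * (- T (i, 0) (i, 0) p) ^ 2 = T (i, 0) (i, 0) p *
        (T (i, 0) (i, 0) p * T (i, 1) (i, 1) p - T (i, 0) (i, 1) p ^ 2) := by ring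
  rw [h2] at h1
  exact (mul_pos_iff_of_pos_left hA).1 h1

/-- local form of the decomposition -/
lemma TenM.local [T2Space M] (hT : TenM K b T) {N : M → W → Prop} (hN : LineM E N) (p0 : M) :
    ∃ O : Set M, IsOpen O ∧ p0 ∈ O ∧ ∃ (lam φ : Fin 4 → M → ℝ) (ν : M → W),
      (∀ m, ContMDiff 𝓘(ℝ, E) 𝓘(ℝ, ℝ) ∞ (lam m)) ∧ (∀ m, ContMDiff 𝓘(ℝ, E) 𝓘(ℝ, ℝ) ∞ (φ m)) ∧
      ContMDiff 𝓘(ℝ, E) 𝓘(ℝ, W) ∞ ν ∧ Sec N ν ∧ (∀ q ∈ O, ⟪ν q, ν q⟫ = 1) ∧
      (∀ q ∈ O, ∀ m, 0 < lam m q) ∧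
      ∀ q ∈ O, ∀ j k, T j k q = ∑ m, lam m q * (K.Dv b j (φ m) q * K.Dv b k (φ m) q) := by
  have : FiniteDimensional ℝ E := b.finiteDimensional_of_finite
  obtain ⟨i, hi⟩ := K.cov p0
  obtain ⟨hA, hd⟩ := hT.pos2 K b hi
  obtain ⟨s, k, hsk⟩ := lco_pos hA hd
  let lam : Fin 4 → M → ℝ := fun m q =>
    lco s k (T (i, 0) (i, 0) q) (T (i, 0) (i, 1) q) (T (i, 1) (i, 1) q) m
  have slam : ∀ m, ContMDiff 𝓘(ℝ, E) 𝓘(ℝ, ℝ) ∞ (lam m) := by
    have a := hT.sm (i, 0) (i, 0)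
    have b' := hT.sm (i, 0) (i, 1)
    have c := hT.sm (i, 1) (i, 1)
    have hc : ∀ r : ℝ, ContMDiff 𝓘(ℝ, E) 𝓘(ℝ, ℝ) ∞ (fun _ : M => r) := fun r => contMDiff_const
    intro m
    fin_cases m
    · exact a.sub (hc (2 * k))
    · exact ((c.sub (((hc 2).mul b').mul (hc s))).add (a.mul (hc (s ^ 2)))).sub (hc (2 * k))
    · exact (hc k).add ((b'.sub (a.mul (hc s))).div_const 2)
    · exact (hc k).sub ((b'.sub (a.mul (hc s))).div_const 2)
  obtain ⟨ν0, O0, hO0, hpO0, hν0, hN0⟩ := hN.loc p0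
  -- a bump function
  have hbump := (SmoothBumpFunction.nhds_basis_support (I := 𝓘(ℝ, E)) (c := p0)
    (hO0.mem_nhds hpO0)).ex_mem
  obtain ⟨f, hf⟩ := hbump
  have hev : ∀ᶠ q in 𝓝 p0, q ∈ K.V i ∧ q ∈ O0 ∧ f q = 1 ∧ ∀ m, 0 < lam m q := by
    have e1 : ∀ᶠ q in 𝓝 p0, q ∈ K.V i := (K.opn i).mem_nhds hi
    have e2 : ∀ᶠ q in 𝓝 p0, q ∈ O0 := hO0.mem_nhds hpO0
    have e3 : ∀ᶠ q in 𝓝 p0, f q = 1 := f.eventuallyEq_one
    have e4 : ∀ᶠ q in 𝓝 p0, ∀ m, 0 < lam m q := by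
      rw [Filter.eventually_all]
      intro m
      exact (slam m).continuous.continuousAt.eventually (lt_mem_nhds (hsk m))
    exact e1.and (e2.and (e3.and e4))
  obtain ⟨O, hO, hOo, hp0⟩ := eventually_nhds_iff.1 hev
  refine ⟨O, hOo, hp0, lam, fun m q => cvec s m 0 * crdM K b i 0 q + cvec s m 1 * crdM K b i 1 q,
    fun q => f q • ν0 q, slam, ?_, f.contMDiff.smul hν0, ?_, ?_, ?_, ?_⟩
  · intro m
    exact (contMDiff_const.mul (contMDiff_crdM K b i 0)).add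
      (contMDiff_const.mul (contMDiff_crdM K b i 1))
  · intro p n hn
    by_cases hfp : f p = 0
    · simp [hfp]
    · have hpO : p ∈ O0 := hf (subset_tsupport _ hfp)
      have h1 := (hN0 p hpO n).1 hn
      have h2 := hN.unit p n hn
      have h3 : ν0 p = ⟪ν0 p, n⟫ • n := by
        rcases h1 with h1 | h1
        · rw [← h1, h2, one_smul]
        · have : ν0 p = - n := by rw [h1, neg_neg]
          rw [this, inner_neg_left, h2]
          simp
      rw [inner_smul_left]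
      simp only [conj_trivial]
      rw [mul_smul, ← h3]
  · intro q hq
    obtain ⟨-, h2, h3, -⟩ := hO q hq
    simp only [h3, one_smul]
    exact hN.unit q _ ((hN0 q h2 _).2 (Or.inl rfl))
  · intro q hq m
    exact (hO q hq).2.2.2 m
  · intro q hq j l
    obtain ⟨h1, -, -, -⟩ := hO q hq
    have h4 : ∀ m (j : Fin K.n × Fin 2), K.Dv b j (fun q => cvec s m 0 * crdM K b i 0 q +
        cvec s m 1 * crdM K b i 1 q) q =
        cvec s m 0 * K.Dv b j (crdM K b i 0) q + cvec s m 1 * K.Dv b j (crdM K b i 1) q := by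
      intro m j
      exact Dv_lin2 K b (contMDiff_crdM K b i 0) (contMDiff_crdM K b i 1) _ _ j q
    simp only [h4]
    rw [lco_sum, hT.expand K b h1 j l]

/-- **PRIM on `M`** -/
theorem exists_prim [T2Space M] [CompactSpace M] (hT : TenM K b T) {N : M → W → Prop}
    (hN : LineM E N) :
    ∃ (n : ℕ) (a φ : Fin n → M → ℝ) (ν : Fin n → M → W),
      (∀ m, ContMDiff 𝓘(ℝ, E) 𝓘(ℝ, ℝ) ∞ (a m)) ∧ (∀ m, ContMDiff 𝓘(ℝ, E) 𝓘(ℝ, ℝ) ∞ (φ m)) ∧
      (∀ m, ContMDiff 𝓘(ℝ, E) 𝓘(ℝ, W) ∞ (ν m)) ∧ (∀ m, Sec N (ν m)) ∧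
      (∀ m p, a m p ≠ 0 → ∀ᶠ q in 𝓝 p, ⟪ν m q, ν m q⟫ = 1) ∧
      ∀ j k p, T j k p = ∑ m, a m p ^ 2 * (K.Dv b j (φ m) p * K.Dv b k (φ m) p) := by
  classical
  have : FiniteDimensional ℝ E := b.finiteDimensional_of_finite
  choose O hO hpO lam φ ν slam sφ sν secν ν1 lpos hdec using hT.local K b hN
  have hbump : ∀ p0 : M, ∃ f : SmoothBumpFunction 𝓘(ℝ, E) p0, tsupport f ⊆ O p0 := fun p0 =>
    (SmoothBumpFunction.nhds_basis_support (I := 𝓘(ℝ, E)) (c := p0)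
      ((hO p0).mem_nhds (hpO p0))).ex_mem
  choose f hf using hbump
  obtain ⟨t, ht⟩ := CompactSpace.elim_nhds_subcover (fun p : M => Function.support (f p))
    (fun p => (f p).support_mem_nhds)
  let s : M → ℝ := fun q => ∑ p ∈ t, f p q ^ 2
  have hs : ∀ q, 0 < s q := by
    intro q
    have hq : q ∈ ⋃ p ∈ t, Function.support (f p) := by rw [ht]; trivial
    simp only [mem_iUnion] at hq
    obtain ⟨p, hp, hqp⟩ := hq
    apply Finset.sum_pos' (fun p _ => sq_nonneg _)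
    exact ⟨p, hp, lt_of_le_of_ne (sq_nonneg _) (Ne.symm (pow_ne_zero 2 hqp))⟩
  have ss : ContMDiff 𝓘(ℝ, E) 𝓘(ℝ, ℝ) ∞ s :=
    contMDiff_finsetSum fun p _ => (f p).contMDiff.pow 2
  let a : M → Fin 4 → M → ℝ := fun p m q => f p q * (√(lam p m q) * (√(s q))⁻¹)
  have sa : ∀ p m, ContMDiff 𝓘(ℝ, E) 𝓘(ℝ, ℝ) ∞ (a p m) := by
    intro p m
    refine contMDiff_of_tsupport fun q hq => ?_
    have h1 : q ∈ O p := hf p (tsupport_mul_subset_left hq)
    have h2 : ContMDiffAt 𝓘(ℝ, E) 𝓘(ℝ, ℝ) ∞ (fun q => √(lam p m q)) q :=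
      (Real.contDiffAt_sqrt (lpos p q h1 m).ne').contMDiffAt.comp q (slam p m).contMDiffAt
    have h3 : ContMDiffAt 𝓘(ℝ, E) 𝓘(ℝ, ℝ) ∞ (fun q => (√(s q))⁻¹) q := by
      have h4 : ContMDiffAt 𝓘(ℝ, E) 𝓘(ℝ, ℝ) ∞ (fun q => √(s q)) q :=
        (Real.contDiffAt_sqrt (hs q).ne').contMDiffAt.comp q ss.contMDiffAt
      exact (contDiffAt_inv ℝ (Real.sqrt_pos.2 (hs q)).ne').contMDiffAt.comp q h4
    exact (f p).contMDiff.contMDiffAt.mul (h2.mul h3)
  have hasq : ∀ p m q, f p q ≠ 0 → a p m q ^ 2 = f p q ^ 2 / s q * lam p m q := by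
    intro p m q hq
    have h1 : q ∈ O p := hf p (subset_tsupport _ hq)
    show (f p q * (√(lam p m q) * (√(s q))⁻¹)) ^ 2 = _
    rw [mul_pow, mul_pow, inv_pow, Real.sq_sqrt (lpos p q h1 m).le, Real.sq_sqrt (hs q).le]
    field_simp
  let e := Fintype.equivFin (t × Fin 4)
  refine ⟨Fintype.card (t × Fin 4), fun l => a (e.symm l).1 (e.symm l).2,
    fun l => φ (e.symm l).1 (e.symm l).2, fun l => ν (e.symm l).1, fun l => sa _ _,
    fun l => sφ _ _, fun l => sν _, fun l => secν _, ?_, ?_⟩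
  · intro l q hq
    have h1 : f (e.symm l).1 q ≠ 0 := by
      intro h
      apply hq
      show f (e.symm l).1 q * _ = 0
      rw [h, zero_mul]
    have h2 : q ∈ O (e.symm l).1 := hf _ (subset_tsupport _ h1)
    filter_upwards [(hO _).mem_nhds h2] with q' hq'
    exact ν1 _ q' hq'
  · intro j k q
    rw [e.symm.sum_comp (fun x : t × Fin 4 => a x.1 x.2 q ^ 2 *
      (K.Dv b j (φ x.1 x.2) q * K.Dv b k (φ x.1 x.2) q)), Fintype.sum_prod_type]
    have h1 : ∀ x : t, ∑ m, a x m q ^ 2 * (K.Dv b j (φ x m) q * K.Dv b k (φ x m) q) =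
        f (x : M) q ^ 2 / s q * T j k q := by
      intro x
      by_cases hx : f (x : M) q = 0
      · rw [hx]
        simp only [ne_eq, OfNat.ofNat_ne_zero, not_false_eq_true, zero_pow, zero_div, zero_mul]
        apply Finset.sum_eq_zero
        intro m _
        have : a x m q = 0 := by
          show f (x : M) q * _ = 0
          rw [hx, zero_mul]
        rw [this]
        ring
      · have h2 : q ∈ O x := hf _ (subset_tsupport _ hx)
        rw [hdec x q h2 j k, Finset.mul_sum]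
        apply Finset.sum_congr rfl
        intro m _
        rw [hasq x m q hx]
        ring
    simp only [h1]
    rw [← Finset.sum_mul, ← Finset.sum_div]
    have h3 : ∑ x : t, f (x : M) q ^ 2 = s q := Finset.sum_coe_sort t (fun p => f p q ^ 2)
    rw [h3, div_self (hs q).ne', one_mul]

end prim

end Vale.Agent.P205.TW.Data
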