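import Vale.Agent.P205.TW.PsiMfd

/-!
Local smooth unit normals and the generic twisted phase as a smooth normal field.
-/

open MeasureTheory Set Filter Module
open scoped Topology ContDiff Manifold RealInnerProductSpace

noncomputable section

namespace Vale.Agent.P205.TW

section loc

variable {E E' W : Type*}
  [NormedAddCommGroup E] [NormedSpace ℝ E]
  [NormedAddCommGroup E'] [NormedSpace ℝ E'] [FiniteDimensional ℝ E']
  [NormedAddCommGroup W] [InnerProductSpace ℝ W] [FiniteDimensional ℝ W]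

/-- local smooth unit normals of a smooth family of hyperplanes -/
theorem exists_local_normal {U : Set E} (hU : IsOpen U) {T : E → (E' →L[ℝ] W)}
    (hT : ContDiffOn ℝ ∞ T U) {x0 : E} (hx0 : x0 ∈ U) (hinj : Function.Injective (T x0))
    (hdim : finrank ℝ W = finrank ℝ E' + 1) :
    ∃ U' : Set E, IsOpen U' ∧ U' ⊆ U ∧ x0 ∈ U' ∧ ∃ n : E → W, ContDiffOn ℝ ∞ n U' ∧
      ∀ x ∈ U', ‖n x‖ = 1 ∧ ∀ v, ⟪n x, T x v⟫ = 0 := by
  classical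
  -- a vector outside the range
  have hlt : finrank ℝ (LinearMap.range (T x0 : E' →ₗ[ℝ] W)) < finrank ℝ W := by
    rw [LinearMap.finrank_range_of_inj hinj, hdim]
    omega
  obtain ⟨w0, hw0⟩ : ∃ w0 : W, w0 ∉ LinearMap.range (T x0 : E' →ₗ[ℝ] W) := by
    by_contra h
    push Not at h
    have : LinearMap.range (T x0 : E' →ₗ[ℝ] W) = ⊤ := (Submodule.eq_top_iff').2 h
    rw [this, finrank_top] at hlt
    exact lt_irrefl _ hlt
  set A : E → ((E' × ℝ) →L[ℝ] W) := fun x =>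
    (T x).comp (ContinuousLinearMap.fst ℝ E' ℝ) +
      (ContinuousLinearMap.snd ℝ E' ℝ).smulRight w0 with hA
  have hAa : ∀ x z, A x z = T x z.1 + z.2 • w0 := fun x z => rfl
  have hAs : ContDiffOn ℝ ∞ A U := by
    have h1 : ContDiff ℝ ∞ (fun S : E' →L[ℝ] W => S.comp (ContinuousLinearMap.fst ℝ E' ℝ)) :=
      ((ContinuousLinearMap.compL ℝ (E' × ℝ) E' W).flip (ContinuousLinearMap.fst ℝ E' ℝ)).contDiff
    exact (h1.comp_contDiffOn hT).add contDiffOn_const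
  have hinjA : Function.Injective (A x0) := by
    rw [injective_iff_map_eq_zero]
    rintro ⟨v, r⟩ hz
    rw [hAa] at hz
    simp only at hz
    have hr : r = 0 := by
      by_contra hr
      refine hw0 ⟨-(r⁻¹ • v), ?_⟩
      have h1 : T x0 v = -(r • w0) := eq_neg_of_add_eq_zero_left hz
      simp [h1, smul_smul, hr]
    simp only [hr, zero_smul, add_zero] at hz
    have hv : v = 0 := hinj (by rw [hz, map_zero])
    rw [hr, hv]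
    rfl
  have hfin : finrank ℝ (E' × ℝ) = finrank ℝ W := by
    rw [Module.finrank_prod, hdim]
    simp
  obtain ⟨e0, he0⟩ : ∃ e0 : (E' × ℝ) ≃L[ℝ] W, (e0 : (E' × ℝ) →L[ℝ] W) = A x0 := by
    refine ⟨(LinearEquiv.ofInjectiveOfFinrankEq (A x0 : (E' × ℝ) →ₗ[ℝ] W) hinjA
      hfin).toContinuousLinearEquiv, ?_⟩
    ext z <;> rfl
  have hopen : ∀ᶠ x in 𝓝 x0, ∃ e : (E' × ℝ) ≃L[ℝ] W, (e : (E' × ℝ) →L[ℝ] W) = A x := by
    have hAc : ContinuousAt A x0 := hAs.continuousOn.continuousAt (hU.mem_nhds hx0)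
    have h1 : range ((↑) : ((E' × ℝ) ≃L[ℝ] W) → ((E' × ℝ) →L[ℝ] W)) ∈ 𝓝 (A x0) := by
      rw [← he0]
      exact ContinuousLinearEquiv.nhds e0
    exact hAc h1
  obtain ⟨U', hU'sub, hU'o, hx0'⟩ := mem_nhds_iff.1 (Filter.inter_mem (hU.mem_nhds hx0) hopen)
  set ν : E → (W →L[ℝ] ℝ) := fun x =>
    (ContinuousLinearMap.snd ℝ E' ℝ).comp (ContinuousLinearMap.inverse (A x)) with hν
  have hνs : ContDiffOn ℝ ∞ ν U' := by
    intro x hx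
    obtain ⟨e, he⟩ := (hU'sub hx).2
    have h1 : ContDiffAt ℝ ∞ ContinuousLinearMap.inverse (A x) := by
      rw [← he]
      exact contDiffAt_map_inverse e
    have h2 : ContDiffAt ℝ ∞ A x := hAs.contDiffAt (hU.mem_nhds (hU'sub hx).1)
    have h3 : ContDiff ℝ ∞ (fun S : W →L[ℝ] (E' × ℝ) =>
        (ContinuousLinearMap.snd ℝ E' ℝ).comp S) :=
      (ContinuousLinearMap.compL ℝ W (E' × ℝ) ℝ (ContinuousLinearMap.snd ℝ E' ℝ)).contDiff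
    exact ((h3.contDiffAt.comp x (h1.comp x h2))).contDiffWithinAt
  have hν0 : ∀ x ∈ U', (∀ v, ν x (T x v) = 0) ∧ ν x w0 = 1 := by
    intro x hx
    obtain ⟨e, he⟩ := (hU'sub hx).2
    have hinv : ContinuousLinearMap.inverse (A x) = (e.symm : W →L[ℝ] (E' × ℝ)) := by
      rw [← he]
      exact ContinuousLinearMap.inverse_equiv e
    constructor
    · intro v
      have h1 : T x v = e (v, 0) := by
        have : e (v, 0) = A x (v, 0) := by rw [← he]; rfl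
        rw [this, hAa]
        simp
      simp only [hν]
      rw [hinv, h1]
      simp
    · have h1 : w0 = e (0, 1) := by
        have : e (0, 1) = A x (0, 1) := by rw [← he]; rfl
        rw [this, hAa]
        simp
      simp only [hν]
      rw [hinv]
      conv_lhs => rw [h1]
      simp
  set N : E → W := fun x => (InnerProductSpace.toDual ℝ W).symm (ν x) with hN
  have hNs : ContDiffOn ℝ ∞ N U' :=
    (InnerProductSpace.toDual ℝ W).symm.toContinuousLinearEquiv.contDiff.comp_contDiffOn hνs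
  have hNi : ∀ x w, ⟪N x, w⟫ = ν x w := fun x w => InnerProductSpace.toDual_symm_apply
  have hN0 : ∀ x ∈ U', N x ≠ 0 := by
    intro x hx h0
    have h1 := hNi x w0
    rw [h0, inner_zero_left, (hν0 x hx).2] at h1
    exact zero_ne_one h1
  refine ⟨U', hU'o, fun x hx => (hU'sub hx).1, hx0', fun x => ‖N x‖⁻¹ • N x, ?_, ?_⟩
  · intro x hx
    have h1 : ContDiffAt ℝ ∞ N x := hNs.contDiffAt (hU'o.mem_nhds hx)
    have h2 : ContDiffAt ℝ ∞ (fun x => ‖N x‖) x := h1.norm ℝ (hN0 x hx)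
    exact ((h2.inv (norm_ne_zero_iff.2 (hN0 x hx))).smul h1).contDiffWithinAt
  · intro x hx
    refine ⟨?_, fun v => ?_⟩
    · rw [norm_smul, norm_inv, norm_norm, inv_mul_cancel₀ (norm_ne_zero_iff.2 (hN0 x hx))]
    · rw [real_inner_smul_left, hNi, (hν0 x hx).1, mul_zero]

end loc

section mfd

variable {E W : Type*}
  [NormedAddCommGroup E] [NormedSpace ℝ E] [FiniteDimensional ℝ E]
  [NormedAddCommGroup W] [InnerProductSpace ℝ W] [FiniteDimensional ℝ W]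
  {M : Type*} [TopologicalSpace M] [ChartedSpace E M] [IsManifold 𝓘(ℝ, E) ∞ M]

/-- transport of local unit normals from the chart to the manifold -/
theorem exists_local_normal_chart {E' : Type*} [NormedAddCommGroup E'] [NormedSpace ℝ E']
    [FiniteDimensional ℝ E'] (p0 : M) {T : E → (E' →L[ℝ] W)}
    (hT : ContDiffOn ℝ ∞ T (extChartAt 𝓘(ℝ, E) p0).target)
    (hinj : Function.Injective (T (extChartAt 𝓘(ℝ, E) p0 p0)))
    (hdim : finrank ℝ W = finrank ℝ E' + 1) :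
    ∃ V : Set M, IsOpen V ∧ V ⊆ (extChartAt 𝓘(ℝ, E) p0).source ∧ p0 ∈ V ∧ ∃ m : M → W,
      ContMDiffOn 𝓘(ℝ, E) 𝓘(ℝ, W) ∞ m V ∧
      ∀ p ∈ V, ‖m p‖ = 1 ∧ ∀ v, ⟪m p, T (extChartAt 𝓘(ℝ, E) p0 p) v⟫ = 0 := by
  set φ := extChartAt 𝓘(ℝ, E) p0 with hφ
  obtain ⟨U', hU'o, hU's, hx0, n, hn, hn'⟩ := exists_local_normal
    (isOpen_extChartAt_target p0) hT (mem_extChartAt_target p0) hinj hdim
  refine ⟨φ.source ∩ φ ⁻¹' U', ?_, inter_subset_left, ⟨mem_extChartAt_source p0, hx0⟩,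
    n ∘ φ, ?_, ?_⟩
  · exact (continuousOn_extChartAt p0).isOpen_inter_preimage (isOpen_extChartAt_source p0) hU'o
  · have h1 : ContMDiffOn 𝓘(ℝ, E) 𝓘(ℝ, E) ∞ φ φ.source := by
      rw [hφ, extChartAt_source]
      exact contMDiffOn_extChartAt
    exact (contMDiffOn_iff_contDiffOn.2 hn).comp (h1.mono inter_subset_left) (fun y hy => hy.2)
  · intro p hp
    exact hn' (φ p) hp.2

/-- the differential in the chart -/
theorem mfderiv_eq_chart {F0 : M → W} (hF : ContMDiff 𝓘(ℝ, E) 𝓘(ℝ, W) ∞ F0) {p0 p : M}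
    (hp : p ∈ (extChartAt 𝓘(ℝ, E) p0).source) (v : TangentSpace 𝓘(ℝ, E) p) :
    mfderiv 𝓘(ℝ, E) 𝓘(ℝ, W) F0 p v =
      fderiv ℝ (F0 ∘ (extChartAt 𝓘(ℝ, E) p0).symm) (extChartAt 𝓘(ℝ, E) p0 p)
        (mfderiv 𝓘(ℝ, E) 𝓘(ℝ, E) (extChartAt 𝓘(ℝ, E) p0) p v) := by
  set φ := extChartAt 𝓘(ℝ, E) p0 with hφ
  have hp' : p ∈ (chartAt E p0).source := by rwa [hφ, extChartAt_source] at hp
  have hpt : φ p ∈ φ.target := φ.map_source hp
  have hφd : MDifferentiableAt 𝓘(ℝ, E) 𝓘(ℝ, E) φ p :=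
    (contMDiffAt_extChartAt' (n := ∞) hp').mdifferentiableAt (by simp)
  have hφsd : MDifferentiableAt 𝓘(ℝ, E) 𝓘(ℝ, E) φ.symm (φ p) := by
    have h1 : ContMDiffOn 𝓘(ℝ, E) 𝓘(ℝ, E) ∞ φ.symm φ.target := contMDiffOn_extChartAt_symm p0
    exact (h1.contMDiffAt (extChartAt_target_mem_nhds' hpt)).mdifferentiableAt (by simp)
  have hFd : MDifferentiableAt 𝓘(ℝ, E) 𝓘(ℝ, W) F0 (φ.symm (φ p)) :=
    hF.contMDiffAt.mdifferentiableAt (by simp)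
  have hg : MDifferentiableAt 𝓘(ℝ, E) 𝓘(ℝ, W) (F0 ∘ φ.symm) (φ p) := hFd.comp _ hφsd
  have h1 : mfderiv 𝓘(ℝ, E) 𝓘(ℝ, W) ((F0 ∘ φ.symm) ∘ φ) p =
      (mfderiv 𝓘(ℝ, E) 𝓘(ℝ, W) (F0 ∘ φ.symm) (φ p)).comp (mfderiv 𝓘(ℝ, E) 𝓘(ℝ, E) φ p) :=
    mfderiv_comp p hg hφd
  have h2 : (F0 ∘ φ.symm) ∘ φ =ᶠ[𝓝 p] F0 := by
    have h3 : φ.source ∈ 𝓝 p := extChartAt_source_mem_nhds' hp
    filter_upwards [h3] with q hq
    simp [φ.left_inv hq]
  rw [← h2.mfderiv_eq, h1, mfderiv_eq_fderiv]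
  rfl

/-- the differential in the chart, from the chart side -/
theorem fderiv_chart_eq {F0 : M → W} {p0 p : M} (hF : MDifferentiableAt 𝓘(ℝ, E) 𝓘(ℝ, W) F0 p)
    (hp : p ∈ (extChartAt 𝓘(ℝ, E) p0).source) (v : E) :
    fderiv ℝ (F0 ∘ (extChartAt 𝓘(ℝ, E) p0).symm) (extChartAt 𝓘(ℝ, E) p0 p) v =
      mfderiv 𝓘(ℝ, E) 𝓘(ℝ, W) F0 p
        (mfderiv 𝓘(ℝ, E) 𝓘(ℝ, E) (extChartAt 𝓘(ℝ, E) p0).symm
          (extChartAt 𝓘(ℝ, E) p0 p) v : E) := by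
  set φ := extChartAt 𝓘(ℝ, E) p0 with hφ
  have hpt : φ p ∈ φ.target := φ.map_source hp
  have hs : φ.symm (φ p) = p := φ.left_inv hp
  have hφsd : MDifferentiableAt 𝓘(ℝ, E) 𝓘(ℝ, E) φ.symm (φ p) := by
    have h1 : ContMDiffOn 𝓘(ℝ, E) 𝓘(ℝ, E) ∞ φ.symm φ.target := contMDiffOn_extChartAt_symm p0
    exact (h1.contMDiffAt (extChartAt_target_mem_nhds' hpt)).mdifferentiableAt (by simp)
  have hF' : MDifferentiableAt 𝓘(ℝ, E) 𝓘(ℝ, W) F0 (φ.symm (φ p)) := by rw [hs]; exact hF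
  have h1 := mfderiv_comp (φ p) hF' hφsd
  rw [← mfderiv_eq_fderiv, h1]
  rw [hs]
  rfl

/-- the differential of the chart expression is injective -/
theorem fderiv_chart_injective {F0 : M → W} (hF : ContMDiff 𝓘(ℝ, E) 𝓘(ℝ, W) ∞ F0)
    (hinj : ∀ p, Function.Injective (mfderiv 𝓘(ℝ, E) 𝓘(ℝ, W) F0 p)) (p : M) :
    Function.Injective (fderiv ℝ (F0 ∘ (extChartAt 𝓘(ℝ, E) p).symm)
      (extChartAt 𝓘(ℝ, E) p p)) := by
  set φ := extChartAt 𝓘(ℝ, E) p with hφ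
  have hp := mem_extChartAt_source (I := 𝓘(ℝ, E)) p
  have hp' : p ∈ (chartAt E p).source := mem_chart_source E p
  have hpt : φ p ∈ φ.target := φ.map_source hp
  have hφsd : MDifferentiableAt 𝓘(ℝ, E) 𝓘(ℝ, E) φ.symm (φ p) := by
    have h1 : ContMDiffOn 𝓘(ℝ, E) 𝓘(ℝ, E) ∞ φ.symm φ.target := contMDiffOn_extChartAt_symm p
    exact (h1.contMDiffAt (extChartAt_target_mem_nhds' hpt)).mdifferentiableAt (by simp)
  have hφd : MDifferentiableAt 𝓘(ℝ, E) 𝓘(ℝ, E) φ (φ.symm (φ p)) := by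
    rw [φ.left_inv hp]
    exact (contMDiffAt_extChartAt' (n := ∞) hp').mdifferentiableAt (by simp)
  have h3 := mfderiv_comp (φ p) hφd hφsd
  have h4 : φ ∘ φ.symm =ᶠ[𝓝 (φ p)] id := by
    filter_upwards [extChartAt_target_mem_nhds' hpt] with z hz
    exact φ.right_inv hz
  rw [h4.mfderiv_eq, mfderiv_id] at h3
  have h2 : Function.Injective (mfderiv 𝓘(ℝ, E) 𝓘(ℝ, E) φ.symm (φ p)) := by
    intro v w hvw
    have h5 := congrArg (fun T => T v) h3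
    have h6 := congrArg (fun T => T w) h3
    simp only [ContinuousLinearMap.comp_apply] at h5 h6
    rw [hvw] at h5
    exact h5.trans h6.symm
  intro v w hvw
  have hFd : MDifferentiableAt 𝓘(ℝ, E) 𝓘(ℝ, W) F0 p := hF.contMDiffAt.mdifferentiableAt (by simp)
  rw [fderiv_chart_eq hFd hp v, fderiv_chart_eq hFd hp w] at hvw
  exact h2 (hinj p hvw)

/-- local smooth unit normals of an immersion of codimension one -/
theorem exists_unit_normal3 (hdim : finrank ℝ W = finrank ℝ E + 1) {F0 : M → W}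
    (hF : ContMDiff 𝓘(ℝ, E) 𝓘(ℝ, W) ∞ F0)
    (hinj : ∀ p, Function.Injective (mfderiv 𝓘(ℝ, E) 𝓘(ℝ, W) F0 p)) (p0 : M) :
    ∃ V : Set M, IsOpen V ∧ p0 ∈ V ∧ ∃ m : M → W, ContMDiffOn 𝓘(ℝ, E) 𝓘(ℝ, W) ∞ m V ∧
      (∀ p ∈ V, ‖m p‖ = 1) ∧ ∀ p ∈ V, ∀ v, ⟪m p, mfderiv 𝓘(ℝ, E) 𝓘(ℝ, W) F0 p v⟫ = 0 := by
  set φ := extChartAt 𝓘(ℝ, E) p0 with hφ
  have hG : ContDiffOn ℝ ∞ (F0 ∘ φ.symm) φ.target :=
    contMDiffOn_iff_contDiffOn.1 (hF.comp_contMDiffOn (contMDiffOn_extChartAt_symm p0))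
  have hT : ContDiffOn ℝ ∞ (fderiv ℝ (F0 ∘ φ.symm)) φ.target :=
    hG.fderiv_of_isOpen (isOpen_extChartAt_target p0) (by simp)
  obtain ⟨V, hVo, hVs, hp0, m, hm, h⟩ := exists_local_normal_chart p0 hT
    (fderiv_chart_injective hF hinj p0) hdim
  refine ⟨V, hVo, hp0, m, hm, fun p hp => (h p hp).1, fun p hp v => ?_⟩
  rw [mfderiv_eq_chart hF (hVs hp) v]
  exact (h p hp).2 _

/-- local smooth unit normals, codimension two with a given nowhere zero normal field `ξ` -/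
theorem exists_unit_normal4 (hdim : finrank ℝ W = finrank ℝ E + 2) {F0 ξ : M → W}
    (hF : ContMDiff 𝓘(ℝ, E) 𝓘(ℝ, W) ∞ F0) (hξ : ContMDiff 𝓘(ℝ, E) 𝓘(ℝ, W) ∞ ξ)
    (hinj : ∀ p, Function.Injective (mfderiv 𝓘(ℝ, E) 𝓘(ℝ, W) F0 p)) (hξ0 : ∀ p, ξ p ≠ 0)
    (hξT : ∀ p v, ⟪ξ p, mfderiv 𝓘(ℝ, E) 𝓘(ℝ, W) F0 p v⟫ = 0) (p0 : M) :
    ∃ V : Set M, IsOpen V ∧ p0 ∈ V ∧ ∃ m : M → W, ContMDiffOn 𝓘(ℝ, E) 𝓘(ℝ, W) ∞ m V ∧
      (∀ p ∈ V, ‖m p‖ = 1) ∧ (∀ p ∈ V, ∀ v, ⟪m p, mfderiv 𝓘(ℝ, E) 𝓘(ℝ, W) F0 p v⟫ = 0) ∧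
      ∀ p ∈ V, ⟪m p, ξ p⟫ = 0 := by
  set φ := extChartAt 𝓘(ℝ, E) p0 with hφ
  have hp0s := mem_extChartAt_source (I := 𝓘(ℝ, E)) p0
  have hG : ContDiffOn ℝ ∞ (F0 ∘ φ.symm) φ.target :=
    contMDiffOn_iff_contDiffOn.1 (hF.comp_contMDiffOn (contMDiffOn_extChartAt_symm p0))
  have hX : ContDiffOn ℝ ∞ (ξ ∘ φ.symm) φ.target :=
    contMDiffOn_iff_contDiffOn.1 (hξ.comp_contMDiffOn (contMDiffOn_extChartAt_symm p0))
  have hT0 : ContDiffOn ℝ ∞ (fderiv ℝ (F0 ∘ φ.symm)) φ.target :=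
    hG.fderiv_of_isOpen (isOpen_extChartAt_target p0) (by simp)
  set T : E → ((E × ℝ) →L[ℝ] W) := fun x =>
    (fderiv ℝ (F0 ∘ φ.symm) x).comp (ContinuousLinearMap.fst ℝ E ℝ) +
      (ContinuousLinearMap.snd ℝ E ℝ).smulRight ((ξ ∘ φ.symm) x) with hTdef
  have hTa : ∀ x z, T x z = fderiv ℝ (F0 ∘ φ.symm) x z.1 + z.2 • (ξ ∘ φ.symm) x :=
    fun x z => rfl
  have hT : ContDiffOn ℝ ∞ T φ.target := by
    have h1 : ContDiff ℝ ∞ (fun S : E →L[ℝ] W => S.comp (ContinuousLinearMap.fst ℝ E ℝ)) :=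
      ((ContinuousLinearMap.compL ℝ (E × ℝ) E W).flip (ContinuousLinearMap.fst ℝ E ℝ)).contDiff
    have h2 : ContDiff ℝ ∞ (fun w : W => (ContinuousLinearMap.snd ℝ E ℝ).smulRight w) :=
      (ContinuousLinearMap.smulRightL ℝ (E × ℝ) W (ContinuousLinearMap.snd ℝ E ℝ)).contDiff
    exact (h1.comp_contDiffOn hT0).add (h2.comp_contDiffOn hX)
  have hsymm : φ.symm (φ p0) = p0 := φ.left_inv hp0s
  have hFd : MDifferentiableAt 𝓘(ℝ, E) 𝓘(ℝ, W) F0 p0 := hF.contMDiffAt.mdifferentiableAt (by simp)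
  have hinjT : Function.Injective (T (φ p0)) := by
    rw [injective_iff_map_eq_zero]
    rintro ⟨v, r⟩ hz
    rw [hTa] at hz
    simp only [Function.comp_apply, hsymm] at hz
    have h0 : ⟪ξ p0, fderiv ℝ (F0 ∘ φ.symm) (φ p0) v⟫ = 0 := by
      rw [fderiv_chart_eq hFd hp0s v]
      exact hξT p0 _
    have h1 : ⟪ξ p0, fderiv ℝ (F0 ∘ φ.symm) (φ p0) v + r • ξ p0⟫ = 0 := by
      rw [hz, inner_zero_right]
    rw [inner_add_right, h0, zero_add, real_inner_smul_right] at h1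
    have h2 : ⟪ξ p0, ξ p0⟫ ≠ 0 := by
      rw [real_inner_self_eq_norm_sq]
      exact pow_ne_zero 2 (norm_ne_zero_iff.2 (hξ0 p0))
    have hr : r = 0 := (mul_eq_zero.1 h1).resolve_right h2
    simp only [hr, zero_smul, add_zero] at hz
    have hv : v = 0 := fderiv_chart_injective hF hinj p0 (by rw [hz, map_zero])
    rw [hr, hv]
    rfl
  have hdim' : finrank ℝ W = finrank ℝ (E × ℝ) + 1 := by
    rw [Module.finrank_prod, hdim]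
    simp
  obtain ⟨V, hVo, hVs, hp0, m, hm, h⟩ := exists_local_normal_chart p0 hT hinjT hdim'
  refine ⟨V, hVo, hp0, m, hm, fun p hp => (h p hp).1, fun p hp v => ?_, fun p hp => ?_⟩
  · rw [mfderiv_eq_chart hF (hVs hp) v]
    have h1 := (h p hp).2 (mfderiv 𝓘(ℝ, E) 𝓘(ℝ, E) φ p v, 0)
    rw [hTa] at h1
    simp only [zero_smul, add_zero] at h1
    exact h1
  · have h1 := (h p hp).2 (0, 1)
    rw [hTa] at h1
    simp only [map_zero, zero_add, one_smul, Function.comp_apply] at h1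
    rwa [φ.left_inv (hVs hp)] at h1

/-- **the generic twisted phase as a smooth normal field**, general form -/
theorem exists_Psi_of_family [CompactSpace M] {F0 : M → W}
    (hF : ContMDiff 𝓘(ℝ, E) 𝓘(ℝ, W) ∞ F0)
    (hinj : ∀ p, Function.Injective (mfderiv 𝓘(ℝ, E) 𝓘(ℝ, W) F0 p))
    {ι : Type*} [Countable ι] {V : ι → Set M} (hV : ∀ i, IsOpen (V i)) (hcov : ∀ p, ∃ i, p ∈ V i)
    {m : ι → M → W} (hm : ∀ i, ContMDiffOn 𝓘(ℝ, E) 𝓘(ℝ, W) ∞ (m i) (V i))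
    (hunit : ∀ i, ∀ p ∈ V i, ‖m i p‖ = 1)
    (hsgn : ∀ i j, ∀ p ∈ V i, p ∈ V j → m j p = m i p ∨ m j p = -m i p) :
    ∃ (c : Par W) (Ψ : M → W), ContMDiff 𝓘(ℝ, E) 𝓘(ℝ, W) ∞ Ψ ∧
      (∀ i, ∀ p ∈ V i, Ψ p = psiM F0 (m i) c p • m i p) ∧
      {p : M | ∀ i, p ∈ V i → ∀ v, ⟪m i p, mfderiv 𝓘(ℝ, E) 𝓘(ℝ, W) Ψ p v⟫ = 0}.Finite := by
  classical
  let _ : MeasurableSpace (Par W) := borel _
  have : BorelSpace (Par W) := ⟨rfl⟩
  obtain ⟨c, hc⟩ := (ae_finite_crit' (MeasureTheory.Measure.addHaar (G := Par W)) hF hinj hV hcov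
    hm hunit hsgn).exists
  choose idx hidx using hcov
  set Ψ : M → W := fun p => psiM F0 (m (idx p)) c p • m (idx p) p with hΨ
  have hΨV : ∀ i, ∀ p ∈ V i, Ψ p = psiM F0 (m i) c p • m i p := by
    intro i p hp
    simp only [hΨ, psiM]
    rcases hsgn i (idx p) p hp (hidx p) with h | h
    · rw [h]
    · rw [h, inner_neg_left, neg_smul_neg]
  have hψsm : ∀ i, ContMDiffOn 𝓘(ℝ, E) 𝓘(ℝ, ℝ) ∞ (psiM F0 (m i) c) (V i) := fun i =>
    contMDiffOn_psiM hF (hm i) c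
  have hΨsm : ContMDiff 𝓘(ℝ, E) 𝓘(ℝ, W) ∞ Ψ := by
    intro p
    have h1 : ContMDiffOn 𝓘(ℝ, E) 𝓘(ℝ, W) ∞
        (fun q => psiM F0 (m (idx p)) c q • m (idx p) q) (V (idx p)) :=
      (hψsm (idx p)).smul (hm (idx p))
    have h2 := h1.contMDiffAt ((hV (idx p)).mem_nhds (hidx p))
    refine h2.congr_of_eventuallyEq ?_
    filter_upwards [(hV (idx p)).mem_nhds (hidx p)] with q hq
    exact hΨV (idx p) q hq
  refine ⟨c, Ψ, hΨsm, hΨV, hc.subset ?_⟩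
  intro p hp
  set i := idx p with hi
  have hpV : p ∈ V i := hidx p
  refine ⟨i, hpV, ?_⟩
  have hps := mem_extChartAt_source (I := 𝓘(ℝ, E)) p
  set φ := extChartAt 𝓘(ℝ, E) p with hφ
  have hsymm : φ.symm (φ p) = p := φ.left_inv hps
  have hmd : MDifferentiableAt 𝓘(ℝ, E) 𝓘(ℝ, ℝ) (psiM F0 (m i) c) p :=
    ((hψsm i).contMDiffAt ((hV i).mem_nhds hpV)).mdifferentiableAt (by simp)
  rw [mfderiv_eq_zero_iff hps hmd]
  -- smoothness in the chart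
  have hφs : ContMDiffAt 𝓘(ℝ, E) 𝓘(ℝ, E) ∞ φ.symm (φ p) :=
    (contMDiffOn_extChartAt_symm p).contMDiffAt (extChartAt_target_mem_nhds p)
  have hmc : DifferentiableAt ℝ (m i ∘ φ.symm) (φ p) := by
    have h1 : ContMDiffAt 𝓘(ℝ, E) 𝓘(ℝ, W) ∞ (m i) (φ.symm (φ p)) := by
      rw [hsymm]; exact (hm i).contMDiffAt ((hV i).mem_nhds hpV)
    exact (contMDiffAt_iff_contDiffAt.1 (h1.comp _ hφs)).differentiableAt (by simp)
  have hΨc : DifferentiableAt ℝ (Ψ ∘ φ.symm) (φ p) := by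
    have h1 : ContMDiffAt 𝓘(ℝ, E) 𝓘(ℝ, W) ∞ Ψ (φ.symm (φ p)) := hΨsm _
    exact (contMDiffAt_iff_contDiffAt.1 (h1.comp _ hφs)).differentiableAt (by simp)
  have hcont : ContinuousAt φ.symm (φ p) := hφs.continuousAt
  have hVn : φ.symm ⁻¹' V i ∈ 𝓝 (φ p) := by
    apply hcont
    rw [hsymm]
    exact (hV i).mem_nhds hpV
  have heq : psiM F0 (m i) c ∘ φ.symm =ᶠ[𝓝 (φ p)]
      fun y => ⟪(Ψ ∘ φ.symm) y, (m i ∘ φ.symm) y⟫ := by
    filter_upwards [hVn] with y hy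
    simp only [Function.comp_apply]
    rw [hΨV i _ hy, real_inner_smul_left, real_inner_self_eq_norm_sq, hunit i _ hy]
    simp
  have hone : (fun y => ⟪(m i ∘ φ.symm) y, (m i ∘ φ.symm) y⟫) =ᶠ[𝓝 (φ p)] fun _ => (1 : ℝ) := by
    filter_upwards [hVn] with y hy
    simp only [Function.comp_apply]
    rw [real_inner_self_eq_norm_sq, hunit i _ hy, one_pow]
  rw [heq.fderiv_eq]
  ext v
  rw [fderiv_inner_apply ℝ hΨc hmc v]
  have h3 : ⟪(m i ∘ φ.symm) (φ p), fderiv ℝ (m i ∘ φ.symm) (φ p) v⟫ = 0 := by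
    have h4 := fderiv_inner_apply ℝ hmc hmc v
    rw [hone.fderiv_eq] at h4
    simp only [fderiv_fun_const, Pi.zero_apply, zero_apply] at h4
    rw [real_inner_comm ((m i ∘ φ.symm) (φ p)) (fderiv ℝ (m i ∘ φ.symm) (φ p) v)] at h4
    linarith
  have h5 : ⟪(Ψ ∘ φ.symm) (φ p), fderiv ℝ (m i ∘ φ.symm) (φ p) v⟫ = 0 := by
    have h6 : (Ψ ∘ φ.symm) (φ p) = psiM F0 (m i) c p • (m i ∘ φ.symm) (φ p) := by
      simp only [Function.comp_apply, hsymm]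
      exact hΨV i p hpV
    rw [h6, real_inner_smul_left, h3, mul_zero]
  have h7 : ⟪fderiv ℝ (Ψ ∘ φ.symm) (φ p) v, (m i ∘ φ.symm) (φ p)⟫ = 0 := by
    have hΨd : MDifferentiableAt 𝓘(ℝ, E) 𝓘(ℝ, W) Ψ p :=
      (hΨsm p).mdifferentiableAt (by simp)
    rw [real_inner_comm, fderiv_chart_eq hΨd hps v]
    simp only [Function.comp_apply, hsymm]
    exact hp i hpV _
  rw [h5, h7]
  simp

/-- **PSI**, immersions into a three-dimensional space -/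
theorem exists_Psi3 [CompactSpace M] (hE : finrank ℝ E = 2) (hW : finrank ℝ W = 3) {F0 : M → W}
    (hF : ContMDiff 𝓘(ℝ, E) 𝓘(ℝ, W) ∞ F0)
    (hinj : ∀ p, Function.Injective (mfderiv 𝓘(ℝ, E) 𝓘(ℝ, W) F0 p)) :
    ∃ Ψ : M → W, ContMDiff 𝓘(ℝ, E) 𝓘(ℝ, W) ∞ Ψ ∧
      (∀ p v, ⟪Ψ p, mfderiv 𝓘(ℝ, E) 𝓘(ℝ, W) F0 p v⟫ = 0) ∧
      {p : M | ∀ n : W, ‖n‖ = 1 → (∀ v, ⟪n, mfderiv 𝓘(ℝ, E) 𝓘(ℝ, W) F0 p v⟫ = 0) →
        ∀ v, ⟪n, mfderiv 𝓘(ℝ, E) 𝓘(ℝ, W) Ψ p v⟫ = 0}.Finite := by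
  classical
  have hd : finrank ℝ W = finrank ℝ E + 1 := by rw [hE, hW]
  choose V hVo hpV m hm hu ho using exists_unit_normal3 hd hF hinj
  obtain ⟨t, -, ht⟩ := (isCompact_univ (X := M)).elim_nhds_subcover V
    fun x _ => (hVo x).mem_nhds (hpV x)
  obtain ⟨c, Ψ, h1, h2, h3⟩ := exists_Psi_of_family hF hinj (ι := t)
    (V := fun i => V i) (m := fun i => m i) (fun i => hVo i)
    (fun p => by
      obtain ⟨x, hx, hpx⟩ := mem_iUnion₂.1 (ht (mem_univ p))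
      exact ⟨⟨x, hx⟩, hpx⟩)
    (fun i => hm i) (fun i => hu i)
    (fun i j p hi hj => unit_normal_unique hE hW (T := mfderiv 𝓘(ℝ, E) 𝓘(ℝ, W) F0 p) (hinj p)
      (hu i p hi) (hu j p hj) (ho i p hi) (ho j p hj))
  refine ⟨Ψ, h1, fun p v => ?_, h3.subset ?_⟩
  · obtain ⟨x, hx, hpx⟩ := mem_iUnion₂.1 (ht (mem_univ p))
    have h4 := ho x p hpx v
    rw [h2 ⟨x, hx⟩ p hpx]
    exact (real_inner_smul_left _ _ _).trans (by rw [h4, mul_zero])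
  · intro p hp i hi v
    exact hp (m i p) (hu i p hi) (ho i p hi) v

/-- **PSI**, immersions into a four-dimensional space with a nowhere zero normal field -/
theorem exists_Psi4 [CompactSpace M] (hE : finrank ℝ E = 2) (hW : finrank ℝ W = 4)
    {F0 ξ : M → W} (hF : ContMDiff 𝓘(ℝ, E) 𝓘(ℝ, W) ∞ F0) (hξ : ContMDiff 𝓘(ℝ, E) 𝓘(ℝ, W) ∞ ξ)
    (hinj : ∀ p, Function.Injective (mfderiv 𝓘(ℝ, E) 𝓘(ℝ, W) F0 p)) (hξ0 : ∀ p, ξ p ≠ 0)
    (hξT : ∀ p v, ⟪ξ p, mfderiv 𝓘(ℝ, E) 𝓘(ℝ, W) F0 p v⟫ = 0) :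
    ∃ Ψ : M → W, ContMDiff 𝓘(ℝ, E) 𝓘(ℝ, W) ∞ Ψ ∧
      (∀ p v, ⟪Ψ p, mfderiv 𝓘(ℝ, E) 𝓘(ℝ, W) F0 p v⟫ = 0) ∧ (∀ p, ⟪Ψ p, ξ p⟫ = 0) ∧
      {p : M | ∀ n : W, ‖n‖ = 1 → (∀ v, ⟪n, mfderiv 𝓘(ℝ, E) 𝓘(ℝ, W) F0 p v⟫ = 0) →
        ⟪n, ξ p⟫ = 0 → ∀ v, ⟪n, mfderiv 𝓘(ℝ, E) 𝓘(ℝ, W) Ψ p v⟫ = 0}.Finite := by
  classical
  have hd : finrank ℝ W = finrank ℝ E + 2 := by rw [hE, hW]
  choose V hVo hpV m hm hu ho hx' using exists_unit_normal4 hd hF hξ hinj hξ0 hξT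
  obtain ⟨t, -, ht⟩ := (isCompact_univ (X := M)).elim_nhds_subcover V
    fun x _ => (hVo x).mem_nhds (hpV x)
  obtain ⟨c, Ψ, h1, h2, h3⟩ := exists_Psi_of_family hF hinj (ι := t)
    (V := fun i => V i) (m := fun i => m i) (fun i => hVo i)
    (fun p => by
      obtain ⟨x, hx, hpx⟩ := mem_iUnion₂.1 (ht (mem_univ p))
      exact ⟨⟨x, hx⟩, hpx⟩)
    (fun i => hm i) (fun i => hu i)
    (fun i j p hi hj => unit_normal_unique4 hE hW (T := mfderiv 𝓘(ℝ, E) 𝓘(ℝ, W) F0 p) (hinj p)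
      (hξ0 p) (hξT p) (hu i p hi) (hu j p hj) (ho i p hi) (ho j p hj) (hx' i p hi) (hx' j p hj))
  refine ⟨Ψ, h1, fun p v => ?_, fun p => ?_, h3.subset ?_⟩
  · obtain ⟨x, hx, hpx⟩ := mem_iUnion₂.1 (ht (mem_univ p))
    have h4 := ho x p hpx v
    rw [h2 ⟨x, hx⟩ p hpx]
    exact (real_inner_smul_left _ _ _).trans (by rw [h4, mul_zero])
  · obtain ⟨x, hx, hpx⟩ := mem_iUnion₂.1 (ht (mem_univ p))
    rw [h2 ⟨x, hx⟩ p hpx, real_inner_smul_left, hx' x p hpx, mul_zero]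
  · intro p hp i hi v
    exact hp (m i p) (hu i p hi) (ho i p hi) (hx' i p hi) v

end mfd

end Vale.Agent.P205.TW
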