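import Vale.Agent.P205.TW.Sard

/-!
Local form of the generic twisted phase: `ψ_c x = ⟪n x, a + B (G x)⟫`, `c = (a, B)`, has isolated
critical points for almost every `c`.
-/

open MeasureTheory Set Filter Module
open scoped Topology ContDiff RealInnerProductSpace

noncomputable section

namespace Vale.Agent.P205.TW

variable {E W : Type*}
  [NormedAddCommGroup E] [NormedSpace ℝ E] [FiniteDimensional ℝ E]
  [NormedAddCommGroup W] [InnerProductSpace ℝ W] [FiniteDimensional ℝ W]

/-- the parameters `c = (a, B)` -/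
abbrev Par (W : Type*) [NormedAddCommGroup W] [InnerProductSpace ℝ W] : Type _ := W × (W →L[ℝ] W)

/-- the twisted function with parameter `c` for the local normal field `n` -/
def psic (G n : E → W) (c : Par W) (x : E) : ℝ := ⟪n x, c.1 + c.2 (G x)⟫

/-- evaluation `c ↦ a + B w`, a continuous linear map -/
def evp (w : W) : Par W →L[ℝ] W :=
  ContinuousLinearMap.fst ℝ W (W →L[ℝ] W) +
    (ContinuousLinearMap.apply ℝ W w).comp (ContinuousLinearMap.snd ℝ W (W →L[ℝ] W))

@[simp] theorem evp_apply (w : W) (c : Par W) : evp w c = c.1 + c.2 w := rfl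

/-- evaluation `c ↦ B w` -/
def evl (w : W) : Par W →L[ℝ] W :=
  (ContinuousLinearMap.apply ℝ W w).comp (ContinuousLinearMap.snd ℝ W (W →L[ℝ] W))

@[simp] theorem evl_apply (w : W) (c : Par W) : evl w c = c.2 w := rfl

/-- the differential of `ψ_c` at `x` as a linear map of the parameter -/
def dpsi (G n : E → W) (x : E) (c : Par W) : E →L[ℝ] ℝ :=
  fderiv ℝ (psic G n c) x

theorem hasFDerivAt_psic {G n : E → W} {x : E} (c : Par W) (hG : DifferentiableAt ℝ G x)
    (hn : DifferentiableAt ℝ n x) (v : E) :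
    fderiv ℝ (psic G n c) x v =
      ⟪n x, c.2 (fderiv ℝ G x v)⟫ + ⟪fderiv ℝ n x v, c.1 + c.2 (G x)⟫ := by
  have h1 : DifferentiableAt ℝ (fun y => c.1 + c.2 (G y)) x :=
    (differentiableAt_const _).add (c.2.differentiableAt.comp x hG)
  have h2 : fderiv ℝ (fun y => c.1 + c.2 (G y)) x v = c.2 (fderiv ℝ G x v) := by
    have h3 : HasFDerivAt (fun y => c.1 + c.2 (G y)) (c.2.comp (fderiv ℝ G x)) x := by
      have := (c.2.hasFDerivAt (x := G x)).comp x hG.hasFDerivAt
      exact this.const_add c.1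
    rw [h3.fderiv]
    rfl
  have h4 := fderiv_inner_apply ℝ hn h1 v
  unfold psic
  rw [h4, h2]

/-- the linear map of the parameter -/
def Lpsi (G n : E → W) (x : E) : Par W →L[ℝ] (E →L[ℝ] ℝ) :=
  LinearMap.toContinuousLinearMap
    { toFun := fun c => (innerSL ℝ (n x)).comp (c.2.comp (fderiv ℝ G x)) +
        (innerSL ℝ (c.1 + c.2 (G x))).comp (fderiv ℝ n x)
      map_add' := by
        intro c d
        ext v
        simp only [Prod.snd_add, Prod.fst_add, add_apply,
          ContinuousLinearMap.comp_apply, innerSL_apply_apply, inner_add_left, inner_add_right]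
        ring
      map_smul' := by
        intro r c
        ext v
        simp only [Prod.smul_snd, Prod.smul_fst, add_apply,
          ContinuousLinearMap.comp_apply, innerSL_apply_apply, inner_add_left, inner_add_right,
          smul_apply, real_inner_smul_left, real_inner_smul_right,
          RingHom.id_apply, smul_eq_mul]
        ring }

theorem Lpsi_apply (G n : E → W) (x : E) (c : Par W) (v : E) :
    Lpsi G n x c v = ⟪n x, c.2 (fderiv ℝ G x v)⟫ + ⟪c.1 + c.2 (G x), fderiv ℝ n x v⟫ := rfl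

theorem Lpsi_eq {G n : E → W} {x : E} (c : Par W) (hG : DifferentiableAt ℝ G x)
    (hn : DifferentiableAt ℝ n x) : Lpsi G n x c = fderiv ℝ (psic G n c) x := by
  ext v
  rw [Lpsi_apply, hasFDerivAt_psic c hG hn v, real_inner_comm (c.1 + c.2 (G x))]

theorem Lpsi_surjective {G n : E → W} {x : E} (hinj : Function.Injective (fderiv ℝ G x))
    (hunit : ‖n x‖ = 1) : Function.Surjective (Lpsi G n x) := by
  intro ξ
  -- extend `ξ` to `W`
  obtain ⟨g, hg⟩ := LinearMap.exists_leftInverse_of_injective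
    (fderiv ℝ G x : E →ₗ[ℝ] W) (LinearMap.ker_eq_bot.2 hinj)
  set η : W →L[ℝ] ℝ := ξ.comp (LinearMap.toContinuousLinearMap g) with hη
  have h1 : ∀ v, η (fderiv ℝ G x v) = ξ v := by
    intro v
    have := congrArg (fun T => T v) hg
    simp only [LinearMap.comp_apply, LinearMap.id_apply, ContinuousLinearMap.coe_coe] at this
    simp [hη, this]
  refine ⟨(-(η (G x)) • n x, η.smulRight (n x)), ?_⟩
  ext v
  rw [Lpsi_apply]
  have h2 : (-(η (G x)) • n x, η.smulRight (n x)).1 +
      ((-(η (G x)) • n x, η.smulRight (n x)) : Par W).2 (G x) = 0 := by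
    simp [ContinuousLinearMap.smulRight_apply]
  rw [h2, inner_zero_left, add_zero]
  simp only [ContinuousLinearMap.smulRight_apply, real_inner_smul_right, h1]
  rw [real_inner_self_eq_norm_sq, hunit]
  simp

theorem contDiffOn_Lpsi {G n : E → W} {V : Set E} (hV : IsOpen V) (hG : ContDiffOn ℝ 2 G V)
    (hn : ContDiffOn ℝ 2 n V) : ContDiffOn ℝ 1 (Lpsi G n) V := by
  rw [contDiffOn_clm_apply]
  intro c
  rw [contDiffOn_clm_apply]
  intro v x hx
  have hGx : ContDiffAt ℝ 2 G x := hG.contDiffAt (hV.mem_nhds hx)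
  have hnx : ContDiffAt ℝ 2 n x := hn.contDiffAt (hV.mem_nhds hx)
  have hG1 : ContDiffAt ℝ 1 G x := hGx.of_le one_le_two
  have hn1 : ContDiffAt ℝ 1 n x := hnx.of_le one_le_two
  have hdG : ContDiffAt ℝ 1 (fderiv ℝ G) x := hGx.fderiv_right (m := 1) (by norm_num)
  have hdn : ContDiffAt ℝ 1 (fderiv ℝ n) x := hnx.fderiv_right (m := 1) (by norm_num)
  refine ContDiffAt.contDiffWithinAt ?_
  have h1 : ContDiffAt ℝ 1 (fun y => fderiv ℝ G y v) x := hdG.clm_apply contDiffAt_const
  have h2 : ContDiffAt ℝ 1 (fun y => fderiv ℝ n y v) x := hdn.clm_apply contDiffAt_const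
  have h3 : ContDiffAt ℝ 1 (fun y => c.2 (fderiv ℝ G y v)) x :=
    c.2.contDiff.contDiffAt.comp x h1
  have h4 : ContDiffAt ℝ 1 (fun y => c.1 + c.2 (G y)) x :=
    contDiffAt_const.add (c.2.contDiff.contDiffAt.comp x hG1)
  have h5 := (hn1.inner ℝ h3).add (h4.inner ℝ h2)
  exact h5

/-- **local generic statement** -/
theorem psi_generic_local [MeasurableSpace (Par W)] [BorelSpace (Par W)] (μ : Measure (Par W))
    [μ.IsAddHaarMeasure] {V : Set E} (hV : IsOpen V) {G n : E → W}
    (hG : ContDiffOn ℝ 2 G V) (hn : ContDiffOn ℝ 2 n V)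
    (hinj : ∀ x ∈ V, Function.Injective (fderiv ℝ G x)) (hunit : ∀ x ∈ V, ‖n x‖ = 1) :
    ∀ᵐ c ∂μ, ∀ x ∈ V, fderiv ℝ (psic G n c) x = 0 →
      ∀ᶠ y in 𝓝 x, fderiv ℝ (psic G n c) y = 0 → y = x := by
  have hdim : finrank ℝ (E →L[ℝ] ℝ) = finrank ℝ E := by
    have h1 : finrank ℝ (E →L[ℝ] ℝ) = finrank ℝ (E →ₗ[ℝ] ℝ) :=
      (LinearMap.toContinuousLinearMap (𝕜 := ℝ) (E := E) (F' := ℝ)).symm.finrank_eq
    rw [h1, Module.finrank_linearMap]
    simp
  filter_upwards [ae_isolated μ hdim hV (Lpsi G n) (contDiffOn_Lpsi hV hG hn)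
    (fun x hx => Lpsi_surjective (hinj x hx) (hunit x hx))] with c hc x hx h0
  have hd : ∀ y ∈ V, Lpsi G n y c = fderiv ℝ (psic G n c) y := by
    intro y hy
    exact Lpsi_eq c (((hG.contDiffAt (hV.mem_nhds hy))).differentiableAt two_ne_zero)
      (((hn.contDiffAt (hV.mem_nhds hy))).differentiableAt two_ne_zero)
  have h1 := hc x hx (by rw [hd x hx]; exact h0)
  filter_upwards [h1, hV.mem_nhds hx] with y hy hyV h2
  exact hy (by rw [hd y hyV]; exact h2)

end Vale.Agent.P205.TW
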