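import Vale.Agent.P205.TW.PsiLoc

/-!
Manifold form of the generic twisted phase.
-/

open MeasureTheory Set Filter Module
open scoped Topology ContDiff Manifold RealInnerProductSpace

noncomputable section

namespace Vale.Agent.P205.TW

variable {E W : Type*}
  [NormedAddCommGroup E] [NormedSpace ℝ E] [FiniteDimensional ℝ E]
  [NormedAddCommGroup W] [InnerProductSpace ℝ W] [FiniteDimensional ℝ W]
  {M : Type*} [TopologicalSpace M] [ChartedSpace E M] [IsManifold 𝓘(ℝ, E) ∞ M]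

theorem two_le_inf : (2 : ℕ∞ω) ≤ ∞ := WithTop.coe_le_coe.2 le_top

/-- the twisted function on the manifold for the local normal field `m` -/
def psiM (F0 m : M → W) (c : Par W) (p : M) : ℝ := ⟪m p, c.1 + c.2 (F0 p)⟫

theorem contMDiffOn_psiM {V : Set M} {F0 m : M → W} (hF : ContMDiff 𝓘(ℝ, E) 𝓘(ℝ, W) ∞ F0)
    (hm : ContMDiffOn 𝓘(ℝ, E) 𝓘(ℝ, W) ∞ m V) (c : Par W) :
    ContMDiffOn 𝓘(ℝ, E) 𝓘(ℝ, ℝ) ∞ (psiM F0 m c) V := by
  have h1 : ContMDiff 𝓘(ℝ, E) 𝓘(ℝ, W) ∞ (fun p => c.1 + c.2 (F0 p)) := by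
    have h2 : ContMDiff 𝓘(ℝ, E) 𝓘(ℝ, W) ∞ (fun p => c.2 (F0 p)) :=
      c.2.contMDiff.comp hF
    exact contMDiff_const.add h2
  have h3 : ContDiff ℝ ∞ (fun z : W × W => ⟪z.1, z.2⟫) := contDiff_inner
  have h4 : ContMDiffOn 𝓘(ℝ, E) 𝓘(ℝ, W × W) ∞ (fun p => (m p, c.1 + c.2 (F0 p))) V :=
    hm.prodMk_space h1.contMDiffOn
  exact (h3.contMDiff).comp_contMDiffOn h4

/-- the critical points of a function and of its chart expression -/
theorem mfderiv_eq_zero_iff {f : M → ℝ} {x p : M} (hp : p ∈ (extChartAt 𝓘(ℝ, E) x).source)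
    (hf : MDifferentiableAt 𝓘(ℝ, E) 𝓘(ℝ, ℝ) f p) :
    mfderiv 𝓘(ℝ, E) 𝓘(ℝ, ℝ) f p = 0 ↔
      fderiv ℝ (f ∘ (extChartAt 𝓘(ℝ, E) x).symm) (extChartAt 𝓘(ℝ, E) x p) = 0 := by
  set φ := extChartAt 𝓘(ℝ, E) x with hφ
  have hp' : p ∈ (chartAt E x).source := by rwa [extChartAt_source] at hp
  have hpt : φ p ∈ φ.target := φ.map_source hp
  have hs : φ.symm (φ p) = p := φ.left_inv hp
  have hφd : MDifferentiableAt 𝓘(ℝ, E) 𝓘(ℝ, E) φ p :=
    (contMDiffAt_extChartAt' (n := ∞) hp').mdifferentiableAt (by simp)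
  have hφsd : MDifferentiableAt 𝓘(ℝ, E) 𝓘(ℝ, E) φ.symm (φ p) := by
    have h1 : ContMDiffOn 𝓘(ℝ, E) 𝓘(ℝ, E) ∞ φ.symm φ.target := contMDiffOn_extChartAt_symm x
    have h2 : φ.target ∈ 𝓝 (φ p) := extChartAt_target_mem_nhds' hpt
    exact (h1.contMDiffAt h2).mdifferentiableAt (by simp)
  have hf' : MDifferentiableAt 𝓘(ℝ, E) 𝓘(ℝ, ℝ) f (φ.symm (φ p)) := by rw [hs]; exact hf
  have hg : MDifferentiableAt 𝓘(ℝ, E) 𝓘(ℝ, ℝ) (f ∘ φ.symm) (φ p) := hf'.comp _ hφsd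
  constructor
  · intro h
    have h1 := mfderiv_comp (φ p) hf' hφsd
    rw [hs, h] at h1
    rw [← mfderiv_eq_fderiv, h1]
    rfl
  · intro h
    have h1 : mfderiv 𝓘(ℝ, E) 𝓘(ℝ, ℝ) ((f ∘ φ.symm) ∘ φ) p =
        (mfderiv 𝓘(ℝ, E) 𝓘(ℝ, ℝ) (f ∘ φ.symm) (φ p)).comp (mfderiv 𝓘(ℝ, E) 𝓘(ℝ, E) φ p) :=
      mfderiv_comp p hg hφd
    have h2 : (f ∘ φ.symm) ∘ φ =ᶠ[𝓝 p] f := by
      have h3 : φ.source ∈ 𝓝 p := extChartAt_source_mem_nhds' hp
      filter_upwards [h3] with q hq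
      simp [φ.left_inv hq]
    rw [← h2.mfderiv_eq, h1, mfderiv_eq_fderiv, h]
    rfl

/-- **generic twisted functions have isolated critical points on `V`** -/
theorem ae_isolated_mfd [CompactSpace M] [MeasurableSpace (Par W)] [BorelSpace (Par W)]
    (μ : Measure (Par W)) [μ.IsAddHaarMeasure] {V : Set M} (hV : IsOpen V) {F0 m : M → W}
    (hF : ContMDiff 𝓘(ℝ, E) 𝓘(ℝ, W) ∞ F0)
    (hinj : ∀ p, Function.Injective (mfderiv 𝓘(ℝ, E) 𝓘(ℝ, W) F0 p))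
    (hm : ContMDiffOn 𝓘(ℝ, E) 𝓘(ℝ, W) ∞ m V) (hunit : ∀ p ∈ V, ‖m p‖ = 1) :
    ∀ᵐ c ∂μ, ∀ p ∈ V, mfderiv 𝓘(ℝ, E) 𝓘(ℝ, ℝ) (psiM F0 m c) p = 0 →
      ∀ᶠ q in 𝓝 p, mfderiv 𝓘(ℝ, E) 𝓘(ℝ, ℝ) (psiM F0 m c) q = 0 → q = p := by
  classical
  obtain ⟨t, -, ht⟩ := (isCompact_univ (X := M)).elim_nhds_subcover
    (fun x => (extChartAt 𝓘(ℝ, E) x).source) fun x _ => extChartAt_source_mem_nhds x
  have key : ∀ x : M, ∀ᵐ c ∂μ, ∀ p ∈ V ∩ (extChartAt 𝓘(ℝ, E) x).source,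
      mfderiv 𝓘(ℝ, E) 𝓘(ℝ, ℝ) (psiM F0 m c) p = 0 →
      ∀ᶠ q in 𝓝 p, mfderiv 𝓘(ℝ, E) 𝓘(ℝ, ℝ) (psiM F0 m c) q = 0 → q = p := by
    intro x
    set φ := extChartAt 𝓘(ℝ, E) x with hφ
    set U : Set E := φ.target ∩ φ.symm ⁻¹' V with hU
    have hUo : IsOpen U :=
      (continuousOn_extChartAt_symm x).isOpen_inter_preimage (isOpen_extChartAt_target x) hV
    have hsym : ContMDiffOn 𝓘(ℝ, E) 𝓘(ℝ, E) ∞ φ.symm φ.target := contMDiffOn_extChartAt_symm x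
    have hG : ContDiffOn ℝ 2 (F0 ∘ φ.symm) U := by
      have h1 : ContMDiffOn 𝓘(ℝ, E) 𝓘(ℝ, W) ∞ (F0 ∘ φ.symm) φ.target := hF.comp_contMDiffOn hsym
      exact ((contMDiffOn_iff_contDiffOn.1 h1).mono inter_subset_left).of_le two_le_inf
    have hn : ContDiffOn ℝ 2 (m ∘ φ.symm) U := by
      have h1 : ContMDiffOn 𝓘(ℝ, E) 𝓘(ℝ, W) ∞ (m ∘ φ.symm) U :=
        hm.comp (hsym.mono inter_subset_left) (fun y hy => hy.2)
      exact (contMDiffOn_iff_contDiffOn.1 h1).of_le two_le_inf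
    have hsd : ∀ y ∈ φ.target, MDifferentiableAt 𝓘(ℝ, E) 𝓘(ℝ, E) φ.symm y := fun y hy =>
      (hsym.contMDiffAt (extChartAt_target_mem_nhds' hy)).mdifferentiableAt (by simp)
    have hFd : ∀ q, MDifferentiableAt 𝓘(ℝ, E) 𝓘(ℝ, W) F0 q := fun q =>
      hF.contMDiffAt.mdifferentiableAt (by simp)
    have hinj' : ∀ y ∈ U, Function.Injective (fderiv ℝ (F0 ∘ φ.symm) y) := by
      intro y hy
      rw [← mfderiv_eq_fderiv, mfderiv_comp y (hFd _) (hsd y hy.1)]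
      have h2 : Function.Injective (mfderiv 𝓘(ℝ, E) 𝓘(ℝ, E) φ.symm y) := by
        -- left inverse
        have hsrc : φ.symm y ∈ φ.source := φ.map_target hy.1
        have hsrc' : φ.symm y ∈ (chartAt E x).source := by
          have := hsrc
          rwa [hφ, extChartAt_source] at this
        have hφd : MDifferentiableAt 𝓘(ℝ, E) 𝓘(ℝ, E) φ (φ.symm y) :=
          (contMDiffAt_extChartAt' (n := ∞) hsrc').mdifferentiableAt (by simp)
        have h3 := mfderiv_comp y hφd (hsd y hy.1)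
        have h4 : φ ∘ φ.symm =ᶠ[𝓝 y] id := by
          filter_upwards [extChartAt_target_mem_nhds' hy.1] with z hz
          exact φ.right_inv hz
        rw [h4.mfderiv_eq, mfderiv_id] at h3
        intro v w hvw
        have h5 := congrArg (fun T => T v) h3
        have h6 := congrArg (fun T => T w) h3
        simp only [ContinuousLinearMap.comp_apply] at h5 h6
        rw [hvw] at h5
        exact h5.trans h6.symm
      exact (hinj _).comp h2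
    have hunit' : ∀ y ∈ U, ‖(m ∘ φ.symm) y‖ = 1 := fun y hy => hunit _ hy.2
    filter_upwards [psi_generic_local μ hUo hG hn hinj' hunit'] with c hc p hp h0
    have hmd : ∀ q ∈ V, MDifferentiableAt 𝓘(ℝ, E) 𝓘(ℝ, ℝ) (psiM F0 m c) q := fun q hq =>
      ((contMDiffOn_psiM hF hm c).contMDiffAt (hV.mem_nhds hq)).mdifferentiableAt (by simp)
    have heq : psiM F0 m c ∘ φ.symm = psic (F0 ∘ φ.symm) (m ∘ φ.symm) c := rfl
    have hyU : φ p ∈ U := by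
      refine ⟨φ.map_source hp.2, ?_⟩
      change φ.symm (φ p) ∈ V
      rw [φ.left_inv hp.2]
      exact hp.1
    have h1 : fderiv ℝ (psic (F0 ∘ φ.symm) (m ∘ φ.symm) c) (φ p) = 0 := by
      rw [← heq]
      exact (mfderiv_eq_zero_iff hp.2 (hmd p hp.1)).1 h0
    have h2 := hc (φ p) hyU h1
    have hcont : ContinuousAt φ p := continuousAt_extChartAt' hp.2
    filter_upwards [hcont.eventually h2, hV.mem_nhds hp.1, extChartAt_source_mem_nhds' hp.2]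
      with q hq hqV hqs h3
    have h4 : fderiv ℝ (psic (F0 ∘ φ.symm) (m ∘ φ.symm) c) (φ q) = 0 := by
      rw [← heq]
      exact (mfderiv_eq_zero_iff hqs (hmd q hqV)).1 h3
    exact φ.injOn hqs hp.2 (hq h4)
  have h1 : ∀ᵐ c ∂μ, ∀ x ∈ t, ∀ p ∈ V ∩ (extChartAt 𝓘(ℝ, E) x).source,
      mfderiv 𝓘(ℝ, E) 𝓘(ℝ, ℝ) (psiM F0 m c) p = 0 →
      ∀ᶠ q in 𝓝 p, mfderiv 𝓘(ℝ, E) 𝓘(ℝ, ℝ) (psiM F0 m c) q = 0 → q = p :=
    (ae_ball_iff t.countable_toSet).2 fun x _ => key x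
  filter_upwards [h1] with c hc p hp h0
  obtain ⟨x, hx, hpx⟩ := mem_iUnion₂.1 (ht (mem_univ p))
  exact hc x hx p ⟨hp, hpx⟩ h0

/-- two unit vectors orthogonal to a plane in a three-dimensional space agree up to the sign -/
theorem unit_normal_unique (hE : finrank ℝ E = 2) (hW : finrank ℝ W = 3) {T : E →L[ℝ] W}
    (hT : Function.Injective T) {n n' : W} (hn : ‖n‖ = 1) (hn' : ‖n'‖ = 1)
    (h : ∀ v, ⟪n, T v⟫ = 0) (h' : ∀ v, ⟪n', T v⟫ = 0) : n' = n ∨ n' = -n := by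
  set R : Submodule ℝ W := LinearMap.range (T : E →ₗ[ℝ] W) with hR
  have hRf : finrank ℝ R = 2 := by
    rw [hR, LinearMap.finrank_range_of_inj hT, hE]
  have hperp : finrank ℝ Rᗮ = 1 := by
    have h1 := Submodule.finrank_add_finrank_orthogonal R
    omega
  have hnR : n ∈ Rᗮ := by
    rw [Submodule.mem_orthogonal']
    rintro u ⟨v, rfl⟩
    exact h v
  have hnR' : n' ∈ Rᗮ := by
    rw [Submodule.mem_orthogonal']
    rintro u ⟨v, rfl⟩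
    exact h' v
  have hn0 : (⟨n, hnR⟩ : Rᗮ) ≠ 0 := by
    intro h0
    have : n = 0 := congrArg Subtype.val h0
    rw [this, norm_zero] at hn
    exact zero_ne_one hn
  obtain ⟨r, hr⟩ := (finrank_eq_one_iff_of_nonzero' (⟨n, hnR⟩ : Rᗮ) hn0).1 hperp ⟨n', hnR'⟩
  have hr' : r • n = n' := congrArg Subtype.val hr
  have hr1 : |r| = 1 := by
    have := congrArg norm hr'
    rw [norm_smul, hn, hn', mul_one] at this
    simpa using this
  rcases abs_eq (zero_le_one) |>.1 hr1 with h1 | h1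
  · left
    rw [← hr', h1, one_smul]
  · right
    rw [← hr', h1, neg_smul, one_smul]

/-- two continuous unit fields which agree up to the sign at every point agree up to a constant
sign near every point -/
theorem unit_sign_local {n n' : M → W} {V V' : Set M}
    (hV : IsOpen V) (hV' : IsOpen V') (hn : ContinuousOn n V) (hn' : ContinuousOn n' V')
    (h1 : ∀ p ∈ V, ‖n p‖ = 1) (halt : ∀ p ∈ V, p ∈ V' → n' p = n p ∨ n' p = -n p) {p : M}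
    (hp : p ∈ V) (hp' : p ∈ V') : (n' =ᶠ[𝓝 p] n) ∨ (n' =ᶠ[𝓝 p] fun q => -n q) := by
  have hc : ContinuousAt (fun q => ⟪n' q, n q⟫) p :=
    (hn'.continuousAt (hV'.mem_nhds hp')).inner (hn.continuousAt (hV.mem_nhds hp))
  have hnb : V ∩ V' ∈ 𝓝 p := inter_mem (hV.mem_nhds hp) (hV'.mem_nhds hp')
  have hself : ∀ q ∈ V, ⟪n q, n q⟫ = 1 := fun q hq => by
    rw [real_inner_self_eq_norm_sq, h1 q hq, one_pow]
  rcases halt p hp hp' with h | h
  · left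
    have hpos : (0 : ℝ) < ⟪n' p, n p⟫ := by rw [h, hself p hp]; exact one_pos
    filter_upwards [hnb, hc.eventually (lt_mem_nhds hpos)] with q hq hq2
    rcases halt q hq.1 hq.2 with h3 | h3
    · exact h3
    · rw [h3, inner_neg_left, hself q hq.1] at hq2
      linarith
  · right
    have hneg : ⟪n' p, n p⟫ < (0 : ℝ) := by
      rw [h, inner_neg_left, hself p hp]; norm_num
    filter_upwards [hnb, hc.eventually (gt_mem_nhds hneg)] with q hq hq2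
    rcases halt q hq.1 hq.2 with h3 | h3
    · rw [h3, hself q hq.1] at hq2
      linarith
    · exact h3

/-- the critical points do not depend on the local normal field -/
theorem mfderiv_psiM_congr {F0 n n' : M → W} {c : Par W} {p : M}
    (h : (n' =ᶠ[𝓝 p] n) ∨ (n' =ᶠ[𝓝 p] fun q => -n q)) :
    mfderiv 𝓘(ℝ, E) 𝓘(ℝ, ℝ) (psiM F0 n c) p = 0 ↔
      mfderiv 𝓘(ℝ, E) 𝓘(ℝ, ℝ) (psiM F0 n' c) p = 0 := by
  rcases h with h | h
  · have h1 : psiM F0 n' c =ᶠ[𝓝 p] psiM F0 n c := by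
      filter_upwards [h] with q hq
      simp only [psiM, hq]
    rw [h1.mfderiv_eq]
    exact Iff.rfl
  · have h1 : psiM F0 n' c =ᶠ[𝓝 p] fun q => -psiM F0 n c q := by
      filter_upwards [h] with q hq
      simp only [psiM, hq, inner_neg_left]
    rw [h1.mfderiv_eq]
    have h2 : mfderiv 𝓘(ℝ, E) 𝓘(ℝ, ℝ) (-psiM F0 n c) p =
        -mfderiv 𝓘(ℝ, E) 𝓘(ℝ, ℝ) (psiM F0 n c) p := mfderiv_neg
    have h3 : (fun q => -psiM F0 n c q) = -psiM F0 n c := rfl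
    rw [h3, h2]
    exact (neg_eq_zero).symm

/-- the four-dimensional case: unit vectors orthogonal to a plane and to a normal vector -/
theorem unit_normal_unique4 (hE : finrank ℝ E = 2) (hW : finrank ℝ W = 4) {T : E →L[ℝ] W}
    (hT : Function.Injective T) {ξ n n' : W} (hξ : ξ ≠ 0) (hξT : ∀ v, ⟪ξ, T v⟫ = 0)
    (hn : ‖n‖ = 1) (hn' : ‖n'‖ = 1)
    (h : ∀ v, ⟪n, T v⟫ = 0) (h' : ∀ v, ⟪n', T v⟫ = 0) (hx : ⟪n, ξ⟫ = 0) (hx' : ⟪n', ξ⟫ = 0) :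
    n' = n ∨ n' = -n := by
  set T' : (E × ℝ) →L[ℝ] W :=
    T.comp (ContinuousLinearMap.fst ℝ E ℝ) +
      (ContinuousLinearMap.snd ℝ E ℝ).smulRight ξ with hT'
  have hT'a : ∀ z, T' z = T z.1 + z.2 • ξ := fun z => rfl
  have hinj : Function.Injective T' := by
    rw [injective_iff_map_eq_zero]
    rintro ⟨v, r⟩ hz
    rw [hT'a] at hz
    have h1 : ⟪ξ, T v + r • ξ⟫ = 0 := by
      simp only at hz
      rw [hz, inner_zero_right]
    rw [inner_add_right, hξT, zero_add, real_inner_smul_right] at h1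
    have h2 : ⟪ξ, ξ⟫ ≠ 0 := by
      rw [real_inner_self_eq_norm_sq]
      exact pow_ne_zero 2 (norm_ne_zero_iff.2 hξ)
    have hr : r = 0 := (mul_eq_zero.1 h1).resolve_right h2
    simp only [hr, zero_smul, add_zero] at hz
    have hv : v = 0 := hT (by rw [hz, map_zero])
    rw [hr, hv]
    rfl
  set R : Submodule ℝ W := LinearMap.range (T' : E × ℝ →ₗ[ℝ] W) with hR
  have hRf : finrank ℝ R = 3 := by
    rw [hR, LinearMap.finrank_range_of_inj hinj, Module.finrank_prod, hE]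
    simp
  have hperp : finrank ℝ Rᗮ = 1 := by
    have h1 := Submodule.finrank_add_finrank_orthogonal R
    omega
  have hnR : n ∈ Rᗮ := by
    rw [Submodule.mem_orthogonal']
    rintro u ⟨v, rfl⟩
    change ⟪n, T' v⟫ = 0
    rw [hT'a, inner_add_right, h, real_inner_smul_right, hx, mul_zero, add_zero]
  have hnR' : n' ∈ Rᗮ := by
    rw [Submodule.mem_orthogonal']
    rintro u ⟨v, rfl⟩
    change ⟪n', T' v⟫ = 0
    rw [hT'a, inner_add_right, h', real_inner_smul_right, hx', mul_zero, add_zero]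
  have hn0 : (⟨n, hnR⟩ : Rᗮ) ≠ 0 := by
    intro h0
    have : n = 0 := congrArg Subtype.val h0
    rw [this, norm_zero] at hn
    exact zero_ne_one hn
  obtain ⟨r, hr⟩ := (finrank_eq_one_iff_of_nonzero' (⟨n, hnR⟩ : Rᗮ) hn0).1 hperp ⟨n', hnR'⟩
  have hr' : r • n = n' := congrArg Subtype.val hr
  have hr1 : |r| = 1 := by
    have := congrArg norm hr'
    rw [norm_smul, hn, hn', mul_one] at this
    simpa using this
  rcases abs_eq (zero_le_one) |>.1 hr1 with h1 | h1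
  · left
    rw [← hr', h1, one_smul]
  · right
    rw [← hr', h1, neg_smul, one_smul]

/-- **generic twisted phase**: for almost every `c` the set of critical points is finite;
general form: `m i` unit fields on `V i` which agree up to the sign -/
theorem ae_finite_crit' [CompactSpace M] [MeasurableSpace (Par W)] [BorelSpace (Par W)]
    (μ : Measure (Par W)) [μ.IsAddHaarMeasure] {F0 : M → W} (hF : ContMDiff 𝓘(ℝ, E) 𝓘(ℝ, W) ∞ F0)
    (hinj : ∀ p, Function.Injective (mfderiv 𝓘(ℝ, E) 𝓘(ℝ, W) F0 p))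
    {ι : Type*} [Countable ι] {V : ι → Set M} (hV : ∀ i, IsOpen (V i)) (hcov : ∀ p, ∃ i, p ∈ V i)
    {m : ι → M → W} (hm : ∀ i, ContMDiffOn 𝓘(ℝ, E) 𝓘(ℝ, W) ∞ (m i) (V i))
    (hunit : ∀ i, ∀ p ∈ V i, ‖m i p‖ = 1)
    (hsgn : ∀ i j, ∀ p ∈ V i, p ∈ V j → m j p = m i p ∨ m j p = -m i p) :
    ∀ᵐ c ∂μ, {p : M | ∃ i, p ∈ V i ∧
      mfderiv 𝓘(ℝ, E) 𝓘(ℝ, ℝ) (psiM F0 (m i) c) p = 0}.Finite := by
  classical
  have h1 : ∀ᵐ c ∂μ, ∀ i, ∀ p ∈ V i, mfderiv 𝓘(ℝ, E) 𝓘(ℝ, ℝ) (psiM F0 (m i) c) p = 0 →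
      ∀ᶠ q in 𝓝 p, mfderiv 𝓘(ℝ, E) 𝓘(ℝ, ℝ) (psiM F0 (m i) c) q = 0 → q = p :=
    ae_all_iff.2 fun i => ae_isolated_mfd μ (hV i) hF hinj (hm i) (hunit i)
  filter_upwards [h1] with c hc
  -- locally at most one critical point
  have hloc : ∀ p : M, ∃ U ∈ 𝓝 p, ∀ q ∈ U, (∃ i, q ∈ V i ∧
      mfderiv 𝓘(ℝ, E) 𝓘(ℝ, ℝ) (psiM F0 (m i) c) q = 0) → q = p := by
    intro p
    obtain ⟨i, hi⟩ := hcov p
    have hcrit : ∀ q ∈ V i, (∃ j, q ∈ V j ∧
        mfderiv 𝓘(ℝ, E) 𝓘(ℝ, ℝ) (psiM F0 (m j) c) q = 0) →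
        mfderiv 𝓘(ℝ, E) 𝓘(ℝ, ℝ) (psiM F0 (m i) c) q = 0 := by
      rintro q hq ⟨j, hj, h0⟩
      exact (mfderiv_psiM_congr (unit_sign_local (hV i) (hV j)
        (hm i).continuousOn (hm j).continuousOn (hunit i) (hsgn i j) hq hj)).2 h0
    by_cases h0 : mfderiv 𝓘(ℝ, E) 𝓘(ℝ, ℝ) (psiM F0 (m i) c) p = 0
    · refine ⟨_, inter_mem (hc i p hi h0) ((hV i).mem_nhds hi), ?_⟩
      rintro q ⟨hq1, hq2⟩ hq3
      exact hq1 (hcrit q hq2 hq3)
    · -- the differential does not vanish near `p`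
      set φ := extChartAt 𝓘(ℝ, E) p with hφ
      set U : Set E := φ.target ∩ φ.symm ⁻¹' V i with hU
      have hUo : IsOpen U :=
        (continuousOn_extChartAt_symm p).isOpen_inter_preimage (isOpen_extChartAt_target p) (hV i)
      have hsm : ContMDiffOn 𝓘(ℝ, E) 𝓘(ℝ, ℝ) ∞ (psiM F0 (m i) c ∘ φ.symm) U :=
        (contMDiffOn_psiM hF (hm i) c).comp
          ((contMDiffOn_extChartAt_symm p).mono inter_subset_left) (fun y hy => hy.2)
      have hsm' : ContDiffOn ℝ 2 (psiM F0 (m i) c ∘ φ.symm) U :=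
        (contMDiffOn_iff_contDiffOn.1 hsm).of_le two_le_inf
      have hps : p ∈ φ.source := mem_extChartAt_source p
      have hpU : φ p ∈ U := by
        refine ⟨φ.map_source hps, ?_⟩
        change φ.symm (φ p) ∈ V i
        rw [φ.left_inv hps]
        exact hi
      have hmd : ∀ q ∈ V i, MDifferentiableAt 𝓘(ℝ, E) 𝓘(ℝ, ℝ) (psiM F0 (m i) c) q :=
        fun q hq => ((contMDiffOn_psiM hF (hm i) c).contMDiffAt
          ((hV i).mem_nhds hq)).mdifferentiableAt (by simp)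
      have hne : fderiv ℝ (psiM F0 (m i) c ∘ φ.symm) (φ p) ≠ 0 := fun h =>
        h0 ((mfderiv_eq_zero_iff hps (hmd p hi)).2 h)
      have hcd : ContinuousAt (fderiv ℝ (psiM F0 (m i) c ∘ φ.symm)) (φ p) :=
        ((hsm'.contDiffAt (hUo.mem_nhds hpU)).fderiv_right (m := 1)
          (by norm_num)).continuousAt
      have hev : ∀ᶠ y in 𝓝 (φ p), fderiv ℝ (psiM F0 (m i) c ∘ φ.symm) y ≠ 0 :=
        hcd.eventually (isOpen_ne.mem_nhds hne)
      have hcont : ContinuousAt φ p := continuousAt_extChartAt p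
      have hsn : φ.source ∈ 𝓝 p := extChartAt_source_mem_nhds p
      refine ⟨_, inter_mem (hcont.eventually hev) (inter_mem ((hV i).mem_nhds hi) hsn), ?_⟩
      rintro q ⟨hq1, hq2, hq4⟩ hq3
      exact absurd ((mfderiv_eq_zero_iff hq4 (hmd q hq2)).1 (hcrit q hq2 hq3)) hq1
  choose U hU hUc using hloc
  obtain ⟨t, -, ht⟩ := (isCompact_univ (X := M)).elim_nhds_subcover U fun x _ => hU x
  refine t.finite_toSet.subset ?_
  rintro p hp
  obtain ⟨x, hx, hpx⟩ := mem_iUnion₂.1 (ht (mem_univ p))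
  have := hUc x p hpx hp
  rw [this]
  exact hx

/-- **generic twisted phase** for an immersion into a three-dimensional space -/
theorem ae_finite_crit [CompactSpace M] [MeasurableSpace (Par W)] [BorelSpace (Par W)]
    (μ : Measure (Par W)) [μ.IsAddHaarMeasure] (hE : finrank ℝ E = 2) (hW : finrank ℝ W = 3)
    {F0 : M → W} (hF : ContMDiff 𝓘(ℝ, E) 𝓘(ℝ, W) ∞ F0)
    (hinj : ∀ p, Function.Injective (mfderiv 𝓘(ℝ, E) 𝓘(ℝ, W) F0 p))
    {ι : Type*} [Countable ι] {V : ι → Set M} (hV : ∀ i, IsOpen (V i)) (hcov : ∀ p, ∃ i, p ∈ V i)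
    {m : ι → M → W} (hm : ∀ i, ContMDiffOn 𝓘(ℝ, E) 𝓘(ℝ, W) ∞ (m i) (V i))
    (hunit : ∀ i, ∀ p ∈ V i, ‖m i p‖ = 1)
    (horth : ∀ i, ∀ p ∈ V i, ∀ v, ⟪m i p, mfderiv 𝓘(ℝ, E) 𝓘(ℝ, W) F0 p v⟫ = 0) :
    ∀ᵐ c ∂μ, {p : M | ∃ i, p ∈ V i ∧
      mfderiv 𝓘(ℝ, E) 𝓘(ℝ, ℝ) (psiM F0 (m i) c) p = 0}.Finite :=
  ae_finite_crit' μ hF hinj hV hcov hm hunit fun i j p hi hj =>
    unit_normal_unique hE hW (T := mfderiv 𝓘(ℝ, E) 𝓘(ℝ, W) F0 p) (hinj p) (hunit i p hi)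
      (hunit j p hj) (horth i p hi) (horth j p hj)

/-- **generic twisted phase** for an immersion into a four-dimensional space with a normal
field `ξ` -/
theorem ae_finite_crit4 [CompactSpace M] [MeasurableSpace (Par W)] [BorelSpace (Par W)]
    (μ : Measure (Par W)) [μ.IsAddHaarMeasure] (hE : finrank ℝ E = 2) (hW : finrank ℝ W = 4)
    {F0 ξ : M → W} (hF : ContMDiff 𝓘(ℝ, E) 𝓘(ℝ, W) ∞ F0)
    (hinj : ∀ p, Function.Injective (mfderiv 𝓘(ℝ, E) 𝓘(ℝ, W) F0 p))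
    (hξ : ∀ p, ξ p ≠ 0) (hξ' : ∀ p v, ⟪ξ p, mfderiv 𝓘(ℝ, E) 𝓘(ℝ, W) F0 p v⟫ = 0)
    {ι : Type*} [Countable ι] {V : ι → Set M} (hV : ∀ i, IsOpen (V i)) (hcov : ∀ p, ∃ i, p ∈ V i)
    {m : ι → M → W} (hm : ∀ i, ContMDiffOn 𝓘(ℝ, E) 𝓘(ℝ, W) ∞ (m i) (V i))
    (hunit : ∀ i, ∀ p ∈ V i, ‖m i p‖ = 1)
    (horth : ∀ i, ∀ p ∈ V i, ∀ v, ⟪m i p, mfderiv 𝓘(ℝ, E) 𝓘(ℝ, W) F0 p v⟫ = 0)
    (horthξ : ∀ i, ∀ p ∈ V i, ⟪m i p, ξ p⟫ = 0) :
    ∀ᵐ c ∂μ, {p : M | ∃ i, p ∈ V i ∧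
      mfderiv 𝓘(ℝ, E) 𝓘(ℝ, ℝ) (psiM F0 (m i) c) p = 0}.Finite :=
  ae_finite_crit' μ hF hinj hV hcov hm hunit fun i j p hi hj =>
    unit_normal_unique4 hE hW (T := mfderiv 𝓘(ℝ, E) 𝓘(ℝ, W) F0 p) (hinj p) (hξ p) (hξ' p)
      (hunit i p hi) (hunit j p hj) (horth i p hi) (horth j p hj) (horthξ i p hi)
      (horthξ j p hj)

end Vale.Agent.P205.TW
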