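import Vale.Agent.P205.TW.Tens

/-!
P205, scheme T1W: the slow metric (block C5, part Slow).

`gS δ = (1 - δ) (g - (1 - V²) M_g dr²) - ρ² dψ²`, `M_g = g_tt - g_tw² / g_ww`, `V = 1 - k²`.
-/

noncomputable section

namespace Vale.Agent.P205.TW

open Vale.Agent.P205.F

universe u

variable {P : Type u} {κ : Type} [Fintype κ]

/-- complex bilinear form -/
def gv (T : κ → κ → P → ℂ) (c d : κ → P → ℂ) : P → ℂ := fun p =>
  ∑ j, ∑ k, c j p * d k p * T j k p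

/-- real part of a coefficient vector -/
def rv (c : κ → P → ℂ) (p : P) : κ → ℝ := fun j => (c j p).re

theorem gv_eq {T : κ → κ → P → ℂ} (hT : ∀ j k, Rl (T j k)) {c d : κ → P → ℂ}
    (hc : ∀ j, Rl (c j)) (hd : ∀ j, Rl (d j)) (p : P) :
    gv T c d p = ((rt T p (rv c p) (rv d p) : ℝ) : ℂ) := by
  simp only [gv, rt, rv]
  push_cast
  refine Finset.sum_congr rfl fun j _ => Finset.sum_congr rfl fun k _ => ?_
  rw [Rl.ofReal_re (hc j), Rl.ofReal_re (hd k), Rl.ofReal_re (hT j k)]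

theorem dot_dirv (S : DAlg P κ) (X : Fin 4 → P → ℂ) (c d : κ → P → ℂ) (p : P) :
    dot (S.dirv c X) (S.dirv d X) p = gv (S.met X) c d p := by
  have h : ∀ a : Fin 4, S.dirv c X a p * S.dirv d X a p =
      ∑ j, ∑ k, c j p * d k p * (S.D j (X a) p * S.D k (X a) p) := by
    intro a
    simp only [DAlg.dirv, DAlg.dir, Finset.sum_mul_sum]
    exact Finset.sum_congr rfl fun j _ => Finset.sum_congr rfl fun k _ => by ring
  simp only [dot, gv, h]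
  rw [Finset.sum_comm]
  refine Finset.sum_congr rfl fun j _ => ?_
  rw [Finset.sum_comm]
  refine Finset.sum_congr rfl fun k _ => ?_
  simp only [DAlg.met, dot, DAlg.Dv, Finset.mul_sum]

theorem gv_dd (S : DAlg P κ) (φ : P → ℂ) (c d : κ → P → ℂ) (p : P) :
    gv (fun j k p => S.D j φ p * S.D k φ p) c d p = S.dir c φ p * S.dir d φ p := by
  simp only [gv, DAlg.dir, Finset.sum_mul_sum]
  exact Finset.sum_congr rfl fun j _ => Finset.sum_congr rfl fun k _ => by ring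

theorem gv_add (T T' : κ → κ → P → ℂ) (c d : κ → P → ℂ) (p : P) :
    gv (fun j k p => T j k p + T' j k p) c d p = gv T c d p + gv T' c d p := by
  simp only [gv, mul_add, Finset.sum_add_distrib]

theorem gv_sub (T T' : κ → κ → P → ℂ) (c d : κ → P → ℂ) (p : P) :
    gv (fun j k p => T j k p - T' j k p) c d p = gv T c d p - gv T' c d p := by
  simp only [gv, mul_sub, Finset.sum_sub_distrib]

theorem gv_smul (a : P → ℂ) (T : κ → κ → P → ℂ) (c d : κ → P → ℂ) (p : P) :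
    gv (fun j k p => a p * T j k p) c d p = a p * gv T c d p := by
  simp only [gv, Finset.mul_sum]
  exact Finset.sum_congr rfl fun j _ => Finset.sum_congr rfl fun k _ => by ring

theorem gv_norm_le {T : κ → κ → P → ℂ} {c d : κ → P → ℂ} {p : P} {B η : ℝ}
    (hB : 0 ≤ B) (hη : 0 ≤ η)
    (hc : ∀ j, ‖c j p‖ ≤ B) (hd : ∀ j, ‖d j p‖ ≤ B) (hT : ∀ j k, ‖T j k p‖ ≤ η) :
    ‖gv T c d p‖ ≤ (Fintype.card κ : ℝ) ^ 2 * B ^ 2 * η := by
  simp only [gv]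
  calc ‖∑ j, ∑ k, c j p * d k p * T j k p‖
      ≤ ∑ j, ∑ k, ‖c j p * d k p * T j k p‖ :=
        (norm_sum_le _ _).trans (Finset.sum_le_sum fun j _ => norm_sum_le _ _)
    _ ≤ ∑ _j : κ, ∑ _k : κ, B * B * η := by
        refine Finset.sum_le_sum fun j _ => Finset.sum_le_sum fun k _ => ?_
        rw [norm_mul, norm_mul]
        exact mul_le_mul (mul_le_mul (hc j) (hd k) (norm_nonneg _) hB) (hT j k) (norm_nonneg _)
          (mul_nonneg hB hB)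
    _ = _ := by
        simp only [Finset.sum_const, Finset.card_univ, nsmul_eq_mul]
        ring

/-- data for the slow metric -/
structure SlowD (S : DAlg P κ) (g : κ → κ → P → ℂ) where
  /-- short map -/
  X0 : Fin 4 → P → ℂ
  /-- phase -/
  ψ : P → ℂ
  /-- radius -/
  r : Ray P κ
  /-- `1 - k²` -/
  V : P → ℂ
  /-- `1 / g_ww` on `K` -/
  ig : P → ℂ
  /-- helix radius -/
  ρ : ℝ
  /-- constant -/
  c : ℝ
  cpos : 0 < c
  ray : r.Ok S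
  gT : S.IsT g
  smg : ∀ j k, S.Sm (g j k)
  rg : ∀ j k, Rl (g j k)
  gpos : ∀ j p, 0 ≤ (g j j p).re
  pl : Pl S g c
  smV : S.Sm V
  rV : Rl V
  V0 : ∀ p, 0 ≤ (V p).re
  V1 : ∀ p, (V p).re ≤ 1
  V2 : ∀ p, 7 / 8 ≤ (V p).re ^ 2
  VK : ∀ p, p ∉ r.K → V p = 1
  smig : S.Sm ig
  rig : Rl ig
  igg : ∀ p ∈ r.K, ig p * gv g r.w r.w p = 1
  gww : ∀ p ∈ r.K, c ≤ (gv g r.w r.w p).re
  smψ : S.Sm ψ
  rψ : Rl ψ
  ψs : ∀ p ξ, ρ ^ 2 * (∑ j, (S.D j ψ p).re * ξ j) ^ 2 ≤ 1 / 4 * qf g p ξ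
  smX : ∀ a, S.Sm (X0 a)
  rX : ∀ a, Rl (X0 a)
  X0s : ∀ p ξ, qf (S.met X0) p ξ ≤ 1 / 8 * qf g p ξ

namespace SlowD

variable {S : DAlg P κ} {g : κ → κ → P → ℂ} (D : SlowD S g) (δ : ℝ)

/-- `g_tt - g_tw² / g_ww` -/
def Mg : P → ℂ := fun p => gv g D.r.t D.r.t p - gv g D.r.t D.r.w p * gv g D.r.t D.r.w p * D.ig p

/-- the metric `G' = gS + ρ² dψ²` -/
def Gp (j k : κ) : P → ℂ := fun p =>
  (1 - δ) * (g j k p - (1 - D.V p ^ 2) * D.Mg p * (S.D j D.r.Ψ p * S.D k D.r.Ψ p))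

/-- **the slow metric** -/
def gS (j k : κ) : P → ℂ := fun p =>
  D.Gp δ j k p - (D.ρ : ℂ) ^ 2 * (S.D j D.ψ p * S.D k D.ψ p)

theorem sm_gv {T : κ → κ → P → ℂ} (hT : ∀ j k, S.Sm (T j k)) {c d : κ → P → ℂ}
    (hc : ∀ j, S.Sm (c j)) (hd : ∀ j, S.Sm (d j)) : S.Sm (gv T c d) :=
  S.sm_sum' fun j _ => S.sm_sum' fun k _ => S.sm_mul (S.sm_mul (hc j) (hd k)) (hT j k)

theorem rl_gv {T : κ → κ → P → ℂ} (hT : ∀ j k, Rl (T j k)) {c d : κ → P → ℂ}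
    (hc : ∀ j, Rl (c j)) (hd : ∀ j, Rl (d j)) : Rl (gv T c d) := by
  intro p
  rw [gv_eq hT hc hd]
  exact Complex.ofReal_im _

theorem smMg : S.Sm D.Mg :=
  S.sm_sub (sm_gv D.smg D.ray.smt D.ray.smt)
    (S.sm_mul (S.sm_mul (sm_gv D.smg D.ray.smt D.ray.smw) (sm_gv D.smg D.ray.smt D.ray.smw))
      D.smig)

theorem rlMg : Rl D.Mg :=
  Rl.sub (rl_gv D.rg D.ray.rt D.ray.rt)
    (Rl.mul (Rl.mul (rl_gv D.rg D.ray.rt D.ray.rw') (rl_gv D.rg D.ray.rt D.ray.rw')) D.rig)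

theorem rlD {u : P → ℂ} (hu : S.Sm u) (hr : Rl u) (j : κ) : Rl (S.D j u) := by
  intro p
  have h := congrFun (S.D_conj j hu) p
  have e : (fun p => (starRingEnd ℂ) (u p)) = u := by
    funext q
    exact Complex.conj_eq_iff_im.2 (hr q)
  rw [e] at h
  exact Complex.conj_eq_iff_im.1 h.symm

theorem sm_1V : S.Sm (fun p => 1 - D.V p ^ 2) := by
  have h := S.sm_sub (S.sm_const 1) (S.sm_mul D.smV D.smV)
  have e : ((fun _ => (1 : ℂ)) - D.V * D.V) = fun p => 1 - D.V p ^ 2 := by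
    funext p; simp [sq]
  rwa [e] at h

theorem rl_1V : Rl (fun p => 1 - D.V p ^ 2) := by
  intro p
  have h := D.rV p
  simp [sq, Complex.mul_im, h]

theorem smGp (j k : κ) : S.Sm (D.Gp δ j k) := by
  refine S.sm_smul (1 - δ : ℂ) (u := fun p => g j k p - (1 - D.V p ^ 2) * D.Mg p *
    (S.D j D.r.Ψ p * S.D k D.r.Ψ p)) ?_
  exact S.sm_sub (D.smg j k) (S.sm_mul (S.sm_mul D.sm_1V D.smMg)
    (S.sm_mul (S.sm_D j D.ray.smΨ) (S.sm_D k D.ray.smΨ)))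

theorem rlGp (j k : κ) : Rl (D.Gp δ j k) := by
  refine Rl.smul (c := (1 - δ : ℂ)) (by simp) (u := fun p => g j k p - (1 - D.V p ^ 2) * D.Mg p *
    (S.D j D.r.Ψ p * S.D k D.r.Ψ p)) ?_
  exact Rl.sub (D.rg j k) (Rl.mul (Rl.mul D.rl_1V D.rlMg)
    (Rl.mul (rlD D.ray.smΨ D.ray.rΨ j) (rlD D.ray.smΨ D.ray.rΨ k)))

theorem smgS (j k : κ) : S.Sm (D.gS δ j k) :=
  S.sm_sub (D.smGp δ j k) (S.sm_smul ((D.ρ : ℂ) ^ 2)
    (S.sm_mul (S.sm_D j D.smψ) (S.sm_D k D.smψ)))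

theorem rlgS (j k : κ) : Rl (D.gS δ j k) :=
  Rl.sub (D.rlGp δ j k) (Rl.smul (c := (D.ρ : ℂ) ^ 2) (by simp [sq])
    (Rl.mul (rlD D.smψ D.rψ j) (rlD D.smψ D.rψ k)))

theorem isT_Gp : S.IsT (D.Gp δ) := by
  have h := isT_smul (fun _ => (1 - δ : ℂ)) (isT_sub D.gT
    (isT_smul (fun p => (1 - D.V p ^ 2) * D.Mg p) (isT_dd D.ray.smΨ)))
  exact h

theorem isT_gS : S.IsT (D.gS δ) :=
  isT_sub (D.isT_Gp δ) (isT_smul (fun _ => (D.ρ : ℂ) ^ 2) (isT_dd D.smψ))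

/-! ### positivity -/

variable [DecidableEq κ]

theorem bas {p : P} (hp : p ∈ D.r.K) : Bas S p (rv D.r.t p) (rv D.r.w p)
    (fun j => (S.D j D.r.Ψ p).re) (fun j => (D.r.β j p).re) := by
  intro u hu j
  rw [D.ray.dec u hu j p hp]
  simp only [DAlg.dir, rv]
  rw [Rl.ofReal_re (rlD D.ray.smΨ D.ray.rΨ j), Rl.ofReal_re (D.ray.rβ j)]
  congr 2
  · exact Finset.sum_congr rfl fun l _ => by rw [Rl.ofReal_re (D.ray.rt l)]
  · exact Finset.sum_congr rfl fun l _ => by rw [Rl.ofReal_re (D.ray.rw' l)]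

/-- `M_g dr² ≤ g` on `K` -/
theorem Mg_le {p : P} (hp : p ∈ D.r.K) (ξ : κ → ℝ) :
    (D.Mg p).re * (∑ j, (S.D j D.r.Ψ p).re * ξ j) ^ 2 ≤ qf g p ξ := by
  rw [(D.bas hp).qf D.gT ξ]
  set A := ∑ j, (S.D j D.r.Ψ p).re * ξ j
  set B := ∑ j, (D.r.β j p).re * ξ j
  set gtt := rt g p (rv D.r.t p) (rv D.r.t p) with hgtt
  set gtw := rt g p (rv D.r.t p) (rv D.r.w p) with hgtw
  set gw := rt g p (rv D.r.w p) (rv D.r.w p) with hgw
  have e1 : gv g D.r.t D.r.t p = (gtt : ℂ) := gv_eq D.rg D.ray.rt D.ray.rt p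
  have e2 : gv g D.r.t D.r.w p = (gtw : ℂ) := gv_eq D.rg D.ray.rt D.ray.rw' p
  have e3 : gv g D.r.w D.r.w p = (gw : ℂ) := gv_eq D.rg D.ray.rw' D.ray.rw' p
  have h0 : 0 < gw := by
    have := D.gww p hp
    rw [e3, Complex.ofReal_re] at this
    exact D.cpos.trans_le this
  have e4 : D.ig p = ((gw⁻¹ : ℝ) : ℂ) := by
    have := D.igg p hp
    rw [e3] at this
    rw [Complex.ofReal_inv]
    exact eq_inv_of_mul_eq_one_left this
  have e5 : (D.Mg p).re = gtt - gtw * gtw * gw⁻¹ := by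
    simp only [Mg, e1, e2, e4]
    rw [← Complex.ofReal_mul, ← Complex.ofReal_mul, ← Complex.ofReal_sub, Complex.ofReal_re]
  rw [e5]
  have h1 : A ^ 2 * gtt + 2 * A * B * gtw + B ^ 2 * gw - (gtt - gtw * gtw * gw⁻¹) * A ^ 2
      = gw⁻¹ * (gtw * A + gw * B) ^ 2 := by
    field_simp
    ring
  have h2 : 0 ≤ gw⁻¹ * (gtw * A + gw * B) ^ 2 := by positivity
  linarith

omit [DecidableEq κ] in
theorem qf_sub (T T' : κ → κ → P → ℂ) (p : P) (ξ : κ → ℝ) :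
    qf (fun j k p => T j k p - T' j k p) p ξ = qf T p ξ - qf T' p ξ := by
  simp only [qf, rt, Complex.sub_re, mul_sub, Finset.sum_sub_distrib]

omit [DecidableEq κ] in
theorem qf_dd {φ : P → ℂ} (h : S.Sm φ) (hr : Rl φ) (p : P) (ξ : κ → ℝ) :
    qf (fun j k p => S.D j φ p * S.D k φ p) p ξ = (∑ j, (S.D j φ p).re * ξ j) ^ 2 := by
  simp only [qf, rt]
  rw [sq, Finset.sum_mul_sum]
  refine Finset.sum_congr rfl fun j _ => Finset.sum_congr rfl fun k _ => ?_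
  have h1 := rlD h hr j p
  have h2 := rlD h hr k p
  simp only [Complex.mul_re, h1, h2]
  ring

omit [DecidableEq κ] in
theorem qf_smul {a : P → ℂ} (ha : Rl a) {T : κ → κ → P → ℂ} (p : P) (ξ : κ → ℝ) :
    qf (fun j k p => a p * T j k p) p ξ = (a p).re * qf T p ξ := by
  simp only [qf, rt, Finset.mul_sum]
  refine Finset.sum_congr rfl fun j _ => Finset.sum_congr rfl fun k _ => ?_
  have h1 := ha p
  simp only [Complex.mul_re, h1]
  ring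

include D in
theorem qf_nonneg (p : P) (ξ : κ → ℝ) : 0 ≤ qf g p ξ := by
  obtain ⟨a, b, α, β, h1, -, h3⟩ := D.pl.bas p
  rw [h3.qf D.gT ξ]
  simp only [rt_single]
  refine le_trans ?_ (form_lower (Bd := max (g a a p).re (g b b p).re) (D.gpos a p) (D.gpos b p)
    D.cpos h1 (le_max_left _ _) (le_max_right _ _))
  have : 0 ≤ max (g a a p).re (g b b p).re := (D.gpos a p).trans (le_max_left _ _)
  have := D.cpos
  positivity

omit [DecidableEq κ] in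
theorem qf_gS (p : P) (ξ : κ → ℝ) :
    qf (D.gS δ) p ξ = (1 - δ) * (qf g p ξ - (1 - (D.V p).re ^ 2) * (D.Mg p).re *
      (∑ j, (S.D j D.r.Ψ p).re * ξ j) ^ 2) - D.ρ ^ 2 * (∑ j, (S.D j D.ψ p).re * ξ j) ^ 2 := by
  have h0 : D.gS δ = fun j k p => D.Gp δ j k p
      - (fun _ : P => (D.ρ : ℂ) ^ 2) p * (S.D j D.ψ p * S.D k D.ψ p) := rfl
  have h1 : D.Gp δ = fun j k p => (fun _ : P => (1 - δ : ℂ)) p * (fun j k p =>
      g j k p - (fun p => (1 - D.V p ^ 2) * D.Mg p) p * (fun j k p =>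
        S.D j D.r.Ψ p * S.D k D.r.Ψ p) j k p) j k p := rfl
  rw [h0, qf_sub, qf_smul (T := fun j k p => S.D j D.ψ p * S.D k D.ψ p)
    (fun p => by simp [sq]), qf_dd D.smψ D.rψ, h1, qf_smul (fun p => by simp), qf_sub,
    qf_smul (a := fun p => (1 - D.V p ^ 2) * D.Mg p) (Rl.mul D.rl_1V D.rlMg), qf_dd D.ray.smΨ D.ray.rΨ]
  have e1 : ((D.ρ : ℂ) ^ 2).re = D.ρ ^ 2 := by rw [← Complex.ofReal_pow, Complex.ofReal_re]
  have e2 : ((1 : ℂ) - δ).re = 1 - δ := by simp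
  have e3 : ((1 - D.V p ^ 2) * D.Mg p).re = (1 - (D.V p).re ^ 2) * (D.Mg p).re := by
    have h2 := D.rl_1V p
    have h3 := D.rV p
    rw [Complex.mul_re]
    simp only at h2
    rw [h2]
    simp [sq, Complex.mul_re, h3]
  rw [e1, e2, e3]

/-- **(T2)** -/
theorem qf_gS_ge (h0 : 0 ≤ δ) (h1 : δ ≤ 1 / 4) (p : P) (ξ : κ → ℝ) :
    13 / 32 * qf g p ξ ≤ qf (D.gS δ) p ξ := by
  rw [D.qf_gS]
  have hq := D.qf_nonneg p ξ
  have hψ := D.ψs p ξ
  have h2 : (1 - (D.V p).re ^ 2) * (D.Mg p).re * (∑ j, (S.D j D.r.Ψ p).re * ξ j) ^ 2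
      ≤ 1 / 8 * qf g p ξ := by
    by_cases hp : p ∈ D.r.K
    · have h3 := D.Mg_le hp ξ
      have h4 := D.V2 p
      have h5 : 0 ≤ 1 - (D.V p).re ^ 2 := by
        have := D.V1 p
        have := D.V0 p
        nlinarith
      rw [mul_assoc]
      calc _ ≤ (1 - (D.V p).re ^ 2) * qf g p ξ := mul_le_mul_of_nonneg_left h3 h5
        _ ≤ _ := mul_le_mul_of_nonneg_right (by linarith) hq
    · rw [D.VK p hp]
      simp
      positivity
  nlinarith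

theorem qf_gS_sub (h0 : 0 ≤ δ) (h1 : δ ≤ 1 / 4) (p : P) (ξ : κ → ℝ) :
    1 / 4 * qf g p ξ ≤ qf (fun j k p => D.gS δ j k p - S.met D.X0 j k p) p ξ := by
  rw [qf_sub]
  have h2 := D.qf_gS_ge δ h0 h1 p ξ
  have h3 := D.X0s p ξ
  have hq := D.qf_nonneg p ξ
  linarith

end SlowD

end Vale.Agent.P205.TW
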