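import Vale.Agent.P205.TW.Slow
import Vale.Agent.P205.TW.Form2

/-!
P205, scheme T1W: maps close to the slow metric (block C5, parts T3 and T4).
-/

noncomputable section

namespace Vale.Agent.P205.TW

open Vale.Agent.P205.F

universe u

variable {P : Type u} {κ : Type} [Fintype κ] {S : DAlg P κ}

/-- finitely many smooth functions have a common bound -/
theorem bdd_fin {α : Type*} [Finite α] {u : α → P → ℂ} (hu : ∀ a, S.Sm (u a)) :
    ∃ C : ℝ, 1 ≤ C ∧ ∀ a p, ‖u a p‖ ≤ C := by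
  have := Fintype.ofFinite α
  choose C hC using fun a => S.bdd (hu a)
  refine ⟨1 + ∑ a, |C a|, ?_, fun a p => ?_⟩
  · have : 0 ≤ ∑ a, |C a| := Finset.sum_nonneg fun a _ => abs_nonneg _
    linarith
  · have h : |C a| ≤ ∑ a, |C a| :=
      Finset.single_le_sum (f := fun a => |C a|) (fun a _ => abs_nonneg _) (Finset.mem_univ a)
    have := hC a p
    have := le_abs_self (C a)
    linarith

theorem qf_lin (T : κ → κ → P → ℂ) (hT : ∀ j k, T j k = T k j) (p : P) (A B : ℝ) (c d : κ → ℝ) :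
    qf T p (fun j => A * c j + B * d j) =
      A ^ 2 * rt T p c c + 2 * A * B * rt T p c d + B ^ 2 * rt T p d d := by
  have h1 : ∀ x : κ → ℝ, rt T p (fun j => A * c j + B * d j) x =
      A * rt T p c x + B * rt T p d x := fun x => by
    rw [rt_add, rt_smul, rt_smul]
  rw [qf, h1, rt_symm hT p c, rt_symm hT p d, h1, h1, rt_symm hT p d c]
  ring

/-- determinants of comparable forms -/
theorem det_cmp {T g : κ → κ → P → ℂ} (hT : ∀ j k, T j k = T k j) (hg : ∀ j k, g j k = g k j)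
    {p : P} {m : ℝ} (hm : 0 ≤ m) (hg0 : ∀ ξ, 0 ≤ qf g p ξ) (h : ∀ ξ, m * qf g p ξ ≤ qf T p ξ)
    (c d : κ → ℝ) :
    m ^ 2 * (rt g p c c * rt g p d d - rt g p c d ^ 2) ≤
      rt T p c c * rt T p d d - rt T p c d ^ 2 := by
  have e : 0 ≤ rt g p c c := hg0 c
  have f : 0 ≤ rt g p d d := hg0 d
  have hd : 0 ≤ rt g p c c * rt g p d d - rt g p c d ^ 2 := by
    have := det_mono (m := 0) (e := 0) (f := 0) (g := 0) (E := rt g p c c) (F := rt g p c d)
      (G := rt g p d d) le_rfl le_rfl le_rfl (by simp) (fun A B => by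
        have := hg0 (fun j => A * c j + B * d j)
        rw [qf_lin g hg] at this
        simpa using this)
    simpa using this
  refine det_mono hm e f hd fun A B => ?_
  have := h (fun j => A * c j + B * d j)
  rwa [qf_lin g hg, qf_lin T hT] at this

/-- entries in a basis -/
theorem Bas.entry [DecidableEq κ] {T : κ → κ → P → ℂ} (hT : S.IsT T) {p : P} {t w A B : κ → ℝ}
    (hb : Bas S p t w A B) (a b : κ) :
    (T a b p).re = A a * A b * rt T p t t + (A a * B b + A b * B a) * rt T p t w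
      + B a * B b * rt T p w w := by
  have hs := hT.1
  have h1 : ∀ x : κ, (∑ j, A j * (Pi.single x (1 : ℝ) : κ → ℝ) j) = A x := fun x => by
    simp [Pi.single_apply]
  have h2 : ∀ x : κ, (∑ j, B j * (Pi.single x (1 : ℝ) : κ → ℝ) j) = B x := fun x => by
    simp [Pi.single_apply]
  have e1 := hb.rt_left hT (Pi.single a (1 : ℝ)) (Pi.single b (1 : ℝ))
  have e2 := hb.rt_left hT (Pi.single b (1 : ℝ)) t
  have e3 := hb.rt_left hT (Pi.single b (1 : ℝ)) w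
  rw [h1, h2] at e1 e2 e3
  rw [← rt_single T p a b, e1, rt_symm hs p t (Pi.single b (1 : ℝ)),
    rt_symm hs p w (Pi.single b (1 : ℝ)), e2, e3, rt_symm hs p w t]
  ring

theorem Bas.det [DecidableEq κ] {T : κ → κ → P → ℂ} (hT : S.IsT T) {p : P} {t w A B : κ → ℝ}
    (hb : Bas S p t w A B) (a b : κ) :
    (T a a p).re * (T b b p).re - (T a b p).re ^ 2 =
      (A a * B b - A b * B a) ^ 2 * (rt T p t t * rt T p w w - rt T p t w ^ 2) := by
  rw [hb.entry hT, hb.entry hT, hb.entry hT]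
  ring

namespace SlowD

variable {g : κ → κ → P → ℂ} (D : SlowD S g)

/-- constants for the slow metric (independent of `V`) -/
structure Bds (Bd Br Bβ BM Bψ : ℝ) : Prop where
  d1 : 1 ≤ Bd
  r1 : 1 ≤ Br
  β1 : 1 ≤ Bβ
  M1 : 1 ≤ BM
  ψ1 : 1 ≤ Bψ
  d : ∀ j k p, ‖g j k p‖ ≤ Bd
  r : ∀ j p, ‖S.D j D.r.Ψ p‖ ≤ Br
  β : ∀ j p, ‖D.r.β j p‖ ≤ Bβ
  M : ∀ p, ‖D.Mg p‖ ≤ BM
  ψ : ∀ j k p, ‖(D.ρ : ℂ) ^ 2 * (S.D j D.ψ p * S.D k D.ψ p)‖ ≤ Bψ

theorem exists_bds : ∃ Bd Br Bβ BM Bψ : ℝ, D.Bds Bd Br Bβ BM Bψ := by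
  obtain ⟨Bd, h1, h1'⟩ := bdd_fin (S := S) (u := fun x : κ × κ => g x.1 x.2)
    (fun x => D.smg x.1 x.2)
  obtain ⟨Br, h2, h2'⟩ := bdd_fin (S := S) (u := fun j => S.D j D.r.Ψ)
    (fun j => S.sm_D j D.ray.smΨ)
  obtain ⟨Bβ, h3, h3'⟩ := bdd_fin (S := S) (u := D.r.β) D.ray.smβ
  obtain ⟨BM, h4, h4'⟩ := bdd_fin (S := S) (u := fun _ : Unit => D.Mg) (fun _ => D.smMg)
  obtain ⟨Bψ, h5, h5'⟩ := bdd_fin (S := S) (u := fun x : κ × κ => fun p =>
    (D.ρ : ℂ) ^ 2 * (S.D x.1 D.ψ p * S.D x.2 D.ψ p))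
    (fun x => S.sm_smul ((D.ρ : ℂ) ^ 2) (S.sm_mul (S.sm_D x.1 D.smψ) (S.sm_D x.2 D.smψ)))
  exact ⟨Bd, Br, Bβ, BM, Bψ, h1, h2, h3, h4, h5, fun j k => h1' (j, k), h2', h3', h4' (),
    fun j k => h5' (j, k)⟩

variable {D}

theorem Bds.Gp_le {Bd Br Bβ BM Bψ : ℝ} (hB : D.Bds Bd Br Bβ BM Bψ) {δ : ℝ} (h0 : 0 ≤ δ)
    (hδ : δ ≤ 1 / 4) (j k : κ) (p : P) : ‖D.Gp δ j k p‖ ≤ Bd + BM * Br ^ 2 := by
  have e5 : ‖(1 - δ : ℂ)‖ ≤ 1 := by
    rw [show (1 - δ : ℂ) = ((1 - δ : ℝ) : ℂ) by push_cast; ring, Complex.norm_real,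
      Real.norm_eq_abs, abs_of_nonneg (by linarith)]
    linarith
  have e6 : ‖1 - D.V p ^ 2‖ ≤ 1 := by
    have h1 : (1 : ℂ) - D.V p ^ 2 = ((1 - (D.V p).re ^ 2 : ℝ) : ℂ) := by
      have := Rl.ofReal_re D.rV p
      push_cast
      rw [this]
    have h2 := D.V0 p
    have h3 := D.V1 p
    rw [h1, Complex.norm_real, Real.norm_eq_abs, abs_of_nonneg (by nlinarith)]
    nlinarith [sq_nonneg (D.V p).re]
  have hBr0 : 0 ≤ Br := by linarith [hB.r1]
  have hBM0 : 0 ≤ BM := by linarith [hB.M1]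
  have e7 : ‖(1 - D.V p ^ 2) * D.Mg p * (S.D j D.r.Ψ p * S.D k D.r.Ψ p)‖ ≤ BM * Br ^ 2 := by
    rw [norm_mul, norm_mul, norm_mul]
    calc _ ≤ 1 * BM * (Br * Br) :=
          mul_le_mul (mul_le_mul e6 (hB.M p) (norm_nonneg _) (by norm_num))
            (mul_le_mul (hB.r j p) (hB.r k p) (norm_nonneg _) hBr0) (by positivity)
            (by positivity)
      _ = _ := by ring
  simp only [Gp]
  rw [norm_mul]
  calc _ ≤ 1 * (Bd + BM * Br ^ 2) := by
        refine mul_le_mul e5 ?_ (norm_nonneg _) (by norm_num)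
        exact (norm_sub_le _ _).trans (add_le_add (hB.d j k p) e7)
    _ = _ := one_mul _

theorem Bds.gS_le {Bd Br Bβ BM Bψ : ℝ} (hB : D.Bds Bd Br Bβ BM Bψ) {δ : ℝ} (h0 : 0 ≤ δ)
    (hδ : δ ≤ 1 / 4) (j k : κ) (p : P) : ‖D.gS δ j k p‖ ≤ Bd + BM * Br ^ 2 + Bψ :=
  (norm_sub_le _ _).trans (add_le_add (hB.Gp_le h0 hδ j k p) (hB.ψ j k p))

/-- **(T4)** lower bound of the form -/
theorem Bds.qf_met_ge {Bd Br Bβ BM Bψ : ℝ} (hB : D.Bds Bd Br Bβ BM Bψ) {δ : ℝ} (h0 : 0 ≤ δ)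
    (h1 : δ ≤ 1 / 4) {X : Fin 4 → P → ℂ} (hX : ∀ a, S.Sm (X a))
    (hm : ∀ j k p, ‖S.met X j k p - D.gS δ j k p‖ ≤ 5 / 32 * (D.c / (4 * Bd))) (p : P)
    (ξ : κ → ℝ) : 1 / 4 * qf g p ξ ≤ qf (S.met X) p ξ := by
  classical
  have hBd : ∀ j p, (g j j p).re ≤ Bd := fun j p =>
    (Complex.re_le_norm _).trans (hB.d j j p)
  have hc := D.cpos
  have hBd0 : 0 < Bd := by linarith [hB.d1]
  have hT : S.IsT (fun j k p => S.met X j k p - D.gS δ j k p) :=
    isT_sub (isT_met hX) (D.isT_gS δ)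
  have h2 := Pl.abs_qf_le D.gT hT D.pl hc D.gpos hBd p
    (fun j k => (Complex.abs_re_le_norm _).trans (hm j k p)) ξ
  rw [qf_sub] at h2
  have h3 := D.qf_gS_ge δ h0 h1 p ξ
  have hq := D.qf_nonneg p ξ
  have h4 : 4 * Bd / D.c * (5 / 32 * (D.c / (4 * Bd))) = 5 / 32 := by field_simp
  rw [h4] at h2
  have h5 := abs_le.1 h2
  linarith [h5.1]

/-- **(T4)** lower bounds and bounds for maps close to the slow metric -/
theorem Bds.bounds {Bd Br Bβ BM Bψ : ℝ} (hB : D.Bds Bd Br Bβ BM Bψ) {δ : ℝ} (h0 : 0 ≤ δ)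
    (hδ : δ ≤ 1 / 4) {X : Fin 4 → P → ℂ} (hX : ∀ a, S.Sm (X a)) (hrX : ∀ a, Rl (X a))
    (hm : ∀ j k p, ‖S.met X j k p - D.gS δ j k p‖ ≤ min (5 / 32 * (D.c / (4 * Bd))) 1) :
    (∀ p ∈ D.r.K, min (D.c / 16) (1 / 16 * (D.c / (2 * (Br * Bβ)) ^ 2)) ≤
      (gv (S.met X) D.r.w D.r.w p).re) ∧
    (∀ p ∈ D.r.K, min (D.c / 16) (1 / 16 * (D.c / (2 * (Br * Bβ)) ^ 2)) ≤
      (gv (S.met X) D.r.t D.r.t p * gv (S.met X) D.r.w D.r.w p
      - gv (S.met X) D.r.t D.r.w p * gv (S.met X) D.r.t D.r.w p).re) ∧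
    (∀ p, ∃ a b, min (D.c / 16) (1 / 16 * (D.c / (2 * (Br * Bβ)) ^ 2)) ≤
      (S.met X a a p * S.met X b b p - S.met X a b p ^ 2).re) ∧
    (∀ j a p, ‖S.D j (X a) p‖ ≤ Bd + BM * Br ^ 2 + Bψ + 1) := by
  classical
  have hc := D.cpos
  have hBr := hB.r1
  have hBβ := hB.β1
  have hr := hB.r
  have hβ := hB.β
  set L := 2 * (Br * Bβ) with hL
  have hL0 : 0 < L := by positivity
  have hm0 : ∀ j k p, ‖S.met X j k p - D.gS δ j k p‖ ≤ 5 / 32 * (D.c / (4 * Bd)) :=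
    fun j k p => (hm j k p).trans (min_le_left _ _)
  have hm1 : ∀ j k p, ‖S.met X j k p - D.gS δ j k p‖ ≤ 1 := fun j k p =>
    (hm j k p).trans (min_le_right _ _)
  have hqX := hB.qf_met_ge h0 hδ hX hm0
  have hT := isT_met (S := S) hX
  have rlmet : ∀ j k, Rl (S.met X j k) := fun j k =>
    Rl.dot (fun a => rlD (hX a) (hrX a) j) (fun a => rlD (hX a) (hrX a) k)
  have eg := fun c d hc hd p => gv_eq D.rg (c := c) (d := d) hc hd p
  have eX := fun c d hc hd p => gv_eq rlmet (c := c) (d := d) hc hd p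
  have hq0 : ∀ p ξ, 0 ≤ qf g p ξ := D.qf_nonneg
  have hdet := fun p c d => det_cmp (T := S.met X) (g := g) hT.1 D.gT.1 (p := p)
    (m := 1 / 4) (by norm_num) (hq0 p) (hqX p) c d
  refine ⟨fun p hp => ?_, fun p hp => ?_, fun p => ?_, fun j a p => ?_⟩
  · rw [eX _ _ D.ray.rw' D.ray.rw', Complex.ofReal_re]
    have h3 := D.gww p hp
    rw [eg _ _ D.ray.rw' D.ray.rw', Complex.ofReal_re] at h3
    have h4 := hqX p (rv D.r.w p)
    simp only [qf] at h4
    refine (min_le_left _ _).trans ?_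
    linarith
  · rw [eX _ _ D.ray.rt D.ray.rt, eX _ _ D.ray.rw' D.ray.rw', eX _ _ D.ray.rt D.ray.rw',
      ← Complex.ofReal_mul, ← Complex.ofReal_mul, ← Complex.ofReal_sub, Complex.ofReal_re]
    have h3 := hdet p (rv D.r.t p) (rv D.r.w p)
    obtain ⟨a, b, α, β, h4, -, -⟩ := D.pl.bas p
    rw [(D.bas hp).det D.gT a b] at h4
    set x := (S.D a D.r.Ψ p).re * (D.r.β b p).re - (S.D b D.r.Ψ p).re * (D.r.β a p).re with hx
    set dt := rt g p (rv D.r.t p) (rv D.r.t p) * rt g p (rv D.r.w p) (rv D.r.w p)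
      - rt g p (rv D.r.t p) (rv D.r.w p) ^ 2 with hdt
    have hx2 : x ^ 2 ≤ L ^ 2 := by
      have b1 : ∀ a b, |(S.D a D.r.Ψ p).re * (D.r.β b p).re| ≤ Br * Bβ := fun a b => by
        rw [abs_mul]
        exact mul_le_mul ((Complex.abs_re_le_norm _).trans (hr a p))
          ((Complex.abs_re_le_norm _).trans (hβ b p)) (abs_nonneg _) (by linarith)
      have b2 : |x| ≤ L := by
        have := abs_sub ((S.D a D.r.Ψ p).re * (D.r.β b p).re)
          ((S.D b D.r.Ψ p).re * (D.r.β a p).re)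
        have h5 := b1 a b
        have h6 := b1 b a
        rw [hL]
        linarith
      exact sq_le_sq' (by linarith [(abs_le.1 b2).1]) (abs_le.1 b2).2
    have hdt0 : 0 < dt := by
      by_contra hneg
      push Not at hneg
      have : x ^ 2 * dt ≤ 0 := mul_nonpos_of_nonneg_of_nonpos (sq_nonneg x) hneg
      linarith
    have h5 : D.c / L ^ 2 ≤ dt := by
      rw [div_le_iff₀ (by positivity)]
      calc D.c ≤ x ^ 2 * dt := h4
        _ ≤ L ^ 2 * dt := mul_le_mul_of_nonneg_right hx2 hdt0.le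
        _ = dt * L ^ 2 := mul_comm _ _
    refine (min_le_right _ _).trans ?_
    nlinarith
  · obtain ⟨a, b, α, β, h4, -, -⟩ := D.pl.bas p
    refine ⟨a, b, ?_⟩
    have h3 := hdet p (Pi.single a 1) (Pi.single b 1)
    simp only [rt_single] at h3
    have e : (S.met X a a p * S.met X b b p - S.met X a b p ^ 2).re =
        (S.met X a a p).re * (S.met X b b p).re - (S.met X a b p).re ^ 2 := by
      simp only [sq, Complex.sub_re, Complex.mul_re, rlmet a a p, rlmet b b p, rlmet a b p]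
      ring
    rw [e]
    refine (min_le_left _ _).trans ?_
    nlinarith
  · have e1 : (S.met X j j p).re = ∑ a, (S.D j (X a) p).re ^ 2 := by
      simp only [DAlg.met, dot, DAlg.Dv, Complex.re_sum]
      refine Finset.sum_congr rfl fun a _ => ?_
      have := rlD (hX a) (hrX a) j p
      rw [Complex.mul_re, this]; ring
    have e2 : (S.D j (X a) p).re ^ 2 ≤ (S.met X j j p).re := by
      rw [e1]
      exact Finset.single_le_sum (f := fun a => (S.D j (X a) p).re ^ 2)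
        (fun a _ => sq_nonneg _) (Finset.mem_univ a)
    have e3 : ‖D.gS δ j j p‖ ≤ Bd + BM * Br ^ 2 + Bψ := hB.gS_le h0 hδ j j p
    have e7 : (S.met X j j p).re ≤ Bd + BM * Br ^ 2 + Bψ + 1 := by
      have e8 : ‖S.met X j j p‖ ≤ ‖S.met X j j p - D.gS δ j j p‖ + ‖D.gS δ j j p‖ := by
        have := norm_add_le (S.met X j j p - D.gS δ j j p) (D.gS δ j j p)
        simpa using this
      have := Complex.re_le_norm (S.met X j j p)
      linarith [hm1 j j p]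
    have e9 : ‖S.D j (X a) p‖ = |(S.D j (X a) p).re| := by
      rw [← Rl.ofReal_re (rlD (hX a) (hrX a) j) p, Complex.norm_real, Real.norm_eq_abs,
        Complex.ofReal_re]
    rw [e9]
    set W := Bd + BM * Br ^ 2 + Bψ + 1 with hW
    have hW1 : 1 ≤ W := by
      have := hB.d1
      have := hB.M1
      have := hB.ψ1
      have : 0 ≤ BM * Br ^ 2 := by positivity
      rw [hW]
      linarith
    refine abs_le_of_sq_le_sq ?_ (by linarith)
    nlinarith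

end SlowD

end Vale.Agent.P205.TW
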