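import Vale.Agent.P205.TW.Slow2

/-!
P205, scheme T1W: the slow metric is solved up to a small error (block C5, part T3).
-/

noncomputable section

namespace Vale.Agent.P205.TW

open Vale.Agent.P205.F

universe u

variable {P : Type u} {κ : Type} [Fintype κ] {S : DAlg P κ}

namespace SlowD

variable {g : κ → κ → P → ℂ} (D : SlowD S g)

theorem gv_Gp (δ : ℝ) (c d : κ → P → ℂ) (p : P) :
    gv (D.Gp δ) c d p = (1 - δ) * (gv g c d p - (1 - D.V p ^ 2) * D.Mg p *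
      (S.dir c D.r.Ψ p * S.dir d D.r.Ψ p)) := by
  have h1 : D.Gp δ = fun j k p => (fun _ : P => (1 - δ : ℂ)) p * (fun j k p =>
      g j k p - (fun p => (1 - D.V p ^ 2) * D.Mg p) p * (fun j k p =>
        S.D j D.r.Ψ p * S.D k D.r.Ψ p) j k p) j k p := rfl
  rw [h1, gv_smul, gv_sub, gv_smul, gv_dd]

theorem gv_G (d : TData P κ) (ρ : ℝ) (c c' : κ → P → ℂ) (p : P) :
    gv (fun j k p => S.met d.X j k p + (ρ : ℂ) ^ 2 * (S.D j d.ψ p * S.D k d.ψ p)) c c' p =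
      gv (S.met d.X) c c' p + (ρ : ℂ) ^ 2 * (S.dir c d.ψ p * S.dir c' d.ψ p) := by
  rw [gv_add]
  have := gv_smul (fun _ : P => (ρ : ℂ) ^ 2) (fun j k p => S.D j d.ψ p * S.D k d.ψ p) c c' p
  rw [gv_dd] at this
  rw [← this]

theorem M2_sub {Gtt Gtw Gww Gtt' Gtw' Gww' iG iG' : ℂ} (h1 : iG * Gww = 1)
    (h2 : iG' * Gww' = 1) :
    (Gtt - Gtw * Gtw * iG) - (Gtt' - Gtw' * Gtw' * iG') = (Gtt - Gtt')
      - (Gtw - Gtw') * (Gtw + Gtw') * iG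
      - Gtw' * Gtw' * (iG * iG' * (Gww' - Gww)) := by
  have h3 : iG * iG' * (Gww' - Gww) = iG - iG' := by linear_combination iG * h2 - iG' * h1
  rw [h3]
  ring

theorem M2_norm {Gtt Gtw Gww Gtt' Gtw' Gww' iG iG' : ℂ} {E L I J : ℝ} (h1 : iG * Gww = 1)
    (h2 : iG' * Gww' = 1) (hE : 0 ≤ E) (hL : 0 ≤ L) (hI : 0 ≤ I) (hJ : 0 ≤ J)
    (d1 : ‖Gtt - Gtt'‖ ≤ E) (d2 : ‖Gtw - Gtw'‖ ≤ E) (d3 : ‖Gww - Gww'‖ ≤ E)
    (l1 : ‖Gtw‖ ≤ L) (l2 : ‖Gtw'‖ ≤ L) (i1 : ‖iG‖ ≤ I) (i2 : ‖iG'‖ ≤ J) :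
    ‖(Gtt - Gtw * Gtw * iG) - (Gtt' - Gtw' * Gtw' * iG')‖ ≤
      E * (1 + 2 * L * I + L ^ 2 * (I * J)) := by
  rw [M2_sub h1 h2]
  have n1 : ‖(Gtw - Gtw') * (Gtw + Gtw') * iG‖ ≤ E * (2 * L) * I := by
    rw [norm_mul, norm_mul]
    refine mul_le_mul (mul_le_mul d2 ?_ (norm_nonneg _) hE) i1 (norm_nonneg _) (by positivity)
    exact (norm_add_le _ _).trans (by linarith)
  have n2 : ‖Gtw' * Gtw' * (iG * iG' * (Gww' - Gww))‖ ≤ L * L * (I * J * E) := by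
    rw [norm_mul, norm_mul, norm_mul, norm_mul]
    have hd3 : ‖Gww' - Gww‖ ≤ E := by
      rw [norm_sub_rev]; exact d3
    refine mul_le_mul (mul_le_mul l2 l2 (norm_nonneg _) hL) ?_ (by positivity) (by positivity)
    exact mul_le_mul (mul_le_mul i1 i2 (norm_nonneg _) hI) hd3 (norm_nonneg _) (by positivity)
  calc _ ≤ E + E * (2 * L) * I + L * L * (I * J * E) :=
        (norm_sub_le _ _).trans (add_le_add ((norm_sub_le _ _).trans (add_le_add d1 n1)) n2)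
    _ = _ := by ring

theorem iv_norm {x V : ℂ} (h : x * V = 1) (hV : 7 / 8 ≤ V.re ^ 2) : ‖x ^ 2 - 1‖ ≤ 5 := by
  have h1 : ‖x‖ ^ 2 * ‖V‖ ^ 2 = 1 := by
    rw [← mul_pow, ← norm_mul, h, norm_one, one_pow]
  have h2 : 7 / 8 ≤ ‖V‖ ^ 2 := by
    refine hV.trans ?_
    have h3 : |V.re| ^ 2 ≤ ‖V‖ ^ 2 :=
      pow_le_pow_left₀ (abs_nonneg _) (Complex.abs_re_le_norm V) 2
    rwa [sq_abs] at h3
  have h3 : ‖x‖ ^ 2 ≤ 4 := by
    have := mul_le_mul_of_nonneg_left h2 (sq_nonneg ‖x‖)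
    linarith
  calc _ ≤ ‖x ^ 2‖ + ‖(1 : ℂ)‖ := norm_sub_le _ _
    _ ≤ _ := by rw [norm_pow, norm_one]; linarith

theorem fin_norm {A x m r1 r2 : ℂ} {η m0 B : ℝ} (hA : ‖A‖ ≤ η) (hx : ‖x‖ ≤ 5) (hm : ‖m‖ ≤ m0)
    (h1 : ‖r1‖ ≤ B) (h2 : ‖r2‖ ≤ B) : ‖A + x * m * (r1 * r2)‖ ≤ η + 5 * m0 * (B * B) := by
  have hB0 : 0 ≤ B := (norm_nonneg _).trans h1
  have hm0 : 0 ≤ m0 := (norm_nonneg _).trans hm
  refine (norm_add_le _ _).trans (add_le_add hA ?_)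
  rw [norm_mul, norm_mul, norm_mul]
  exact mul_le_mul (mul_le_mul hx hm (norm_nonneg _) (by norm_num))
    (mul_le_mul h1 h2 (norm_nonneg _) hB0) (by positivity) (by positivity)

/-- **(T3)** -/
theorem err {Bd Br' Bβ BM Bψ : ℝ} (hBds : D.Bds Bd Br' Bβ BM Bψ) :
    ∃ C : ℝ, 0 < C ∧ ∀ (δ : ℝ), 0 ≤ δ → δ ≤ 1 / 4 →
    ∀ d : TData P κ, (∀ a, S.Sm (d.X a)) → (∀ a, Rl (d.X a)) → d.r = D.r → d.ψ = D.ψ →
    (∀ p ∈ D.r.K, d.iG p * d.Gww S D.ρ p = 1) → (∀ p ∈ D.r.K, d.iv p * D.V p = 1) →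
    (∀ p, p ∉ D.r.K → d.iv p = 1) → ∀ η : ℝ, η ≤ min (5 / 32 * (D.c / (4 * Bd))) 1 →
    (∀ j k p, ‖S.met d.X j k p - D.gS δ j k p‖ ≤ η) →
    ∀ j k p, ‖d.Q S D.ρ j k p - (1 - δ) * g j k p‖ ≤ C * η := by
  classical
  set c0 := min (D.c / 16) (1 / 16 * (D.c / (2 * (Br' * Bβ)) ^ 2)) with hc0'
  have hc0 : 0 < c0 := by
    have := D.cpos
    have := hBds.r1
    have := hBds.β1
    positivity
  set B1 := Bd + BM * Br' ^ 2 with hB1'
  have hB1 : 1 ≤ B1 := by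
    have := hBds.d1
    have := hBds.M1
    have : 0 ≤ BM * Br' ^ 2 := by positivity
    linarith
  obtain ⟨Bt, hBt, bt⟩ := bdd_fin (S := S) (u := D.r.t) D.ray.smt
  obtain ⟨Bw, hBw, bw⟩ := bdd_fin (S := S) (u := D.r.w) D.ray.smw
  obtain ⟨Br, hBr, br⟩ := bdd_fin (S := S) (u := fun j => S.D j D.r.Ψ)
    (fun j => S.sm_D j D.ray.smΨ)
  obtain ⟨Bi, hBi, bi⟩ := bdd_fin (S := S) (u := fun _ : Unit => D.ig) (fun _ => D.smig)
  set B := Bt + Bw + Br with hB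
  have hB0 : 0 < B := by positivity
  set N := (Fintype.card κ : ℝ) ^ 2 * B ^ 2 with hN
  have hN0 : 0 ≤ N := by positivity
  set L := N * B1 + N with hL
  have hL0 : 0 ≤ L := by positivity
  have ht : ∀ p j, ‖D.r.t j p‖ ≤ B := fun p j => (bt j p).trans (by rw [hB]; linarith)
  have hw : ∀ p j, ‖D.r.w j p‖ ≤ B := fun p j => (bw j p).trans (by rw [hB]; linarith)
  have hr : ∀ p j, ‖S.D j D.r.Ψ p‖ ≤ B := fun p j => (br j p).trans (by rw [hB]; linarith)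
  refine ⟨1 + 5 * (N * (1 + 2 * L / c0 + 2 * L ^ 2 * Bi / c0)) * B ^ 2, by positivity, fun δ h0 hδ d hX hrX hdr hdψ hiG hiv hiv1 η hη hm j k p => ?_⟩
  have hη00 := hη
  have hη1 : η ≤ 1 := hη.trans (min_le_right _ _)
  have hη : 0 ≤ η := (norm_nonneg _).trans (hm j k p)
  obtain ⟨hE, -, -, -⟩ := hBds.bounds h0 hδ hX hrX fun j k p => (hm j k p).trans hη00
  have hGp : ∀ j k p, ‖D.Gp δ j k p‖ ≤ B1 := fun j k p => hBds.Gp_le h0 hδ j k p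
  -- the metric `G` and its difference to `G'`
  set G : κ → κ → P → ℂ := fun j k p =>
    S.met d.X j k p + (D.ρ : ℂ) ^ 2 * (S.D j d.ψ p * S.D k d.ψ p) with hG
  have hdG : ∀ j k p, ‖G j k p - D.Gp δ j k p‖ ≤ η := fun j k p => by
    have : G j k p - D.Gp δ j k p = S.met d.X j k p - D.gS δ j k p := by
      simp only [hG, gS, hdψ]; ring
    rw [this]; exact hm j k p
  by_cases hp : p ∈ D.r.K
  swap
  · have e1 : d.Q S D.ρ j k p - (1 - δ) * g j k p = S.met d.X j k p - D.gS δ j k p := by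
      simp only [TData.Q, gS, Gp, hiv1 p hp, D.VK p hp, hdψ]; ring
    rw [e1]
    refine (hm j k p).trans (le_mul_of_one_le_left hη ?_)
    have : 0 ≤ 5 * (N * (1 + 2 * L / c0 + 2 * L ^ 2 * Bi / c0)) * B ^ 2 := by positivity
    linarith
  have htr : S.dir D.r.t D.r.Ψ p = 1 := D.ray.tΨ p hp
  have hwr : S.dir D.r.w D.r.Ψ p = 0 := D.ray.wΨ p hp
  -- the components of `G'`
  have hδ1 : (1 - δ : ℂ) ≠ 0 := by
    have : (1 - δ : ℂ) = ((1 - δ : ℝ) : ℂ) := by push_cast; ring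
    rw [this]
    exact_mod_cast (show (1 - δ : ℝ) ≠ 0 by linarith)
  set gtt := gv g D.r.t D.r.t p with hgtt
  set gtw := gv g D.r.t D.r.w p with hgtw
  set gw := gv g D.r.w D.r.w p with hgw
  have e1 : gv (D.Gp δ) D.r.t D.r.t p = (1 - δ) * (gtt - (1 - D.V p ^ 2) * D.Mg p) := by
    rw [D.gv_Gp, htr]; ring
  have e2 : gv (D.Gp δ) D.r.t D.r.w p = (1 - δ) * gtw := by
    rw [D.gv_Gp, hwr]; ring
  have e3 : gv (D.Gp δ) D.r.w D.r.w p = (1 - δ) * gw := by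
    rw [D.gv_Gp, hwr]; ring
  have eig : D.ig p * gw = 1 := D.igg p hp
  set iG' := D.ig p / (1 - δ : ℂ) with hiG'
  have e4 : iG' * gv (D.Gp δ) D.r.w D.r.w p = 1 := by
    rw [e3, hiG']
    field_simp
    exact eig
  have e5 : gv (D.Gp δ) D.r.t D.r.t p - gv (D.Gp δ) D.r.t D.r.w p * gv (D.Gp δ) D.r.t D.r.w p
      * iG' = (1 - δ) * D.V p ^ 2 * D.Mg p := by
    rw [e1, e2, hiG']
    have : D.Mg p = gtt - gtw * gtw * D.ig p := rfl
    rw [this]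
    field_simp
    ring
  -- the components of `G`
  have f1 : d.Gtt S D.ρ p = gv G D.r.t D.r.t p := by
    rw [hG, gv_G, ← dot_dirv]
    simp only [TData.Gtt, TData.Ett, TData.Xt, TData.ψt, hdr]
  have f2 : d.Gtw S D.ρ p = gv G D.r.t D.r.w p := by
    rw [hG, gv_G, ← dot_dirv]
    simp only [TData.Gtw, TData.Etw, TData.Xt, TData.Xw, TData.ψt, TData.ψw, hdr]
  have f3 : d.Gww S D.ρ p = gv G D.r.w D.r.w p := by
    rw [hG, gv_G, ← dot_dirv]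
    simp only [TData.Gww, TData.Eww, TData.Xw, TData.ψw, hdr]
  have f4 : d.iG p * gv G D.r.w D.r.w p = 1 := by rw [← f3]; exact hiG p hp
  have f5 : d.M2 S D.ρ p = gv G D.r.t D.r.t p - gv G D.r.t D.r.w p * gv G D.r.t D.r.w p
      * d.iG p := by
    simp only [TData.M2, f1, f2]
  -- differences
  have dn : ∀ c c' : κ → P → ℂ, (∀ j, ‖c j p‖ ≤ B) → (∀ j, ‖c' j p‖ ≤ B) →
      ‖gv G c c' p - gv (D.Gp δ) c c' p‖ ≤ N * η := fun c c' hc hc' => by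
    rw [← gv_sub]
    exact gv_norm_le hB0.le hη hc hc' fun j k => hdG j k p
  have d1 := dn _ _ (ht p) (ht p)
  have d2 := dn _ _ (ht p) (hw p)
  have d3 := dn _ _ (hw p) (hw p)
  have g2 : ‖gv (D.Gp δ) D.r.t D.r.w p‖ ≤ L := by
    refine (gv_norm_le hB0.le (by linarith) (ht p) (hw p) fun j k => hGp j k p).trans ?_
    rw [hL]
    linarith
  have g3 : ‖gv G D.r.t D.r.w p‖ ≤ L := by
    have h1 : ‖gv (D.Gp δ) D.r.t D.r.w p‖ ≤ N * B1 :=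
      gv_norm_le hB0.le (by linarith) (ht p) (hw p) fun j k => hGp j k p
    have h2 : ‖gv G D.r.t D.r.w p‖ ≤ ‖gv G D.r.t D.r.w p - gv (D.Gp δ) D.r.t D.r.w p‖
        + ‖gv (D.Gp δ) D.r.t D.r.w p‖ := by
      have := norm_add_le (gv G D.r.t D.r.w p - gv (D.Gp δ) D.r.t D.r.w p)
        (gv (D.Gp δ) D.r.t D.r.w p)
      simpa using this
    have h3 : N * η ≤ N := by
      have := mul_le_mul_of_nonneg_left hη1 hN0
      linarith
    rw [hL]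
    linarith
  have g4 : ‖d.iG p‖ ≤ 1 / c0 := by
    have h1 : c0 ≤ ‖gv G D.r.w D.r.w p‖ := by
      refine le_trans ?_ (Complex.re_le_norm _)
      rw [hG, gv_G, Complex.add_re]
      have h2 := hE p hp
      have h3 : 0 ≤ ((D.ρ : ℂ) ^ 2 * (S.dir D.r.w d.ψ p * S.dir D.r.w d.ψ p)).re := by
        have h4 : (S.dir D.r.w d.ψ p).im = 0 := by
          rw [hdψ]; exact Rl.dir D.ray.rw' D.smψ D.rψ p
        have h5 : ((D.ρ : ℂ) ^ 2 * (S.dir D.r.w d.ψ p * S.dir D.r.w d.ψ p)).re =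
            D.ρ ^ 2 * (S.dir D.r.w d.ψ p).re ^ 2 := by
          rw [← Complex.ofReal_pow, Complex.re_ofReal_mul, Complex.mul_re, h4]
          ring
        rw [h5]
        positivity
      linarith
    have h2 : ‖d.iG p‖ * ‖gv G D.r.w D.r.w p‖ = 1 := by rw [← norm_mul, f4, norm_one]
    rw [le_div_iff₀ hc0]
    calc _ ≤ ‖d.iG p‖ * ‖gv G D.r.w D.r.w p‖ := mul_le_mul_of_nonneg_left h1 (norm_nonneg _)
      _ = 1 := h2
  have g5 : ‖iG'‖ ≤ 2 * Bi := by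
    rw [hiG', norm_div]
    have h1 : ‖(1 - δ : ℂ)‖ = 1 - δ := by
      rw [show (1 - δ : ℂ) = ((1 - δ : ℝ) : ℂ) by push_cast; ring, Complex.norm_real,
        Real.norm_eq_abs, abs_of_nonneg (by linarith)]
    rw [h1, div_le_iff₀ (by linarith)]
    have h2 : ‖D.ig p‖ ≤ Bi := bi () p
    nlinarith
  -- `M2`
  have m1 : ‖d.M2 S D.ρ p - (1 - δ) * D.V p ^ 2 * D.Mg p‖ ≤
      N * η * (1 + 2 * L / c0 + 2 * L ^ 2 * Bi / c0) := by
    rw [f5, ← e5]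
    refine (M2_norm f4 e4 (by positivity) hL0 (by positivity) (by positivity) d1 d2 d3 g3 g2 g4
      g5).trans (le_of_eq ?_)
    ring
  have hiv2 : d.iv p ^ 2 * D.V p ^ 2 = 1 := by
    rw [← mul_pow, hiv p hp, one_pow]
  have m2 : ‖d.iv p ^ 2 - 1‖ ≤ 5 := iv_norm (hiv p hp) (D.V2 p)
  have key : d.Q S D.ρ j k p - (1 - δ) * g j k p = (G j k p - D.Gp δ j k p)
      + (d.iv p ^ 2 - 1) * (d.M2 S D.ρ p - (1 - δ) * D.V p ^ 2 * D.Mg p)
        * (S.D j D.r.Ψ p * S.D k D.r.Ψ p) := by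
    simp only [TData.Q, hG, Gp, hdr]
    linear_combination ((1 - δ : ℂ) * D.Mg p * (S.D j D.r.Ψ p * S.D k D.r.Ψ p)) * hiv2
  rw [key]
  refine (fin_norm (hdG j k p) m2 m1 (hr p j) (hr p k)).trans (le_of_eq ?_)
  ring

end SlowD

end Vale.Agent.P205.TW
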