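import Vale.Agent.P205.TW.Slow3
import Vale.Agent.P205.TW.Build

/-!
P205, scheme T1W: the slow metric of the geometric data `GeoC` (block C5): `GeoC.slow_main`.
-/

noncomputable section

namespace Vale.Agent.P205.TW

open Vale.Agent.P205.F

universe u

variable {P : Type u} {κ : Type} [Fintype κ] {S : DAlg P κ} {σ : P → P} {g : κ → κ → P → ℂ}

/-- the slow metric data of `GeoC` -/
def SlowD.ofGeo (D : GeoC S σ g) (V : P → ℂ) (hV : RSm S V)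
    (hV1 : ∀ p, 15 / 16 ≤ (V p).re ∧ (V p).re ≤ 1) (hVK : ∀ p, p ∉ D.r.K → V p = 1) :
    SlowD S g where
  X0 := D.X0
  ψ := D.ψ
  r := D.r
  V := V
  ig := iv1 D.c (gv g D.r.w D.r.w)
  ρ := 1
  c := D.c
  cpos := D.cpos
  ray := D.ray
  gT := D.gT.1
  smg := fun j k => (D.gT.2 j k).1
  rg := fun j k => (D.gT.2 j k).2
  gpos := fun j p => by
    classical
    have h := D.gpos p (Pi.single j 1)
    rw [qfm_eq, qf, rt_single] at h
    exact h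
  pl := D.pl
  smV := hV.1
  rV := hV.2
  V0 := fun p => by linarith [(hV1 p).1]
  V1 := fun p => (hV1 p).2
  V2 := fun p => by nlinarith [(hV1 p).1]
  VK := hVK
  smig := sm_iv1 (SlowD.sm_gv (fun j k => (D.gT.2 j k).1) D.ray.smw D.ray.smw)
    (SlowD.rl_gv (fun j k => (D.gT.2 j k).2) D.ray.rw' D.ray.rw')
  rig := rl_iv1
  igg := fun p hp => by
    refine iv1_mul D.cpos (SlowD.rl_gv (fun j k => (D.gT.2 j k).2) D.ray.rw' D.ray.rw' p) ?_
    rw [gv_eq (fun j k => (D.gT.2 j k).2) D.ray.rw' D.ray.rw', Complex.ofReal_re]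
    have h := D.gww p hp
    rwa [qfm_eq] at h
  gww := fun p hp => by
    rw [gv_eq (fun j k => (D.gT.2 j k).2) D.ray.rw' D.ray.rw', Complex.ofReal_re]
    have h := D.gww p hp
    rwa [qfm_eq] at h
  smψ := D.rψ.1
  rψ := D.rψ.2
  ψs := fun p ξ => by
    have h := D.ψsmall p ξ
    rw [qfm_eq] at h
    simpa using h
  smX := fun a => (D.rX a).1
  rX := fun a => (D.rX a).2
  X0s := fun p ξ => by
    have h := D.short p ξ
    rwa [qfm_eq, qfm_eq] at h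

/-- admissible mean functions -/
structure VOkS (S : DAlg P κ) (σ : P → P) (r v : P → ℂ) : Prop where
  rs : RSm S v
  b : ∀ p, 15 / 16 ≤ (v p).re ∧ (v p).re ≤ 1
  z : S.Zs (Kc r) (fun p => v p - 1)
  ev : Evn σ v

namespace GeoC

variable (D : GeoC S σ g)

theorem VK {v : P → ℂ} (hv : VOkS S σ D.r.Ψ v) (p : P) (hp : p ∉ D.r.K) : v p = 1 := by
  have h1 : p ∉ Kc D.r.Ψ := fun h => hp (by
    rw [D.rK]
    exact ⟨by linarith [h.1], by linarith [h.2]⟩)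
  have h2 := hv.z [] p h1
  have h3 : v p - 1 = 0 := h2
  linear_combination h3

/-- the slow metric data -/
def sl {v : P → ℂ} (hv : VOkS S σ D.r.Ψ v) : SlowD S g :=
  SlowD.ofGeo D v hv.rs hv.b (D.VK hv)

/-- `g_tt - g_tw² / g_ww` -/
def m2 : P → ℂ := fun p => gv g D.r.t D.r.t p - gv g D.r.t D.r.w p * gv g D.r.t D.r.w p *
  iv1 D.c (gv g D.r.w D.r.w) p

/-- **the slow metric** -/
def gS (v : P → ℂ) (δ : ℝ) (j k : κ) : P → ℂ := fun p =>
  (1 - δ) * (g j k p - (1 - v p ^ 2) * D.m2 p * (S.D j D.r.Ψ p * S.D k D.r.Ψ p))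
    - S.D j D.ψ p * S.D k D.ψ p

theorem gS_eq {v : P → ℂ} (hv : VOkS S σ D.r.Ψ v) (δ : ℝ) (j k : κ) :
    (D.sl hv).gS δ j k = D.gS v δ j k := by
  funext p
  have h : ((D.sl hv).gS δ j k) p = (1 - δ) * (g j k p - (1 - v p ^ 2) * D.m2 p *
    (S.D j D.r.Ψ p * S.D k D.r.Ψ p)) - ((1 : ℝ) : ℂ) ^ 2 * (S.D j D.ψ p * S.D k D.ψ p) := rfl
  rw [h, gS]
  push_cast
  ring

theorem rlmet {X : Fin 4 → P → ℂ} (h : ∀ a, RSm S (X a)) (j k : κ) : Rl (S.met X j k) :=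
  Rl.dot (fun a => SlowD.rlD (h a).1 (h a).2 j) (fun a => SlowD.rlD (h a).1 (h a).2 k)

theorem smmet {X : Fin 4 → P → ℂ} (h : ∀ a, RSm S (X a)) (j k : κ) : S.Sm (S.met X j k) :=
  S.sm_dot (fun a => S.sm_D j (h a).1) (fun a => S.sm_D k (h a).1)

theorem gv_even {T : κ → κ → P → ℂ} (hT : ∀ j k, Evn σ (T j k)) {c d : κ → P → ℂ}
    (hc : ∀ j, Evn σ (c j)) (hd : ∀ j, Evn σ (d j)) : Evn σ (gv T c d) := fun p => by
  simp only [gv, hT _ _ p, hc _ p, hd _ p]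

theorem m2_even : Evn σ D.m2 := fun p => by
  have h1 := gv_even D.gev D.tev D.tev p
  have h2 := gv_even D.gev D.tev D.wev p
  have h3 := iv1_comp (c := D.c) (u := gv g D.r.w D.r.w) σ
    (fun p => gv_even D.gev D.wev D.wev p) p
  simp only [m2, h1, h2, h3]

theorem gS_even {v : P → ℂ} (hv : VOkS S σ D.r.Ψ v) (δ : ℝ) (j k : κ) :
    Evn σ (D.gS v δ j k) := fun p => by
  have h1 := D.gev j k p
  have h2 := hv.ev p
  have h3 := D.m2_even p
  have h4 := fun j => D_even D.inv D.ray.smΨ D.Ψev j p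
  have h5 := fun j => D_odd D.inv D.rψ.1 D.ψod j p
  simp only [gS, h1, h2, h3, h4, h5]
  ring

theorem met_even {X : Fin 4 → P → ℂ} (hτ : IsInv S σ) (h : ∀ a, S.Sm (X a))
    (he : ∀ a, Evn σ (X a)) (j k : κ) : Evn σ (S.met X j k) := fun p => by
  have h1 := fun j a => D_even hτ (h a) (he a) j p
  simp only [DAlg.met, dot, DAlg.Dv, h1]

/-- (A1) -/
theorem slow_low {v : P → ℂ} (hv : VOkS S σ D.r.Ψ v) {δ : ℝ} (h0 : 0 ≤ δ) (h1 : δ ≤ 1 / 4) :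
    TSm S (fun j k p => D.gS v δ j k p - S.met D.X0 j k p) ∧
    (∀ j k, Evn σ (fun p => D.gS v δ j k p - S.met D.X0 j k p)) ∧
    ∀ p ξ, 1 / 4 * qfm g p ξ ≤ qfm (fun j k p => D.gS v δ j k p - S.met D.X0 j k p) p ξ := by
  classical
  have e : (fun j k p => D.gS v δ j k p - S.met D.X0 j k p) =
      fun j k p => (D.sl hv).gS δ j k p - S.met (D.sl hv).X0 j k p := by
    funext j k p
    rw [D.gS_eq hv]
    rfl
  refine ⟨⟨?_, fun j k => ⟨?_, ?_⟩⟩, fun j k p => ?_, fun p ξ => ?_⟩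
  · rw [e]
    exact isT_sub ((D.sl hv).isT_gS δ) (isT_met (D.sl hv).smX)
  · rw [e]
    exact S.sm_sub ((D.sl hv).smgS δ j k) (smmet D.rX j k)
  · rw [e]
    exact Rl.sub ((D.sl hv).rlgS δ j k) (rlmet D.rX j k)
  · simp only [D.gS_even hv δ j k p, met_even D.inv (fun a => (D.rX a).1) D.Xev j k p]
  · rw [e, qfm_eq, qfm_eq]
    exact (D.sl hv).qf_gS_sub δ h0 h1 p ξ

/-- (A0) -/
theorem slow_start : ∃ c0 : ℝ, 0 < c0 ∧ ∀ p, c0 ≤
    (∑ j, ∑ k, (S.met D.X0 j j p * S.met D.X0 k k p - S.met D.X0 j k p ^ 2)).re := by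
  classical
  have hc := D.cpos
  refine ⟨D.c ^ 2 * D.c, by positivity, fun p => ?_⟩
  obtain ⟨a, b, α, β, h4, -, -⟩ := D.pl.bas p
  have hq0 : ∀ ξ, 0 ≤ qf g p ξ := fun ξ => by
    have := D.gpos p ξ
    rwa [qfm_eq] at this
  have hq1 : ∀ ξ, D.c * qf g p ξ ≤ qf (S.met D.X0) p ξ := fun ξ => by
    have := D.imm p ξ
    rwa [qfm_eq, qfm_eq] at this
  have hT := isT_met (S := S) (fun a => (D.rX a).1)
  have hdet := fun c d => det_cmp (T := S.met D.X0) (g := g) hT.1 D.gT.1.1 (p := p)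
    hc.le hq0 hq1 c d
  have hr := fun j k => rlmet D.rX j k p
  have e : ∀ j k, (S.met D.X0 j j p * S.met D.X0 k k p - S.met D.X0 j k p ^ 2).re =
      (S.met D.X0 j j p).re * (S.met D.X0 k k p).re - (S.met D.X0 j k p).re ^ 2 := by
    intro j k
    simp only [sq, Complex.sub_re, Complex.mul_re, hr]
    ring
  have hnn : ∀ j k, 0 ≤ (S.met D.X0 j j p * S.met D.X0 k k p - S.met D.X0 j k p ^ 2).re := by
    intro j k
    rw [e]
    have h5 := det_cmp (T := S.met D.X0) (g := S.met D.X0) hT.1 hT.1 (p := p) (m := 0)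
      le_rfl (fun ξ => (mul_nonneg hc.le (hq0 ξ)).trans (hq1 ξ)) (fun ξ => by
        rw [zero_mul]; exact (mul_nonneg hc.le (hq0 ξ)).trans (hq1 ξ))
      (Pi.single j 1) (Pi.single k 1)
    simp only [rt_single] at h5
    simpa using h5
  have h6 : D.c ^ 2 * D.c ≤ (S.met D.X0 a a p * S.met D.X0 b b p - S.met D.X0 a b p ^ 2).re := by
    rw [e]
    have h7 := hdet (Pi.single a 1) (Pi.single b 1)
    simp only [rt_single] at h7
    exact (mul_le_mul_of_nonneg_left h4 (sq_nonneg _)).trans h7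
  simp only [Complex.re_sum]
  refine h6.trans ?_
  refine le_trans ?_ (Finset.single_le_sum (f := fun j => ∑ k,
    (S.met D.X0 j j p * S.met D.X0 k k p - S.met D.X0 j k p ^ 2).re)
    (fun j _ => Finset.sum_nonneg fun k _ => hnn j k) (Finset.mem_univ a))
  exact Finset.single_le_sum (f := fun k =>
    (S.met D.X0 a a p * S.met D.X0 k k p - S.met D.X0 a k p ^ 2).re)
    (fun k _ => hnn a k) (Finset.mem_univ b)

theorem vok1 : VOkS S σ D.r.Ψ (fun _ => 1) := by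
  refine ⟨⟨S.sm_const 1, fun _ => by simp⟩, fun _ => by norm_num, fun w p hp => ?_,
    fun _ => rfl⟩
  have h : (fun _ : P => (1 : ℂ) - 1) = fun _ => (0 : ℂ) := by
    funext _; ring
  simp only [h]
  induction w with
  | nil => rfl
  | cons j w ih =>
    have h2 : ∀ w : List κ, S.wd w (fun _ : P => (0 : ℂ)) = 0 := by
      intro w
      induction w with
      | nil => rfl
      | cons j w ih =>
        rw [DAlg.wd_cons, ih]
        exact S.D_const j 0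
    rw [h2]
    rfl

/-- **the slow metric, all facts** -/
theorem slow_main : ∃ cG cσ c0 C η0 : ℝ, 0 < cG ∧ 0 < cσ ∧ 0 < c0 ∧ 0 < C ∧ 0 < η0 ∧
    (∀ p, c0 ≤
      (∑ j, ∑ k, (S.met D.X0 j j p * S.met D.X0 k k p - S.met D.X0 j k p ^ 2)).re) ∧
    ∀ v, VOkS S σ D.r.Ψ v →
      (∀ δ : ℝ, 0 ≤ δ → δ ≤ 1 / 4 → ∀ X : Fin 4 → P → ℂ, (∀ a, RSm S (X a)) →
        (∀ j k p, ‖S.met X j k p - D.gS v δ j k p‖ ≤ η0) →
        (∀ p ∈ D.r.K, cG ≤ (Gw S D.ψ D.r X p).re) ∧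
        (∀ p ∈ D.r.K, cσ ≤ (Gd S D.ψ D.r X p).re) ∧
        (∀ p, ∃ a b, c0 ≤ (S.met X a a p * S.met X b b p - S.met X a b p ^ 2).re) ∧
        (∀ j a p, ‖S.D j (X a) p‖ ≤ C)) ∧
      ∃ C2 : ℝ, 0 < C2 ∧ ∀ δ : ℝ, 0 ≤ δ → δ ≤ 1 / 4 → ∀ η : ℝ, η ≤ η0 →
        ∀ d : TData P κ, (∀ a, RSm S (d.X a)) → d.ψ = D.ψ → d.r = D.r →
        (∀ j k p, ‖S.met d.X j k p - D.gS v δ j k p‖ ≤ η) →
        (∀ p ∈ D.r.K, d.iv p * v p = 1) → (∀ p, p ∉ D.r.K → d.iv p = 1) →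
        (∀ p ∈ D.r.K, d.iG p * d.Gww S 1 p = 1) →
        ∀ j k p, ‖d.Q S 1 j k p - (1 - δ) * g j k p‖ ≤ C2 * η := by
  obtain ⟨c0', hc0', hst⟩ := D.slow_start
  obtain ⟨Bd, Br, Bβ, BM, Bψ, hB1⟩ := (D.sl D.vok1).exists_bds
  have hB : ∀ v (hv : VOkS S σ D.r.Ψ v), (D.sl hv).Bds Bd Br Bβ BM Bψ := fun v hv =>
    ⟨hB1.d1, hB1.r1, hB1.β1, hB1.M1, hB1.ψ1, hB1.d, hB1.r, hB1.β, hB1.M, hB1.ψ⟩
  set c1 := min (D.c / 16) (1 / 16 * (D.c / (2 * (Br * Bβ)) ^ 2)) with hc1'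
  have hc := D.cpos
  have hr1 := hB1.r1
  have hβ1 := hB1.β1
  have hd1 := hB1.d1
  have hM1 := hB1.M1
  have hψ1 := hB1.ψ1
  have hc1 : 0 < c1 := by positivity
  refine ⟨c1, c1 * c1, min c0' c1, Bd + BM * Br ^ 2 + Bψ + 1, min (5 / 32 * (D.c / (4 * Bd))) 1,
    hc1, by positivity, by positivity, by positivity, by positivity,
    fun p => (min_le_left _ _).trans (hst p), fun v hv => ⟨fun δ h0 hδ X hX hm => ?_, ?_⟩⟩
  · have hm' : ∀ j k p, ‖S.met X j k p - (D.sl hv).gS δ j k p‖ ≤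
        min (5 / 32 * (D.c / (4 * Bd))) 1 := fun j k p => by
      rw [D.gS_eq hv]; exact hm j k p
    obtain ⟨b1, b2, b3, b4⟩ := (hB v hv).bounds h0 hδ (fun a => (hX a).1) (fun a => (hX a).2) hm'
    have hGw : ∀ p ∈ D.r.K, c1 ≤ (Gw S D.ψ D.r X p).re := fun p hp => by
      have e1 : Gw S D.ψ D.r X p = gv (S.met X) D.r.w D.r.w p
          + ((1 : ℝ) : ℂ) ^ 2 * (S.dir D.r.w D.ψ p * S.dir D.r.w D.ψ p) := by
        rw [← dot_dirv]; rfl
      have h4 : (S.dir D.r.w D.ψ p).im = 0 := Rl.dir D.ray.rw' D.rψ.1 D.rψ.2 p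
      have e2 : (((1 : ℝ) : ℂ) ^ 2 * (S.dir D.r.w D.ψ p * S.dir D.r.w D.ψ p)).re =
          (S.dir D.r.w D.ψ p).re ^ 2 := by
        rw [← Complex.ofReal_pow, Complex.re_ofReal_mul, Complex.mul_re, h4]
        ring
      rw [e1, Complex.add_re, e2]
      have := b1 p hp
      have h5 : c1 ≤ (gv (S.met X) D.r.w D.r.w p).re := this
      nlinarith [sq_nonneg (S.dir D.r.w D.ψ p).re]
    refine ⟨hGw, fun p hp => ?_, fun p => ?_, b4⟩
    · have e1 : Gd S D.ψ D.r X p = (gv (S.met X) D.r.t D.r.t p * gv (S.met X) D.r.w D.r.w p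
          - gv (S.met X) D.r.t D.r.w p * gv (S.met X) D.r.t D.r.w p) * Gw S D.ψ D.r X p := by
        rw [← dot_dirv, ← dot_dirv, ← dot_dirv]; rfl
      have h6 : (Gw S D.ψ D.r X p).im = 0 :=
        rl_Gw D.ray D.rψ.1 D.rψ.2 (fun a => (hX a).1) (fun a => (hX a).2) p
      rw [e1, Complex.mul_re, h6, mul_zero, sub_zero]
      exact mul_le_mul (b2 p hp) (hGw p hp) hc1.le (hc1.le.trans (b2 p hp))
    · obtain ⟨a, b, h⟩ := b3 p
      exact ⟨a, b, (min_le_right _ _).trans h⟩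
  · obtain ⟨C2, hC2, h2⟩ := (D.sl hv).err (hB v hv)
    refine ⟨C2, hC2, fun δ h0 hδ η hη d hX hψ hr hm hiv hiv1 hiG j k p => ?_⟩
    exact h2 δ h0 hδ d (fun a => (hX a).1) (fun a => (hX a).2) hr hψ hiG hiv hiv1 η hη
      (fun j k p => by rw [D.gS_eq hv]; exact hm j k p) j k p

end GeoC

end Vale.Agent.P205.TW
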