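import Vale.Agent.P205.TW.FormDef
import Vale.Agent.P205.TW.DataDef
import Vale.Agent.P205.F.Calc1

/-!
P205, scheme T1W: pointwise tensor algebra (block C5, part Tens).
-/

noncomputable section

namespace Vale.Agent.P205.TW

open Vale.Agent.P205.F

universe u

variable {P : Type u} {κ : Type} [Fintype κ] (S : DAlg P κ)

/-- the (real) bilinear form of a tensor at `p` -/
def rt (T : κ → κ → P → ℂ) (p : P) (c c' : κ → ℝ) : ℝ :=
  ∑ j, ∑ k, c j * c' k * (T j k p).re

/-- the (real) quadratic form of a tensor at `p` -/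
def qf (T : κ → κ → P → ℂ) (p : P) (ξ : κ → ℝ) : ℝ := rt T p ξ ξ

/-- `D j = A j t + B j w` at `p` -/
def Bas (p : P) (t w A B : κ → ℝ) : Prop := ∀ u, S.Sm u → ∀ j,
  S.D j u p = (A j : ℂ) * ∑ l, (t l : ℂ) * S.D l u p + (B j : ℂ) * ∑ l, (w l : ℂ) * S.D l u p

variable {S}

theorem rt_add (T : κ → κ → P → ℂ) (p : P) (c c' d : κ → ℝ) :
    rt T p (fun j => c j + c' j) d = rt T p c d + rt T p c' d := by
  simp only [rt, ← Finset.sum_add_distrib]
  exact Finset.sum_congr rfl fun j _ => Finset.sum_congr rfl fun k _ => by ring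

theorem rt_smul (T : κ → κ → P → ℂ) (p : P) (x : ℝ) (c d : κ → ℝ) :
    rt T p (fun j => x * c j) d = x * rt T p c d := by
  simp only [rt, Finset.mul_sum]
  exact Finset.sum_congr rfl fun j _ => Finset.sum_congr rfl fun k _ => by ring

theorem qfm_eq (T : κ → κ → P → ℂ) (p : P) (ξ : κ → ℝ) : qfm T p ξ = qf T p ξ := by
  simp only [qfm, qf, rt]
  exact Finset.sum_congr rfl fun j _ => Finset.sum_congr rfl fun k _ => by ring

theorem rt_symm {T : κ → κ → P → ℂ} (hT : ∀ j k, T j k = T k j) (p : P) (c d : κ → ℝ) :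
    rt T p c d = rt T p d c := by
  simp only [rt]
  rw [Finset.sum_comm]
  exact Finset.sum_congr rfl fun j _ => Finset.sum_congr rfl fun k _ => by rw [hT j k]; ring

/-- a linear relation kills the tensor -/
theorem IsT.re_zero {T : κ → κ → P → ℂ} (hT : S.IsT T) {p : P} {c : κ → ℝ}
    (h : ∀ u, S.Sm u → ∑ j, (c j : ℂ) * S.D j u p = 0) (k : κ) :
    ∑ j, c j * (T j k p).re = 0 := by
  have h1 := hT.2 p (fun j => (c j : ℂ)) h k
  have h2 := congrArg Complex.re h1
  simpa [Complex.re_sum] using h2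

variable [DecidableEq κ]

theorem Bas.row {T : κ → κ → P → ℂ} (hT : S.IsT T) {p : P} {t w A B : κ → ℝ}
    (hb : Bas S p t w A B) (j k : κ) :
    (T j k p).re = A j * ∑ l, t l * (T l k p).re + B j * ∑ l, w l * (T l k p).re := by
  have h := IsT.re_zero hT (p := p) (c := fun l => (if l = j then 1 else 0) - A j * t l - B j * w l)
    (fun u hu => by
      have h1 := hb u hu j
      have : ∑ l, (((if l = j then (1 : ℝ) else 0) - A j * t l - B j * w l : ℝ) : ℂ) * S.D l u p
          = S.D j u p - (A j : ℂ) * ∑ l, (t l : ℂ) * S.D l u p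
            - (B j : ℂ) * ∑ l, (w l : ℂ) * S.D l u p := by
        rw [Finset.mul_sum, Finset.mul_sum]
        have h2 : S.D j u p = ∑ l, (if l = j then (1 : ℂ) else 0) * S.D l u p := by
          simp
        rw [h2, ← Finset.sum_sub_distrib, ← Finset.sum_sub_distrib]
        refine Finset.sum_congr rfl fun l _ => ?_
        push_cast
        split_ifs <;> simp <;> ring
      rw [this, h1]; ring) k
  have h3 : ∑ l, ((if l = j then (1 : ℝ) else 0) - A j * t l - B j * w l) * (T l k p).re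
      = (T j k p).re - A j * ∑ l, t l * (T l k p).re - B j * ∑ l, w l * (T l k p).re := by
    rw [Finset.mul_sum, Finset.mul_sum]
    have h2 : (T j k p).re = ∑ l, (if l = j then (1 : ℝ) else 0) * (T l k p).re := by simp
    rw [h2, ← Finset.sum_sub_distrib, ← Finset.sum_sub_distrib]
    exact Finset.sum_congr rfl fun l _ => by ring
  linarith

theorem Bas.rt_left {T : κ → κ → P → ℂ} (hT : S.IsT T) {p : P} {t w A B : κ → ℝ}
    (hb : Bas S p t w A B) (c d : κ → ℝ) :
    rt T p c d = (∑ j, A j * c j) * rt T p t d + (∑ j, B j * c j) * rt T p w d := by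
  simp only [rt]
  have : ∀ j k, c j * d k * (T j k p).re =
      (A j * c j) * (∑ l, t l * d k * (T l k p).re)
      + (B j * c j) * (∑ l, w l * d k * (T l k p).re) := by
    intro j k
    rw [hb.row hT j k]
    have e1 : ∑ l, t l * d k * (T l k p).re = d k * ∑ l, t l * (T l k p).re := by
      rw [Finset.mul_sum]; exact Finset.sum_congr rfl fun _ _ => by ring
    have e2 : ∑ l, w l * d k * (T l k p).re = d k * ∑ l, w l * (T l k p).re := by
      rw [Finset.mul_sum]; exact Finset.sum_congr rfl fun _ _ => by ring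
    rw [e1, e2]; ring
  rw [Finset.sum_congr rfl fun j _ => Finset.sum_congr rfl fun k _ => this j k]
  simp only [Finset.sum_add_distrib, ← Finset.mul_sum]
  rw [← Finset.sum_mul, ← Finset.sum_mul]
  congr 2
  · rw [Finset.sum_comm]
  · rw [Finset.sum_comm]

theorem Bas.qf {T : κ → κ → P → ℂ} (hT : S.IsT T) {p : P} {t w A B : κ → ℝ}
    (hb : Bas S p t w A B) (ξ : κ → ℝ) :
    TW.qf T p ξ = (∑ j, A j * ξ j) ^ 2 * rt T p t t
      + 2 * (∑ j, A j * ξ j) * (∑ j, B j * ξ j) * rt T p t w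
      + (∑ j, B j * ξ j) ^ 2 * rt T p w w := by
  have hs := hT.1
  rw [TW.qf, hb.rt_left hT ξ ξ, rt_symm hs p t ξ, rt_symm hs p w ξ, hb.rt_left hT ξ t,
    hb.rt_left hT ξ w, rt_symm hs p w t]
  ring

/-- entries from the form -/
theorem rt_single (T : κ → κ → P → ℂ) (p : P) (j k : κ) :
    rt T p (Pi.single j 1) (Pi.single k 1) = (T j k p).re := by
  simp [rt, Pi.single_apply, Finset.sum_ite_eq']

theorem Pl.bas {g : κ → κ → P → ℂ} {c : ℝ} (h : Pl S g c) (p : P) :
    ∃ (a b : κ) (α β : κ → ℝ), c ≤ (g a a p).re * (g b b p).re - (g a b p).re ^ 2 ∧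
      (∀ j, |α j| ≤ 1 / c ∧ |β j| ≤ 1 / c) ∧
      Bas S p (Pi.single a 1) (Pi.single b 1) α β := by
  obtain ⟨a, b, α, β, h1, h2, h2', h3⟩ := h p
  refine ⟨a, b, α, β, h1, fun j => ⟨h2 j, h2' j⟩, fun u hu j => ?_⟩
  have e : ∀ x : κ, ∑ l, ((Pi.single x (1 : ℝ) : κ → ℝ) l : ℂ) * S.D l u p = S.D x u p := by
    intro x
    rw [Finset.sum_eq_single x]
    · simp
    · intro l _ hl
      simp [Pi.single_eq_of_ne hl]
    · simp
  rw [h3 j u hu, e, e]

/-! ### two dimensional forms -/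

/-- a positive form is at least `det / trace` -/
theorem form_lower {E F G c Bd A B : ℝ} (hE : 0 ≤ E) (hG : 0 ≤ G) (hc : 0 < c)
    (hd : c ≤ E * G - F ^ 2) (hEB : E ≤ Bd) (hGB : G ≤ Bd) :
    c / (2 * Bd) * (A ^ 2 + B ^ 2) ≤ A ^ 2 * E + 2 * A * B * F + B ^ 2 * G := by
  have hEG : 0 < E * G := by nlinarith [sq_nonneg F]
  have hE0 : 0 < E := by
    rcases hE.lt_or_eq with h | h
    · exact h
    · rw [← h] at hEG; simp at hEG
  have hBd : 0 < Bd := hE0.trans_le hEB
  have h1 : (E + G) * (A ^ 2 * E + 2 * A * B * F + B ^ 2 * G) =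
      (E * A + F * B) ^ 2 + (F * A + G * B) ^ 2 + (E * G - F ^ 2) * (A ^ 2 + B ^ 2) := by ring
  have h2 : c * (A ^ 2 + B ^ 2) ≤ (E + G) * (A ^ 2 * E + 2 * A * B * F + B ^ 2 * G) := by
    rw [h1]
    have := mul_le_mul_of_nonneg_right hd (by positivity : 0 ≤ A ^ 2 + B ^ 2)
    nlinarith [sq_nonneg (E * A + F * B), sq_nonneg (F * A + G * B)]
  have h3 : 0 ≤ A ^ 2 * E + 2 * A * B * F + B ^ 2 * G := by
    have h4 : 0 ≤ (E + G) * (A ^ 2 * E + 2 * A * B * F + B ^ 2 * G) :=
      le_trans (by positivity) h2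
    exact nonneg_of_mul_nonneg_right h4 (by linarith)
  have h4 : (E + G) * (A ^ 2 * E + 2 * A * B * F + B ^ 2 * G) ≤
      (2 * Bd) * (A ^ 2 * E + 2 * A * B * F + B ^ 2 * G) :=
    mul_le_mul_of_nonneg_right (by linarith) h3
  rw [div_mul_eq_mul_div, div_le_iff₀ (by positivity)]
  linarith

/-- monotonicity of the determinant -/
theorem det_mono {m e f g E F G : ℝ} (hm : 0 ≤ m) (he : 0 ≤ e) (hg : 0 ≤ g)
    (hd : 0 ≤ e * g - f ^ 2)
    (h : ∀ A B : ℝ, m * (A ^ 2 * e + 2 * A * B * f + B ^ 2 * g) ≤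
      A ^ 2 * E + 2 * A * B * F + B ^ 2 * G) :
    m ^ 2 * (e * g - f ^ 2) ≤ E * G - F ^ 2 := by
  have hp : 0 ≤ E - m * e := by have := h 1 0; simp at this; linarith
  have hs : 0 ≤ G - m * g := by have := h 0 1; simp at this; linarith
  have hq : (F - m * f) ^ 2 ≤ (E - m * e) * (G - m * g) := by
    have h1 : ∀ x : ℝ, 0 ≤ (E - m * e) * (x * x) + (2 * (F - m * f)) * x + (G - m * g) := by
      intro x
      have := h x 1
      nlinarith
    have := discrim_le_zero h1
    unfold discrim at this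
    nlinarith
  have hx : 2 * (F - m * f) * (m * f) ≤ (E - m * e) * (m * g) + (G - m * g) * (m * e) := by
    set a := E - m * e
    set b := F - m * f
    set c := G - m * g
    have h1 : (b * f) ^ 2 ≤ (a * g + c * e) ^ 2 / 4 := by
      have h2 : (b * f) ^ 2 ≤ (a * c) * (e * g) := by
        rw [mul_pow]
        exact mul_le_mul hq (by linarith) (sq_nonneg _) (mul_nonneg hp hs)
      nlinarith [sq_nonneg (a * g - c * e)]
    have h3 : 2 * (b * f) ≤ a * g + c * e := by
      have h4 : 0 ≤ a * g + c * e := by positivity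
      have h5 : (2 * (b * f)) ^ 2 ≤ (a * g + c * e) ^ 2 := by nlinarith
      exact le_trans (le_abs_self _) (abs_le_of_sq_le_sq h5 h4)
    nlinarith [mul_le_mul_of_nonneg_left h3 hm]
  nlinarith

/-- **(T1)** small tensors are small compared with `g` -/
theorem Pl.abs_qf_le {g T : κ → κ → P → ℂ} {c Bd η : ℝ} (hg : S.IsT g) (hT : S.IsT T)
    (hp : Pl S g c) (hc : 0 < c) (hpos : ∀ j p, 0 ≤ (g j j p).re)
    (hBd : ∀ j p, (g j j p).re ≤ Bd) (p : P) (hη : ∀ j k, |(T j k p).re| ≤ η) (ξ : κ → ℝ) :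
    |qf T p ξ| ≤ 4 * Bd / c * η * qf g p ξ := by
  obtain ⟨a, b, α, β, h1, -, h3⟩ := hp.bas p
  rw [h3.qf hT ξ, h3.qf hg ξ]
  simp only [rt_single]
  set A := ∑ j, α j * ξ j
  set B := ∑ j, β j * ξ j
  have hl := form_lower (A := A) (B := B) (hpos a p) (hpos b p) hc h1 (hBd a p) (hBd b p)
  have hη0 : 0 ≤ η := (abs_nonneg _).trans (hη a a)
  have hE0 : 0 < (g a a p).re * (g b b p).re := by nlinarith [sq_nonneg (g a b p).re]
  have hBd0 : 0 < Bd := by
    rcases (hpos a p).lt_or_eq with h | h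
    · exact h.trans_le (hBd a p)
    · rw [← h] at hE0; simp at hE0
  have hup : |A ^ 2 * (T a a p).re + 2 * A * B * (T a b p).re + B ^ 2 * (T b b p).re|
      ≤ 2 * η * (A ^ 2 + B ^ 2) := by
    have e1 : |A ^ 2 * (T a a p).re| ≤ A ^ 2 * η := by
      rw [abs_mul, abs_of_nonneg (sq_nonneg A)]
      exact mul_le_mul_of_nonneg_left (hη a a) (sq_nonneg A)
    have e2 : |B ^ 2 * (T b b p).re| ≤ B ^ 2 * η := by
      rw [abs_mul, abs_of_nonneg (sq_nonneg B)]
      exact mul_le_mul_of_nonneg_left (hη b b) (sq_nonneg B)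
    have e3 : |2 * A * B * (T a b p).re| ≤ (A ^ 2 + B ^ 2) * η := by
      rw [abs_mul]
      refine mul_le_mul ?_ (hη a b) (abs_nonneg _) (by positivity)
      rw [abs_le]
      constructor <;> nlinarith [sq_nonneg (A + B), sq_nonneg (A - B)]
    calc _ ≤ |A ^ 2 * (T a a p).re| + |2 * A * B * (T a b p).re| + |B ^ 2 * (T b b p).re| :=
          abs_add_three _ _ _
      _ ≤ _ := by linarith
  refine hup.trans ?_
  have h5 : 4 * Bd / c * η * (c / (2 * Bd) * (A ^ 2 + B ^ 2)) = 2 * η * (A ^ 2 + B ^ 2) := by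
    field_simp
    ring
  rw [← h5]
  exact mul_le_mul_of_nonneg_left hl (by positivity)

/-! ### symmetric tensors -/

omit [DecidableEq κ] in
theorem isT_add {T T' : κ → κ → P → ℂ} (h : S.IsT T) (h' : S.IsT T') :
    S.IsT (fun j k p => T j k p + T' j k p) := by
  refine ⟨fun j k => ?_, fun p c hc k => ?_⟩
  · funext p
    simp only [h.1 j k, h'.1 j k]
  · simp only [mul_add, Finset.sum_add_distrib]
    rw [h.2 p c hc k, h'.2 p c hc k, add_zero]

omit [DecidableEq κ] in
theorem isT_sub {T T' : κ → κ → P → ℂ} (h : S.IsT T) (h' : S.IsT T') :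
    S.IsT (fun j k p => T j k p - T' j k p) := by
  refine ⟨fun j k => ?_, fun p c hc k => ?_⟩
  · funext p
    simp only [h.1 j k, h'.1 j k]
  · simp only [mul_sub, Finset.sum_sub_distrib]
    rw [h.2 p c hc k, h'.2 p c hc k, sub_zero]

omit [DecidableEq κ] in
theorem isT_smul {T : κ → κ → P → ℂ} (a : P → ℂ) (h : S.IsT T) :
    S.IsT (fun j k p => a p * T j k p) := by
  refine ⟨fun j k => ?_, fun p c hc k => ?_⟩
  · funext p
    simp only [h.1 j k]
  · have : ∑ j, c j * (a p * T j k p) = a p * ∑ j, c j * T j k p := by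
      rw [Finset.mul_sum]; exact Finset.sum_congr rfl fun _ _ => by ring
    rw [this, h.2 p c hc k, mul_zero]

omit [DecidableEq κ] in
theorem isT_dd {φ : P → ℂ} (h : S.Sm φ) : S.IsT (fun j k p => S.D j φ p * S.D k φ p) := by
  refine ⟨fun j k => ?_, fun p c hc k => ?_⟩
  · funext p; ring
  · have : ∑ j, c j * (S.D j φ p * S.D k φ p) = S.D k φ p * ∑ j, c j * S.D j φ p := by
      rw [Finset.mul_sum]; exact Finset.sum_congr rfl fun _ _ => by ring
    rw [this, hc φ h, mul_zero]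

omit [DecidableEq κ] in
theorem isT_met {X : Fin 4 → P → ℂ} (h : ∀ a, S.Sm (X a)) : S.IsT (S.met X) := by
  refine ⟨fun j k => ?_, fun p c hc k => ?_⟩
  · funext p
    simp only [DAlg.met, dot]
    exact Finset.sum_congr rfl fun _ _ => by ring
  · have : ∑ j, c j * S.met X j k p = ∑ a, S.Dv k X a p * ∑ j, c j * S.D j (X a) p := by
      simp only [DAlg.met, dot, Finset.mul_sum]
      rw [Finset.sum_comm]
      refine Finset.sum_congr rfl fun a _ => Finset.sum_congr rfl fun j _ => ?_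
      simp only [DAlg.Dv]
      ring
    rw [this]
    exact Finset.sum_eq_zero fun a _ => by rw [hc _ (h a), mul_zero]

end Vale.Agent.P205.TW
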